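/-
Row 269, library L1-SCV, part a (owner: helper270).  Several complex variables, ported from the sorry-free library of
the second-list target 056: functions of class C^1 over the complex numbers on finite-dimensional spaces are analytic, circle integrals
with analytic parameters, germs of analytic functions (integral domain, good directions), Riemann extension across
a hypersurface, division by a function with a simple zero set.
-/
import Mathlib


/-! ## SanitySCVCurry -/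


set_option autoImplicit false

/-!
# Result 056, several complex variables (1): differentiating a family of continuous functions

Let `K` be a compact space and `c : E → C(K, G)` a family of maps which is differentiable in the
first variable on an open set `V`, with a jointly continuous partial derivative.  Then `c` is a `C¹`
map from `V` to the Banach space `C(K, G)`.
-/

namespace Claimed.Agent.R269
namespace SCV

open Set Metric Filter Topology

variable {E : Type*} [NormedAddCommGroup E] [NormedSpace ℂ E]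
  {G : Type*} [NormedAddCommGroup G] [NormedSpace ℂ G]
  {K : Type*} [TopologicalSpace K] [CompactSpace K]

/-- The continuous linear map `E → C(K, G)` defined by a continuous family of continuous linear maps
`E → G`. -/
noncomputable def swapCLM (Φ : C(K, E →L[ℂ] G)) : E →L[ℂ] C(K, G) :=
  LinearMap.mkContinuous
    { toFun := fun h => ⟨fun ζ => Φ ζ h, (Φ.continuous.clm_apply continuous_const)⟩
      map_add' := fun h h' => by ext ζ; simp
      map_smul' := fun c h => by ext ζ; simp }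
    ‖Φ‖ (fun h => by
      rw [ContinuousMap.norm_le _ (by positivity)]
      intro ζ
      exact ((Φ ζ).le_opNorm h).trans
        (mul_le_mul_of_nonneg_right (Φ.norm_coe_le_norm ζ) (norm_nonneg h)))

@[simp] lemma swapCLM_apply (Φ : C(K, E →L[ℂ] G)) (h : E) (ζ : K) : swapCLM Φ h ζ = Φ ζ h := rfl

lemma norm_swapCLM_sub_le (Φ Ψ : C(K, E →L[ℂ] G)) : ‖swapCLM Φ - swapCLM Ψ‖ ≤ ‖Φ - Ψ‖ := by
  refine ContinuousLinearMap.opNorm_le_bound _ (norm_nonneg (Φ - Ψ)) fun h => ?_
  rw [ContinuousMap.norm_le _ (by positivity)]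
  intro ζ
  have : (swapCLM Φ - swapCLM Ψ) h ζ = (Φ - Ψ) ζ h := by simp
  rw [this]
  exact (((Φ - Ψ) ζ).le_opNorm h).trans
    (mul_le_mul_of_nonneg_right ((Φ - Ψ).norm_coe_le_norm ζ) (norm_nonneg h))

lemma continuous_swapCLM : Continuous (swapCLM : C(K, E →L[ℂ] G) → E →L[ℂ] C(K, G)) := by
  have hL : LipschitzWith 1 (swapCLM : C(K, E →L[ℂ] G) → E →L[ℂ] C(K, G)) := by
    refine LipschitzWith.of_dist_le_mul fun Φ Ψ => ?_
    have h1 : dist (swapCLM Φ) (swapCLM Ψ) = ‖swapCLM Φ - swapCLM Ψ‖ :=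
      dist_eq_norm (swapCLM Φ) (swapCLM Ψ)
    have h2 : dist Φ Ψ = ‖Φ - Ψ‖ := dist_eq_norm Φ Ψ
    rw [h1, h2]
    simpa using norm_swapCLM_sub_le Φ Ψ
  exact hL.continuous

omit [CompactSpace K] in
/-- A jointly continuous family, as a map into `C(K, H)`, is continuous. -/
lemma continuousOn_of_continuousOn_uncurry {X H : Type*} [TopologicalSpace X]
    [TopologicalSpace H] {V : Set X} (c : X → C(K, H))
    (h : ContinuousOn (fun p : X × K => c p.1 p.2) (V ×ˢ univ)) : ContinuousOn c V := by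
  rw [continuousOn_iff_continuous_domRestrict]
  apply ContinuousMap.continuous_of_continuous_uncurry
  have : (Function.uncurry fun (x : V) (y : K) => (V.domRestrict c x) y) =
      (fun p : X × K => c p.1 p.2) ∘ (fun q : V × K => ((q.1 : X), q.2)) := rfl
  rw [this]
  refine h.comp_continuous (by fun_prop) fun q => ⟨q.1.2, mem_univ _⟩

/-- **Differentiation of a family of continuous functions.** -/
theorem hasFDerivAt_continuousMap {V : Set E} (hV : IsOpen V) (c : E → C(K, G))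
    (c' : E → C(K, E →L[ℂ] G))
    (hd : ∀ x ∈ V, ∀ ζ, HasFDerivAt (fun y => c y ζ) (c' x ζ) x)
    (hc' : ContinuousOn c' V) {x : E} (hx : x ∈ V) :
    HasFDerivAt c (swapCLM (c' x)) x := by
  rw [hasFDerivAt_iff_isLittleO_nhds_zero, Asymptotics.isLittleO_iff]
  intro ε hε
  have h1 : ∀ᶠ y in 𝓝 x, y ∈ V ∧ ‖c' y - c' x‖ ≤ ε := by
    have hcont : ContinuousAt c' x := hc'.continuousAt (hV.mem_nhds hx)
    have h2 : ∀ᶠ y in 𝓝 x, dist (c' y) (c' x) < ε := Metric.continuousAt_iff'.1 hcont ε hε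
    filter_upwards [hV.mem_nhds hx, h2] with y hy1 hy2
    exact ⟨hy1, le_of_eq_of_le (dist_eq_norm (c' y) (c' x)).symm hy2.le⟩
  obtain ⟨δ, hδ, hball⟩ := Metric.eventually_nhds_iff_ball.1 h1
  have h0 : ∀ᶠ h in 𝓝 (0 : E), x + h ∈ ball x δ := by
    have : Tendsto (fun h : E => x + h) (𝓝 0) (𝓝 (x + 0)) :=
      (continuous_const.add continuous_id).tendsto (0 : E)
    rw [add_zero] at this
    exact this.eventually (ball_mem_nhds x hδ)
  filter_upwards [h0] with h hh
  rw [ContinuousMap.norm_le _ (by positivity)]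
  intro ζ
  have key := (convex_ball x δ).norm_image_sub_le_of_norm_hasFDerivWithin_le' (𝕜 := ℂ)
    (f := fun y => c y ζ) (f' := fun y => c' y ζ) (φ := c' x ζ) (C := ε)
    (fun y hy => (hd y (hball y hy).1 ζ).hasFDerivWithinAt)
    (fun y hy => by
      have := (c' y - c' x).norm_coe_le_norm ζ
      exact this.trans (hball y hy).2)
    (mem_ball_self hδ) hh
  simpa using key

/-- The family `x ↦ c x` is `C¹` on `V`. -/
theorem contDiffOn_one_continuousMap {V : Set E} (hV : IsOpen V) (c : E → C(K, G))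
    (c' : E → C(K, E →L[ℂ] G))
    (hd : ∀ x ∈ V, ∀ ζ, HasFDerivAt (fun y => c y ζ) (c' x ζ) x)
    (hc' : ContinuousOn c' V) : ContDiffOn ℂ 1 c V := by
  have h1 : ∀ x ∈ V, HasFDerivAt c (swapCLM (c' x)) x := fun x hx =>
    hasFDerivAt_continuousMap hV c c' hd hc' hx
  have : (1 : WithTop ℕ∞) = 0 + 1 := by simp
  rw [this, contDiffOn_succ_iff_fderiv_of_isOpen hV]
  refine ⟨fun x hx => (h1 x hx).differentiableAt.differentiableWithinAt, by simp, ?_⟩
  rw [contDiffOn_zero]
  refine (continuous_swapCLM.comp_continuousOn hc').congr fun x hx => ?_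
  exact (h1 x hx).fderiv

end SCV
end Claimed.Agent.R269


/-! ## SanitySCVOsgood -/


set_option autoImplicit false
set_option linter.unusedSectionVars false

/-!
# Result 056, several complex variables (2): `C¹` functions of several complex variables are analytic

Mathlib knows that a complex differentiable function of *one* complex variable with values in a
Banach space is analytic.  We deduce, by induction on the dimension, that a `C¹` function (in the
complex sense) on an open subset of a finite dimensional complex normed space is analytic.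

In the induction step a function `f (x, t)` is written, by Cauchy's formula in the variable `t`, as
`f (x, t) = K t (c x)` where `c x = f (x, ·) ∈ C(sphere, G)` is `C¹`, hence analytic by the induction
hypothesis applied to the Banach space `C(sphere, G)`, and `K t : C(sphere, G) →L[ℂ] G` is the Cauchy
kernel, which is given by a power series in `t`.
-/

namespace Claimed.Agent.R269
namespace SCV

open Set Metric Filter Topology Real Complex

variable {G : Type*} [NormedAddCommGroup G] [NormedSpace ℂ G]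

/-- Extension by zero of a function on a circle. -/
noncomputable def extendSphere (c : ℂ) (R : ℝ) (φ : C(sphere c R, G)) : ℂ → G :=
  open Classical in fun z => if h : z ∈ sphere c R then φ ⟨z, h⟩ else 0

lemma extendSphere_of_mem {c : ℂ} {R : ℝ} (φ : C(sphere c R, G)) {z : ℂ} (h : z ∈ sphere c R) :
    extendSphere c R φ z = φ ⟨z, h⟩ := by
  unfold extendSphere
  exact dif_pos h

lemma extendSphere_of_notMem {c : ℂ} {R : ℝ} (φ : C(sphere c R, G)) {z : ℂ}
    (h : z ∉ sphere c R) : extendSphere c R φ z = 0 := by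
  unfold extendSphere
  exact dif_neg h

lemma continuousOn_extendSphere {c : ℂ} {R : ℝ} (φ : C(sphere c R, G)) :
    ContinuousOn (extendSphere c R φ) (sphere c R) := by
  rw [continuousOn_iff_continuous_domRestrict]
  have : (sphere c R).domRestrict (extendSphere c R φ) = φ := by
    funext z
    exact extendSphere_of_mem φ z.2
  rw [this]
  exact φ.continuous

lemma norm_extendSphere_le {c : ℂ} {R : ℝ} (φ : C(sphere c R, G)) (z : ℂ) :
    ‖extendSphere c R φ z‖ ≤ ‖φ‖ := by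
  by_cases h : z ∈ sphere c R
  · rw [extendSphere_of_mem φ h]
    exact φ.norm_coe_le_norm _
  · rw [extendSphere_of_notMem φ h, norm_zero]
    exact norm_nonneg φ

lemma extendSphere_add {c : ℂ} {R : ℝ} (φ ψ : C(sphere c R, G)) (z : ℂ) :
    extendSphere c R (φ + ψ) z = extendSphere c R φ z + extendSphere c R ψ z := by
  by_cases h : z ∈ sphere c R
  · simp [extendSphere_of_mem _ h]
  · simp [extendSphere_of_notMem _ h]

lemma extendSphere_smul {c : ℂ} {R : ℝ} (a : ℂ) (φ : C(sphere c R, G)) (z : ℂ) :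
    extendSphere c R (a • φ) z = a • extendSphere c R φ z := by
  by_cases h : z ∈ sphere c R
  · simp [extendSphere_of_mem _ h]
  · simp [extendSphere_of_notMem _ h]

/-- The continuous linear functional `φ ↦ ∮ w(z) φ(z) dz` on `C(sphere, G)`. -/
noncomputable def circleCLM (c : ℂ) {R : ℝ} (hR : 0 ≤ R) (w : ℂ → ℂ)
    (hw : ContinuousOn w (sphere c R)) (C : ℝ) (hC : ∀ z ∈ sphere c R, ‖w z‖ ≤ C) :
    C(sphere c R, G) →L[ℂ] G :=
  LinearMap.mkContinuous
    { toFun := fun φ => ∮ z in C(c, R), w z • extendSphere c R φ z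
      map_add' := fun φ ψ => by
        simp only [extendSphere_add, smul_add]
        exact circleIntegral.integral_add
          ((hw.smul (continuousOn_extendSphere φ)).circleIntegrable hR)
          ((hw.smul (continuousOn_extendSphere ψ)).circleIntegrable hR)
      map_smul' := fun a φ => by
        simp only [extendSphere_smul, RingHom.id_apply]
        rw [← circleIntegral.integral_smul]
        congr 1
        funext z
        rw [smul_comm] }
    (2 * π * R * C) (fun φ => by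
      have := circleIntegral.norm_integral_le_of_norm_le_const (c := c) hR
        (f := fun z => w z • extendSphere c R φ z) (C := C * ‖φ‖) (fun z hz => by
          rw [norm_smul]
          exact mul_le_mul (hC z hz) (norm_extendSphere_le φ z) (norm_nonneg _)
            ((norm_nonneg _).trans (hC z hz)))
      calc _ ≤ 2 * π * R * (C * ‖φ‖) := this
        _ = _ := by ring)

lemma circleCLM_apply (c : ℂ) {R : ℝ} (hR : 0 ≤ R) (w : ℂ → ℂ)
    (hw : ContinuousOn w (sphere c R)) (C : ℝ) (hC : ∀ z ∈ sphere c R, ‖w z‖ ≤ C)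
    (φ : C(sphere c R, G)) :
    circleCLM c hR w hw C hC φ = ∮ z in C(c, R), w z • extendSphere c R φ z := rfl

lemma norm_circleCLM_le (c : ℂ) {R : ℝ} (hR : 0 ≤ R) (w : ℂ → ℂ)
    (hw : ContinuousOn w (sphere c R)) (C : ℝ) (hC : ∀ z ∈ sphere c R, ‖w z‖ ≤ C) (hC0 : 0 ≤ C) :
    ‖(circleCLM c hR w hw C hC : C(sphere c R, G) →L[ℂ] G)‖ ≤ 2 * π * R * C :=
  LinearMap.mkContinuous_norm_le _ (by positivity) _

/-! ### The Cauchy kernel as a power series with operator coefficients -/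

lemma continuousOn_cauchyWeight (c : ℂ) {R : ℝ} (hR : 0 < R) (k : ℕ) :
    ContinuousOn (fun z : ℂ => (z - c)⁻¹ ^ k * (z - c)⁻¹) (sphere c R) := by
  have h : ContinuousOn (fun z : ℂ => (z - c)⁻¹) (sphere c R) := by
    refine ContinuousOn.inv₀ (by fun_prop) fun z hz => ?_
    rw [mem_sphere_iff_norm] at hz
    intro h0
    rw [h0, norm_zero] at hz
    exact hR.ne hz
  exact (h.pow k).mul h

lemma norm_cauchyWeight_le (c : ℂ) {R : ℝ} (k : ℕ) :
    ∀ z ∈ sphere c R, ‖(z - c)⁻¹ ^ k * (z - c)⁻¹‖ ≤ R⁻¹ ^ k * R⁻¹ := by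
  intro z hz
  rw [mem_sphere_iff_norm] at hz
  rw [norm_mul, norm_pow, norm_inv, hz]

/-- The `k`-th Cauchy coefficient, as a continuous linear functional on `C(sphere, G)`. -/
noncomputable def cauchyCoeffCLM (c : ℂ) {R : ℝ} (hR : 0 < R) (k : ℕ) :
    C(sphere c R, G) →L[ℂ] G :=
  (2 * π * I : ℂ)⁻¹ • circleCLM c hR.le (fun z : ℂ => (z - c)⁻¹ ^ k * (z - c)⁻¹)
    (continuousOn_cauchyWeight c hR k) (R⁻¹ ^ k * R⁻¹) (norm_cauchyWeight_le c k)

lemma norm_cauchyCoeffCLM_le (c : ℂ) {R : ℝ} (hR : 0 < R) (k : ℕ) :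
    ‖(cauchyCoeffCLM c hR k : C(sphere c R, G) →L[ℂ] G)‖ ≤ R⁻¹ ^ k := by
  rw [cauchyCoeffCLM, norm_smul]
  have h1 := norm_circleCLM_le (G := G) c hR.le (fun z : ℂ => (z - c)⁻¹ ^ k * (z - c)⁻¹)
    (continuousOn_cauchyWeight c hR k) (R⁻¹ ^ k * R⁻¹) (norm_cauchyWeight_le c k) (by positivity)
  have h2 : ‖(2 * π * I : ℂ)⁻¹‖ = (2 * π)⁻¹ := by
    simp [abs_of_pos Real.pi_pos]
  rw [h2]
  calc (2 * π)⁻¹ * _ ≤ (2 * π)⁻¹ * (2 * π * R * (R⁻¹ ^ k * R⁻¹)) := by gcongr
    _ = R⁻¹ ^ k := by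
      field_simp

lemma cauchyCoeffCLM_apply (c : ℂ) {R : ℝ} (hR : 0 < R) (k : ℕ) (φ : C(sphere c R, G)) :
    ContinuousMultilinearMap.mkPiRing ℂ (Fin k) (cauchyCoeffCLM c hR k φ) =
      cauchyPowerSeries (extendSphere c R φ) c R k := by
  simp only [cauchyPowerSeries, cauchyCoeffCLM, smul_apply, circleCLM_apply,
    mul_smul]

/-- The Cauchy kernel, as a formal power series with coefficients in `C(sphere, G) →L[ℂ] G`. -/
noncomputable def cauchyKernelSeries (G : Type*) [NormedAddCommGroup G] [NormedSpace ℂ G]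
    (c : ℂ) {R : ℝ} (hR : 0 < R) :
    FormalMultilinearSeries ℂ ℂ (C(sphere c R, G) →L[ℂ] G) :=
  fun k => ContinuousMultilinearMap.mkPiRing ℂ (Fin k) (cauchyCoeffCLM c hR k)

lemma le_radius_cauchyKernelSeries (c : ℂ) {R : ℝ} (hR : 0 < R) :
    ENNReal.ofReal R ≤ (cauchyKernelSeries G c hR).radius := by
  have := (cauchyKernelSeries G c hR).le_radius_of_bound 1 (r := R.toNNReal) (fun k => by
    rw [cauchyKernelSeries, ContinuousMultilinearMap.norm_mkPiRing, Real.coe_toNNReal _ hR.le]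
    calc _ ≤ R⁻¹ ^ k * R ^ k := by
          gcongr
          exact norm_cauchyCoeffCLM_le c hR k
      _ = 1 := by
        rw [← mul_pow, inv_mul_cancel₀ hR.ne', one_pow])
  exact this

variable [CompleteSpace G]

/-- The Cauchy kernel `K s : C(sphere, G) →L[ℂ] G`. -/
noncomputable def cauchyKernel (G : Type*) [NormedAddCommGroup G] [NormedSpace ℂ G]
    (c : ℂ) {R : ℝ} (hR : 0 < R) (s : ℂ) : C(sphere c R, G) →L[ℂ] G :=
  (cauchyKernelSeries G c hR).sum s

lemma mem_eball_cauchyKernelSeries (c : ℂ) {R : ℝ} (hR : 0 < R) {s : ℂ} (hs : ‖s‖ < R) :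
    s ∈ Metric.eball (0 : ℂ) (cauchyKernelSeries G c hR).radius := by
  rw [Metric.mem_eball, edist_zero_right]
  refine lt_of_lt_of_le ?_ (le_radius_cauchyKernelSeries c hR)
  rw [← ofReal_norm]
  exact (ENNReal.ofReal_lt_ofReal_iff hR).2 hs

lemma hasFPowerSeriesOnBall_cauchyKernel (c : ℂ) {R : ℝ} (hR : 0 < R) :
    HasFPowerSeriesOnBall (cauchyKernel G c hR) (cauchyKernelSeries G c hR) 0
      (cauchyKernelSeries G c hR).radius :=
  (cauchyKernelSeries G c hR).hasFPowerSeriesOnBall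
    (lt_of_lt_of_le (ENNReal.ofReal_pos.2 hR) (le_radius_cauchyKernelSeries c hR))

lemma analyticAt_cauchyKernel (c : ℂ) {R : ℝ} (hR : 0 < R) {s : ℂ} (hs : ‖s‖ < R) :
    AnalyticAt ℂ (cauchyKernel G c hR) s :=
  (hasFPowerSeriesOnBall_cauchyKernel c hR).analyticAt_of_mem
    (mem_eball_cauchyKernelSeries c hR hs)

/-- **Cauchy's formula**: if `g` is differentiable on the closed disc and `φ` is its restriction to
the boundary circle, then `g (c + s) = K s φ`. -/
lemma cauchyKernel_apply (c : ℂ) {R : ℝ} (hR : 0 < R) {s : ℂ} (hs : ‖s‖ < R) {g : ℂ → G}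
    (hg : DifferentiableOn ℂ g (closedBall c R)) (φ : C(sphere c R, G))
    (hφ : ∀ z : sphere c R, φ z = g z) : cauchyKernel G c hR s φ = g (c + s) := by
  have h1 := (hasFPowerSeriesOnBall_cauchyKernel (G := G) c hR).hasSum
    (mem_eball_cauchyKernelSeries c hR hs)
  rw [zero_add] at h1
  have h2 := (ContinuousLinearMap.apply ℂ G φ).hasSum h1
  obtain ⟨R', rfl⟩ : ∃ R' : NNReal, (R' : ℝ) = R := ⟨R.toNNReal, Real.coe_toNNReal _ hR.le⟩
  have h3 := (hg.hasFPowerSeriesOnBall (by exact_mod_cast hR)).hasSum (y := s) (by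
    rw [Metric.mem_eball, edist_zero_right, ← ofReal_norm, ← ENNReal.ofReal_coe_nnreal]
    exact (ENNReal.ofReal_lt_ofReal_iff hR).2 hs)
  refine h2.unique ?_
  convert h3 using 2 with k
  have h4 : cauchyPowerSeries g c R' k = cauchyPowerSeries (extendSphere c R' φ) c R' k := by
    simp only [cauchyPowerSeries]
    congr 2
    refine circleIntegral.integral_congr hR.le fun z hz => ?_
    rw [extendSphere_of_mem φ hz, hφ]
  rw [h4, ← cauchyCoeffCLM_apply c hR k φ]
  simp [cauchyKernelSeries]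

/-! ### The induction on the dimension -/

universe v

/-- `C¹` functions on open subsets of `E`, with values in Banach spaces, are analytic. -/
def HolReg (E : Type*) [NormedAddCommGroup E] [NormedSpace ℂ E] : Prop :=
  ∀ (G : Type v) [NormedAddCommGroup G] [NormedSpace ℂ G] [CompleteSpace G] (f : E → G)
    (U : Set E), IsOpen U → ContDiffOn ℂ 1 f U → AnalyticOnNhd ℂ f U

theorem HolReg.prod {E : Type*} [NormedAddCommGroup E] [NormedSpace ℂ E] (hE : HolReg.{v} E) :
    HolReg.{v} (E × ℂ) := by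
  intro G _ _ _ f Ω hΩ hf p₀ hp₀
  obtain ⟨x₀, t₀⟩ := p₀
  obtain ⟨ε, hε, hball⟩ := Metric.isOpen_iff.1 hΩ _ hp₀
  set R : ℝ := ε / 2 with hRdef
  have hR : 0 < R := by positivity
  set V : Set E := ball x₀ ε with hVdef
  have hV : IsOpen V := isOpen_ball
  have hmem : ∀ x ∈ V, ∀ z ∈ closedBall t₀ R, (x, z) ∈ Ω := by
    intro x hx z hz
    apply hball
    rw [mem_ball, Prod.dist_eq, max_lt_iff]
    refine ⟨hx, lt_of_le_of_lt hz ?_⟩
    rw [hRdef]; linarith
  have hmemS : ∀ x ∈ V, ∀ z : sphere t₀ R, (x, (z : ℂ)) ∈ Ω := fun x hx z =>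
    hmem x hx z (sphere_subset_closedBall z.2)
  have hf' : ContinuousOn (fderiv ℂ f) Ω := hf.continuousOn_fderiv_of_isOpen hΩ le_rfl
  have hdiff : ∀ p ∈ Ω, DifferentiableAt ℂ f p := fun p hp =>
    (hf.differentiableOn one_ne_zero).differentiableAt (hΩ.mem_nhds hp)
  classical
  let c : E → C(sphere t₀ R, G) := fun x =>
    if hx : x ∈ V then ⟨fun z => f (x, z),
      hf.continuousOn.comp_continuous (by fun_prop) (hmemS x hx)⟩ else 0
  let c' : E → C(sphere t₀ R, E →L[ℂ] G) := fun x =>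
    if hx : x ∈ V then ⟨fun z => (fderiv ℂ f (x, z)).comp (ContinuousLinearMap.inl ℂ E ℂ),
      (hf'.comp_continuous (by fun_prop) (hmemS x hx)).clm_comp continuous_const⟩ else 0
  have hc : ∀ x ∈ V, ∀ z, c x z = f (x, z) := by
    intro x hx z
    simp only [c, dif_pos hx]
    rfl
  have hc'v : ∀ x ∈ V, ∀ z, c' x z = (fderiv ℂ f (x, z)).comp (ContinuousLinearMap.inl ℂ E ℂ) := by
    intro x hx z
    simp only [c', dif_pos hx]
    rfl
  have hd : ∀ x ∈ V, ∀ ζ, HasFDerivAt (fun y => c y ζ) (c' x ζ) x := by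
    intro x hx ζ
    rw [hc'v x hx ζ]
    have h1 : HasFDerivAt (fun y : E => f (y, (ζ : ℂ)))
        ((fderiv ℂ f (x, ζ)).comp (ContinuousLinearMap.inl ℂ E ℂ)) x :=
      (hdiff _ (hmemS x hx ζ)).hasFDerivAt.comp x (hasFDerivAt_prodMk_left x (ζ : ℂ))
    refine h1.congr_of_eventuallyEq ?_
    filter_upwards [hV.mem_nhds hx] with y hy using hc y hy ζ
  have hc'cont : ContinuousOn c' V := by
    apply continuousOn_of_continuousOn_uncurry
    have h1 : ContinuousOn (fun p : E × sphere t₀ R =>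
        (fderiv ℂ f (p.1, (p.2 : ℂ))).comp (ContinuousLinearMap.inl ℂ E ℂ)) (V ×ˢ univ) := by
      refine ContinuousOn.clm_comp ?_ continuousOn_const
      exact hf'.comp (by fun_prop) fun p hp => hmemS p.1 hp.1 p.2
    exact h1.congr fun p hp => hc'v p.1 hp.1 p.2
  have hcan : AnalyticAt ℂ c x₀ :=
    hE _ c V hV (contDiffOn_one_continuousMap hV c c' hd hc'cont) x₀ (mem_ball_self hε)
  have hK : AnalyticAt ℂ (fun p : E × ℂ => cauchyKernel G t₀ hR (p.2 - t₀)) (x₀, t₀) := by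
    have h1 : AnalyticAt ℂ (cauchyKernel G t₀ hR) (((x₀, t₀) : E × ℂ).2 - t₀) := by
      simpa using analyticAt_cauchyKernel (G := G) t₀ hR (s := 0) (by simpa using hR)
    exact AnalyticAt.comp (f := fun p : E × ℂ => p.2 - t₀) h1
      (analyticAt_snd.sub analyticAt_const)
  have hC : AnalyticAt ℂ (fun p : E × ℂ => c p.1) (x₀, t₀) :=
    AnalyticAt.comp (g := c) (f := fun p : E × ℂ => p.1) (x := (x₀, t₀)) hcan analyticAt_fst
  have hmain : AnalyticAt ℂ (fun p : E × ℂ => cauchyKernel G t₀ hR (p.2 - t₀) (c p.1)) (x₀, t₀) :=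
    AnalyticAt.comp₂ (h := fun q : (C(sphere t₀ R, G) →L[ℂ] G) × C(sphere t₀ R, G) => q.1 q.2)
      ((ContinuousLinearMap.id ℂ (C(sphere t₀ R, G) →L[ℂ] G)).analyticAt_bilinear _) hK hC
  refine hmain.congr ?_
  have hnhds : V ×ˢ ball t₀ R ∈ 𝓝 (x₀, t₀) :=
    prod_mem_nhds (hV.mem_nhds (mem_ball_self hε)) (ball_mem_nhds t₀ hR)
  filter_upwards [hnhds] with p hp
  have hg : DifferentiableOn ℂ (fun z : ℂ => f (p.1, z)) (closedBall t₀ R) := by
    intro z hz
    exact ((hdiff _ (hmem p.1 hp.1 z hz)).comp z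
      (hasFDerivAt_prodMk_right p.1 z).differentiableAt).differentiableWithinAt
  have := cauchyKernel_apply t₀ hR (s := p.2 - t₀) (by simpa [dist_eq_norm] using hp.2) hg (c p.1)
    (fun z => hc p.1 hp.1 z)
  rw [this]
  simp

theorem HolReg.of_equiv {E E' : Type*} [NormedAddCommGroup E] [NormedSpace ℂ E]
    [NormedAddCommGroup E'] [NormedSpace ℂ E'] (e : E ≃L[ℂ] E') (hE : HolReg.{v} E) :
    HolReg.{v} E' := by
  intro G _ _ _ f U hU hf y hy
  have h1 : ContDiffOn ℂ 1 (f ∘ e) (e ⁻¹' U) :=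
    hf.comp e.contDiff.contDiffOn (fun x hx => hx)
  have h2 : AnalyticAt ℂ (f ∘ e) (e.symm y) :=
    hE G (f ∘ e) (e ⁻¹' U) (hU.preimage e.continuous) h1 (e.symm y) (by simpa using hy)
  have h3 : AnalyticAt ℂ ((f ∘ e) ∘ e.symm) y :=
    h2.comp ((e.symm : E' →L[ℂ] E).analyticAt y)
  have h4 : (f ∘ e) ∘ e.symm = f := by
    funext z
    simp
  rwa [h4] at h3

theorem holReg_of_subsingleton (E : Type*) [NormedAddCommGroup E] [NormedSpace ℂ E]
    [Subsingleton E] : HolReg.{v} E := by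
  intro G _ _ _ f U _ _ y _
  have : f = fun _ => f 0 := funext fun z => congrArg f (Subsingleton.elim z 0)
  rw [this]
  exact analyticAt_const

theorem holReg_pi (n : ℕ) : HolReg.{v} (Fin n → ℂ) := by
  induction n with
  | zero => exact holReg_of_subsingleton _
  | succ n ih =>
    refine ih.prod.of_equiv (ContinuousLinearEquiv.ofFinrankEq ?_)
    simp

/-- **A `C¹` function on an open subset of a finite dimensional complex normed space, with values
in a Banach space, is analytic.** -/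
theorem analyticOnNhd_of_contDiffOn_one {E : Type*} [NormedAddCommGroup E] [NormedSpace ℂ E]
    [FiniteDimensional ℂ E] {G : Type*} [NormedAddCommGroup G] [NormedSpace ℂ G] [CompleteSpace G]
    {f : E → G} {U : Set E} (hU : IsOpen U) (hf : ContDiffOn ℂ 1 f U) : AnalyticOnNhd ℂ f U :=
  (holReg_pi (Module.finrank ℂ E)).of_equiv
    (ContinuousLinearEquiv.ofFinrankEq (by simp)) G f U hU hf

end SCV
end Claimed.Agent.R269


/-! ## SanitySCVIntegral -/


set_option autoImplicit false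
set_option linter.unusedSectionVars false

/-!
# Result 056, several complex variables (3): parametrised circle integrals

If `F (x, ζ)` is analytic at all points `(x₀, ζ)`, `ζ` on a circle, then `x ↦ ∮ F (x, ζ) dζ` is
analytic at `x₀`.
-/

namespace Claimed.Agent.R269
namespace SCV

open Set Metric Filter Topology Real Complex

variable {E : Type*} [NormedAddCommGroup E] [NormedSpace ℂ E]
  {T : Type*} [NormedAddCommGroup T] [NormedSpace ℂ T]
  {G : Type*} [NormedAddCommGroup G] [NormedSpace ℂ G]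

/-- A `C¹` function `F` on an open set containing `V ×ˢ S`, `S` compact, defines a `C¹` map
`x ↦ F (x, ·)` from `V` to `C(S, G)`. -/
theorem exists_curry_contDiffOn {F : E × T → G} {Ω : Set (E × T)} (hΩ : IsOpen Ω)
    (hF : ContDiffOn ℂ 1 F Ω) {V : Set E} (hV : IsOpen V) {S : Set T} [CompactSpace S]
    (hVS : V ×ˢ S ⊆ Ω) :
    ∃ c : E → C(S, G), (∀ x ∈ V, ∀ z : S, c x z = F (x, z)) ∧ ContDiffOn ℂ 1 c V := by
  have hmemS : ∀ x ∈ V, ∀ z : S, (x, (z : T)) ∈ Ω := fun x hx z => hVS ⟨hx, z.2⟩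
  have hf' : ContinuousOn (fderiv ℂ F) Ω := hF.continuousOn_fderiv_of_isOpen hΩ le_rfl
  have hdiff : ∀ p ∈ Ω, DifferentiableAt ℂ F p := fun p hp =>
    (hF.differentiableOn one_ne_zero).differentiableAt (hΩ.mem_nhds hp)
  classical
  let c : E → C(S, G) := fun x =>
    if hx : x ∈ V then ⟨fun z => F (x, z),
      hF.continuousOn.comp_continuous (by fun_prop) (hmemS x hx)⟩ else 0
  let c' : E → C(S, E →L[ℂ] G) := fun x =>
    if hx : x ∈ V then ⟨fun z => (fderiv ℂ F (x, z)).comp (ContinuousLinearMap.inl ℂ E T),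
      (hf'.comp_continuous (by fun_prop) (hmemS x hx)).clm_comp continuous_const⟩ else 0
  have hc : ∀ x ∈ V, ∀ z, c x z = F (x, z) := by
    intro x hx z
    simp only [c, dif_pos hx]
    rfl
  have hc'v : ∀ x ∈ V, ∀ z, c' x z = (fderiv ℂ F (x, z)).comp (ContinuousLinearMap.inl ℂ E T) := by
    intro x hx z
    simp only [c', dif_pos hx]
    rfl
  have hd : ∀ x ∈ V, ∀ ζ, HasFDerivAt (fun y => c y ζ) (c' x ζ) x := by
    intro x hx ζ
    rw [hc'v x hx ζ]
    have h1 : HasFDerivAt (fun y : E => F (y, (ζ : T)))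
        ((fderiv ℂ F (x, ζ)).comp (ContinuousLinearMap.inl ℂ E T)) x :=
      (hdiff _ (hmemS x hx ζ)).hasFDerivAt.comp x (hasFDerivAt_prodMk_left x (ζ : T))
    refine h1.congr_of_eventuallyEq ?_
    filter_upwards [hV.mem_nhds hx] with y hy using hc y hy ζ
  have hc'cont : ContinuousOn c' V := by
    apply continuousOn_of_continuousOn_uncurry
    have h1 : ContinuousOn (fun p : E × S =>
        (fderiv ℂ F (p.1, (p.2 : T))).comp (ContinuousLinearMap.inl ℂ E T)) (V ×ˢ univ) := by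
      refine ContinuousOn.clm_comp ?_ continuousOn_const
      exact hf'.comp (by fun_prop) fun p hp => hmemS p.1 hp.1 p.2
    exact h1.congr fun p hp => hc'v p.1 hp.1 p.2
  exact ⟨c, hc, contDiffOn_one_continuousMap hV c c' hd hc'cont⟩

variable [FiniteDimensional ℂ E] [CompleteSpace G]

/-- If `F` is analytic at all points of `{x₀} × S`, `S` compact, then `x ↦ F (x, ·) ∈ C(S, G)` is
analytic at `x₀`. -/
theorem exists_curry_analyticAt {F : E × T → G} {x₀ : E} {S : Set T} [CompactSpace S]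
    (hF : ∀ ζ ∈ S, AnalyticAt ℂ F (x₀, ζ)) :
    ∃ c : E → C(S, G), (∀ᶠ x in 𝓝 x₀, ∀ z : S, c x z = F (x, z)) ∧ AnalyticAt ℂ c x₀ := by
  have hΩ : IsOpen {p | AnalyticAt ℂ F p} := isOpen_analyticAt ℂ F
  have hS : IsCompact S := isCompact_iff_compactSpace.2 inferInstance
  obtain ⟨V, W, hV, -, hxV, hSW, hVW⟩ := generalized_tube_lemma (isCompact_singleton (x := x₀)) hS hΩ
    (by
      rintro ⟨x, ζ⟩ ⟨hx, hζ⟩
      rw [mem_singleton_iff] at hx
      subst hx
      exact hF ζ hζ)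
  have hC1 : ContDiffOn ℂ 1 F {p | AnalyticAt ℂ F p} := fun p hp =>
    (AnalyticAt.contDiffAt hp).contDiffWithinAt
  obtain ⟨c, hc, hcd⟩ := exists_curry_contDiffOn hΩ hC1 hV (S := S)
    (fun p hp => hVW ⟨hp.1, hSW hp.2⟩)
  have hx₀ : x₀ ∈ V := hxV rfl
  exact ⟨c, by filter_upwards [hV.mem_nhds hx₀] with x hx using hc x hx,
    analyticOnNhd_of_contDiffOn_one hV hcd x₀ hx₀⟩

/-- **Parametrised circle integrals of analytic functions are analytic.** -/
theorem analyticAt_circleIntegral {F : E × ℂ → G} {x₀ : E} {c : ℂ} {R : ℝ} (hR : 0 ≤ R)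
    (hF : ∀ ζ ∈ sphere c R, AnalyticAt ℂ F (x₀, ζ)) :
    AnalyticAt ℂ (fun x => ∮ ζ in C(c, R), F (x, ζ)) x₀ := by
  obtain ⟨γ, hγ, hγa⟩ := exists_curry_analyticAt (S := sphere c R) hF
  let Λ : C(sphere c R, G) →L[ℂ] G :=
    circleCLM c hR (fun _ => 1) continuousOn_const 1 (fun _ _ => by simp)
  have h1 : AnalyticAt ℂ (fun x => Λ (γ x)) x₀ := (Λ.analyticAt (γ x₀)).comp hγa
  refine h1.congr ?_
  filter_upwards [hγ] with x hx
  simp only [Λ, circleCLM_apply, one_smul]
  refine circleIntegral.integral_congr hR fun z hz => ?_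
  rw [extendSphere_of_mem _ hz, hx]

end SCV
end Claimed.Agent.R269


/-! ## SCVBasic -/


set_option autoImplicit false
set_option linter.unusedSectionVars false

/-!
# Result 056, several complex variables: corollaries of the identity theorem

* `eventually_frequently_ne_zero` (T3a): a nonzero germ is nonzero on a dense subset of a
  neighbourhood;
* `eventually_eq_zero_or_of_mul` (T3b): the ring of germs is a domain;
* `exists_good_direction` (T10): a nonzero germ is nonzero on some complex line through the point;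
* `exists_equiv_prod` (T10'): splitting off a direction.
-/

namespace Claimed.Agent.R269.SCV

open Filter Topology Set Metric

variable {E : Type*} [NormedAddCommGroup E] [NormedSpace ℂ E]
variable {F : Type*} [NormedAddCommGroup F] [NormedSpace ℂ F] [CompleteSpace F]

/-- A function analytic at `p` is analytic on a ball around `p`. -/
theorem exists_ball_analyticOnNhd {g : E → F} {p : E} (hg : AnalyticAt ℂ g p) :
    ∃ r > 0, AnalyticOnNhd ℂ g (ball p r) := by
  obtain ⟨r, hr, h⟩ := Metric.eventually_nhds_iff_ball.1 hg.eventually_analyticAt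
  exact ⟨r, hr, h⟩

/-- Identity theorem on a ball: an analytic function on a ball which vanishes near one point of it
vanishes on the ball. -/
theorem eqOn_zero_ball_of_eventually {g : E → F} {p : E} {r : ℝ}
    (hg : AnalyticOnNhd ℂ g (ball p r)) {x : E} (hx : x ∈ ball p r)
    (h : ∀ᶠ y in 𝓝 x, g y = 0) : ∀ y ∈ ball p r, g y = 0 :=
  hg.eqOn_zero_of_preconnected_of_eventuallyEq_zero (convex_ball p r).isPreconnected hx h

/-- T3a. A germ of analytic function which is not identically zero near `p` is nonzero on a dense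
subset of a neighbourhood of `p`. -/
theorem eventually_frequently_ne_zero {g : E → F} {p : E} (hg : AnalyticAt ℂ g p)
    (h0 : ∃ᶠ y in 𝓝 p, g y ≠ 0) : ∀ᶠ x in 𝓝 p, ∃ᶠ y in 𝓝 x, g y ≠ 0 := by
  obtain ⟨r, hr, hgr⟩ := exists_ball_analyticOnNhd hg
  filter_upwards [ball_mem_nhds p hr] with x hx
  by_contra hcon
  have h1 : ∀ᶠ y in 𝓝 x, g y = 0 := (Filter.not_frequently.1 hcon).mono fun y hy => not_not.1 hy
  have h2 := eqOn_zero_ball_of_eventually hgr hx h1
  apply h0
  filter_upwards [ball_mem_nhds p hr] with y hy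
  simpa using h2 y hy

/-- T3b. The ring of germs is a domain. -/
theorem eventually_eq_zero_or_of_mul {a b : E → ℂ} {p : E} (ha : AnalyticAt ℂ a p)
    (hb : AnalyticAt ℂ b p) (h : ∀ᶠ y in 𝓝 p, a y * b y = 0) :
    (∀ᶠ y in 𝓝 p, a y = 0) ∨ ∀ᶠ y in 𝓝 p, b y = 0 := by
  by_cases h0 : ∀ᶠ y in 𝓝 p, a y = 0
  · exact Or.inl h0
  right
  obtain ⟨r, hr, hbr⟩ := exists_ball_analyticOnNhd hb
  have h1 : ∃ᶠ y in 𝓝 p, a y ≠ 0 := Filter.not_eventually.1 h0
  have h2 : ∀ᶠ y in 𝓝 p, y ∈ ball p r ∧ ContinuousAt a y ∧ ∀ᶠ z in 𝓝 y, a z * b z = 0 :=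
    Filter.Eventually.and (ball_mem_nhds p hr)
      ((ha.eventually_analyticAt.mono fun y hy => hy.continuousAt).and h.eventually_nhds)
  obtain ⟨y, hy0, hyr, hyc, hyz⟩ := (h1.and_eventually h2).exists
  have h3 : ∀ᶠ z in 𝓝 y, b z = 0 := by
    filter_upwards [hyc.eventually_ne hy0, hyz] with z hz1 hz2
    exact (mul_eq_zero.1 hz2).resolve_left hz1
  have h4 := eqOn_zero_ball_of_eventually hbr hyr h3
  filter_upwards [ball_mem_nhds p hr] with z hz using h4 z hz

/-- T10. Good direction: a nonzero germ is nonzero on some complex line through the point. -/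
theorem exists_good_direction {g : E → F} {p : E} (hg : AnalyticAt ℂ g p)
    (h0 : ∃ᶠ y in 𝓝 p, g y ≠ 0) : ∃ v : E, ∃ᶠ t in 𝓝 (0 : ℂ), g (p + t • v) ≠ 0 := by
  obtain ⟨r, hr, hgr⟩ := exists_ball_analyticOnNhd hg
  obtain ⟨y, hy0, hyr⟩ := (h0.and_eventually (ball_mem_nhds p hr)).exists
  refine ⟨y - p, ?_⟩
  by_contra hcon
  have h1 : ∀ᶠ t in 𝓝 (0 : ℂ), g (p + t • (y - p)) = 0 :=
    (Filter.not_frequently.1 hcon).mono fun y hy => not_not.1 hy
  set ℓ : ℂ → E := fun t => p + t • (y - p) with hℓ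
  have hℓa : ∀ t, AnalyticAt ℂ ℓ t := fun t => by
    simp only [hℓ]
    fun_prop
  set S : Set ℂ := ℓ ⁻¹' ball p r with hS
  have hSconv : Convex ℝ S := by
    intro s hs t ht a b ha hb hab
    simp only [hS, mem_preimage, hℓ] at hs ht ⊢
    have h5 := convex_ball p r hs ht ha hb hab
    convert h5 using 1
    have ha' : a = 1 - b := by linarith
    subst ha'
    simp only [smul_add, add_smul, sub_smul, one_smul, Complex.real_smul]
    module
  have hga : AnalyticOnNhd ℂ (g ∘ ℓ) S := fun t ht => (hgr (ℓ t) ht).comp (hℓa t)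
  have h0S : (0 : ℂ) ∈ S := by simp [hS, hℓ, hr]
  have h1S : (1 : ℂ) ∈ S := by simpa [hS, hℓ] using hyr
  have h6 := hga.eqOn_zero_of_preconnected_of_eventuallyEq_zero hSconv.isPreconnected h0S h1 h1S
  apply hy0
  simpa [hℓ] using h6

/-- T10'. Splitting off a direction. -/
theorem exists_equiv_prod [FiniteDimensional ℂ E] {v : E} (hv : v ≠ 0) :
    ∃ (n : ℕ) (L : E ≃L[ℂ] (Fin n → ℂ) × ℂ), L v = (0, 1) := by
  obtain ⟨f, hf⟩ := SeparatingDual.exists_eq_one (R := ℂ) hv
  let K : Submodule ℂ E := LinearMap.ker (f : E →ₗ[ℂ] ℂ)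
  let e : K ≃ₗ[ℂ] (Fin (Module.finrank ℂ K) → ℂ) := LinearEquiv.ofFinrankEq _ _ (by simp)
  have hmem : ∀ x : E, x - f x • v ∈ K := fun x => by
    simp [K, LinearMap.mem_ker, hf]
  let L₀ : E ≃ₗ[ℂ] (Fin (Module.finrank ℂ K) → ℂ) × ℂ :=
    { toFun := fun x => (e ⟨x - f x • v, hmem x⟩, f x)
      map_add' := fun x y => by
        ext1
        · simp only [Prod.fst_add, ← map_add]
          congr 1
          ext
          simp only [map_add, add_smul, Submodule.coe_add]
          abel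
        · simp
      map_smul' := fun c x => by
        ext1
        · simp only [Prod.smul_fst, ← map_smul, RingHom.id_apply]
          congr 1
          ext
          simp only [map_smul, smul_eq_mul, Submodule.coe_smul, smul_sub, mul_smul]
        · simp
      invFun := fun q => (e.symm q.1 : E) + q.2 • v
      left_inv := fun x => by simp
      right_inv := fun q => by
        have h1 : f (e.symm q.1 : E) = 0 := (e.symm q.1).2
        ext1
        · simp only [map_add, map_smul, h1, hf, smul_eq_mul, mul_one, zero_add, add_sub_cancel_right]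
          simp
        · simp [h1, hf] }
  refine ⟨_, L₀.toContinuousLinearEquiv, ?_⟩
  show L₀ v = (0, 1)
  ext1
  · show e ⟨v - f v • v, hmem v⟩ = 0
    have : (⟨v - f v • v, hmem v⟩ : K) = 0 := by
      ext
      simp [hf]
    rw [this, map_zero]
  · exact hf

end Claimed.Agent.R269.SCV


/-! ## SCVRiemann -/


set_option autoImplicit false
set_option linter.unusedSectionVars false

/-!
# Result 056, several complex variables: extension theorems

* `exists_analyticAt_of_slices`: a function which is analytic off the zero set of `g` and whose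
  restrictions to the complex lines of a direction `v` (good for `g`) have removable singularities
  extends analytically;
* `riemann_extension` (T5): Riemann's extension theorem;
* `exists_quotient_of_integral` (T5'): normality of the ring of germs in elementary form.
-/

namespace Claimed.Agent.R269.SCV

open Filter Topology Set Metric Real Complex

variable {E : Type*} [NormedAddCommGroup E] [NormedSpace ℂ E]
variable {F : Type*} [NormedAddCommGroup F] [NormedSpace ℂ F] [CompleteSpace F]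

/-! ### One variable: regularisation -/

/-- The regularisation of a function of one complex variable: its value at `ζ` is replaced by the
limit at `ζ`. -/
noncomputable def reg (φ : ℂ → F) (ζ : ℂ) : F := limUnder (𝓝[≠] ζ) φ

theorem reg_eq_of_continuousAt {φ : ℂ → F} {ζ : ℂ} (h : ContinuousAt φ ζ) : reg φ ζ = φ ζ :=
  Tendsto.limUnder_eq (h.tendsto.mono_left nhdsWithin_le_nhds)

theorem reg_eventuallyEq {φ ψ : ℂ → F} {ζ₀ : ℂ} (hψ : AnalyticAt ℂ ψ ζ₀)
    (h : ∀ᶠ ζ in 𝓝[≠] ζ₀, φ ζ = ψ ζ) : reg φ =ᶠ[𝓝 ζ₀] ψ := by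
  have h1 : ∀ᶠ ζ in 𝓝 ζ₀, ∀ᶠ ζ' in 𝓝 ζ, ζ' ≠ ζ₀ → φ ζ' = ψ ζ' :=
    (eventually_nhdsWithin_iff.1 h).eventually_nhds
  filter_upwards [h1, hψ.eventually_analyticAt] with ζ hζ hψζ
  refine Tendsto.limUnder_eq ?_
  have h2 : ∀ᶠ ζ' in 𝓝[≠] ζ, ζ' ≠ ζ₀ := by
    by_cases hζ0 : ζ = ζ₀
    · subst hζ0
      exact self_mem_nhdsWithin
    · exact nhdsWithin_le_nhds (isOpen_ne.mem_nhds hζ0)
  have h3 : ∀ᶠ ζ' in 𝓝[≠] ζ, ψ ζ' = φ ζ' := by
    filter_upwards [h2, nhdsWithin_le_nhds hζ] with ζ' h4 h5 using (h5 h4).symm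
  exact (hψζ.continuousAt.tendsto.mono_left nhdsWithin_le_nhds).congr' h3

/-- Cauchy's formula for a function with removable singularities. -/
theorem cauchy_of_removable {φ : ℂ → F} {c : ℂ} {r : ℝ}
    (hφ : ∀ ζ ∈ closedBall c r, ∃ ψ : ℂ → F, AnalyticAt ℂ ψ ζ ∧ ∀ᶠ ζ' in 𝓝[≠] ζ, φ ζ' = ψ ζ')
    (hs : ∀ ζ ∈ sphere c r, ContinuousAt φ ζ) {w : ℂ} (hw : w ∈ ball c r)
    (hwc : ContinuousAt φ w) :
    (2 * π * I : ℂ)⁻¹ • ∮ ζ in C(c, r), (ζ - w)⁻¹ • φ ζ = φ w := by
  have hr : 0 ≤ r := (dist_nonneg.trans_lt (mem_ball.1 hw)).le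
  have hd : DifferentiableOn ℂ (reg φ) (closedBall c r) := by
    intro ζ hζ
    obtain ⟨ψ, hψ, hψe⟩ := hφ ζ hζ
    exact ((hψ.congr (reg_eventuallyEq hψ hψe).symm).differentiableAt).differentiableWithinAt
  have h1 := hd.circleIntegral_sub_inv_smul hw
  have h2 : ∮ ζ in C(c, r), (ζ - w)⁻¹ • φ ζ = ∮ ζ in C(c, r), (ζ - w)⁻¹ • reg φ ζ :=
    circleIntegral.integral_congr hr fun ζ hζ => by
      simp only [reg_eq_of_continuousAt (hs ζ hζ)]
  rw [h2, h1, reg_eq_of_continuousAt hwc, inv_smul_smul₀]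
  simp [Real.pi_ne_zero, I_ne_zero]

/-! ### Slices -/

/-- If `v` is a good direction for `g` at `p`, then on all complex lines of direction `v` near `p`
the zeros of `g` are isolated. -/
theorem eventually_slice_ne_zero {g : E → F} {p v : E} (hg : AnalyticAt ℂ g p)
    (hv : ∃ᶠ t in 𝓝 (0 : ℂ), g (p + t • v) ≠ 0) :
    ∀ᶠ x in 𝓝 p, ∀ᶠ t in 𝓝[≠] (0 : ℂ), g (x + t • v) ≠ 0 := by
  obtain ⟨δ, hδ, hgδ⟩ := exists_ball_analyticOnNhd hg
  have hsmall : ∀ᶠ t in 𝓝 (0 : ℂ), ‖t • v‖ < δ / 2 := by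
    have : Tendsto (fun t : ℂ => ‖t • v‖) (𝓝 0) (𝓝 ‖(0 : ℂ) • v‖) :=
      (Continuous.tendsto (by fun_prop) 0)
    rw [zero_smul, norm_zero] at this
    exact this.eventually (gt_mem_nhds (by positivity))
  obtain ⟨t₁, ht₁, ht₁s⟩ := (hv.and_eventually hsmall).exists
  have hmem : ∀ x ∈ ball p (δ / 2), x + t₁ • v ∈ ball p δ := by
    intro x hx
    rw [mem_ball, dist_eq_norm] at hx ⊢
    calc ‖x + t₁ • v - p‖ = ‖(x - p) + t₁ • v‖ := by congr 1; abel
      _ ≤ ‖x - p‖ + ‖t₁ • v‖ := norm_add_le _ _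
      _ < δ := by linarith
  have hp1 : p + t₁ • v ∈ ball p δ := hmem p (mem_ball_self (by positivity))
  have hcont : ContinuousAt (fun x : E => g (x + t₁ • v)) p :=
    ContinuousAt.comp (f := fun x : E => x + t₁ • v) (hgδ _ hp1).continuousAt (by fun_prop)
  filter_upwards [hcont.eventually_ne ht₁, ball_mem_nhds p (half_pos hδ)] with x hx1 hx2
  set ℓ : ℂ → E := fun t => x + t • v with hℓ
  have hℓa : ∀ t, AnalyticAt ℂ ℓ t := fun t => by
    simp only [hℓ]
    fun_prop
  set S : Set ℂ := ℓ ⁻¹' ball p δ with hS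
  have hSconv : Convex ℝ S := by
    intro s hs t ht a b ha hb hab
    simp only [hS, mem_preimage, hℓ] at hs ht ⊢
    have h5 := convex_ball p δ hs ht ha hb hab
    convert h5 using 1
    have ha' : a = 1 - b := by linarith
    subst ha'
    simp only [smul_add, add_smul, sub_smul, one_smul, Complex.real_smul]
    module
  have hga : AnalyticOnNhd ℂ (g ∘ ℓ) S := fun t ht => (hgδ (ℓ t) ht).comp (hℓa t)
  have h0S : (0 : ℂ) ∈ S := by
    simp only [hS, hℓ, mem_preimage, zero_smul, add_zero]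
    exact ball_subset_ball (by linarith) hx2
  have h1S : t₁ ∈ S := hmem x hx2
  rcases (hga 0 h0S).eventually_eq_zero_or_eventually_ne_zero with h | h
  · exact absurd
      (hga.eqOn_zero_of_preconnected_of_eventuallyEq_zero hSconv.isPreconnected h0S h h1S) hx1
  · exact h

variable [FiniteDimensional ℂ E]

/-- **Extension along slices**, general form.  Let `v` be a good direction for `g` at `p`, and `T` a
set whose complement is a union of complex lines of direction `v`.  If `h` is analytic off the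
zeros of `g` and its restrictions to the complex lines of direction `v` outside `T` have
removable singularities, then there is an analytic function near `p` which agrees with `h` outside
`T` (Hartogs' phenomenon, if `T` is thin). -/
theorem exists_analyticAt_of_slices_off {p v : E} {g : E → ℂ} (hg : AnalyticAt ℂ g p)
    (hv : ∃ᶠ t in 𝓝 (0 : ℂ), g (p + t • v) ≠ 0) {h : E → F} {T : Set E}
    (hT : ∀ x, x ∉ T → ∀ ζ : ℂ, x + ζ • v ∉ T)
    (hh : ∀ᶠ x in 𝓝 p, g x ≠ 0 → AnalyticAt ℂ h x)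
    (hrem : ∀ᶠ x in 𝓝 p, x ∉ T → ∃ ψ : ℂ → F, AnalyticAt ℂ ψ 0 ∧
      ∀ᶠ t in 𝓝[≠] (0 : ℂ), h (x + t • v) = ψ t) :
    ∃ H : E → F, AnalyticAt ℂ H p ∧ ∀ᶠ x in 𝓝 p, x ∉ T → g x ≠ 0 → H x = h x := by
  -- a ball on which everything holds
  obtain ⟨δ, hδ, hall⟩ := Metric.eventually_nhds_iff_ball.1
    (hg.eventually_analyticAt.and (hh.and hrem))
  -- the radius of the circle
  have hγ : AnalyticAt ℂ (fun t : ℂ => g (p + t • v)) 0 := by
    have h1 : AnalyticAt ℂ g (p + (0 : ℂ) • v) := by simpa using hg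
    exact AnalyticAt.comp (f := fun t : ℂ => p + t • v) h1 (by fun_prop)
  have hγ0 : ∀ᶠ t in 𝓝[≠] (0 : ℂ), g (p + t • v) ≠ 0 := by
    rcases hγ.eventually_eq_zero_or_eventually_ne_zero with h | h
    · exact absurd h (Filter.not_eventually.2 (hv.mono fun t ht => ht))
    · exact h
  have hsmall : ∀ᶠ t in 𝓝 (0 : ℂ), ‖t‖ * ‖v‖ < δ / 2 := by
    have : Tendsto (fun t : ℂ => ‖t‖ * ‖v‖) (𝓝 0) (𝓝 (‖(0 : ℂ)‖ * ‖v‖)) :=
      (Continuous.tendsto (by fun_prop) 0)
    rw [norm_zero, zero_mul] at this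
    exact this.eventually (gt_mem_nhds (by positivity))
  obtain ⟨ε, hε, hεall⟩ := Metric.eventually_nhds_iff_ball.1
    ((eventually_nhdsWithin_iff.1 hγ0).and hsmall)
  set r : ℝ := ε / 2 with hr
  have hr0 : 0 < r := by positivity
  have hrε : ∀ ζ ∈ closedBall (0 : ℂ) r, ζ ∈ ball (0 : ℂ) ε := fun ζ hζ =>
    closedBall_subset_ball (by rw [hr]; linarith) hζ
  have hmem : ∀ y ∈ ball p (δ / 2), ∀ ζ ∈ closedBall (0 : ℂ) r, y + ζ • v ∈ ball p δ := by
    intro y hy ζ hζ
    have h1 := (hεall ζ (hrε ζ hζ)).2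
    rw [mem_ball, dist_eq_norm] at hy ⊢
    calc ‖y + ζ • v - p‖ = ‖(y - p) + ζ • v‖ := by congr 1; abel
      _ ≤ ‖y - p‖ + ‖ζ • v‖ := norm_add_le _ _
      _ = ‖y - p‖ + ‖ζ‖ * ‖v‖ := by rw [norm_smul]
      _ < δ := by linarith
  have hpδ : p ∈ ball p (δ / 2) := mem_ball_self (by positivity)
  -- the circle avoids the zeros of `g`, also for nearby centres
  have hΩ : IsOpen {q : E × ℂ | q.1 + q.2 • v ∈ ball p δ ∧ g (q.1 + q.2 • v) ≠ 0} := by
    have hc : Continuous fun q : E × ℂ => q.1 + q.2 • v := by fun_prop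
    have h1 : IsOpen ((fun q : E × ℂ => q.1 + q.2 • v) ⁻¹' (ball p δ ∩ {x | g x ≠ 0})) := by
      refine IsOpen.preimage hc ?_
      have hgc : ContinuousOn g (ball p δ) := fun x hx => (hall x hx).1.continuousAt.continuousWithinAt
      have := hgc.isOpen_inter_preimage isOpen_ball (isOpen_ne (x := (0 : ℂ)))
      exact this
    exact h1
  obtain ⟨V, W, hV, -, hpV, hSW, hVW⟩ := generalized_tube_lemma (isCompact_singleton (x := p))
    (isCompact_sphere (0 : ℂ) r) hΩ (by
      rintro ⟨x, ζ⟩ ⟨hx, hζ⟩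
      rw [mem_singleton_iff] at hx
      subst hx
      have hζ' : ζ ∈ closedBall (0 : ℂ) r := sphere_subset_closedBall hζ
      refine ⟨hmem _ hpδ ζ hζ', (hεall ζ (hrε ζ hζ')).1 ?_⟩
      intro h0
      rw [h0, mem_sphere, dist_self] at hζ
      exact hr0.ne hζ)
  have hha : ∀ y ∈ V, ∀ ζ ∈ sphere (0 : ℂ) r, AnalyticAt ℂ h (y + ζ • v) := by
    intro y hy ζ hζ
    have h1 := hVW (⟨hy, hSW hζ⟩ : (y, ζ) ∈ V ×ˢ W)
    exact (hall _ h1.1).2.1 h1.2
  refine ⟨fun y => (2 * π * I : ℂ)⁻¹ • ∮ ζ in C(0, r), (ζ - 0)⁻¹ • h (y + ζ • v), ?_, ?_⟩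
  · refine AnalyticAt.const_smul ?_
    refine analyticAt_circleIntegral (F := fun q : E × ℂ => (q.2 - 0)⁻¹ • h (q.1 + q.2 • v)) hr0.le ?_
    intro ζ hζ
    have hζ0 : ζ ≠ 0 := by
      intro h0
      rw [h0, mem_sphere, dist_self] at hζ
      exact hr0.ne hζ
    have h1 : AnalyticAt ℂ (fun q : E × ℂ => h (q.1 + q.2 • v)) (p, ζ) :=
      AnalyticAt.comp (f := fun q : E × ℂ => q.1 + q.2 • v) (hha p (hpV rfl) ζ hζ)
        (analyticAt_fst.add (analyticAt_snd.smul analyticAt_const))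
    have h2 : AnalyticAt ℂ (fun q : E × ℂ => (q.2 - 0)⁻¹) (p, ζ) := by
      refine AnalyticAt.inv (analyticAt_snd.sub analyticAt_const) ?_
      simpa using hζ0
    exact h2.smul h1
  · filter_upwards [hV.mem_nhds (hpV rfl), ball_mem_nhds p (half_pos hδ)] with y hyV hyδ hyT hgy
    have hy : AnalyticAt ℂ h y := (hall y (ball_subset_ball (by linarith) hyδ)).2.1 hgy
    have hℓc : ∀ ζ : ℂ, ContinuousAt (fun ζ : ℂ => y + ζ • v) ζ := fun ζ => by fun_prop
    have key := cauchy_of_removable (φ := fun ζ => h (y + ζ • v)) (c := 0) (r := r) (w := 0) ?_ ?_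
      (mem_ball_self hr0) ?_
    · simpa using key
    · intro ζ₀ hζ₀
      obtain ⟨ψ, hψ, hψe⟩ := (hall _ (hmem y hyδ ζ₀ hζ₀)).2.2 (hT y hyT ζ₀)
      refine ⟨fun ζ => ψ (ζ - ζ₀), ?_, ?_⟩
      · have h1 : AnalyticAt ℂ ψ (ζ₀ - ζ₀) := by simpa using hψ
        exact AnalyticAt.comp (f := fun ζ : ℂ => ζ - ζ₀) h1 (by fun_prop)
      · have h1 : Tendsto (fun ζ : ℂ => ζ - ζ₀) (𝓝[≠] ζ₀) (𝓝[≠] 0) := by
          refine tendsto_nhdsWithin_iff.2 ⟨?_, ?_⟩
          · have : Tendsto (fun ζ : ℂ => ζ - ζ₀) (𝓝 ζ₀) (𝓝 (ζ₀ - ζ₀)) :=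
              (Continuous.tendsto (by fun_prop) ζ₀)
            rw [sub_self] at this
            exact this.mono_left nhdsWithin_le_nhds
          · filter_upwards [self_mem_nhdsWithin] with ζ hζ
            exact sub_ne_zero.2 hζ
        filter_upwards [h1.eventually hψe] with ζ hζ
        rw [← hζ]
        congr 1
        module
    · intro ζ hζ
      exact ContinuousAt.comp (f := fun ζ : ℂ => y + ζ • v) (hha y hyV ζ hζ).continuousAt (hℓc ζ)
    · have h1 : ContinuousAt h (y + (0 : ℂ) • v) := by simpa using hy.continuousAt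
      exact ContinuousAt.comp (f := fun ζ : ℂ => y + ζ • v) h1 (hℓc 0)

/-- **Extension along slices.**  Let `v` be a good direction for `g` at `p`.  A function `h` which is
analytic off the zeros of `g` and whose restrictions to the complex lines of direction `v` have
removable singularities extends to an analytic function near `p`. -/
theorem exists_analyticAt_of_slices {p v : E} {g : E → ℂ} (hg : AnalyticAt ℂ g p)
    (hv : ∃ᶠ t in 𝓝 (0 : ℂ), g (p + t • v) ≠ 0) {h : E → F}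
    (hh : ∀ᶠ x in 𝓝 p, g x ≠ 0 → AnalyticAt ℂ h x)
    (hrem : ∀ᶠ x in 𝓝 p, ∃ ψ : ℂ → F, AnalyticAt ℂ ψ 0 ∧
      ∀ᶠ t in 𝓝[≠] (0 : ℂ), h (x + t • v) = ψ t) :
    ∃ H : E → F, AnalyticAt ℂ H p ∧ ∀ᶠ x in 𝓝 p, g x ≠ 0 → H x = h x := by
  obtain ⟨H, hH, hHe⟩ := exists_analyticAt_of_slices_off (T := ∅) hg hv
    (fun _ _ _ => notMem_empty _) hh (hrem.mono fun x hx _ => hx)
  exact ⟨H, hH, hHe.mono fun x hx => hx (notMem_empty _)⟩

/-! ### Riemann's extension theorem -/

/-- Riemann's extension theorem, local form. -/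
theorem riemann_extension_at {p : E} {g : E → ℂ} (hg : AnalyticAt ℂ g p)
    (hg0 : ∃ᶠ y in 𝓝 p, g y ≠ 0) {h : E → F}
    (hh : ∀ᶠ x in 𝓝 p, g x ≠ 0 → AnalyticAt ℂ h x)
    (hb : ∀ᶠ x in 𝓝 p, ∃ C : ℝ, ∀ᶠ y in 𝓝 x, g y ≠ 0 → ‖h y‖ ≤ C) :
    ∃ H : E → F, AnalyticAt ℂ H p ∧ ∀ᶠ x in 𝓝 p, g x ≠ 0 → H x = h x := by
  obtain ⟨v, hv⟩ := exists_good_direction hg hg0
  refine exists_analyticAt_of_slices hg hv hh ?_
  filter_upwards [eventually_slice_ne_zero hg hv, hh.eventually_nhds, hb] with x h1 h2 h3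
  obtain ⟨C, hC⟩ := h3
  have hℓ : Tendsto (fun t : ℂ => x + t • v) (𝓝 0) (𝓝 x) := by
    have : Tendsto (fun t : ℂ => x + t • v) (𝓝 0) (𝓝 (x + (0 : ℂ) • v)) :=
      (Continuous.tendsto (by fun_prop) 0)
    simpa using this
  obtain ⟨ρ, hρ, hall⟩ := Metric.eventually_nhds_iff_ball.1
    ((eventually_nhdsWithin_iff.1 h1).and ((hℓ.eventually h2).and (hℓ.eventually hC)))
  set φ : ℂ → F := fun t => h (x + t • v) with hφ
  have hd : DifferentiableOn ℂ φ (ball 0 ρ \ {0}) := by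
    intro t ht
    have h4 := hall t ht.1
    have h5 : AnalyticAt ℂ h (x + t • v) := h4.2.1 (h4.1 ht.2)
    exact (AnalyticAt.comp (f := fun t : ℂ => x + t • v) h5
      (by fun_prop)).differentiableAt.differentiableWithinAt
  have hbd : BddAbove (norm ∘ φ '' (ball 0 ρ \ {0})) := by
    refine ⟨C, ?_⟩
    rintro _ ⟨t, ht, rfl⟩
    have h4 := hall t ht.1
    exact h4.2.2 (h4.1 ht.2)
  have h6 := Complex.differentiableOn_update_limUnder_of_bddAbove (ball_mem_nhds 0 hρ) hd hbd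
  refine ⟨_, h6.analyticAt (ball_mem_nhds 0 hρ), ?_⟩
  filter_upwards [self_mem_nhdsWithin] with t ht
  rw [Function.update_of_ne ht]

/-- T5. **Riemann's extension theorem** across the zero set of a holomorphic function. -/
theorem riemann_extension {U : Set E} (hU : IsOpen U) {g : E → ℂ} (hg : AnalyticOnNhd ℂ g U)
    (hg0 : ∀ x ∈ U, ∃ᶠ y in 𝓝 x, g y ≠ 0) {h : E → F}
    (hh : ∀ x ∈ U, g x ≠ 0 → AnalyticAt ℂ h x)
    (hb : ∀ x ∈ U, ∃ C : ℝ, ∀ᶠ y in 𝓝 x, g y ≠ 0 → ‖h y‖ ≤ C) :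
    ∃ H : E → F, AnalyticOnNhd ℂ H U ∧ ∀ x ∈ U, g x ≠ 0 → H x = h x := by
  set H : E → F := fun x => limUnder (𝓝[{y | g y ≠ 0}] x) h with hH
  have key : ∀ p ∈ U, ∃ Hp : E → F, AnalyticAt ℂ Hp p ∧ (∀ᶠ x in 𝓝 p, g x ≠ 0 → Hp x = h x) ∧
      H =ᶠ[𝓝 p] Hp := by
    intro p hp
    have hUp : ∀ᶠ x in 𝓝 p, x ∈ U := hU.mem_nhds hp
    obtain ⟨Hp, hHp, hHpe⟩ := riemann_extension_at (hg p hp) (hg0 p hp) (hUp.mono hh) (hUp.mono hb)
    refine ⟨Hp, hHp, hHpe, ?_⟩
    filter_upwards [hHpe.eventually_nhds, hHp.eventually_analyticAt, hUp] with x h1 h2 h3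
    have : NeBot (𝓝[{y | g y ≠ 0}] x) :=
      mem_closure_iff_nhdsWithin_neBot.1 (mem_closure_iff_frequently.2 (hg0 x h3))
    refine Tendsto.limUnder_eq ?_
    have h4 : ∀ᶠ y in 𝓝[{y | g y ≠ 0}] x, Hp y = h y := by
      filter_upwards [nhdsWithin_le_nhds h1, self_mem_nhdsWithin] with y h5 h6 using h5 h6
    exact (h2.continuousAt.tendsto.mono_left nhdsWithin_le_nhds).congr' h4
  refine ⟨H, fun p hp => ?_, fun p hp hgp => ?_⟩
  · obtain ⟨Hp, hHp, -, he⟩ := key p hp
    exact hHp.congr he.symm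
  · obtain ⟨Hp, -, hHpe, he⟩ := key p hp
    rw [he.self_of_nhds, hHpe.self_of_nhds hgp]

/-! ### Normality -/

/-- Cauchy's bound for the roots of a monic polynomial. -/
theorem norm_le_of_monic_root {d : ℕ} {w : ℂ} {c : Fin d → ℂ}
    (h : w ^ d + ∑ i : Fin d, c i * w ^ (i : ℕ) = 0) : ‖w‖ ≤ max 1 (∑ i, ‖c i‖) := by
  by_contra hcon
  rw [not_le, max_lt_iff] at hcon
  obtain ⟨h1, h2⟩ := hcon
  rcases Nat.eq_zero_or_pos d with hd | hd
  · subst hd
    simp at h
  have h3 : ‖w‖ ^ d = ‖∑ i : Fin d, c i * w ^ (i : ℕ)‖ := by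
    rw [← norm_pow, eq_neg_of_add_eq_zero_left h, norm_neg]
  have h4 : ‖∑ i : Fin d, c i * w ^ (i : ℕ)‖ ≤ (∑ i : Fin d, ‖c i‖) * ‖w‖ ^ (d - 1) := by
    rw [Finset.sum_mul]
    refine (norm_sum_le _ _).trans (Finset.sum_le_sum fun i _ => ?_)
    rw [norm_mul, norm_pow]
    exact mul_le_mul_of_nonneg_left (pow_le_pow_right₀ h1.le (by omega)) (norm_nonneg _)
  have h5 : (∑ i : Fin d, ‖c i‖) * ‖w‖ ^ (d - 1) < ‖w‖ * ‖w‖ ^ (d - 1) :=
    mul_lt_mul_of_pos_right h2 (by positivity)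
  have h6 : ‖w‖ * ‖w‖ ^ (d - 1) = ‖w‖ ^ d := by
    rw [← pow_succ']
    congr 1
    omega
  linarith

/-- T5'. **Normality of the ring of germs**, in elementary form: if `a / b` is integral over the ring
of germs at `p`, then `b` divides `a`. -/
theorem exists_quotient_of_integral {p : E} {a b : E → ℂ} (ha : AnalyticAt ℂ a p)
    (hb : AnalyticAt ℂ b p) (hb0 : ∃ᶠ y in 𝓝 p, b y ≠ 0) {d : ℕ} (c : Fin d → E → ℂ)
    (hc : ∀ i, AnalyticAt ℂ (c i) p)
    (hrel : ∀ᶠ y in 𝓝 p, a y ^ d + ∑ i : Fin d, c i y * a y ^ (i : ℕ) * b y ^ (d - i) = 0) :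
    ∃ H : E → ℂ, AnalyticAt ℂ H p ∧ ∀ᶠ y in 𝓝 p, a y = H y * b y := by
  have hh : ∀ᶠ x in 𝓝 p, b x ≠ 0 → AnalyticAt ℂ (fun y => a y / b y) x := by
    filter_upwards [ha.eventually_analyticAt, hb.eventually_analyticAt] with x h1 h2 h3
    exact h1.div h2 h3
  have hcc : ∀ᶠ x in 𝓝 p, ∀ i, ContinuousAt (c i) x :=
    eventually_all.2 fun i => (hc i).eventually_analyticAt.mono fun x hx => hx.continuousAt
  have hbd : ∀ᶠ x in 𝓝 p, ∃ C : ℝ, ∀ᶠ y in 𝓝 x, b y ≠ 0 → ‖a y / b y‖ ≤ C := by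
    filter_upwards [hcc, hrel.eventually_nhds] with x h1 h2
    refine ⟨max 1 (∑ i : Fin d, (‖c i x‖ + 1)), ?_⟩
    have h3 : ∀ᶠ y in 𝓝 x, ∀ i, ‖c i y‖ < ‖c i x‖ + 1 :=
      eventually_all.2 fun i => (h1 i).norm.eventually (gt_mem_nhds (by linarith))
    filter_upwards [h2, h3] with y h4 h5 h6
    have h7 : (a y / b y) ^ d + ∑ i : Fin d, c i y * (a y / b y) ^ (i : ℕ) = 0 := by
      have h8 : (a y / b y) ^ d + ∑ i : Fin d, c i y * (a y / b y) ^ (i : ℕ) =
          (a y ^ d + ∑ i : Fin d, c i y * a y ^ (i : ℕ) * b y ^ (d - i)) / b y ^ d := by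
        rw [add_div, Finset.sum_div, div_pow]
        congr 1
        refine Finset.sum_congr rfl fun i _ => ?_
        have h9 : b y ^ d = b y ^ (i : ℕ) * b y ^ (d - i) := by
          rw [← pow_add]
          congr 1
          have := i.2
          omega
        rw [h9, div_pow]
        field_simp
      rw [h8, h4, zero_div]
    refine (norm_le_of_monic_root h7).trans (max_le_max le_rfl ?_)
    exact Finset.sum_le_sum fun i _ => (h5 i).le
  obtain ⟨H, hH, hHe⟩ := riemann_extension_at hb hb0 hh hbd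
  refine ⟨H, hH, ?_⟩
  have h1 : ∀ᶠ y in 𝓝 p, (a y - H y * b y) * b y = 0 := by
    filter_upwards [hHe] with y hy
    by_cases hby : b y = 0
    · rw [hby, mul_zero]
    · rw [hy hby, div_mul_cancel₀ _ hby, sub_self, zero_mul]
  rcases eventually_eq_zero_or_of_mul (ha.sub (hH.mul hb)) hb h1 with h2 | h2
  · exact h2.mono fun y hy => sub_eq_zero.1 hy
  · exact absurd h2 (Filter.not_eventually.2 hb0)

end Claimed.Agent.R269.SCV


/-! ## SanitySCVDivision -/


set_option autoImplicit false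

/-!
# Result 056, several complex variables: division by a submersive function
-/

namespace Claimed.Agent.R269
namespace SCV

open Filter Topology Set Metric

/-- One variable: `h τ = τ · (2πi)⁻¹ ∮ h ζ / (ζ (ζ - τ)) dζ` if `h 0 = 0`. -/
theorem eq_mul_circleIntegral_of_zero {h : ℂ → ℂ} {ρ : ℝ} (hρ : 0 < ρ)
    (hh : DifferentiableOn ℂ h (closedBall 0 ρ)) (h0 : h 0 = 0) {τ : ℂ} (hτ : τ ∈ ball (0 : ℂ) ρ) :
    h τ = τ * ((2 * Real.pi * Complex.I)⁻¹ * ∮ ζ in C(0, ρ), h ζ / (ζ * (ζ - τ))) := by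
  by_cases hτ0 : τ = 0
  · rw [hτ0, h0, zero_mul]
  have hne0 : ∀ ζ ∈ sphere (0 : ℂ) ρ, ζ ≠ 0 := by
    intro ζ hζ h
    rw [h, mem_sphere, dist_self] at hζ
    exact hρ.ne hζ
  have hneτ : ∀ ζ ∈ sphere (0 : ℂ) ρ, ζ - τ ≠ 0 := by
    intro ζ hζ h
    rw [sub_eq_zero.1 h, mem_sphere] at hζ
    exact (mem_ball.1 hτ).ne hζ
  have hcont : ContinuousOn h (sphere 0 ρ) := hh.continuousOn.mono sphere_subset_closedBall
  have hci1 : CircleIntegrable (fun ζ => (ζ - τ)⁻¹ • h ζ) 0 ρ := by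
    apply ContinuousOn.circleIntegrable hρ.le
    exact ((continuousOn_id.sub continuousOn_const).inv₀ hneτ).smul hcont
  have hci2 : CircleIntegrable (fun ζ => (ζ - 0)⁻¹ • h ζ) 0 ρ := by
    apply ContinuousOn.circleIntegrable hρ.le
    refine ((continuousOn_id.sub continuousOn_const).inv₀ ?_).smul hcont
    intro ζ hζ
    simpa using hne0 ζ hζ
  have hint : ∀ ζ ∈ sphere (0 : ℂ) ρ, h ζ / (ζ * (ζ - τ)) =
      τ⁻¹ * ((ζ - τ)⁻¹ • h ζ - (ζ - 0)⁻¹ • h ζ) := by
    intro ζ hζ
    have h1 := hne0 ζ hζ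
    have h2 := hneτ ζ hζ
    simp only [smul_eq_mul, sub_zero]
    field_simp
    ring
  rw [circleIntegral.integral_congr hρ.le hint, circleIntegral.integral_const_mul,
    circleIntegral.integral_sub hci1 hci2, hh.circleIntegral_sub_inv_smul hτ,
    hh.circleIntegral_sub_inv_smul (mem_ball_self hρ), h0]
  have := Complex.two_pi_I_ne_zero
  simp only [smul_eq_mul, mul_zero, sub_zero]
  field_simp

variable {E : Type*} [NormedAddCommGroup E] [NormedSpace ℂ E] [FiniteDimensional ℂ E]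

/-- Division by an affine function. -/
theorem exists_eq_mul_of_vanishing_linear {H : E → ℂ} {y v : E} (ℓ : E →L[ℂ] ℂ) (hv : ℓ v = 1)
    (hH : AnalyticAt ℂ H y) (hvan : ∀ᶠ u in 𝓝 y, ℓ (u - y) = 0 → H u = 0) :
    ∃ H₁ : E → ℂ, AnalyticAt ℂ H₁ y ∧ ∀ᶠ u in 𝓝 y, H u = ℓ (u - y) * H₁ u := by
  let m : E × ℂ → E := fun p => p.1 - ℓ (p.1 - y) • v + p.2 • v
  have hm : ∀ p, AnalyticAt ℂ m p := fun p =>
    (analyticAt_fst.sub (((ℓ.analyticAt _).comp (analyticAt_fst.sub analyticAt_const)).smul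
      analyticAt_const)).add (analyticAt_snd.smul analyticAt_const)
  have hmy : ∀ ζ : ℂ, m (y, ζ) = y + ζ • v := fun ζ => by simp [m]
  -- choice of the radius
  obtain ⟨ρ, hρ, hρH⟩ : ∃ ρ : ℝ, 0 < ρ ∧ ∀ ζ ∈ closedBall (0 : ℂ) ρ, AnalyticAt ℂ H (y + ζ • v) := by
    have hc : ContinuousAt (fun ζ : ℂ => y + ζ • v) 0 := by fun_prop
    have h1 : ∀ᶠ ζ in 𝓝 (0 : ℂ), AnalyticAt ℂ H (y + ζ • v) := by
      apply hc.eventually
      simpa using hH.eventually_analyticAt
    obtain ⟨ρ, hρ, h2⟩ := Metric.eventually_nhds_iff.1 h1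
    refine ⟨ρ / 2, by positivity, fun ζ hζ => h2 ?_⟩
    have := mem_closedBall.1 hζ
    linarith
  let F : E × ℂ → ℂ := fun p => H (m p) / (p.2 * (p.2 - ℓ (p.1 - y)))
  let H₁ : E → ℂ := fun u => (2 * Real.pi * Complex.I)⁻¹ * ∮ ζ in C(0, ρ), F (u, ζ)
  have hne0 : ∀ ζ ∈ sphere (0 : ℂ) ρ, ζ ≠ 0 := by
    intro ζ hζ h
    rw [h, mem_sphere, dist_self] at hζ
    exact hρ.ne hζ
  refine ⟨H₁, ?_, ?_⟩
  · refine analyticAt_const.mul (analyticAt_circleIntegral hρ.le fun ζ hζ => ?_)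
    have h1 : AnalyticAt ℂ (fun p => H (m p)) (y, ζ) := by
      refine AnalyticAt.comp (g := H) (f := m) ?_ (hm _)
      rw [hmy]
      exact hρH ζ (sphere_subset_closedBall hζ)
    refine h1.div (analyticAt_snd.mul (analyticAt_snd.sub
      ((ℓ.analyticAt _).comp (analyticAt_fst.sub analyticAt_const)))) ?_
    simpa using hne0 ζ hζ
  · have hE1 : ∀ᶠ u in 𝓝 y, ∀ ζ ∈ closedBall (0 : ℂ) ρ, AnalyticAt ℂ H (m (u, ζ)) := by
      apply (isCompact_closedBall (0 : ℂ) ρ).eventually_forall_of_forall_eventually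
      intro ζ hζ
      apply (hm (y, ζ)).continuousAt.eventually
      rw [hmy]
      exact (hρH ζ hζ).eventually_analyticAt
    have hE2 : ∀ᶠ u in 𝓝 y, ℓ (u - y) ∈ ball (0 : ℂ) ρ := by
      have hc : ContinuousAt (fun u : E => ℓ (u - y)) y := by fun_prop
      exact hc.eventually_mem (by simpa using ball_mem_nhds (0 : ℂ) hρ)
    have hE3 : ∀ᶠ u in 𝓝 y, H (m (u, 0)) = 0 := by
      have hc : ContinuousAt (fun u : E => m (u, 0)) y :=
        ContinuousAt.comp (f := fun u : E => (u, (0 : ℂ))) (hm (y, 0)).continuousAt (by fun_prop)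
      have h1 : ∀ᶠ u in 𝓝 y, ℓ (m (u, 0) - y) = 0 → H (m (u, 0)) = 0 := by
        refine hc.eventually (p := fun w => ℓ (w - y) = 0 → H w = 0) ?_
        show ∀ᶠ w in 𝓝 (m (y, 0)), _
        rw [hmy, zero_smul, add_zero]
        exact hvan
      filter_upwards [h1] with u hu
      apply hu
      simp only [m, zero_smul, add_zero, map_sub, map_smul, hv, smul_eq_mul, mul_one]
      ring
    filter_upwards [hE1, hE2, hE3] with u hu1 hu2 hu3
    have hd : DifferentiableOn ℂ (fun ζ : ℂ => H (m (u, ζ))) (closedBall 0 ρ) := by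
      intro ζ hζ
      have h2 : AnalyticAt ℂ (fun ζ : ℂ => m (u, ζ)) ζ := (hm (u, ζ)).curry_right
      exact (AnalyticAt.comp (g := H) (f := fun ζ : ℂ => m (u, ζ)) (hu1 ζ hζ)
        h2).differentiableAt.differentiableWithinAt
    have key := eq_mul_circleIntegral_of_zero hρ hd hu3 hu2
    have hmu : m (u, ℓ (u - y)) = u := by simp [m]
    rw [hmu] at key
    exact key

/-- **Division by a submersive function.** -/
theorem exists_eq_mul_of_vanishing {φ G : E → ℂ} {y : E} (hφ : AnalyticAt ℂ φ y)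
    (hdφ : fderiv ℂ φ y ≠ 0) (hG : AnalyticAt ℂ G y) (hv : ∀ᶠ w in 𝓝 y, φ w = 0 → G w = 0) :
    ∃ G₁ : E → ℂ, AnalyticAt ℂ G₁ y ∧ ∀ᶠ w in 𝓝 y, G w = φ w * G₁ w := by
  by_cases hφy : φ y = 0
  swap
  · refine ⟨fun w => G w / φ w, hG.div hφ hφy, ?_⟩
    filter_upwards [hφ.continuousAt.eventually_ne hφy] with w hw
    field_simp
  set ℓ : E →L[ℂ] ℂ := fderiv ℂ φ y with hℓ
  obtain ⟨v, hv1⟩ : ∃ v, ℓ v = 1 := by
    obtain ⟨v₀, hv₀⟩ : ∃ v₀, ℓ v₀ ≠ 0 := by
      by_contra hcon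
      push Not at hcon
      exact hdφ (ContinuousLinearMap.ext hcon)
    exact ⟨(ℓ v₀)⁻¹ • v₀, by rw [map_smul, smul_eq_mul, inv_mul_cancel₀ hv₀]⟩
  let Φ : E → E := fun w => w + (φ w - ℓ (w - y)) • v
  have hΦan : AnalyticAt ℂ Φ y :=
    analyticAt_id.add ((hφ.sub ((ℓ.analyticAt _).comp (analyticAt_id.sub analyticAt_const))).smul
      analyticAt_const)
  have hΦy : Φ y = y := by simp [Φ, hφy]
  have hΦℓ : ∀ w, ℓ (Φ w - y) = φ w := by
    intro w
    have : Φ w - y = (w - y) + (φ w - ℓ (w - y)) • v := by simp only [Φ]; abel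
    rw [this, map_add, map_smul, hv1, smul_eq_mul, mul_one]
    ring
  have hΦd : HasFDerivAt Φ ((ContinuousLinearEquiv.refl ℂ E : E ≃L[ℂ] E) : E →L[ℂ] E) y := by
    have h1 : HasFDerivAt φ ℓ y := hφ.differentiableAt.hasFDerivAt
    have h2 : HasFDerivAt (fun w => ℓ (w - y)) ℓ y := by
      have := ℓ.hasFDerivAt.comp y ((hasFDerivAt_id y).sub_const y)
      rw [ContinuousLinearMap.comp_id] at this
      exact this
    have h3 : HasFDerivAt Φ (ContinuousLinearMap.id ℂ E + (ℓ - ℓ).smulRight v) y :=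
      (hasFDerivAt_id y).add ((h1.sub h2).smul_const v)
    have h4 : ContinuousLinearMap.id ℂ E + (ℓ - ℓ).smulRight v =
        ((ContinuousLinearEquiv.refl ℂ E : E ≃L[ℂ] E) : E →L[ℂ] E) := by
      ext w
      simp
    rw [← h4]
    exact h3
  have hcd : ContDiffAt ℂ ⊤ Φ y := hΦan.contDiffAt
  have hn : (⊤ : WithTop ℕ∞) ≠ 0 := by simp
  let Ψ : E → E := hcd.localInverse hΦd hn
  have hΨan : AnalyticAt ℂ Ψ y := by
    have := hcd.to_localInverse hΦd hn
    rw [hΦy] at this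
    exact this.analyticAt
  have hstrict : HasStrictFDerivAt Φ ((ContinuousLinearEquiv.refl ℂ E : E ≃L[ℂ] E) : E →L[ℂ] E) y :=
    hcd.hasStrictFDerivAt' hΦd hn
  have hΨy : Ψ y = y := by
    have := hcd.localInverse_apply_image hΦd hn
    rw [hΦy] at this
    exact this
  have hright : ∀ᶠ u in 𝓝 y, Φ (Ψ u) = u := by
    have := hstrict.eventually_right_inverse
    rw [hΦy] at this
    exact this
  have hleft : ∀ᶠ w in 𝓝 y, Ψ (Φ w) = w := hstrict.eventually_left_inverse
  have hHan : AnalyticAt ℂ (fun u => G (Ψ u)) y := by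
    refine AnalyticAt.comp (g := G) (f := Ψ) ?_ hΨan
    rw [hΨy]; exact hG
  have hHvan : ∀ᶠ u in 𝓝 y, ℓ (u - y) = 0 → G (Ψ u) = 0 := by
    have h1 : ∀ᶠ u in 𝓝 y, φ (Ψ u) = 0 → G (Ψ u) = 0 := by
      refine hΨan.continuousAt.eventually (p := fun w => φ w = 0 → G w = 0) ?_
      rw [hΨy]; exact hv
    filter_upwards [h1, hright] with u hu1 hu2 hu3
    apply hu1
    rw [← hΦℓ, hu2, hu3]
  obtain ⟨H₁, hH₁, hH₁e⟩ := exists_eq_mul_of_vanishing_linear ℓ hv1 hHan hHvan
  refine ⟨fun w => H₁ (Φ w), ?_, ?_⟩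
  · refine AnalyticAt.comp (g := H₁) (f := Φ) ?_ hΦan
    rw [hΦy]; exact hH₁
  · have h2 : ∀ᶠ w in 𝓝 y, G (Ψ (Φ w)) = ℓ (Φ w - y) * H₁ (Φ w) := by
      refine hΦan.continuousAt.eventually (p := fun u => G (Ψ u) = ℓ (u - y) * H₁ u) ?_
      rw [hΦy]; exact hH₁e
    filter_upwards [h2, hleft] with w hw1 hw2
    rw [hw2, hΦℓ] at hw1
    exact hw1

end SCV
end Claimed.Agent.R269
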