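/-
Row 269, library L1-SCV, part 0 (owner: helper270).

* `SCV.analyticOnNhd_of_differentiableOn` : a complex differentiable function on an open subset of a finite-dimensional
  complex space (e.g. `ℂ × ℂ`) is analytic;
* `SCV.analyticOnNhd_iff_differentiableOn`;
* `SCV.eqOn_of_differentiableOn` : identity theorem for differentiable functions on a preconnected open set.
-/
import Claimed.Agent.R269.Lib.SCVa

set_option autoImplicit false

namespace Claimed.Agent.R269
namespace SCV

open Set Metric Filter Topology Real Complex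

variable {E : Type*} [NormedAddCommGroup E] [NormedSpace ℂ E]
variable {G : Type*} [NormedAddCommGroup G] [NormedSpace ℂ G] [CompleteSpace G]

/-- Cauchy's formula for a directional derivative. -/
theorem fderiv_apply_eq_circleIntegral {f : E → G} {U : Set E} (hU : IsOpen U)
    (hf : DifferentiableOn ℂ f U) {z v : E} {r : ℝ} (hr : 0 < r)
    (hz : ∀ s ∈ closedBall (0 : ℂ) r, z + s • v ∈ U) :
    fderiv ℂ f z v = (2 * π * I : ℂ)⁻¹ • ∮ s in C(0, r), (s ^ 2)⁻¹ • f (z + s • v) := by
  set ℓ : ℂ → E := fun s => z + s • v with hℓ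
  have hℓd : ∀ s, HasDerivAt ℓ v s := fun s => by
    have h1 : HasDerivAt (fun s : ℂ => s • v) ((1 : ℂ) • v) s := (hasDerivAt_id s).smul_const v
    rw [one_smul] at h1
    exact h1.const_add z
  have hℓc : Continuous ℓ := by fun_prop
  have hV : IsOpen (ℓ ⁻¹' U) := hU.preimage hℓc
  have hg : DifferentiableOn ℂ (f ∘ ℓ) (ℓ ⁻¹' U) := fun s hs =>
    ((hf.differentiableAt (hU.mem_nhds hs)).comp s (hℓd s).differentiableAt).differentiableWithinAt
  have h1 := Complex.two_pi_I_inv_smul_circleIntegral_sub_sq_inv_smul_of_differentiable hV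
    (c := 0) (w₀ := 0) (R := r) (fun s hs => hz s hs) hg (mem_ball_self hr)
  have hz0 : z ∈ U := by simpa using hz 0 (mem_closedBall_self hr.le)
  have h2 : deriv (f ∘ ℓ) 0 = fderiv ℂ f z v := by
    have h3 : HasFDerivAt f (fderiv ℂ f z) (ℓ 0) := by
      have : ℓ 0 = z := by simp [hℓ]
      rw [this]
      exact (hf.differentiableAt (hU.mem_nhds hz0)).hasFDerivAt
    exact (h3.comp_hasDerivAt 0 (hℓd 0)).deriv
  rw [← h2, ← h1]
  simp only [sub_zero, Function.comp_apply, hℓ]

/-- Directional derivatives of a complex differentiable function are continuous. -/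
theorem continuousOn_fderiv_apply {f : E → G} {U : Set E} (hU : IsOpen U)
    (hf : DifferentiableOn ℂ f U) (v : E) : ContinuousOn (fun z => fderiv ℂ f z v) U := by
  intro z₀ hz₀
  refine ContinuousAt.continuousWithinAt ?_
  -- a radius
  have hc0 : ContinuousAt (fun p : E × ℂ => p.1 + p.2 • v) (z₀, 0) := by fun_prop
  have hmem : ∀ᶠ p : E × ℂ in 𝓝 (z₀, 0), p.1 + p.2 • v ∈ U :=
    hc0.eventually (by simpa using hU.mem_nhds hz₀)
  obtain ⟨δ, hδ, hδU⟩ := Metric.eventually_nhds_iff_ball.1 hmem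
  set r : ℝ := δ / 2 with hr
  have hr0 : 0 < r := by positivity
  have hin : ∀ z ∈ ball z₀ δ, ∀ s ∈ closedBall (0 : ℂ) r, z + s • v ∈ U := by
    intro z hz s hs
    refine hδU (z, s) ?_
    rw [mem_ball, Prod.dist_eq, max_lt_iff]
    refine ⟨hz, lt_of_le_of_lt (mem_closedBall.1 hs) (by rw [hr]; linarith)⟩
  rw [Metric.continuousAt_iff]
  intro ε hε
  -- uniform closeness on the circle
  have hK : IsCompact (sphere (0 : ℂ) r) := isCompact_sphere 0 r
  have hunif : ∀ᶠ z in 𝓝 z₀, ∀ s ∈ sphere (0 : ℂ) r,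
      ‖f (z + s • v) - f (z₀ + s • v)‖ < ε * r / 2 := by
    refine hK.eventually_forall_of_forall_eventually fun s hs => ?_
    have hs' : s ∈ closedBall (0 : ℂ) r := sphere_subset_closedBall hs
    have hcont : ContinuousAt (fun p : E × ℂ => f (p.1 + p.2 • v) - f (z₀ + p.2 • v)) (z₀, s) := by
      have h1 : ContinuousAt f (z₀ + s • v) :=
        (hf.differentiableAt (hU.mem_nhds (hin z₀ (mem_ball_self hδ) s hs'))).continuousAt
      have h2 : ContinuousAt (fun p : E × ℂ => p.1 + p.2 • v) (z₀, s) := by fun_prop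
      have h3 : ContinuousAt (fun p : E × ℂ => z₀ + p.2 • v) (z₀, s) := by fun_prop
      have h2' : ContinuousAt (fun p : E × ℂ => f (p.1 + p.2 • v)) (z₀, s) :=
        ContinuousAt.comp (f := fun p : E × ℂ => p.1 + p.2 • v) (g := f) h1 h2
      have h3' : ContinuousAt (fun p : E × ℂ => f (z₀ + p.2 • v)) (z₀, s) :=
        ContinuousAt.comp (f := fun p : E × ℂ => z₀ + p.2 • v) (g := f) h1 h3
      exact h2'.sub h3'
    have h4 : ∀ᶠ p : E × ℂ in 𝓝 (z₀, s), ‖f (p.1 + p.2 • v) - f (z₀ + p.2 • v)‖ < ε * r / 2 := by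
      have h6 : ‖f (z₀ + s • v) - f (z₀ + s • v)‖ < ε * r / 2 := by
        rw [sub_self, norm_zero]
        positivity
      have h5 := hcont.norm.eventually (Iio_mem_nhds h6)
      exact h5
    exact h4
  obtain ⟨η, hη, hηb⟩ := Metric.eventually_nhds_iff_ball.1 (hunif.and (ball_mem_nhds z₀ hδ))
  refine ⟨η, hη, fun z hz => ?_⟩
  obtain ⟨h1, h2⟩ := hηb z hz
  rw [fderiv_apply_eq_circleIntegral hU hf hr0 (hin z h2),
    fderiv_apply_eq_circleIntegral hU hf hr0 (hin z₀ (mem_ball_self hδ)), dist_eq_norm, ← smul_sub]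
  have hci : ∀ z ∈ ball z₀ δ, CircleIntegrable (fun s : ℂ => (s ^ 2)⁻¹ • f (z + s • v)) 0 r := by
    intro z hz
    refine ContinuousOn.circleIntegrable hr0.le (ContinuousOn.smul ?_ ?_)
    · refine ContinuousOn.inv₀ (by fun_prop) fun s hs => ?_
      have : s ≠ 0 := fun h => by
        rw [h, mem_sphere_iff_norm, sub_zero, norm_zero] at hs
        exact hr0.ne hs
      exact pow_ne_zero 2 this
    · intro s hs
      have h3 : ContinuousAt f (z + s • v) :=
        (hf.differentiableAt (hU.mem_nhds (hin z hz s (sphere_subset_closedBall hs)))).continuousAt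
      have h4 : ContinuousAt (fun s : ℂ => z + s • v) s := by fun_prop
      exact (ContinuousAt.comp (f := fun s : ℂ => z + s • v) (g := f) h3 h4).continuousWithinAt
  rw [← circleIntegral.integral_sub (hci z h2) (hci z₀ (mem_ball_self hδ))]
  have hbound : ‖∮ s in C(0, r), ((s ^ 2)⁻¹ • f (z + s • v) - (s ^ 2)⁻¹ • f (z₀ + s • v))‖
      ≤ 2 * π * r * ((r ^ 2)⁻¹ * (ε * r / 2)) := by
    refine circleIntegral.norm_integral_le_of_norm_le_const hr0.le fun s hs => ?_
    rw [← smul_sub, norm_smul, norm_inv, norm_pow]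
    have hs' : ‖s‖ = r := by simpa using hs
    rw [hs']
    exact mul_le_mul_of_nonneg_left (h1 s hs).le (by positivity)
  rw [norm_smul]
  have h2π : ‖(2 * π * I : ℂ)⁻¹‖ = (2 * π)⁻¹ := by
    rw [norm_inv, norm_mul, norm_mul, Complex.norm_I, mul_one, Complex.norm_ofNat,
      Complex.norm_real, Real.norm_of_nonneg pi_pos.le]
  rw [h2π]
  calc (2 * π)⁻¹ * ‖∮ s in C(0, r), ((s ^ 2)⁻¹ • f (z + s • v) - (s ^ 2)⁻¹ • f (z₀ + s • v))‖
      ≤ (2 * π)⁻¹ * (2 * π * r * ((r ^ 2)⁻¹ * (ε * r / 2))) :=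
        mul_le_mul_of_nonneg_left hbound (by positivity)
    _ = ε / 2 := by
        have := pi_pos.ne'
        field_simp
    _ < ε := by linarith

/-- **A complex differentiable function of several variables is analytic.** -/
theorem analyticOnNhd_of_differentiableOn [FiniteDimensional ℂ E] {f : E → G} {U : Set E}
    (hU : IsOpen U) (hf : DifferentiableOn ℂ f U) : AnalyticOnNhd ℂ f U := by
  refine analyticOnNhd_of_contDiffOn_one hU ?_
  have h1 : ContDiffOn ℂ (0 + 1) f U := by
    rw [contDiffOn_succ_iff_fderiv_of_isOpen hU]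
    refine ⟨hf, fun h => absurd h (by simp), ?_⟩
    rw [contDiffOn_zero]
    exact continuousOn_clm_apply.2 fun v => continuousOn_fderiv_apply hU hf v
  simpa using h1

theorem analyticOnNhd_iff_differentiableOn [FiniteDimensional ℂ E] {f : E → G} {U : Set E}
    (hU : IsOpen U) : AnalyticOnNhd ℂ f U ↔ DifferentiableOn ℂ f U :=
  ⟨fun h => h.differentiableOn, analyticOnNhd_of_differentiableOn hU⟩

theorem analyticAt_of_differentiableOn [FiniteDimensional ℂ E] {f : E → G} {U : Set E}
    (hf : DifferentiableOn ℂ f U) {z : E} (hz : U ∈ 𝓝 z) : AnalyticAt ℂ f z := by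
  obtain ⟨V, hVU, hV, hzV⟩ := _root_.mem_nhds_iff.1 hz
  exact analyticOnNhd_of_differentiableOn hV (hf.mono hVU) z hzV

/-- Identity theorem for complex differentiable functions of several variables. -/
theorem eqOn_of_differentiableOn [FiniteDimensional ℂ E] {f g : E → G} {U : Set E} (hU : IsOpen U)
    (hUc : IsPreconnected U) (hf : DifferentiableOn ℂ f U) (hg : DifferentiableOn ℂ g U) {z₀ : E}
    (hz₀ : z₀ ∈ U) (h : f =ᶠ[𝓝 z₀] g) : EqOn f g U :=
  (analyticOnNhd_of_differentiableOn hU hf).eqOn_of_preconnected_of_eventuallyEq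
    (analyticOnNhd_of_differentiableOn hU hg) hUc hz₀ h

end SCV
end Claimed.Agent.R269
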