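/-
Row 269, library L1-SCV (owner helper270): orders along a hyperplane (port of the open056 library).

* `SCV.exists_eq_pow_mul`: an analytic germ `g ≢ 0` is `ℓ ^ e · g₁` with `g₁` not identically zero on the hyperplane `ℓ = 0`.
-/
import Claimed.Agent.R269.Lib.SCV0

set_option autoImplicit false

namespace Claimed.Agent.R269
namespace SCV

open Filter Topology Set

noncomputable section

section Order

variable {E : Type*} [NormedAddCommGroup E] [NormedSpace ℂ E] [FiniteDimensional ℂ E]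

omit [FiniteDimensional ℂ E] in
theorem analyticAt_line {g : E → ℂ} {y : E} (hg : AnalyticAt ℂ g y) (ν : E) :
    AnalyticAt ℂ (fun t : ℂ => g (y + t • ν)) 0 := by
  have h1 : AnalyticAt ℂ g (y + (0 : ℂ) • ν) := by simpa using hg
  exact AnalyticAt.comp (f := fun t : ℂ => y + t • ν) h1 (by fun_prop)

theorem exists_eq_pow_mul_aux (ℓ : E →L[ℂ] ℂ) {v : E} (hv : ℓ v = 1) (y ν : E) (N : ℕ) :
    ∀ g : E → ℂ, AnalyticAt ℂ g y → analyticOrderAt (fun t : ℂ => g (y + t • ν)) 0 < (N : ℕ∞) →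
      ∃ (e : ℕ) (g₁ : E → ℂ), AnalyticAt ℂ g₁ y ∧ (∀ᶠ u in 𝓝 y, g u = ℓ (u - y) ^ e * g₁ u) ∧
        ∃ᶠ u in 𝓝 y, ℓ (u - y) = 0 ∧ g₁ u ≠ 0 := by
  induction N with
  | zero =>
    intro g _ hN
    simp at hN
  | succ N ih =>
    intro g hg hN
    by_cases hvan : ∀ᶠ u in 𝓝 y, ℓ (u - y) = 0 → g u = 0
    · obtain ⟨g', hg', hge⟩ := exists_eq_mul_of_vanishing_linear ℓ hv hg hvan
      have hlin : AnalyticAt ℂ (fun t : ℂ => ℓ (t • ν)) 0 :=
        AnalyticAt.comp (f := fun t : ℂ => t • ν) (ℓ.analyticAt _) (by fun_prop)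
      have hline : Tendsto (fun t : ℂ => y + t • ν) (𝓝 0) (𝓝 y) := by
        have : Tendsto (fun t : ℂ => y + t • ν) (𝓝 0) (𝓝 (y + (0 : ℂ) • ν)) :=
          Continuous.tendsto (by fun_prop) 0
        rwa [zero_smul, add_zero] at this
      have hcongr : (fun t : ℂ => g (y + t • ν)) =ᶠ[𝓝 0]
          (fun t : ℂ => ℓ (t • ν)) * fun t : ℂ => g' (y + t • ν) := by
        filter_upwards [hline.eventually hge] with t ht
        simp only [Pi.mul_apply, ht, add_sub_cancel_left]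
      rw [analyticOrderAt_congr hcongr, analyticOrderAt_mul hlin (analyticAt_line hg' ν)] at hN
      have h1 : (1 : ℕ∞) ≤ analyticOrderAt (fun t : ℂ => ℓ (t • ν)) 0 := by
        rw [Order.one_le_iff_ne_zero, analyticOrderAt_ne_zero]
        exact ⟨hlin, by simp⟩
      have h2 : analyticOrderAt (fun t : ℂ => g' (y + t • ν)) 0 < (N : ℕ∞) := by
        have h3 : 1 + analyticOrderAt (fun t : ℂ => g' (y + t • ν)) 0 < ((N + 1 : ℕ) : ℕ∞) :=
          lt_of_le_of_lt (add_le_add_left h1 _) hN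
        generalize analyticOrderAt (fun t : ℂ => g' (y + t • ν)) 0 = a at h3
        cases a with
        | top => simp at h3
        | coe a =>
          norm_cast at h3 ⊢
          omega
      obtain ⟨e, g₁, hg₁, hg₁e, hfreq⟩ := ih g' hg' h2
      refine ⟨e + 1, g₁, hg₁, ?_, hfreq⟩
      filter_upwards [hge, hg₁e] with u hu1 hu2
      rw [hu1, hu2]
      ring
    · refine ⟨0, g, hg, Eventually.of_forall fun u => by simp, ?_⟩
      exact (Filter.not_eventually.1 hvan).mono fun u hu => Classical.not_imp.1 hu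

/-- **The order along a hyperplane.** -/
theorem exists_eq_pow_mul (ℓ : E →L[ℂ] ℂ) {v : E} (hv : ℓ v = 1) {y : E} {g : E → ℂ}
    (hg : AnalyticAt ℂ g y) (h0 : ∃ᶠ u in 𝓝 y, g u ≠ 0) :
    ∃ (e : ℕ) (g₁ : E → ℂ), AnalyticAt ℂ g₁ y ∧ (∀ᶠ u in 𝓝 y, g u = ℓ (u - y) ^ e * g₁ u) ∧
      ∃ᶠ u in 𝓝 y, ℓ (u - y) = 0 ∧ g₁ u ≠ 0 := by
  obtain ⟨ν, hν⟩ := exists_good_direction hg h0
  have h1 : analyticOrderAt (fun t : ℂ => g (y + t • ν)) 0 ≠ ⊤ := by
    rw [Ne, analyticOrderAt_eq_top]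
    exact fun h => hν (h.mono fun t ht => not_not.2 ht)
  obtain ⟨N, hN⟩ := ENat.ne_top_iff_exists.1 h1
  refine exists_eq_pow_mul_aux ℓ hv y ν (N + 1) g hg ?_
  rw [← hN]
  norm_cast
  omega

end Order

end

end SCV

open Filter Topology Set in
/-- **Analytic implicit function theorem**, scalar unknown. -/
theorem exists_implicit {E : Type*} [NormedAddCommGroup E] [NormedSpace ℂ E] [CompleteSpace E]
    {Φ : E × ℂ → ℂ} {u : E × ℂ} (hΦ : AnalyticAt ℂ Φ u)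
    (hd : deriv (fun x => Φ (u.1, x)) u.2 ≠ 0) :
    ∃ ψ : E → ℂ, AnalyticAt ℂ ψ u.1 ∧ ψ u.1 = u.2 ∧ (∀ᶠ w in 𝓝 u.1, Φ (w, ψ w) = Φ u) ∧
      ∀ᶠ v in 𝓝 u, Φ v = Φ u ↔ ψ v.1 = v.2 := by
  have cdf : ContDiffAt ℂ ⊤ Φ u := hΦ.contDiffAt
  have h1 : HasDerivAt (fun x : ℂ => (u.1, x)) ((0 : E), (1 : ℂ)) u.2 :=
    (hasDerivAt_const u.2 u.1).prodMk (hasDerivAt_id u.2)
  have h2 : HasFDerivAt Φ (fderiv ℂ Φ u) ((fun x : ℂ => (u.1, x)) u.2) :=
    hΦ.differentiableAt.hasFDerivAt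
  have h3 : deriv (fun x => Φ (u.1, x)) u.2 = fderiv ℂ Φ u (0, 1) :=
    (h2.comp_hasDerivAt u.2 h1).deriv
  have inv : (fderiv ℂ Φ u ∘L ContinuousLinearMap.inr ℂ E ℂ).IsInvertible := by
    refine ⟨ContinuousLinearEquiv.unitsEquivAut ℂ (Units.mk0 _ hd), ?_⟩
    ext
    simp [h3]
  have pn : (⊤ : WithTop ℕ∞) ≠ 0 := by simp
  refine ⟨cdf.implicitFunction pn inv, ?_, cdf.implicitFunction_apply_self pn inv,
    cdf.eventually_apply_implicitFunction pn inv,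
    cdf.eventually_apply_eq_iff_implicitFunction pn inv⟩
  exact (cdf.contDiffAt_implicitFunction pn inv).analyticAt

end Claimed.Agent.R269
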