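/-
Row 269, library L3-CA1 (HOST-FREE, Mathlib only).  LF-CA1-prim: holomorphic logarithms, roots, primitives, local inverses.
Owner: helper221.  `ca_exists_log` is the general form; the last three statements are verbatim those of `Lib/CA1.lean`.
-/
import Mathlib

set_option autoImplicit false

namespace Claimed.Agent.R269

open Complex Filter Topology MeasureTheory
open scoped Real

/-- primitive on an open convex set, with `HasDerivAt`. -/
theorem ca_exists_primitive {f : ℂ → ℂ} {U : Set ℂ} (hU : IsOpen U) (hc : Convex ℝ U)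
    (hf : DifferentiableOn ℂ f U) (y₀ w₀ : ℂ) :
    ∃ g : ℂ → ℂ, g y₀ = w₀ ∧ ∀ y ∈ U, HasDerivAt g (f y) y := by
  obtain ⟨g, hg⟩ := hc.exists_forall_hasDerivWithinAt hf
  refine ⟨fun y => g y - g y₀ + w₀, by simp, fun y hy => ?_⟩
  have := ((hg y hy).hasDerivAt (hU.mem_nhds hy))
  simpa using (this.sub_const (g y₀)).add_const w₀

/-- holomorphic logarithm of a zero-free holomorphic function on an open convex set, prescribed value at one point. -/
theorem ca_exists_log {v : ℂ → ℂ} {U : Set ℂ} (hU : IsOpen U) (hc : Convex ℝ U)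
    (hv : DifferentiableOn ℂ v U) (h0 : ∀ y ∈ U, v y ≠ 0) {y₀ L₀ : ℂ} (hy₀ : y₀ ∈ U)
    (hl : Complex.exp L₀ = v y₀) :
    ∃ L : ℂ → ℂ, L y₀ = L₀ ∧ (∀ y ∈ U, HasDerivAt L (deriv v y / v y) y) ∧
      ∀ y ∈ U, Complex.exp (L y) = v y := by
  have hq : DifferentiableOn ℂ (fun y => deriv v y / v y) U := (hv.deriv hU).div hv h0
  obtain ⟨L, hL0, hL⟩ := ca_exists_primitive hU hc hq y₀ L₀
  refine ⟨L, hL0, hL, ?_⟩
  -- `h = v * exp (-L)` is constant
  have hd : ∀ y ∈ U, HasDerivAt (fun y => v y * Complex.exp (-L y)) 0 y := by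
    intro y hy
    have h1 : HasDerivAt v (deriv v y) y := (hv.differentiableAt (hU.mem_nhds hy)).hasDerivAt
    have h2 : HasDerivAt (fun y => Complex.exp (-L y)) (Complex.exp (-L y) * -(deriv v y / v y)) y :=
      ((hL y hy).neg).cexp
    have h3 := h1.mul h2
    have : deriv v y * Complex.exp (-L y) + v y * (Complex.exp (-L y) * -(deriv v y / v y)) = 0 := by
      have := h0 y hy
      field_simp
      ring
    rw [this] at h3
    exact h3
  have hconst : ∀ y ∈ U, v y * Complex.exp (-L y) = v y₀ * Complex.exp (-L y₀) := by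
    intro y hy
    have hdiff : DifferentiableOn ℂ (fun y => v y * Complex.exp (-L y)) U :=
      fun z hz => (hd z hz).differentiableAt.differentiableWithinAt
    refine hc.is_const_of_fderivWithin_eq_zero (𝕜 := ℂ) hdiff ?_ hy hy₀
    intro z hz
    rw [fderivWithin_of_isOpen hU hz]
    have := (hd z hz).hasFDerivAt.fderiv
    rw [this]
    ext
    simp
  intro y hy
  have h1 := hconst y hy
  rw [hL0, ← hl, ← Complex.exp_add, add_neg_cancel, Complex.exp_zero] at h1
  have h2 : v y * (Complex.exp (-L y) * Complex.exp (L y)) = Complex.exp (L y) := by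
    rw [← mul_assoc, h1, one_mul]
  rw [← Complex.exp_add, neg_add_cancel, Complex.exp_zero, mul_one] at h2
  exact h2.symm

/-- verbatim `exists_root_primitive` of `Lib/CA1.lean`. -/
theorem ca_exists_root_primitive {r : ℂ → ℂ} {c : ℂ} {ε : ℝ} {n : ℕ} (hn : 0 < n)
    (hr : DifferentiableOn ℂ r (Metric.ball c ε)) (h0 : ∀ y ∈ Metric.ball c ε, r y ≠ 0) :
    ∃ σ : ℂ → ℂ, DifferentiableOn ℂ σ (Metric.ball c ε) ∧
      ∀ y ∈ Metric.ball c ε, deriv σ y ^ n = r y := by
  rcases le_or_gt ε 0 with hε | hε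
  · refine ⟨fun _ => 0, differentiableOn_const _, fun y hy => ?_⟩
    rw [Metric.ball_eq_empty.2 hε] at hy
    exact absurd hy (Set.notMem_empty _)
  have hc : c ∈ Metric.ball c ε := Metric.mem_ball_self hε
  obtain ⟨L, -, hL, hexp⟩ := ca_exists_log Metric.isOpen_ball (convex_ball c ε) hr h0 hc
    (Complex.exp_log (h0 c hc))
  have hρ : DifferentiableOn ℂ (fun y => Complex.exp (L y / n)) (Metric.ball c ε) := by
    intro y hy
    exact (((hL y hy).div_const (n : ℂ)).cexp).differentiableAt.differentiableWithinAt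
  obtain ⟨σ, -, hσ⟩ := ca_exists_primitive Metric.isOpen_ball (convex_ball c ε) hρ c 0
  refine ⟨σ, fun y hy => (hσ y hy).differentiableAt.differentiableWithinAt, fun y hy => ?_⟩
  rw [(hσ y hy).deriv, ← Complex.exp_nat_mul, ← hexp y hy]
  congr 1
  have : (n : ℂ) ≠ 0 := Nat.cast_ne_zero.2 hn.ne'
  field_simp

/-- verbatim `exists_log_convex` of `Lib/CA1.lean`. -/
theorem ca_exists_log_convex {v : ℂ → ℂ} {U : Set ℂ} (hU : IsOpen U) (hc : Convex ℝ U)
    (hv : DifferentiableOn ℂ v U) (h0 : ∀ y ∈ U, v y ≠ 0) {y₀ l₀ : ℂ} (hy₀ : y₀ ∈ U)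
    (hl : Complex.exp (I * l₀) = v y₀) :
    ∃ lam : ℂ → ℂ, DifferentiableOn ℂ lam U ∧ lam y₀ = l₀ ∧
      ∀ y ∈ U, Complex.exp (I * lam y) = v y := by
  obtain ⟨L, hL0, hL, hexp⟩ := ca_exists_log hU hc hv h0 hy₀ hl
  refine ⟨fun y => -I * L y, ?_, ?_, ?_⟩
  · intro y hy
    exact ((hL y hy).const_mul (-I)).differentiableAt.differentiableWithinAt
  · simp only [hL0]
    rw [← mul_assoc]
    simp
  · intro y hy
    rw [← hexp y hy, ← mul_assoc]
    simp

/-- verbatim `exists_local_inverse` of `Lib/CA1.lean`. -/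
theorem ca_exists_local_inverse {lam : ℂ → ℂ} {y₀ : ℂ} (h : AnalyticAt ℂ lam y₀)
    (hd : deriv lam y₀ ≠ 0) :
    ∃ mu : ℂ → ℂ, AnalyticAt ℂ mu (lam y₀) ∧ mu (lam y₀) = y₀ ∧
      (∀ᶠ y in 𝓝 y₀, mu (lam y) = y) ∧ (∀ᶠ s in 𝓝 (lam y₀), lam (mu s) = s) :=
  ⟨h.hasStrictDerivAt.localInverse _ _ _ hd, h.analyticAt_localInverse hd,
    HasStrictFDerivAt.localInverse_apply_image .., HasStrictDerivAt.eventually_left_inverse ..,
    HasStrictDerivAt.eventually_right_inverse ..⟩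

/-! ### the statements of helper264 (verbatim) -/

/-- `n`-th root and primitive on a disc: for `r` holomorphic and zero free on a ball there is a holomorphic `σ`
with `σ' ^ n = r`. -/
theorem exists_root_primitive {r : ℂ → ℂ} {c : ℂ} {ε : ℝ} {n : ℕ} (hn : 0 < n)
    (hr : DifferentiableOn ℂ r (Metric.ball c ε)) (h0 : ∀ y ∈ Metric.ball c ε, r y ≠ 0) :
    ∃ σ : ℂ → ℂ, DifferentiableOn ℂ σ (Metric.ball c ε) ∧
      ∀ y ∈ Metric.ball c ε, deriv σ y ^ n = r y :=
  ca_exists_root_primitive hn hr h0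

/-- holomorphic logarithm on a convex open set, with prescribed value at one point. -/
theorem exists_log_convex {v : ℂ → ℂ} {U : Set ℂ} (hU : IsOpen U) (hc : Convex ℝ U)
    (hv : DifferentiableOn ℂ v U) (h0 : ∀ y ∈ U, v y ≠ 0) {y₀ l₀ : ℂ} (hy₀ : y₀ ∈ U)
    (hl : Complex.exp (I * l₀) = v y₀) :
    ∃ lam : ℂ → ℂ, DifferentiableOn ℂ lam U ∧ lam y₀ = l₀ ∧
      ∀ y ∈ U, Complex.exp (I * lam y) = v y :=
  ca_exists_log_convex hU hc hv h0 hy₀ hl

/-- analytic local inverse. -/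
theorem exists_local_inverse {lam : ℂ → ℂ} {y₀ : ℂ} (h : AnalyticAt ℂ lam y₀)
    (hd : deriv lam y₀ ≠ 0) :
    ∃ mu : ℂ → ℂ, AnalyticAt ℂ mu (lam y₀) ∧ mu (lam y₀) = y₀ ∧
      (∀ᶠ y in 𝓝 y₀, mu (lam y) = y) ∧ (∀ᶠ s in 𝓝 (lam y₀), lam (mu s) = s) :=
  ca_exists_local_inverse h hd

end Claimed.Agent.R269
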