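/-
Row 269, library L3-CA1 (HOST-FREE, Mathlib only).  LF-CA1-sing: Casorati-Weierstrass, removable singularities along a discrete
set, row integrals of periodic functions.  Owner: helper221.  Statements verbatim those of `Lib/CA1.lean`.
-/
import Mathlib

set_option autoImplicit false

namespace Claimed.Agent.R269

open Complex Filter Topology MeasureTheory
open scoped Real

/-- local removable singularity: holomorphic and bounded in a punctured neighbourhood => the function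
`update v y₀ (limUnder (𝓝[≠] y₀) v)` is analytic at `y₀`. -/
theorem ca_removable_at {v : ℂ → ℂ} {y₀ : ℂ} (hv : ∀ᶠ y in 𝓝[≠] y₀, DifferentiableAt ℂ v y)
    {M : ℝ} (hb : ∀ᶠ y in 𝓝[≠] y₀, ‖v y‖ ≤ M) :
    AnalyticAt ℂ (Function.update v y₀ (limUnder (𝓝[≠] y₀) v)) y₀ := by
  obtain ⟨r, hr, hball⟩ := Metric.eventually_nhds_iff_ball.1 (eventually_nhdsWithin_iff.1 (hv.and hb))
  have hd : DifferentiableOn ℂ v (Metric.ball y₀ r \ {y₀}) := fun z hz =>
    (hball z hz.1 hz.2).1.differentiableWithinAt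
  have hbd : BddAbove (norm ∘ v '' (Metric.ball y₀ r \ {y₀})) := by
    refine ⟨M, ?_⟩
    rintro _ ⟨z, hz, rfl⟩
    exact (hball z hz.1 hz.2).2
  have := Complex.differentiableOn_update_limUnder_of_bddAbove (Metric.ball_mem_nhds y₀ hr) hd hbd
  exact this.analyticAt (Metric.ball_mem_nhds y₀ hr)

/-- verbatim `casorati` of `Lib/CA1.lean`. -/
theorem ca_casorati {v : ℂ → ℂ} {y₀ : ℂ} (hv : ∀ᶠ y in 𝓝[≠] y₀, DifferentiableAt ℂ v y)
    (hm : ¬ MeromorphicAt v y₀) (w : ℂ) : ∃ᶠ p : ℂ × ℂ in (𝓝[≠] y₀) ×ˢ 𝓝 w, v p.1 = p.2 := by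
  by_contra hcon
  rw [Filter.not_frequently, Filter.eventually_prod_iff] at hcon
  obtain ⟨pa, hpa, pb, hpb, hab⟩ := hcon
  obtain ⟨ε, hε, hball⟩ := Metric.eventually_nhds_iff_ball.1 hpb
  have hfar : ∀ᶠ y in 𝓝[≠] y₀, ε ≤ ‖v y - w‖ := by
    filter_upwards [hpa] with y hy
    by_contra hlt
    rw [not_le, ← dist_eq_norm] at hlt
    exact hab hy (hball (v y) hlt) rfl
  set g : ℂ → ℂ := fun y => (v y - w)⁻¹ with hg
  have hgd : ∀ᶠ y in 𝓝[≠] y₀, DifferentiableAt ℂ g y := by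
    filter_upwards [hv, hfar] with y hy hy2
    have hne : v y - w ≠ 0 := norm_pos_iff.1 (lt_of_lt_of_le hε hy2)
    exact (hy.sub_const w).inv hne
  have hgb : ∀ᶠ y in 𝓝[≠] y₀, ‖g y‖ ≤ ε⁻¹ := by
    filter_upwards [hfar] with y hy
    rw [hg]
    simp only [norm_inv]
    exact inv_anti₀ hε hy
  have hG := (ca_removable_at hgd hgb).meromorphicAt
  have hgm : MeromorphicAt g y₀ := by
    refine hG.congr ?_
    rw [Filter.EventuallyEq, eventually_nhdsWithin_iff]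
    exact Filter.Eventually.of_forall fun z hz => Function.update_of_ne hz _ _
  have hvm : MeromorphicAt (fun y => w + (g y)⁻¹) y₀ := (MeromorphicAt.const w y₀).add hgm.inv
  refine hm (hvm.congr (Filter.Eventually.of_forall fun z => ?_))
  simp [hg]

/-- verbatim `removable_discrete` of `Lib/CA1.lean`. -/
theorem ca_removable_discrete {v : ℂ → ℂ} {U A : Set ℂ} (hU : IsOpen U) (hA : IsOpen A) (hAU : A ⊆ U)
    (hd : ∀ y ∈ U, ∀ᶠ y' in 𝓝[≠] y, y' ∈ A) (hv : DifferentiableOn ℂ v A)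
    (hb : ∀ y ∈ U, ∃ M : ℝ, ∀ᶠ y' in 𝓝[≠] y, ‖v y'‖ ≤ M) :
    ∃ v' : ℂ → ℂ, DifferentiableOn ℂ v' U ∧ ∀ y ∈ A, v' y = v y := by
  have hval : ∀ y ∈ A, limUnder (𝓝[≠] y) v = v y := by
    intro y hy
    have hc : ContinuousAt v y := (hv.differentiableAt (hA.mem_nhds hy)).continuousAt
    exact (hc.tendsto.mono_left nhdsWithin_le_nhds).limUnder_eq
  refine ⟨fun y => limUnder (𝓝[≠] y) v, fun y hy => ?_, hval⟩
  obtain ⟨M, hM⟩ := hb y hy
  have hdiff : ∀ᶠ y' in 𝓝[≠] y, DifferentiableAt ℂ v y' :=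
    (hd y hy).mono fun z hz => hv.differentiableAt (hA.mem_nhds hz)
  have han := ca_removable_at hdiff hM
  have heq : (fun y => limUnder (𝓝[≠] y) v) =ᶠ[𝓝 y] Function.update v y (limUnder (𝓝[≠] y) v) := by
    filter_upwards [eventually_nhdsWithin_iff.1 (hd y hy)] with z hz
    by_cases hzy : z = y
    · subst hzy; simp
    · rw [Function.update_of_ne hzy]
      exact hval z (hz hzy)
  exact (han.differentiableAt.congr_of_eventuallyEq heq).differentiableWithinAt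

/-- verbatim `row_integral_const` of `Lib/CA1.lean`. -/
theorem ca_row_integral_const {g : ℂ → ℂ} {U : Set ℂ} (hU : IsOpen U) (hc : Convex ℝ U)
    (hx : ∀ y ∈ U, ∀ x : ℝ, y + x ∈ U) (hg : DifferentiableOn ℂ g U)
    (hp : ∀ y ∈ U, g (y + 2 * π) = g y) {c₁ c₂ : ℝ} (h₁ : (c₁ * I : ℂ) ∈ U) (h₂ : (c₂ * I : ℂ) ∈ U) :
    ∫ x in (0 : ℝ)..(2 * π), g (x + c₁ * I) = ∫ x in (0 : ℝ)..(2 * π), g (x + c₂ * I) := by
  -- the vertical segment lies in `U`
  have hseg : ∀ y ∈ Set.uIcc c₁ c₂, ((y : ℂ) * I) ∈ U := by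
    intro y hy
    have hmem : ((y : ℂ) * I) ∈ segment ℝ ((c₁ : ℂ) * I) ((c₂ : ℂ) * I) := by
      have h3 : y ∈ segment ℝ c₁ c₂ := by rwa [segment_eq_uIcc]
      obtain ⟨a, b, ha, hb, hab, rfl⟩ := h3
      refine ⟨a, b, ha, hb, hab, ?_⟩
      simp only [Complex.real_smul, smul_eq_mul, Complex.ofReal_add, Complex.ofReal_mul]
      ring
    exact hc.segment_subset h₁ h₂ hmem
  have hrect : DifferentiableOn ℂ g
      ((Set.uIcc ((c₁ : ℂ) * I).re ((2 * π : ℝ) + (c₂ : ℂ) * I : ℂ).re) ×ℂ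
        (Set.uIcc ((c₁ : ℂ) * I).im ((2 * π : ℝ) + (c₂ : ℂ) * I : ℂ).im)) := by
    refine hg.mono fun z hz => ?_
    rw [Complex.mem_reProdIm] at hz
    have h4 : z.im ∈ Set.uIcc c₁ c₂ := by simpa using hz.2
    have h5 := hx _ (hseg _ h4) z.re
    have h6 : (z.im : ℂ) * I + (z.re : ℂ) = z := by
      rw [add_comm]; exact Complex.re_add_im z
    rwa [h6] at h5
  have key := Complex.integral_boundary_rect_eq_zero_of_differentiableOn g ((c₁ : ℂ) * I)
    ((2 * π : ℝ) + (c₂ : ℂ) * I : ℂ) hrect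
  have e1 : ((c₁ : ℂ) * I).re = 0 := by simp
  have e2 : ((c₁ : ℂ) * I).im = c₁ := by simp
  have e3 : ((2 * π : ℝ) + (c₂ : ℂ) * I : ℂ).re = 2 * π := by simp
  have e4 : ((2 * π : ℝ) + (c₂ : ℂ) * I : ℂ).im = c₂ := by simp
  rw [e1, e2, e3, e4] at key
  have hvert : ∫ y : ℝ in c₁..c₂, g (((2 * π : ℝ) : ℂ) + y * I) = ∫ y : ℝ in c₁..c₂, g (((0 : ℝ) : ℂ) + y * I) := by
    refine intervalIntegral.integral_congr fun y hy => ?_
    have := hp _ (hseg y hy)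
    simp only [Complex.ofReal_zero, zero_add]
    rw [← this]
    congr 1
    push_cast
    ring
  rw [hvert] at key
  have : (∫ x : ℝ in (0 : ℝ)..(2 * π), g (x + c₁ * I)) - (∫ x : ℝ in (0 : ℝ)..(2 * π), g (x + c₂ * I)) = 0 := by
    linear_combination key
  exact sub_eq_zero.1 this

/-! ### the statements of helper264 (verbatim) -/

/-- **Casorati-Weierstrass**: a function holomorphic in a punctured neighbourhood of `y₀` which is not meromorphic
at `y₀` comes arbitrarily close to every value arbitrarily near `y₀`. -/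
theorem casorati {v : ℂ → ℂ} {y₀ : ℂ} (hv : ∀ᶠ y in 𝓝[≠] y₀, DifferentiableAt ℂ v y)
    (hm : ¬ MeromorphicAt v y₀) (w : ℂ) : ∃ᶠ p : ℂ × ℂ in (𝓝[≠] y₀) ×ˢ 𝓝 w, v p.1 = p.2 :=
  ca_casorati hv hm w

/-- removal of a discrete set of singularities of a locally bounded holomorphic function. -/
theorem removable_discrete {v : ℂ → ℂ} {U A : Set ℂ} (hU : IsOpen U) (hA : IsOpen A) (hAU : A ⊆ U)
    (hd : ∀ y ∈ U, ∀ᶠ y' in 𝓝[≠] y, y' ∈ A) (hv : DifferentiableOn ℂ v A)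
    (hb : ∀ y ∈ U, ∃ M : ℝ, ∀ᶠ y' in 𝓝[≠] y, ‖v y'‖ ≤ M) :
    ∃ v' : ℂ → ℂ, DifferentiableOn ℂ v' U ∧ ∀ y ∈ A, v' y = v y :=
  ca_removable_discrete hU hA hAU hd hv hb

/-- the row integrals of a `2π`-periodic holomorphic function on a horizontal band do not depend on the row. -/
theorem row_integral_const {g : ℂ → ℂ} {U : Set ℂ} (hU : IsOpen U) (hc : Convex ℝ U)
    (hx : ∀ y ∈ U, ∀ x : ℝ, y + x ∈ U) (hg : DifferentiableOn ℂ g U)
    (hp : ∀ y ∈ U, g (y + 2 * π) = g y) {c₁ c₂ : ℝ} (h₁ : (c₁ * I : ℂ) ∈ U) (h₂ : (c₂ * I : ℂ) ∈ U) :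
    ∫ x in (0 : ℝ)..(2 * π), g (x + c₁ * I) = ∫ x in (0 : ℝ)..(2 * π), g (x + c₂ * I) :=
  ca_row_integral_const hU hc hx hg hp h₁ h₂

end Claimed.Agent.R269
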