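/-
Row 269, library L3-CA1 (HOST-FREE, Mathlib only).  LF-CA1-top: connectedness of a domain minus a discrete set, identity
theorem for meromorphic functions.  Owner: helper221.  The last three statements are verbatim those of `Lib/CA1.lean`.
-/
import Mathlib

set_option autoImplicit false

namespace Claimed.Agent.R269

open Complex Filter Topology MeasureTheory
open scoped Real

/-- a punctured disc is preconnected. -/
theorem ca_isPreconnected_punctured_ball (c : ℂ) (r : ℝ) : IsPreconnected (Metric.ball c r \ {c}) := by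
  have h1 : IsPreconnected (Set.Ioo (0 : ℝ) r ×ˢ (Set.univ : Set ℝ)) :=
    isPreconnected_Ioo.prod isPreconnected_univ
  have hcont : Continuous (fun p : ℝ × ℝ => c + (p.1 : ℂ) * Complex.exp ((p.2 : ℂ) * I)) := by
    fun_prop
  have h2 := h1.image _ hcont.continuousOn
  have h3 : (fun p : ℝ × ℝ => c + (p.1 : ℂ) * Complex.exp ((p.2 : ℂ) * I)) ''
      (Set.Ioo (0 : ℝ) r ×ˢ (Set.univ : Set ℝ)) = Metric.ball c r \ {c} := by
    ext z
    constructor
    · rintro ⟨⟨ρ, θ⟩, ⟨⟨h0, hr⟩, -⟩, rfl⟩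
      refine ⟨?_, ?_⟩
      · rw [Metric.mem_ball, dist_eq_norm]
        simp only [add_sub_cancel_left, norm_mul, Complex.norm_real, Complex.norm_exp_ofReal_mul_I,
          mul_one, Real.norm_eq_abs]
        rwa [abs_of_pos h0]
      · simp only [Set.mem_singleton_iff, add_eq_left, mul_eq_zero, Complex.ofReal_eq_zero,
          Complex.exp_ne_zero, or_false]
        exact h0.ne'
    · rintro ⟨hz, hzc⟩
      refine ⟨(‖z - c‖, Complex.arg (z - c)), ⟨⟨?_, ?_⟩, Set.mem_univ _⟩, ?_⟩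
      · exact norm_pos_iff.2 (sub_ne_zero.2 hzc)
      · rwa [← dist_eq_norm]
      · simp only [Complex.norm_mul_exp_arg_mul_I]
        ring
  rwa [h3] at h2

/-- verbatim `isPreconnected_diff_discrete` of `Lib/CA1.lean`. -/
theorem ca_isPreconnected_diff_discrete {U E : Set ℂ} (hU : IsOpen U) (hc : IsPreconnected U)
    (hE : ∀ y ∈ U, ∀ᶠ y' in 𝓝[≠] y, y' ∉ E) : IsPreconnected (U \ E) := by
  -- local structure: a punctured ball inside `U \ E`
  have hloc : ∀ y ∈ U, ∃ r > 0, Metric.ball y r ⊆ U ∧ Metric.ball y r \ {y} ⊆ U \ E := by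
    intro y hy
    have h1 : ∀ᶠ y' in 𝓝 y, y' ∈ U ∧ (y' ≠ y → y' ∉ E) :=
      Filter.Eventually.and (hU.mem_nhds hy) (eventually_nhdsWithin_iff.1 (hE y hy))
    obtain ⟨r, hr, hb⟩ := Metric.eventually_nhds_iff_ball.1 h1
    exact ⟨r, hr, fun z hz => (hb z hz).1, fun z hz => ⟨(hb z hz.1).1, (hb z hz.1).2 hz.2⟩⟩
  have hWopen : IsOpen (U \ E) := by
    rw [isOpen_iff_mem_nhds]
    rintro y ⟨hy, hyE⟩
    obtain ⟨r, hr, -, hb⟩ := hloc y hy
    refine Filter.mem_of_superset (Metric.ball_mem_nhds y hr) fun z hz => ?_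
    by_cases hzy : z = y
    · rw [hzy]; exact ⟨hy, hyE⟩
    · exact hb ⟨hz, hzy⟩
  intro u v hu hv huv hnu hnv
  by_contra hcon
  set A : Set ℂ := (U \ E) ∩ u with hA
  set B : Set ℂ := (U \ E) ∩ v with hB
  have hAo : IsOpen A := hWopen.inter hu
  have hBo : IsOpen B := hWopen.inter hv
  have hAB : Disjoint A B := by
    rw [Set.disjoint_left]
    intro z hzA hzB
    exact hcon ⟨z, hzA.1, hzA.2, hzB.2⟩
  have hcov : U \ E ⊆ A ∪ B := by
    intro z hz
    rcases huv hz with h | h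
    · exact Or.inl ⟨hz, h⟩
    · exact Or.inr ⟨hz, h⟩
  -- the saturations
  have hsat : ∀ S : Set ℂ, IsOpen S → IsOpen {y | ∀ᶠ y' in 𝓝[≠] y, y' ∈ S} := by
    intro S hS
    rw [isOpen_iff_mem_nhds]
    intro y hy
    obtain ⟨r, hr, hb⟩ := Metric.eventually_nhds_iff_ball.1 (eventually_nhdsWithin_iff.1 hy)
    refine Filter.mem_of_superset (Metric.ball_mem_nhds y hr) fun z hz => ?_
    by_cases hzy : z = y
    · rw [hzy]; exact hy
    · exact eventually_nhdsWithin_of_eventually_nhds (hS.mem_nhds (hb z hz hzy))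
  have hmem : ∀ S : Set ℂ, IsOpen S → S ⊆ {y | ∀ᶠ y' in 𝓝[≠] y, y' ∈ S} := fun S hS y hy =>
    eventually_nhdsWithin_of_eventually_nhds (hS.mem_nhds hy)
  have hUcov : U ⊆ {y | ∀ᶠ y' in 𝓝[≠] y, y' ∈ A} ∪ {y | ∀ᶠ y' in 𝓝[≠] y, y' ∈ B} := by
    intro y hy
    obtain ⟨r, hr, -, hb⟩ := hloc y hy
    have hP := ca_isPreconnected_punctured_ball y r
    have hev : ∀ᶠ y' in 𝓝[≠] y, y' ∈ Metric.ball y r \ {y} := by
      rw [eventually_nhdsWithin_iff]
      filter_upwards [Metric.ball_mem_nhds y hr] with z hz hzy using ⟨hz, hzy⟩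
    rcases hP.subset_or_subset hAo hBo hAB (hb.trans hcov) with h | h
    · exact Or.inl (hev.mono fun z hz => h hz)
    · exact Or.inr (hev.mono fun z hz => h hz)
  obtain ⟨a, haW, hau⟩ := hnu
  obtain ⟨b, hbW, hbv⟩ := hnv
  obtain ⟨y, -, hyA, hyB⟩ := hc _ _ (hsat A hAo) (hsat B hBo) hUcov
    ⟨a, haW.1, hmem A hAo ⟨haW, hau⟩⟩ ⟨b, hbW.1, hmem B hBo ⟨hbW, hbv⟩⟩
  have hyA' : ∀ᶠ y' in 𝓝[≠] y, y' ∈ A := hyA
  have hyB' : ∀ᶠ y' in 𝓝[≠] y, y' ∈ B := hyB
  obtain ⟨z, hzA, hzB⟩ := (hyA'.and hyB').exists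
  exact Set.disjoint_left.1 hAB hzA hzB

/-- verbatim `mero_identity` of `Lib/CA1.lean`. -/
theorem ca_mero_identity {f g : ℂ → ℂ} {U : Set ℂ} (hf : MeromorphicOn f U) (hg : MeromorphicOn g U)
    (hU : IsOpen U) (hc : IsPreconnected U) {z₀ : ℂ} (h₀ : z₀ ∈ U) (h : f =ᶠ[𝓝[≠] z₀] g) :
    ∀ z ∈ U, f =ᶠ[𝓝[≠] z] g := by
  intro z hz
  have hd : MeromorphicOn (f - g) U := hf.sub hg
  have h1 : meromorphicOrderAt (f - g) z₀ = ⊤ := by
    rw [meromorphicOrderAt_eq_top_iff]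
    filter_upwards [h] with w hw
    simp [hw]
  have h2 : meromorphicOrderAt (f - g) z = ⊤ := by
    by_contra hne
    exact hd.meromorphicOrderAt_ne_top_of_isPreconnected hc hz h₀ hne h1
  rw [meromorphicOrderAt_eq_top_iff] at h2
  filter_upwards [h2] with w hw
  exact sub_eq_zero.1 hw

/-- verbatim `mero_eventually_ne` of `Lib/CA1.lean` (in fact `f z' ≠ 0` without the analyticity hypothesis). -/
theorem ca_mero_eventually_ne' {f : ℂ → ℂ} {U : Set ℂ} (hf : MeromorphicOn f U)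
    (hc : IsPreconnected U) {z₀ : ℂ} (h₀ : z₀ ∈ U) (h : ¬ f =ᶠ[𝓝[≠] z₀] 0) :
    ∀ z ∈ U, ∀ᶠ z' in 𝓝[≠] z, f z' ≠ 0 := by
  intro z hz
  have h1 : meromorphicOrderAt f z₀ ≠ ⊤ := by
    rw [Ne, meromorphicOrderAt_eq_top_iff]
    exact h
  exact (meromorphicOrderAt_ne_top_iff_eventually_ne_zero (hf z hz)).1
    (hf.meromorphicOrderAt_ne_top_of_isPreconnected hc h₀ hz h1)

theorem ca_mero_eventually_ne {f : ℂ → ℂ} {U : Set ℂ} (hf : MeromorphicOn f U)
    (hU : IsOpen U) (hc : IsPreconnected U) {z₀ : ℂ} (h₀ : z₀ ∈ U) (h : ¬ f =ᶠ[𝓝[≠] z₀] 0) :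
    ∀ z ∈ U, ∀ᶠ z' in 𝓝[≠] z, AnalyticAt ℂ f z' → f z' ≠ 0 :=
  fun z hz => (ca_mero_eventually_ne' hf hc h₀ h z hz).mono fun _ hw _ => hw

/-! ### the statements of helper264 (verbatim) -/

/-- A connected open subset of the plane stays connected after removal of a set that is discrete in it.
PLAN: a punctured disc is connected (image of `(0,r) × ℝ` under polar coordinates).  If `A ⊆ U \ E` is relatively
clopen, `A⁺ := {y ∈ U | ∀ᶠ y' in 𝓝[≠] y, y' ∈ A}` is clopen in `U`. -/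
theorem isPreconnected_diff_discrete {U E : Set ℂ} (hU : IsOpen U) (hc : IsPreconnected U)
    (hE : ∀ y ∈ U, ∀ᶠ y' in 𝓝[≠] y, y' ∉ E) : IsPreconnected (U \ E) :=
  ca_isPreconnected_diff_discrete hU hc hE

/-- identity theorem for meromorphic functions on a connected open set. -/
theorem mero_identity {f g : ℂ → ℂ} {U : Set ℂ} (hf : MeromorphicOn f U) (hg : MeromorphicOn g U)
    (hU : IsOpen U) (hc : IsPreconnected U) {z₀ : ℂ} (h₀ : z₀ ∈ U) (h : f =ᶠ[𝓝[≠] z₀] g) :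
    ∀ z ∈ U, f =ᶠ[𝓝[≠] z] g :=
  ca_mero_identity hf hg hU hc h₀ h

/-- a meromorphic function on a connected open set which is not locally zero somewhere has isolated zeros
and poles everywhere. -/
theorem mero_eventually_ne {f : ℂ → ℂ} {U : Set ℂ} (hf : MeromorphicOn f U)
    (hU : IsOpen U) (hc : IsPreconnected U) {z₀ : ℂ} (h₀ : z₀ ∈ U) (h : ¬ f =ᶠ[𝓝[≠] z₀] 0) :
    ∀ z ∈ U, ∀ᶠ z' in 𝓝[≠] z, AnalyticAt ℂ f z' → f z' ≠ 0 :=
  ca_mero_eventually_ne hf hU hc h₀ h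

end Claimed.Agent.R269
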