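/-
Row 269, library L3-CA1 (HOST-FREE).  Owner: helper221.

DIVISION BY BLASCHKE FACTORS (general ratio of radii; replaces Jensen's zero count + Riesz factorisation) AND HARNACK.
The step lemma follows helper175's proof of `s9fd_step` (ratio 2).
* `ca_blaschke_step`     : one zero in `closedBall ζ₀ R` is divided out, the sup bound on `closedBall ζ₀ ρ` is kept, the value
                           at the centre gains the factor `ρ / R`.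
* `ca_blaschke_division` : all zeros in `closedBall ζ₀ R` are divided out; `(ρ/R)^n ‖f ζ₀‖ ≤ ‖g ζ₀‖ ≤ B` bounds their number.
* `ca_harnack`           : zero-free bounded holomorphic `g` on `ball ζ₀ R`:  `‖g‖ ≥ B e^{-(R+r)/(R-r) H}` on `closedBall ζ₀ r`
                           if `‖g ζ₀‖ ≥ B e^{-H}`.
-/
import Claimed.Agent.R269.Lib.CA1Prim

set_option autoImplicit false

namespace Claimed.Agent.R269

open Set Metric

/-- one zero is divided out -/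
theorem ca_blaschke_step (f : ℂ → ℂ) (ζ₀ a : ℂ) (R ρ R₀ B : ℝ) (hR : 0 < R) (hRρ : R < ρ)
    (hρR₀ : ρ < R₀) (hf : DifferentiableOn ℂ f (ball ζ₀ R₀))
    (hfB : ∀ ζ ∈ closedBall ζ₀ ρ, ‖f ζ‖ ≤ B) (ha : a ∈ closedBall ζ₀ R) (hfa : f a = 0) :
    ∃ f₁ : ℂ → ℂ, DifferentiableOn ℂ f₁ (ball ζ₀ R₀) ∧ (∀ ζ ∈ closedBall ζ₀ ρ, ‖f₁ ζ‖ ≤ B) ∧
      ρ / R * ‖f ζ₀‖ ≤ ‖f₁ ζ₀‖ ∧ ∀ ζ ∈ closedBall ζ₀ ρ, ‖f₁ ζ‖ * (‖ζ - a‖ / (2 * ρ)) ≤ ‖f ζ‖ := by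
  have hρ0 : 0 < ρ := hR.trans hRρ
  have hρc : (ρ : ℂ) ≠ 0 := by exact_mod_cast hρ0.ne'
  set q : ℂ → ℂ := fun ζ => (ρ : ℂ) ^ 2 - (starRingEnd ℂ) (a - ζ₀) * (ζ - ζ₀) with hq
  set f₁ : ℂ → ℂ := fun ζ => dslope f a ζ * q ζ / (ρ : ℂ) with hf₁
  have haR : ‖a - ζ₀‖ ≤ R := by
    rw [mem_closedBall, dist_eq_norm] at ha
    exact ha
  have ha_ball : a ∈ ball ζ₀ R₀ := by
    rw [mem_ball, dist_eq_norm]
    linarith
  have hds : DifferentiableOn ℂ (dslope f a) (ball ζ₀ R₀) :=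
    (Complex.differentiableOn_dslope (isOpen_ball.mem_nhds ha_ball)).2 hf
  have hqd : Differentiable ℂ q :=
    (differentiable_const _).sub
      ((differentiable_const _).mul (differentiable_id.sub (differentiable_const _)))
  have hd1 : DifferentiableOn ℂ f₁ (ball ζ₀ R₀) := (hds.mul hqd.differentiableOn).div_const _
  have hfac : ∀ ζ, f ζ = (ζ - a) * dslope f a ζ := by
    intro ζ
    have := sub_smul_dslope f a ζ
    rw [hfa, sub_zero, smul_eq_mul] at this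
    exact this.symm
  have hI : ∀ ζ, f ζ * q ζ = f₁ ζ * ρ * (ζ - a) := by
    intro ζ
    rw [hfac ζ]
    simp only [hf₁]
    field_simp
  have hIn : ∀ ζ, ‖f ζ‖ * ‖q ζ‖ = ‖f₁ ζ‖ * ρ * ‖ζ - a‖ := by
    intro ζ
    have := congrArg norm (hI ζ)
    rw [norm_mul, norm_mul, norm_mul, Complex.norm_real, Real.norm_of_nonneg hρ0.le] at this
    exact this
  have hsph : ∀ ζ, ‖ζ - ζ₀‖ = ρ → ‖q ζ‖ = ρ * ‖ζ - a‖ := by
    intro ζ hζ
    have e : q ζ = (ζ - ζ₀) * (starRingEnd ℂ) (ζ - a) := by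
      have h1 : (ρ : ℂ) ^ 2 = (ζ - ζ₀) * (starRingEnd ℂ) (ζ - ζ₀) := by
        rw [Complex.mul_conj, Complex.normSq_eq_norm_sq, hζ]
        push_cast
        ring
      have h2 : (starRingEnd ℂ) (ζ - a) = (starRingEnd ℂ) (ζ - ζ₀) - (starRingEnd ℂ) (a - ζ₀) := by
        rw [← map_sub, sub_sub_sub_cancel_right]
      simp only [hq]
      rw [h1, h2]
      ring
    rw [e, norm_mul, RCLike.norm_conj, hζ]
  have hB1 : ∀ ζ ∈ closedBall ζ₀ ρ, ‖f₁ ζ‖ ≤ B := by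
    intro ζ hζ
    have hcl : closure (ball ζ₀ ρ) = closedBall ζ₀ ρ := closure_ball ζ₀ hρ0.ne'
    refine Complex.norm_le_of_forall_mem_frontier_norm_le (U := ball ζ₀ ρ) isBounded_ball ?_ ?_
      (by rw [hcl]; exact hζ)
    · apply DifferentiableOn.diffContOnCl
      rw [hcl]
      exact hd1.mono (closedBall_subset_ball hρR₀)
    · intro z hz
      rw [frontier_ball ζ₀ hρ0.ne', mem_sphere, dist_eq_norm] at hz
      have h1 := hIn z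
      rw [hsph z hz] at h1
      have h2 : ρ - R ≤ ‖z - a‖ := by
        have h3 : z - ζ₀ = (z - a) + (a - ζ₀) := by ring
        have h4 := norm_add_le (z - a) (a - ζ₀)
        rw [← h3, hz] at h4
        linarith
      have h3 : 0 < ρ * ‖z - a‖ := by
        have : 0 < ‖z - a‖ := by linarith
        positivity
      have h4 : ‖f z‖ = ‖f₁ z‖ := by
        have : ‖f z‖ * (ρ * ‖z - a‖) = ‖f₁ z‖ * (ρ * ‖z - a‖) := by
          rw [h1]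
          ring
        exact mul_right_cancel₀ h3.ne' this
      rw [← h4]
      exact hfB z (by rw [mem_closedBall, dist_eq_norm, hz])
  refine ⟨f₁, hd1, hB1, ?_, ?_⟩
  · have h1 := hIn ζ₀
    have h2 : ‖q ζ₀‖ = ρ ^ 2 := by
      simp only [hq]
      rw [sub_self, mul_zero, sub_zero, norm_pow, Complex.norm_real, Real.norm_of_nonneg hρ0.le]
    rw [h2, norm_sub_rev] at h1
    have h3 : ‖f₁ ζ₀‖ * ρ * ‖a - ζ₀‖ ≤ ‖f₁ ζ₀‖ * ρ * R :=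
      mul_le_mul_of_nonneg_left haR (by positivity)
    have h4 : ‖f ζ₀‖ * ρ ^ 2 ≤ ‖f₁ ζ₀‖ * ρ * R := by linarith
    rw [div_mul_eq_mul_div, div_le_iff₀ hR]
    have h5 : (ρ * ‖f ζ₀‖) * ρ ≤ (‖f₁ ζ₀‖ * R) * ρ := by nlinarith
    exact le_of_mul_le_mul_right h5 hρ0
  · intro ζ hζ
    rw [mem_closedBall, dist_eq_norm] at hζ
    have h1 := hIn ζ
    have h2 : ‖q ζ‖ ≤ 2 * ρ ^ 2 := by
      simp only [hq]
      refine (norm_sub_le _ _).trans ?_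
      rw [norm_pow, Complex.norm_real, Real.norm_of_nonneg hρ0.le, norm_mul, RCLike.norm_conj]
      have : ‖a - ζ₀‖ * ‖ζ - ζ₀‖ ≤ R * ρ := mul_le_mul haR hζ (norm_nonneg _) hR.le
      nlinarith
    have h3 : ‖f₁ ζ‖ * ρ * ‖ζ - a‖ ≤ ‖f ζ‖ * (2 * ρ ^ 2) := by
      rw [← h1]
      exact mul_le_mul_of_nonneg_left h2 (norm_nonneg _)
    rw [mul_div_assoc', div_le_iff₀ (by positivity)]
    have h5 : (‖f₁ ζ‖ * ‖ζ - a‖) * ρ ≤ (‖f ζ‖ * (2 * ρ)) * ρ := by nlinarith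
    exact le_of_mul_le_mul_right h5 hρ0

/-- auxiliary induction for `ca_blaschke_division`. -/
theorem ca_blaschke_division_aux (N : ℕ) (f : ℂ → ℂ) (ζ₀ : ℂ) (R ρ R₀ B : ℝ) (hR : 0 < R)
    (hRρ : R < ρ) (hρR₀ : ρ < R₀) (hf : DifferentiableOn ℂ f (ball ζ₀ R₀))
    (hfB : ∀ ζ ∈ closedBall ζ₀ ρ, ‖f ζ‖ ≤ B) (hf₀ : B < (ρ / R) ^ N * ‖f ζ₀‖) :
    ∃ (n : ℕ) (a : Fin n → ℂ) (g : ℂ → ℂ), DifferentiableOn ℂ g (ball ζ₀ R₀) ∧
      (∀ ζ ∈ closedBall ζ₀ ρ, ‖g ζ‖ ≤ B) ∧ (ρ / R) ^ n * ‖f ζ₀‖ ≤ ‖g ζ₀‖ ∧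
      (∀ j, a j ∈ closedBall ζ₀ R) ∧ (∀ ζ ∈ closedBall ζ₀ R, g ζ ≠ 0) ∧
      ∀ ζ ∈ closedBall ζ₀ ρ, ‖g ζ‖ * ∏ j, (‖ζ - a j‖ / (2 * ρ)) ≤ ‖f ζ‖ := by
  have hρ0 : 0 < ρ := hR.trans hRρ
  have hc : ζ₀ ∈ closedBall ζ₀ ρ := mem_closedBall_self hρ0.le
  induction N generalizing f with
  | zero =>
    exfalso
    have := hfB ζ₀ hc
    rw [pow_zero, one_mul] at hf₀
    linarith
  | succ N ih =>
    by_cases hz : ∀ ζ ∈ closedBall ζ₀ R, f ζ ≠ 0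
    · exact ⟨0, Fin.elim0, f, hf, hfB, by simp, fun j => j.elim0, hz, fun ζ _ => by simp⟩
    · push Not at hz
      obtain ⟨a, ha, hfa⟩ := hz
      obtain ⟨f₁, h1, h2, h3, h4⟩ := ca_blaschke_step f ζ₀ a R ρ R₀ B hR hRρ hρR₀ hf hfB ha hfa
      have hq0 : 0 < ρ / R := div_pos hρ0 hR
      have h5 : B < (ρ / R) ^ N * ‖f₁ ζ₀‖ := by
        refine hf₀.trans_le ?_
        rw [pow_succ, mul_assoc]
        exact mul_le_mul_of_nonneg_left h3 (by positivity)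
      obtain ⟨n, b, g, g2, g3, g4, g7, g5, g6⟩ := ih f₁ h1 h2 h5
      refine ⟨n + 1, Fin.cons a b, g, g2, g3, ?_, ?_, g5, ?_⟩
      · refine le_trans ?_ g4
        rw [pow_succ, mul_assoc]
        exact mul_le_mul_of_nonneg_left h3 (by positivity)
      · intro j
        refine Fin.cases ?_ (fun i => ?_) j
        · simpa using ha
        · simpa using g7 i
      · intro ζ hζ
        rw [Fin.prod_univ_succ]
        simp only [Fin.cons_zero, Fin.cons_succ]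
        have h6 : 0 ≤ ‖ζ - a‖ / (2 * ρ) := by positivity
        calc ‖g ζ‖ * (‖ζ - a‖ / (2 * ρ) * ∏ j, (‖ζ - b j‖ / (2 * ρ)))
            = (‖g ζ‖ * ∏ j, (‖ζ - b j‖ / (2 * ρ))) * (‖ζ - a‖ / (2 * ρ)) := by ring
          _ ≤ ‖f₁ ζ‖ * (‖ζ - a‖ / (2 * ρ)) := mul_le_mul_of_nonneg_right (g6 ζ hζ) h6
          _ ≤ ‖f ζ‖ := h4 ζ hζ

/-- **Division by Blaschke factors**: all zeros in `closedBall ζ₀ R` are divided out. -/
theorem ca_blaschke_division (f : ℂ → ℂ) (ζ₀ : ℂ) (R ρ R₀ B : ℝ) (hR : 0 < R)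
    (hRρ : R < ρ) (hρR₀ : ρ < R₀) (hf : DifferentiableOn ℂ f (ball ζ₀ R₀))
    (hfB : ∀ ζ ∈ closedBall ζ₀ ρ, ‖f ζ‖ ≤ B) (hf₀ : f ζ₀ ≠ 0) :
    ∃ (n : ℕ) (a : Fin n → ℂ) (g : ℂ → ℂ), DifferentiableOn ℂ g (ball ζ₀ R₀) ∧
      (∀ ζ ∈ closedBall ζ₀ ρ, ‖g ζ‖ ≤ B) ∧ (ρ / R) ^ n * ‖f ζ₀‖ ≤ ‖g ζ₀‖ ∧
      (∀ j, a j ∈ closedBall ζ₀ R) ∧ (∀ ζ ∈ closedBall ζ₀ R, g ζ ≠ 0) ∧
      ∀ ζ ∈ closedBall ζ₀ ρ, ‖g ζ‖ * ∏ j, (‖ζ - a j‖ / (2 * ρ)) ≤ ‖f ζ‖ := by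
  have h1 : 1 < ρ / R := (one_lt_div hR).2 hRρ
  have h0 : 0 < ‖f ζ₀‖ := norm_pos_iff.2 hf₀
  obtain ⟨N, hN⟩ := pow_unbounded_of_one_lt (B / ‖f ζ₀‖) h1
  rw [div_lt_iff₀ h0] at hN
  exact ca_blaschke_division_aux N f ζ₀ R ρ R₀ B hR hRρ hρR₀ hf hfB hN

/-- **Harnack inequality** for `log (B/|g|)`, `g` zero-free, with the sharp constant `(R+r)/(R-r)`. -/
theorem ca_harnack (g : ℂ → ℂ) (ζ₀ : ℂ) (R r B H : ℝ) (hr : 0 ≤ r) (hrR : r < R) (hB : 0 < B)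
    (hH : 0 < H) (hg : DifferentiableOn ℂ g (ball ζ₀ R)) (hg0 : ∀ ζ ∈ ball ζ₀ R, g ζ ≠ 0)
    (hgB : ∀ ζ ∈ ball ζ₀ R, ‖g ζ‖ ≤ B) (hg₀ : B * Real.exp (-H) ≤ ‖g ζ₀‖) :
    ∀ ζ ∈ closedBall ζ₀ r, B * Real.exp (-((R + r) / (R - r) * H)) ≤ ‖g ζ‖ := by
  intro ζ hζ
  have hR : 0 < R := hr.trans_lt hrR
  have hc : ζ₀ ∈ ball ζ₀ R := mem_ball_self hR
  have hg00 : g ζ₀ ≠ 0 := hg0 _ hc
  have hv : DifferentiableOn ℂ (fun y => g y / g ζ₀) (ball ζ₀ R) := hg.div_const _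
  have hv0 : ∀ y ∈ ball ζ₀ R, g y / g ζ₀ ≠ 0 := fun y hy => div_ne_zero (hg0 y hy) hg00
  obtain ⟨L, hL0, hL, hexp⟩ := ca_exists_log (v := fun y => g y / g ζ₀) isOpen_ball
    (convex_ball ζ₀ R) hv hv0 (y₀ := ζ₀) (L₀ := 0) hc (by simp [div_self hg00])
  have hf : DifferentiableOn ℂ (fun z => L (ζ₀ + z)) (ball 0 R) := by
    intro z hz
    have hz' : ζ₀ + z ∈ ball ζ₀ R := by
      simpa [mem_ball, dist_eq_norm] using hz
    have h1 : HasDerivAt (fun z => L (ζ₀ + z)) (deriv (fun y => g y / g ζ₀) (ζ₀ + z)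
        / (g (ζ₀ + z) / g ζ₀)) z := by
      have := (hL _ hz').comp_const_add ζ₀ z
      simpa using this
    exact h1.differentiableAt.differentiableWithinAt
  have hn0 : 0 < ‖g ζ₀‖ := norm_pos_iff.2 hg00
  have hre : ∀ y ∈ ball ζ₀ R, ‖g y‖ = ‖g ζ₀‖ * Real.exp (L y).re := by
    intro y hy
    have := congrArg norm (hexp y hy)
    rw [Complex.norm_exp, norm_div] at this
    rw [this]; field_simp
  have hmaps : Set.MapsTo (fun z => L (ζ₀ + z)) (ball 0 R) {z | z.re ≤ H} := by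
    intro z hz
    have hz' : ζ₀ + z ∈ ball ζ₀ R := by
      simpa [mem_ball, dist_eq_norm] using hz
    have h1 := hre _ hz'
    have h2 := hgB _ hz'
    have h3 : B * Real.exp (-H) * Real.exp (L (ζ₀ + z)).re ≤ B := by
      calc B * Real.exp (-H) * Real.exp (L (ζ₀ + z)).re
          ≤ ‖g ζ₀‖ * Real.exp (L (ζ₀ + z)).re := by gcongr
        _ = ‖g (ζ₀ + z)‖ := h1.symm
        _ ≤ B := h2
    have h4 : Real.exp (-H + (L (ζ₀ + z)).re) ≤ Real.exp 0 := by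
      rw [Real.exp_add, Real.exp_zero]
      have : B * (Real.exp (-H) * Real.exp (L (ζ₀ + z)).re) ≤ B * 1 := by
        rw [mul_one, ← mul_assoc]; exact h3
      exact le_of_mul_le_mul_left this hB
    have h5 := Real.exp_le_exp.1 h4
    show (L (ζ₀ + z)).re ≤ H
    linarith
  have hζn : ‖ζ - ζ₀‖ ≤ r := by simpa [mem_closedBall, dist_eq_norm] using hζ
  have hζb : ζ - ζ₀ ∈ ball (0 : ℂ) R := by
    rw [mem_ball_zero_iff]; linarith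
  have hζB : ζ ∈ ball ζ₀ R := by
    rw [mem_ball, dist_eq_norm]; linarith
  have hbc := Complex.borelCaratheodory_zero hH hf hmaps hR hζb (by simpa using hL0)
  have hbc' : ‖L ζ‖ ≤ 2 * H * r / (R - r) := by
    have e : ζ₀ + (ζ - ζ₀) = ζ := by ring
    simp only [e] at hbc
    refine hbc.trans ?_
    have h1 : 0 < R - r := by linarith
    have h2 : 0 < R - ‖ζ - ζ₀‖ := by linarith
    rw [div_le_div_iff₀ h2 h1]
    have h3 := norm_nonneg (ζ - ζ₀)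
    have h4 : ‖ζ - ζ₀‖ * (R - r) ≤ r * (R - ‖ζ - ζ₀‖) := by nlinarith
    calc 2 * H * ‖ζ - ζ₀‖ * (R - r) = 2 * H * (‖ζ - ζ₀‖ * (R - r)) := by ring
      _ ≤ 2 * H * (r * (R - ‖ζ - ζ₀‖)) := by gcongr
      _ = 2 * H * r * (R - ‖ζ - ζ₀‖) := by ring
  have hlow : -(2 * H * r / (R - r)) ≤ (L ζ).re := by
    have := Complex.abs_re_le_norm (L ζ)
    have h2 := neg_abs_le (L ζ).re
    linarith
  rw [hre ζ hζB]
  have e2 : -((R + r) / (R - r) * H) = -H + -(2 * H * r / (R - r)) := by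
    have h1 : R - r ≠ 0 := by linarith
    field_simp
    ring
  calc B * Real.exp (-((R + r) / (R - r) * H))
      = B * Real.exp (-H) * Real.exp (-(2 * H * r / (R - r))) := by
        rw [mul_assoc, ← Real.exp_add, e2]
    _ ≤ ‖g ζ₀‖ * Real.exp (L ζ).re := by
        gcongr

end Claimed.Agent.R269
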