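/-
Row 269, library L3-CA1 (HOST-FREE, Mathlib only).  Owner: helper221.

MONTEL'S THEOREM.
* `ca_diag`            : diagonal extraction for countably many eventually bounded complex sequences.
* `ca_montel_exhaust`  : Montel for sequences whose domains exhaust an open set (eventually holomorphic and bounded
                         on a ball around each point of `U`).
* `ca_montel`          : the classical form (every `F n` holomorphic on `U`, locally uniformly bounded).
* `ca_montel_deriv`    : the derivatives converge as well along the same subsequence.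

Proof: Schwarz lemma centred at the point (equi-Lipschitz estimate relative to the centre), diagonal subsequence on a
dense sequence, `ε/3`.  No compactness of the domain is needed since the neighbourhood in `TendstoLocallyUniformlyOn`
may depend on `ε`.
-/
import Mathlib

set_option autoImplicit false

namespace Claimed.Agent.R269

open Filter Topology Set Metric

/-- diagonal extraction. -/
theorem ca_diag (x : ℕ → ℕ → ℂ) (hb : ∀ i, ∃ C : ℝ, ∀ᶠ n in atTop, ‖x n i‖ ≤ C) :
    ∃ φ : ℕ → ℕ, StrictMono φ ∧ ∀ i, ∃ a : ℂ, Tendsto (fun n => x (φ n) i) atTop (𝓝 a) := by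
  have hb' : ∀ i, ∃ C : ℝ, ∀ n, ‖x n i‖ ≤ C := by
    intro i
    obtain ⟨C, hC⟩ := hb i
    obtain ⟨N, hN⟩ := eventually_atTop.1 hC
    refine ⟨|C| + ∑ n ∈ Finset.range N, ‖x n i‖, fun n => ?_⟩
    rcases lt_or_ge n N with h | h
    · have h1 : ‖x n i‖ ≤ ∑ n ∈ Finset.range N, ‖x n i‖ :=
        Finset.single_le_sum (f := fun n => ‖x n i‖) (fun _ _ => norm_nonneg _)
          (Finset.mem_range.2 h)
      linarith [abs_nonneg C]
    · have h1 : 0 ≤ ∑ n ∈ Finset.range N, ‖x n i‖ := Finset.sum_nonneg (fun _ _ => norm_nonneg _)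
      linarith [hN n h, le_abs_self C]
  choose C hC using hb'
  have hcomp : IsCompact (Set.pi univ (fun i => closedBall (0 : ℂ) (C i))) :=
    isCompact_univ_pi (fun i => isCompact_closedBall _ _)
  obtain ⟨a, -, φ, hφ, hlim⟩ := hcomp.tendsto_subseq (x := x)
    (fun n i _ => by simpa using hC i n)
  refine ⟨φ, hφ, fun i => ⟨a i, ?_⟩⟩
  exact (tendsto_pi_nhds.1 hlim) i

/-- Schwarz lemma, in the form: bounded by `C` on `ball z r` implies a Lipschitz bound relative to the centre. -/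
theorem ca_lip_center {f : ℂ → ℂ} {z : ℂ} {r C : ℝ}
    (hf : DifferentiableOn ℂ f (ball z r)) (hb : ∀ w ∈ ball z r, ‖f w‖ ≤ C) :
    ∀ w ∈ ball z r, dist (f w) (f z) ≤ 2 * C / r * dist w z := by
  intro w hw
  have hr : 0 < r := nonempty_ball.1 ⟨w, hw⟩
  refine Complex.dist_le_div_mul_dist_of_mapsTo_ball hf ?_ hw
  intro y hy
  rw [mem_closedBall, dist_eq_norm]
  have h1 := hb y hy
  have h2 := hb z (mem_ball_self hr)
  calc ‖f y - f z‖ ≤ ‖f y‖ + ‖f z‖ := norm_sub_le _ _
    _ ≤ 2 * C := by linarith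

/-- **Montel's theorem** for sequences whose domains exhaust an open set. -/
theorem ca_montel_exhaust (U : Set ℂ) (hU : IsOpen U) (F : ℕ → ℂ → ℂ)
    (hF : ∀ z ∈ U, ∃ r > 0, ∃ C : ℝ, ∀ᶠ n in atTop,
      DifferentiableOn ℂ (F n) (ball z r) ∧ ∀ w ∈ ball z r, ‖F n w‖ ≤ C) :
    ∃ (φ : ℕ → ℕ) (G : ℂ → ℂ), StrictMono φ ∧ DifferentiableOn ℂ G U ∧
      TendstoLocallyUniformlyOn (fun n => F (φ n)) G atTop U := by
  classical
  -- the dense sequence
  set e : ℕ → ℂ := TopologicalSpace.denseSeq ℂ with he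
  have hde : DenseRange e := TopologicalSpace.denseRange_denseSeq ℂ
  obtain ⟨φ, hφ, hconv⟩ := ca_diag (fun n i => if e i ∈ U then F n (e i) else 0) (by
    intro i
    by_cases hi : e i ∈ U
    · obtain ⟨r, hr, C, hC⟩ := hF _ hi
      refine ⟨C, hC.mono fun n hn => ?_⟩
      simpa [hi] using hn.2 _ (mem_ball_self hr)
    · exact ⟨0, Eventually.of_forall fun n => by simp [hi]⟩)
  have hconv' : ∀ i, e i ∈ U → CauchySeq (fun n => F (φ n) (e i)) := by
    intro i hi
    obtain ⟨a, ha⟩ := hconv i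
    simp only [hi, if_true] at ha
    exact ha.cauchySeq
  -- the local estimate along the subsequence
  have hloc : ∀ z ∈ U, ∃ r > 0, ∃ K > 0, ∀ᶠ n in atTop,
      DifferentiableOn ℂ (F (φ n)) (ball z r) ∧
        ∀ w ∈ ball z r, dist (F (φ n) w) (F (φ n) z) ≤ K * dist w z := by
    intro z hz
    obtain ⟨r, hr, C, hC⟩ := hF z hz
    refine ⟨r, hr, 2 * |C| / r + 1, by positivity, (hφ.tendsto_atTop.eventually hC).mono ?_⟩
    intro n hn
    refine ⟨hn.1, fun w hw => ?_⟩
    have h1 := ca_lip_center hn.1 (C := |C|) (fun y hy => (hn.2 y hy).trans (le_abs_self C)) w hw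
    have h2 : 0 ≤ dist w z := dist_nonneg
    nlinarith
  -- pointwise Cauchy
  have hcau : ∀ z ∈ U, CauchySeq (fun n => F (φ n) z) := by
    intro z hz
    obtain ⟨r, hr, K, hK, hev⟩ := hloc z hz
    rw [Metric.cauchySeq_iff]
    intro ε hε
    have hδ : 0 < min r (ε / (4 * K)) := lt_min hr (by positivity)
    obtain ⟨i, hi⟩ := hde.exists_mem_open (isOpen_ball.inter hU)
      (⟨z, mem_ball_self hδ, hz⟩ : (ball z (min r (ε / (4 * K))) ∩ U).Nonempty)
    obtain ⟨N1, hN1⟩ := (Metric.cauchySeq_iff.1 (hconv' i hi.2)) (ε / 4) (by positivity)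
    obtain ⟨N2, hN2⟩ := eventually_atTop.1 hev
    have hir : e i ∈ ball z r := ball_subset_ball (min_le_left _ _) hi.1
    have hid : K * dist (e i) z ≤ ε / 4 := by
      have h1 : dist (e i) z < ε / (4 * K) := lt_of_lt_of_le hi.1 (min_le_right _ _)
      have h2 : K * (ε / (4 * K)) = ε / 4 := by field_simp
      nlinarith
    refine ⟨max N1 N2, fun m hm n hn => ?_⟩
    have hm1 := (hN2 m (le_trans (le_max_right _ _) hm)).2 _ hir
    have hn1 := (hN2 n (le_trans (le_max_right _ _) hn)).2 _ hir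
    have hmn := hN1 m (le_trans (le_max_left _ _) hm) n (le_trans (le_max_left _ _) hn)
    calc dist (F (φ m) z) (F (φ n) z)
        ≤ dist (F (φ m) z) (F (φ m) (e i)) + dist (F (φ m) (e i)) (F (φ n) (e i))
          + dist (F (φ n) (e i)) (F (φ n) z) := dist_triangle4 _ _ _ _
      _ < ε := by rw [dist_comm (F (φ m) z)]; linarith
  -- the limit
  have hlim : ∀ z ∈ U, ∃ a, Tendsto (fun n => F (φ n) z) atTop (𝓝 a) :=
    fun z hz => cauchySeq_tendsto_of_complete (hcau z hz)
  choose! G hG using hlim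
  have hGlu : TendstoLocallyUniformlyOn (fun n => F (φ n)) G atTop U := by
    rw [Metric.tendstoLocallyUniformlyOn_iff]
    intro ε hε z hz
    obtain ⟨r, hr, K, hK, hev⟩ := hloc z hz
    have hδ : 0 < min r (ε / (4 * K)) := lt_min hr (by positivity)
    refine ⟨ball z (min r (ε / (4 * K))) ∩ U,
      inter_mem (mem_nhdsWithin_of_mem_nhds (ball_mem_nhds _ hδ)) self_mem_nhdsWithin, ?_⟩
    have h3 : ∀ᶠ n in atTop, dist (F (φ n) z) (G z) < ε / 4 :=
      (Metric.tendsto_nhds.1 (hG z hz)) _ (by positivity)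
    filter_upwards [hev, h3] with n hn hn3 y hy
    have hyr : y ∈ ball z r := ball_subset_ball (min_le_left _ _) hy.1
    have hyd : K * dist y z ≤ ε / 4 := by
      have h1 : dist y z < ε / (4 * K) := lt_of_lt_of_le hy.1 (min_le_right _ _)
      have h2 : K * (ε / (4 * K)) = ε / 4 := by field_simp
      nlinarith
    have hGy : dist (G y) (G z) ≤ K * dist y z := by
      refine le_of_tendsto ((hG y hy.2).dist (hG z hz)) ?_
      exact hev.mono fun m hm => hm.2 y hyr
    have h4 := hn.2 y hyr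
    calc dist (G y) (F (φ n) y)
        ≤ dist (G y) (G z) + dist (G z) (F (φ n) z) + dist (F (φ n) z) (F (φ n) y) :=
          dist_triangle4 _ _ _ _
      _ < ε := by
          rw [dist_comm (G z) (F (φ n) z), dist_comm (F (φ n) z) (F (φ n) y)]; linarith
  refine ⟨φ, G, hφ, ?_, hGlu⟩
  intro z hz
  obtain ⟨r, hr, K, hK, hev⟩ := hloc z hz
  have hop : IsOpen (U ∩ ball z r) := hU.inter isOpen_ball
  have h1 : DifferentiableOn ℂ G (U ∩ ball z r) :=
    (hGlu.mono inter_subset_left).differentiableOn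
      (hev.mono fun n hn => hn.1.mono inter_subset_right) hop
  exact ((h1 z ⟨hz, mem_ball_self hr⟩).differentiableAt
    (hop.mem_nhds ⟨hz, mem_ball_self hr⟩)).differentiableWithinAt

/-- **Montel's theorem**, classical form. -/
theorem ca_montel {U : Set ℂ} (hU : IsOpen U) (F : ℕ → ℂ → ℂ)
    (hd : ∀ n, DifferentiableOn ℂ (F n) U)
    (hb : ∀ z ∈ U, ∃ V ∈ 𝓝 z, ∃ C : ℝ, ∀ n, ∀ w ∈ V, ‖F n w‖ ≤ C) :
    ∃ (φ : ℕ → ℕ) (G : ℂ → ℂ), StrictMono φ ∧ DifferentiableOn ℂ G U ∧
      TendstoLocallyUniformlyOn (fun n => F (φ n)) G atTop U := by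
  refine ca_montel_exhaust U hU F fun z hz => ?_
  obtain ⟨V, hV, C, hC⟩ := hb z hz
  obtain ⟨r, hr, hrV⟩ := Metric.mem_nhds_iff.1 (Filter.inter_mem hV (hU.mem_nhds hz))
  exact ⟨r, hr, C, Eventually.of_forall fun n =>
    ⟨(hd n).mono fun w hw => (hrV hw).2, fun w hw => hC n w (hrV hw).1⟩⟩

/-- In the situation of `ca_montel_exhaust` the derivatives converge locally uniformly as well. -/
theorem ca_montel_deriv {U : Set ℂ} (hU : IsOpen U) {F : ℕ → ℂ → ℂ} {G : ℂ → ℂ}
    (hF : ∀ z ∈ U, ∃ r > 0, ∀ᶠ n in atTop, DifferentiableOn ℂ (F n) (ball z r))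
    (h : TendstoLocallyUniformlyOn F G atTop U) :
    TendstoLocallyUniformlyOn (fun n => deriv (F n)) (deriv G) atTop U := by
  rw [Metric.tendstoLocallyUniformlyOn_iff]
  intro ε hε z hz
  obtain ⟨r, hr, hev⟩ := hF z hz
  have hop : IsOpen (U ∩ ball z r) := hU.inter isOpen_ball
  have h1 : TendstoLocallyUniformlyOn (deriv ∘ F) (deriv G) atTop (U ∩ ball z r) :=
    (h.mono inter_subset_left).deriv (hev.mono fun n hn => hn.mono inter_subset_right) hop
  obtain ⟨t, ht, hT⟩ := (Metric.tendstoLocallyUniformlyOn_iff.1 h1) ε hε z ⟨hz, mem_ball_self hr⟩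
  refine ⟨t, ?_, hT⟩
  rw [hop.nhdsWithin_eq ⟨hz, mem_ball_self hr⟩] at ht
  exact mem_nhdsWithin_of_mem_nhds ht

end Claimed.Agent.R269
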