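/-
Row 269, library L3-CA1 (HOST-FREE, Mathlib only).  Owner: helper221.

LINEAR ANALYTIC ODES ON CONVEX DOMAINS.
* `ca_star_nhds`    : compact sets, star shaped about `z₀`, which are neighbourhoods of a given point of a convex open set.
* `ca_prim_bound`   : weighted bound for primitives: `‖g'‖ ≤ M e^{μ|z-z₀|}`, `g z₀ = 0`  =>  `‖g‖ ≤ (M/μ) e^{μ|z-z₀|}`.
* `ca_ode_linear`   : `Y' = A(z) Y + b(z)`, `Y z₀ = Y₀` is solvable on a convex open set (Banach space valued).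
* `ca_ode_linear_unique` : uniqueness.
* `ca_ode2_solve`   : `y'' = q y`, `y z₀ = a`, `y' z₀ = b`.
-/
import Mathlib

set_option autoImplicit false

namespace Claimed.Agent.R269

open Filter Topology Set Metric

/-- compact star shaped neighbourhoods in a convex open set. -/
theorem ca_star_nhds {U : Set ℂ} (hU : IsOpen U) (hc : Convex ℝ U) {z₀ z₁ : ℂ} (h0 : z₀ ∈ U)
    (h1 : z₁ ∈ U) :
    ∃ K : Set ℂ, IsCompact K ∧ K ⊆ U ∧ K ∈ 𝓝 z₁ ∧ z₀ ∈ K ∧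
      ∀ z ∈ K, ∀ t ∈ Icc (0 : ℝ) 1, z₀ + (t : ℂ) * (z - z₀) ∈ K := by
  obtain ⟨ε, hε, hεU⟩ := Metric.nhds_basis_closedBall.mem_iff.1 (hU.mem_nhds h1)
  refine ⟨(fun p : ℝ × ℂ => z₀ + (p.1 : ℂ) * (p.2 - z₀)) '' (Icc (0 : ℝ) 1 ×ˢ closedBall z₁ ε),
    (isCompact_Icc.prod (isCompact_closedBall _ _)).image (by fun_prop), ?_, ?_, ?_, ?_⟩
  · rintro _ ⟨⟨t, ζ⟩, ⟨ht, hζ⟩, rfl⟩
    have := hc.add_smul_sub_mem h0 (hεU hζ) ht
    simpa [Complex.real_smul] using this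
  · refine Filter.mem_of_superset (closedBall_mem_nhds _ hε) fun ζ hζ => ?_
    exact ⟨(1, ζ), ⟨⟨zero_le_one, le_rfl⟩, hζ⟩, by simp⟩
  · exact ⟨(0, z₁), ⟨⟨le_rfl, zero_le_one⟩, mem_closedBall_self hε.le⟩, by simp⟩
  · rintro _ ⟨⟨s, ζ⟩, ⟨hs, hζ⟩, rfl⟩ t ht
    refine ⟨(t * s, ζ), ⟨⟨mul_nonneg ht.1 hs.1, mul_le_one₀ ht.2 hs.1 hs.2⟩, hζ⟩, ?_⟩
    simp only [Complex.ofReal_mul]
    ring

variable {E : Type*} [NormedAddCommGroup E] [NormedSpace ℂ E]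

/-- weighted bound for primitives on a set star shaped about `z₀`. -/
theorem ca_prim_bound {K : Set ℂ} {z₀ : ℂ}
    (hK : ∀ z ∈ K, ∀ t ∈ Icc (0 : ℝ) 1, z₀ + (t : ℂ) * (z - z₀) ∈ K) {g h : ℂ → E}
    (hg : ∀ z ∈ K, HasDerivAt g (h z) z) (hg0 : g z₀ = 0) {M μ : ℝ} (hM : 0 ≤ M) (hμ : 0 < μ)
    (hh : ∀ z ∈ K, ‖h z‖ ≤ M * Real.exp (μ * ‖z - z₀‖)) :
    ∀ z ∈ K, ‖g z‖ ≤ M / μ * Real.exp (μ * ‖z - z₀‖) := by
  intro z hz
  have hφ : ∀ t ∈ Icc (0 : ℝ) 1, HasDerivAt (fun t : ℝ => g (z₀ + (t : ℂ) * (z - z₀)))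
      ((z - z₀) • h (z₀ + (t : ℂ) * (z - z₀))) t := by
    intro t ht
    have h1 : HasDerivAt (fun t : ℝ => z₀ + (t : ℂ) * (z - z₀)) (z - z₀) t := by
      have := ((Complex.ofRealCLM.hasDerivAt (x := t)).mul_const (z - z₀)).const_add z₀
      simpa using this
    exact HasDerivAt.scomp t (hg _ (hK z hz t ht)) h1
  have hB : ∀ t : ℝ, HasDerivAt (fun t : ℝ => M / μ * Real.exp (μ * (t * ‖z - z₀‖)))
      (M * ‖z - z₀‖ * Real.exp (μ * (t * ‖z - z₀‖))) t := by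
    intro t
    have h1 : HasDerivAt (fun t : ℝ => μ * (t * ‖z - z₀‖)) (μ * ‖z - z₀‖) t := by
      simpa using ((hasDerivAt_id t).mul_const ‖z - z₀‖).const_mul μ
    have h2 := (h1.exp).const_mul (M / μ)
    refine h2.congr_deriv ?_
    field_simp
  have := image_norm_le_of_norm_deriv_right_le_deriv_boundary
    (f := fun t : ℝ => g (z₀ + (t : ℂ) * (z - z₀))) (a := 0) (b := 1)
    (f' := fun t : ℝ => (z - z₀) • h (z₀ + (t : ℂ) * (z - z₀)))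
    (B := fun t : ℝ => M / μ * Real.exp (μ * (t * ‖z - z₀‖)))
    (B' := fun t : ℝ => M * ‖z - z₀‖ * Real.exp (μ * (t * ‖z - z₀‖)))
    (fun t ht => (hφ t ht).continuousAt.continuousWithinAt)
    (fun t ht => (hφ t ⟨ht.1, ht.2.le⟩).hasDerivWithinAt)
    (by simp only [Complex.ofReal_zero, zero_mul, add_zero, hg0, norm_zero]; positivity)
    hB
    (fun t ht => by
      have h1 := hh _ (hK z hz t ⟨ht.1, ht.2.le⟩)
      have h2 : ‖z₀ + (t : ℂ) * (z - z₀) - z₀‖ = t * ‖z - z₀‖ := by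
        rw [add_sub_cancel_left, norm_mul, Complex.norm_real, Real.norm_of_nonneg ht.1]
      rw [h2] at h1
      rw [norm_smul]
      calc ‖z - z₀‖ * ‖h (z₀ + (t : ℂ) * (z - z₀))‖
          ≤ ‖z - z₀‖ * (M * Real.exp (μ * (t * ‖z - z₀‖))) := by gcongr
        _ = M * ‖z - z₀‖ * Real.exp (μ * (t * ‖z - z₀‖)) := by ring)
    (x := 1) ⟨zero_le_one, le_rfl⟩
  simpa using this

/-- the contraction estimate of the Picard map in the weighted norm `sup e^{-(2Q+1)|z-z₀|} ‖·‖`. -/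
theorem ca_ode_contract {K : Set ℂ} {z₀ : ℂ}
    (hK : ∀ z ∈ K, ∀ t ∈ Icc (0 : ℝ) 1, z₀ + (t : ℂ) * (z - z₀) ∈ K)
    {A : ℂ → E →L[ℂ] E} {b : ℂ → E} {Q : ℝ} (hQ0 : 0 ≤ Q) (hQ : ∀ z ∈ K, ‖A z‖ ≤ Q)
    {f₁ f₂ g₁ g₂ : ℂ → E} (h₁ : ∀ z ∈ K, HasDerivAt g₁ (A z (f₁ z) + b z) z)
    (h₂ : ∀ z ∈ K, HasDerivAt g₂ (A z (f₂ z) + b z) z) (h0 : g₁ z₀ = g₂ z₀) {M : ℝ} (hM : 0 ≤ M)
    (hf : ∀ z ∈ K, ‖f₁ z - f₂ z‖ ≤ M * Real.exp ((2 * Q + 1) * ‖z - z₀‖)) :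
    ∀ z ∈ K, ‖g₁ z - g₂ z‖ ≤ M / 2 * Real.exp ((2 * Q + 1) * ‖z - z₀‖) := by
  intro z hz
  have hμ : 0 < 2 * Q + 1 := by linarith
  have h3 := ca_prim_bound (E := E) hK (g := fun z => g₁ z - g₂ z)
    (h := fun z => A z (f₁ z - f₂ z)) (M := Q * M) (μ := 2 * Q + 1)
    (fun z hz => by
      have := (h₁ z hz).sub (h₂ z hz)
      refine this.congr_deriv ?_
      rw [map_sub]; abel)
    (by simp [h0]) (by positivity) hμ
    (fun z hz => by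
      calc ‖A z (f₁ z - f₂ z)‖ ≤ ‖A z‖ * ‖f₁ z - f₂ z‖ := (A z).le_opNorm _
        _ ≤ Q * (M * Real.exp ((2 * Q + 1) * ‖z - z₀‖)) := by
            gcongr
            · exact hQ z hz
            · exact hf z hz
        _ = Q * M * Real.exp ((2 * Q + 1) * ‖z - z₀‖) := by ring) z hz
  refine h3.trans ?_
  have h4 : Q * M / (2 * Q + 1) ≤ M / 2 := by
    rw [div_le_div_iff₀ hμ two_pos]
    nlinarith
  exact mul_le_mul_of_nonneg_right h4 (Real.exp_pos _).le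

/-- uniqueness for `Y' = A Y + b` on a convex open set. -/
theorem ca_ode_linear_unique {U : Set ℂ} (hU : IsOpen U) (hc : Convex ℝ U) {A : ℂ → E →L[ℂ] E}
    (hA : ContinuousOn A U) {b : ℂ → E} {z₀ : ℂ} (hz₀ : z₀ ∈ U) {Y₁ Y₂ : ℂ → E}
    (h₁ : ∀ z ∈ U, HasDerivAt Y₁ (A z (Y₁ z) + b z) z)
    (h₂ : ∀ z ∈ U, HasDerivAt Y₂ (A z (Y₂ z) + b z) z) (h0 : Y₁ z₀ = Y₂ z₀) :
    ∀ z ∈ U, Y₁ z = Y₂ z := by
  intro z₁ hz₁
  obtain ⟨K, hKc, hKU, hKn, -, hK⟩ := ca_star_nhds hU hc hz₀ hz₁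
  obtain ⟨Q, hQ⟩ := hKc.exists_bound_of_continuousOn (hA.mono hKU)
  have hz₁K : z₁ ∈ K := mem_of_mem_nhds hKn
  have hQ0 : 0 ≤ Q := (norm_nonneg _).trans (hQ z₁ hz₁K)
  have hcont : ContinuousOn (fun z => Y₁ z - Y₂ z) K := fun z hz =>
    ((h₁ z (hKU hz)).continuousAt.sub (h₂ z (hKU hz)).continuousAt).continuousWithinAt
  obtain ⟨M, hM⟩ := hKc.exists_bound_of_continuousOn hcont
  have hM0 : 0 ≤ M := (norm_nonneg _).trans (hM z₁ hz₁K)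
  have est : ∀ n : ℕ, ∀ z ∈ K, ‖Y₁ z - Y₂ z‖ ≤ M / 2 ^ n * Real.exp ((2 * Q + 1) * ‖z - z₀‖) := by
    intro n
    induction n with
    | zero =>
      intro z hz
      have h1 : 1 ≤ Real.exp ((2 * Q + 1) * ‖z - z₀‖) := Real.one_le_exp (by positivity)
      have h2 := hM z hz
      simp only [pow_zero, div_one]
      nlinarith
    | succ n ih =>
      intro z hz
      have := ca_ode_contract hK hQ0 hQ (fun z hz => h₁ z (hKU hz)) (fun z hz => h₂ z (hKU hz)) h0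
        (M := M / 2 ^ n) (by positivity) ih z hz
      rw [pow_succ, ← div_div]
      exact this
  have hlim : Tendsto (fun n : ℕ => M / 2 ^ n * Real.exp ((2 * Q + 1) * ‖z₁ - z₀‖)) atTop
      (𝓝 (0 * Real.exp ((2 * Q + 1) * ‖z₁ - z₀‖))) := by
    refine Tendsto.mul_const _ ?_
    have : Tendsto (fun n : ℕ => M * (1 / 2 : ℝ) ^ n) atTop (𝓝 (M * 0)) :=
      (tendsto_pow_atTop_nhds_zero_of_lt_one (by norm_num) (by norm_num)).const_mul M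
    simpa [div_eq_mul_inv] using this
  rw [zero_mul] at hlim
  have h5 : ‖Y₁ z₁ - Y₂ z₁‖ ≤ 0 := ge_of_tendsto' hlim (fun n => est n z₁ hz₁K)
  exact sub_eq_zero.1 (norm_le_zero_iff.1 h5)

variable [CompleteSpace E]

/-- primitives of Banach space valued holomorphic functions on convex open sets, normalised at a point. -/
theorem ca_exists_primitive_E {f : ℂ → E} {U : Set ℂ} (hU : IsOpen U) (hc : Convex ℝ U)
    (hf : DifferentiableOn ℂ f U) (y₀ : ℂ) (w₀ : E) :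
    ∃ g : ℂ → E, g y₀ = w₀ ∧ ∀ y ∈ U, HasDerivAt g (f y) y := by
  obtain ⟨g, hg⟩ := hc.exists_forall_hasDerivWithinAt hf
  refine ⟨fun y => g y - g y₀ + w₀, by simp, fun y hy => ?_⟩
  have := ((hg y hy).hasDerivAt (hU.mem_nhds hy))
  simpa using (this.sub_const (g y₀)).add_const w₀

/-- **Existence for linear analytic ODEs** `Y' = A(z) Y + b(z)`, `Y z₀ = Y₀`, on a convex open set. -/
theorem ca_ode_linear {U : Set ℂ} (hU : IsOpen U) (hc : Convex ℝ U) {A : ℂ → E →L[ℂ] E}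
    (hA : DifferentiableOn ℂ A U) {b : ℂ → E} (hb : DifferentiableOn ℂ b U) {z₀ : ℂ}
    (hz₀ : z₀ ∈ U) (Y₀ : E) :
    ∃ Y : ℂ → E, Y z₀ = Y₀ ∧ ∀ z ∈ U, HasDerivAt Y (A z (Y z) + b z) z := by
  classical
  -- one Picard step
  have step : ∀ f : {f : ℂ → E // DifferentiableOn ℂ f U},
      ∃ g : {f : ℂ → E // DifferentiableOn ℂ f U},
        g.1 z₀ = Y₀ ∧ ∀ z ∈ U, HasDerivAt g.1 (A z (f.1 z) + b z) z := by
    intro f
    have h1 : DifferentiableOn ℂ (fun z => A z (f.1 z) + b z) U := (hA.clm_apply f.2).add hb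
    obtain ⟨g, hg0, hg⟩ := ca_exists_primitive_E hU hc h1 z₀ Y₀
    exact ⟨⟨g, fun z hz => (hg z hz).differentiableAt.differentiableWithinAt⟩, hg0, hg⟩
  choose T hT0 hT using step
  obtain ⟨y, hy⟩ : ∃ y : ℕ → {f : ℂ → E // DifferentiableOn ℂ f U},
      y = fun n => T^[n] ⟨fun _ => Y₀, differentiableOn_const _⟩ := ⟨_, rfl⟩
  have hys : ∀ n, y (n + 1) = T (y n) := fun n => by
    rw [hy]; exact Function.iterate_succ_apply' T n _
  have hy0 : ∀ n, (y n).1 z₀ = Y₀ := by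
    intro n
    cases n with
    | zero => rw [hy]; rfl
    | succ n => rw [hys]; exact hT0 _
  have hyd : ∀ n, ∀ z ∈ U, HasDerivAt (y (n + 1)).1 (A z ((y n).1 z) + b z) z := by
    intro n; rw [hys]; exact hT _
  -- the local estimate
  have main : ∀ z₁ ∈ U, ∃ K ∈ 𝓝 z₁, K ⊆ U ∧
      (∀ z ∈ K, ∀ t ∈ Icc (0 : ℝ) 1, z₀ + (t : ℂ) * (z - z₀) ∈ K) ∧
      ∃ Q : ℝ, 0 ≤ Q ∧ (∀ z ∈ K, ‖A z‖ ≤ Q) ∧ ∃ c : ℝ, 0 ≤ c ∧
        ∀ n, ∀ z ∈ K, dist ((y n).1 z) ((y (n + 1)).1 z) ≤ c * (1 / 2 : ℝ) ^ n := by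
    intro z₁ hz₁
    obtain ⟨K, hKc, hKU, hKn, -, hK⟩ := ca_star_nhds hU hc hz₀ hz₁
    obtain ⟨Q, hQ⟩ := hKc.exists_bound_of_continuousOn (hA.continuousOn.mono hKU)
    have hz₁K : z₁ ∈ K := mem_of_mem_nhds hKn
    have hQ0 : 0 ≤ Q := (norm_nonneg _).trans (hQ z₁ hz₁K)
    have hcont : ContinuousOn (fun z => (y 1).1 z - (y 0).1 z) K :=
      ((y 1).2.continuousOn.sub (y 0).2.continuousOn).mono hKU
    obtain ⟨M, hM⟩ := hKc.exists_bound_of_continuousOn hcont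
    have hM0 : 0 ≤ M := (norm_nonneg _).trans (hM z₁ hz₁K)
    obtain ⟨D, hD⟩ := hKc.exists_bound_of_continuousOn
      (f := fun z : ℂ => z - z₀) (by fun_prop)
    have est : ∀ n : ℕ, ∀ z ∈ K, ‖(y (n + 1)).1 z - (y n).1 z‖
        ≤ M / 2 ^ n * Real.exp ((2 * Q + 1) * ‖z - z₀‖) := by
      intro n
      induction n with
      | zero =>
        intro z hz
        have h1 : 1 ≤ Real.exp ((2 * Q + 1) * ‖z - z₀‖) := Real.one_le_exp (by positivity)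
        have h2 := hM z hz
        simp only [pow_zero, div_one]
        simp only [zero_add]
        nlinarith
      | succ n ih =>
        intro z hz
        have := ca_ode_contract hK hQ0 hQ (fun z hz => hyd (n + 1) z (hKU hz))
          (fun z hz => hyd n z (hKU hz)) (by rw [hy0, hy0]) (M := M / 2 ^ n) (by positivity) ih z hz
        rw [pow_succ, ← div_div]
        exact this
    refine ⟨K, hKn, hKU, hK, Q, hQ0, hQ, M * Real.exp ((2 * Q + 1) * D), by positivity, ?_⟩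
    intro n z hz
    rw [dist_comm, dist_eq_norm]
    refine (est n z hz).trans ?_
    have h1 : Real.exp ((2 * Q + 1) * ‖z - z₀‖) ≤ Real.exp ((2 * Q + 1) * D) := by
      apply Real.exp_le_exp.2
      have := hD z hz
      gcongr
    calc M / 2 ^ n * Real.exp ((2 * Q + 1) * ‖z - z₀‖)
        ≤ M / 2 ^ n * Real.exp ((2 * Q + 1) * D) := by gcongr
      _ = M * Real.exp ((2 * Q + 1) * D) * (1 / 2 : ℝ) ^ n := by
          rw [one_div, inv_pow]; ring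
  -- the limit
  have hlim : ∀ z ∈ U, ∃ a, Tendsto (fun n => (y n).1 z) atTop (𝓝 a) := by
    intro z hz
    obtain ⟨K, hKn, -, -, Q, -, -, c, -, hc'⟩ := main z hz
    exact cauchySeq_tendsto_of_complete
      (cauchySeq_of_le_geometric (1 / 2) c (by norm_num) (fun n => hc' n z (mem_of_mem_nhds hKn)))
  choose! Y hY using hlim
  have hunif : ∀ z₁ ∈ U, ∃ K ∈ 𝓝 z₁, K ⊆ U ∧
      (∀ z ∈ K, ∀ t ∈ Icc (0 : ℝ) 1, z₀ + (t : ℂ) * (z - z₀) ∈ K) ∧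
      ∃ Q : ℝ, 0 ≤ Q ∧ (∀ z ∈ K, ‖A z‖ ≤ Q) ∧ ∃ c : ℝ, 0 ≤ c ∧
        ∀ n, ∀ z ∈ K, dist ((y n).1 z) (Y z) ≤ c * (1 / 2 : ℝ) ^ n := by
    intro z₁ hz₁
    obtain ⟨K, hKn, hKU, hK, Q, hQ0, hQ, c, hc0, hc'⟩ := main z₁ hz₁
    refine ⟨K, hKn, hKU, hK, Q, hQ0, hQ, 2 * c, by positivity, fun n z hz => ?_⟩
    have := dist_le_of_le_geometric_of_tendsto (1 / 2) c (by norm_num) (fun n => hc' n z hz)
      (hY z (hKU hz)) n
    refine this.trans (le_of_eq ?_)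
    ring
  have hpow : ∀ c : ℝ, Tendsto (fun n : ℕ => c * (1 / 2 : ℝ) ^ n) atTop (𝓝 0) := by
    intro c
    have : Tendsto (fun n : ℕ => c * (1 / 2 : ℝ) ^ n) atTop (𝓝 (c * 0)) :=
      (tendsto_pow_atTop_nhds_zero_of_lt_one (by norm_num) (by norm_num)).const_mul c
    simpa using this
  have hlu : TendstoLocallyUniformlyOn (fun n => (y n).1) Y atTop U := by
    rw [Metric.tendstoLocallyUniformlyOn_iff]
    intro ε hε z₁ hz₁
    obtain ⟨K, hKn, hKU, hK, Q, hQ0, hQ, c, hc0, hc'⟩ := hunif z₁ hz₁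
    refine ⟨K, mem_nhdsWithin_of_mem_nhds hKn, ?_⟩
    filter_upwards [(hpow c).eventually (gt_mem_nhds hε)] with n hn z hz
    rw [dist_comm]
    exact (hc' n z hz).trans_lt hn
  have hYd : DifferentiableOn ℂ Y U :=
    hlu.differentiableOn (Eventually.of_forall fun n => (y n).2) hU
  -- the fixed point equation
  have hfix : ∀ z ∈ U, (T ⟨Y, hYd⟩).1 z = Y z := by
    intro z₁ hz₁
    obtain ⟨K, hKn, hKU, hK, Q, hQ0, hQ, c, hc0, hc'⟩ := hunif z₁ hz₁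
    have hz₁K : z₁ ∈ K := mem_of_mem_nhds hKn
    have h1 : ∀ n : ℕ, ‖(T ⟨Y, hYd⟩).1 z₁ - (y (n + 1)).1 z₁‖
        ≤ (Real.exp ((2 * Q + 1) * ‖z₁ - z₀‖) / 2 * c) * (1 / 2 : ℝ) ^ n := by
      intro n
      have := ca_ode_contract hK hQ0 hQ (g₁ := (T ⟨Y, hYd⟩).1) (f₁ := Y) (b := b)
        (fun z hz => hT ⟨Y, hYd⟩ z (hKU hz))
        (fun z hz => hyd n z (hKU hz)) (by rw [hy0, hT0]) (M := c * (1 / 2 : ℝ) ^ n)
        (by positivity)
        (fun z hz => by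
          have h1 : 1 ≤ Real.exp ((2 * Q + 1) * ‖z - z₀‖) := Real.one_le_exp (by positivity)
          have h2 := hc' n z hz
          rw [dist_comm, dist_eq_norm] at h2
          have h3 : 0 ≤ c * (1 / 2 : ℝ) ^ n := by positivity
          nlinarith) z₁ hz₁K
      refine this.trans (le_of_eq ?_)
      ring
    have h2 : Tendsto (fun n => (y (n + 1)).1 z₁) atTop (𝓝 ((T ⟨Y, hYd⟩).1 z₁)) := by
      rw [tendsto_iff_norm_sub_tendsto_zero]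
      refine squeeze_zero (fun _ => norm_nonneg _) (fun n => ?_)
        (hpow (Real.exp ((2 * Q + 1) * ‖z₁ - z₀‖) / 2 * c))
      rw [norm_sub_rev]
      exact h1 n
    have h3 : Tendsto (fun n => (y (n + 1)).1 z₁) atTop (𝓝 (Y z₁)) :=
      (hY z₁ hz₁).comp (tendsto_add_atTop_nat 1)
    exact tendsto_nhds_unique h2 h3
  refine ⟨Y, ?_, fun z hz => ?_⟩
  · rw [← hfix z₀ hz₀]; exact hT0 _
  · refine (hT ⟨Y, hYd⟩ z hz).congr_of_eventuallyEq ?_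
    filter_upwards [hU.mem_nhds hz] with w hw
    exact (hfix w hw).symm

/-- **The second order linear ODE** `y'' = q y` with holomorphic coefficient on a convex open set. -/
theorem ca_ode2_hasDeriv {U : Set ℂ} (hU : IsOpen U) (hc : Convex ℝ U) {q : ℂ → ℂ}
    (hq : DifferentiableOn ℂ q U) {z₀ : ℂ} (hz₀ : z₀ ∈ U) (a b : ℂ) :
    ∃ y v : ℂ → ℂ, y z₀ = a ∧ v z₀ = b ∧ (∀ z ∈ U, HasDerivAt y (v z) z) ∧
      ∀ z ∈ U, HasDerivAt v (q z * y z) z := by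
  set L₁ : ℂ × ℂ →L[ℂ] ℂ × ℂ :=
    (ContinuousLinearMap.snd ℂ ℂ ℂ).prod (0 : ℂ × ℂ →L[ℂ] ℂ) with hL₁
  set L₂ : ℂ × ℂ →L[ℂ] ℂ × ℂ :=
    (0 : ℂ × ℂ →L[ℂ] ℂ).prod (ContinuousLinearMap.fst ℂ ℂ ℂ) with hL₂
  have hA : DifferentiableOn ℂ (fun z => L₁ + q z • L₂) U :=
    (differentiableOn_const _).add (hq.smul_const _)
  obtain ⟨Y, hY0, hY⟩ := ca_ode_linear hU hc hA (b := fun _ => 0) (differentiableOn_const _) hz₀
    ((a, b) : ℂ × ℂ)
  refine ⟨fun z => (Y z).1, fun z => (Y z).2, by simp only [hY0], by simp only [hY0],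
    fun z hz => ?_, fun z hz => ?_⟩
  · have := (ContinuousLinearMap.fst ℂ ℂ ℂ).hasFDerivAt.comp_hasDerivAt z (hY z hz)
    refine HasDerivAt.congr_deriv (f := fun z => (Y z).1) this ?_
    simp [hL₁, hL₂]
  · have := (ContinuousLinearMap.snd ℂ ℂ ℂ).hasFDerivAt.comp_hasDerivAt z (hY z hz)
    refine HasDerivAt.congr_deriv (f := fun z => (Y z).2) this ?_
    simp [hL₁, hL₂]

/-- `y'' = q y`, `y z₀ = a`, `y' z₀ = b`, in terms of `deriv`. -/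
theorem ca_ode2_solve {U : Set ℂ} (hU : IsOpen U) (hc : Convex ℝ U) {q : ℂ → ℂ}
    (hq : DifferentiableOn ℂ q U) {z₀ : ℂ} (hz₀ : z₀ ∈ U) (a b : ℂ) :
    ∃ y : ℂ → ℂ, DifferentiableOn ℂ y U ∧ (∀ z ∈ U, deriv (deriv y) z = q z * y z) ∧
      y z₀ = a ∧ deriv y z₀ = b := by
  obtain ⟨y, v, hy0, hv0, hy, hv⟩ := ca_ode2_hasDeriv hU hc hq hz₀ a b
  refine ⟨y, fun z hz => (hy z hz).differentiableAt.differentiableWithinAt, fun z hz => ?_, hy0,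
    by rw [(hy z₀ hz₀).deriv, hv0]⟩
  have h1 : deriv y =ᶠ[𝓝 z] v := by
    filter_upwards [hU.mem_nhds hz] with w hw
    exact (hy w hw).deriv
  rw [h1.deriv_eq, (hv z hz).deriv]

end Claimed.Agent.R269
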