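/-
Row 269, library L3-CA1 (HOST-FREE, Mathlib only).  Owner: helper221.

NONLINEAR HOLOMORPHIC ODES `u' = g(u)` (Banach space valued) ON A DISC OF EXPLICIT RADIUS.
* `ca_lipschitz_half` : a holomorphic map bounded by `M` on `ball x₀ ρ` is `2M/ρ`-Lipschitz on `ball x₀ (ρ/2)`.
* `ca_odenl_exists`   : holomorphic Picard-Lindelöf on `ball y₀ (ρ/(4M))`.
* `ca_odenl_unique`   : uniqueness on convex sets.
(consumer: `hd_lipschitz`, `hd_ode_exists`, `hd_ode_unique` of `Lib/HolDyn.lean`.)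
-/
import Claimed.Agent.R269.Lib.CAOde

set_option autoImplicit false

namespace Claimed.Agent.R269

open Filter Topology Set Metric

variable {E : Type*} [NormedAddCommGroup E] [NormedSpace ℂ E]

/-- Cauchy estimate for the Fréchet derivative. -/
theorem ca_norm_fderiv_le {g : E → E} {x₀ : E} {ρ M : ℝ} (hρ : 0 < ρ)
    (hg : DifferentiableOn ℂ g (ball x₀ ρ)) (hb : ∀ x ∈ ball x₀ ρ, ‖g x‖ ≤ M) :
    ∀ x ∈ ball x₀ (ρ / 2), ‖fderiv ℂ g x‖ ≤ 2 * M / ρ := by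
  intro x hx
  have hM : 0 ≤ M := (norm_nonneg _).trans (hb x₀ (mem_ball_self hρ))
  have hxρ : x ∈ ball x₀ ρ := ball_subset_ball (by linarith) hx
  have hgx : DifferentiableAt ℂ g x := (hg x hxρ).differentiableAt (isOpen_ball.mem_nhds hxρ)
  refine ContinuousLinearMap.opNorm_le_bound _ (by positivity) fun v => ?_
  rcases eq_or_ne v 0 with rfl | hv
  · simp
  have hvn : 0 < ‖v‖ := norm_pos_iff.2 hv
  obtain ⟨R, hRdef⟩ : ∃ R, R = ρ / (2 * ‖v‖) := ⟨_, rfl⟩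
  have hR : 0 < R := by rw [hRdef]; positivity
  have hRv : R * ‖v‖ = ρ / 2 := by rw [hRdef]; field_simp
  have hmem : ∀ ζ ∈ closedBall (0 : ℂ) R, x + ζ • v ∈ ball x₀ ρ := by
    intro ζ hζ
    rw [mem_closedBall, dist_zero_right] at hζ
    rw [mem_ball, dist_eq_norm] at hx ⊢
    calc ‖x + ζ • v - x₀‖ = ‖(x - x₀) + ζ • v‖ := by congr 1; abel
      _ ≤ ‖x - x₀‖ + ‖ζ • v‖ := norm_add_le _ _
      _ = ‖x - x₀‖ + ‖ζ‖ * ‖v‖ := by rw [norm_smul]
      _ ≤ ‖x - x₀‖ + R * ‖v‖ := by gcongr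
      _ < ρ := by rw [hRv]; linarith
  have hline : ∀ ζ : ℂ, HasDerivAt (fun ζ : ℂ => x + ζ • v) v ζ := by
    intro ζ
    simpa using ((hasDerivAt_id ζ).smul_const v).const_add x
  have hd : ∀ ζ ∈ closedBall (0 : ℂ) R, DifferentiableAt ℂ (fun ζ : ℂ => g (x + ζ • v)) ζ := by
    intro ζ hζ
    have h1 : DifferentiableAt ℂ g (x + ζ • v) :=
      (hg _ (hmem ζ hζ)).differentiableAt (isOpen_ball.mem_nhds (hmem ζ hζ))
    exact h1.comp ζ (hline ζ).differentiableAt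
  have hdc : DiffContOnCl ℂ (fun ζ : ℂ => g (x + ζ • v)) (ball 0 R) := by
    refine ⟨fun ζ hζ => (hd ζ (ball_subset_closedBall hζ)).differentiableWithinAt, ?_⟩
    rw [closure_ball _ hR.ne']
    exact fun ζ hζ => (hd ζ hζ).continuousAt.continuousWithinAt
  have h1 := Complex.norm_deriv_le_of_forall_mem_sphere_norm_le hR hdc
    (fun ζ hζ => hb _ (hmem ζ (sphere_subset_closedBall hζ)))
  have h2 : HasDerivAt (fun ζ : ℂ => g (x + ζ • v)) (fderiv ℂ g x v) 0 := by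
    have h3 : HasFDerivAt g (fderiv ℂ g x) (x + (0 : ℂ) • v) := by
      rw [zero_smul, add_zero]; exact hgx.hasFDerivAt
    exact h3.comp_hasDerivAt 0 (hline 0)
  rw [h2.deriv] at h1
  refine h1.trans (le_of_eq ?_)
  rw [hRdef]
  field_simp

/-- a bounded holomorphic map on a ball is Lipschitz on the ball of half the radius. -/
theorem ca_lipschitz_half {g : E → E} {x₀ : E} {ρ M : ℝ} (hρ : 0 < ρ)
    (hg : DifferentiableOn ℂ g (ball x₀ ρ)) (hb : ∀ x ∈ ball x₀ ρ, ‖g x‖ ≤ M) :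
    ∀ x ∈ ball x₀ (ρ / 2), ∀ x' ∈ ball x₀ (ρ / 2), ‖g x - g x'‖ ≤ 2 * M / ρ * ‖x - x'‖ := by
  intro x hx x' hx'
  refine Convex.norm_image_sub_le_of_norm_fderiv_le (𝕜 := ℂ) (s := ball x₀ (ρ / 2)) ?_
    (ca_norm_fderiv_le hρ hg hb) (convex_ball x₀ (ρ / 2)) hx' hx
  intro y hy
  have hyρ : y ∈ ball x₀ ρ := ball_subset_ball (by linarith) hy
  exact (hg y hyρ).differentiableAt (isOpen_ball.mem_nhds hyρ)

/-- uniqueness on convex sets. -/
theorem ca_odenl_unique {g : E → E} {x₀ : E} {ρ M : ℝ} (hρ : 0 < ρ)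
    (hg : DifferentiableOn ℂ g (ball x₀ ρ)) (hb : ∀ x ∈ ball x₀ ρ, ‖g x‖ ≤ M) {U : Set ℂ}
    (hc : Convex ℝ U) {y₀ : ℂ} (hy₀ : y₀ ∈ U) {u v : ℂ → E}
    (hu : ∀ y ∈ U, u y ∈ ball x₀ (ρ / 2) ∧ HasDerivAt u (g (u y)) y)
    (hv : ∀ y ∈ U, v y ∈ ball x₀ (ρ / 2) ∧ HasDerivAt v (g (v y)) y) (h0 : u y₀ = v y₀) :
    EqOn u v U := by
  intro y hy
  have hγ : ∀ t ∈ Icc (0 : ℝ) 1, y₀ + (t : ℂ) * (y - y₀) ∈ U := by
    intro t ht
    have := hc.add_smul_sub_mem hy₀ hy ht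
    simpa [Complex.real_smul] using this
  have hγd : ∀ t : ℝ, HasDerivAt (fun t : ℝ => y₀ + (t : ℂ) * (y - y₀)) (y - y₀) t := by
    intro t
    have := ((Complex.ofRealCLM.hasDerivAt (x := t)).mul_const (y - y₀)).const_add y₀
    simpa using this
  have hφ : ∀ t ∈ Icc (0 : ℝ) 1, HasDerivAt
      (fun t : ℝ => u (y₀ + (t : ℂ) * (y - y₀)) - v (y₀ + (t : ℂ) * (y - y₀)))
      ((y - y₀) • g (u (y₀ + (t : ℂ) * (y - y₀))) - (y - y₀) • g (v (y₀ + (t : ℂ) * (y - y₀)))) t := by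
    intro t ht
    exact (HasDerivAt.scomp t (hu _ (hγ t ht)).2 (hγd t)).sub
      (HasDerivAt.scomp t (hv _ (hγ t ht)).2 (hγd t))
  have := eq_zero_of_abs_deriv_le_mul_abs_self_of_eq_zero_right (a := 0) (b := 1)
    (f := fun t : ℝ => u (y₀ + (t : ℂ) * (y - y₀)) - v (y₀ + (t : ℂ) * (y - y₀)))
    (f' := fun t : ℝ => (y - y₀) • g (u (y₀ + (t : ℂ) * (y - y₀)))
      - (y - y₀) • g (v (y₀ + (t : ℂ) * (y - y₀))))
    (K := ‖y - y₀‖ * (2 * M / ρ))
    (fun t ht => (hφ t ht).continuousAt.continuousWithinAt)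
    (fun t ht => (hφ t ⟨ht.1, ht.2.le⟩).hasDerivWithinAt)
    (by simp [h0])
    (fun t ht => by
      have ht' : t ∈ Icc (0 : ℝ) 1 := ⟨ht.1, ht.2.le⟩
      rw [← smul_sub, norm_smul, mul_assoc]
      gcongr
      exact ca_lipschitz_half hρ hg hb _ (hu _ (hγ t ht')).1 _ (hv _ (hγ t ht')).1)
    1 ⟨zero_le_one, le_rfl⟩
  have h1 : u y - v y = 0 := by simpa using this
  exact sub_eq_zero.1 h1

/-- **holomorphic Picard-Lindelöf** with an explicit radius. -/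
theorem ca_odenl_exists [CompleteSpace E] {g : E → E} {x₀ : E} {ρ M : ℝ} (hρ : 0 < ρ) (hM : 0 < M)
    (hg : DifferentiableOn ℂ g (ball x₀ ρ)) (hb : ∀ x ∈ ball x₀ ρ, ‖g x‖ ≤ M) (y₀ : ℂ) :
    ∃ u : ℂ → E, u y₀ = x₀ ∧
      ∀ y ∈ ball y₀ (ρ / (4 * M)), u y ∈ ball x₀ (ρ / 2) ∧ HasDerivAt u (g (u y)) y := by
  classical
  obtain ⟨r, hrdef⟩ : ∃ r, r = ρ / (4 * M) := ⟨_, rfl⟩
  rw [← hrdef]
  have hr : 0 < r := by rw [hrdef]; positivity
  have hMr : M * r = ρ / 4 := by rw [hrdef]; field_simp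
  have hBo : IsOpen (ball y₀ r) := isOpen_ball
  have hBc : Convex ℝ (ball y₀ r) := convex_ball y₀ r
  have hy₀ : y₀ ∈ ball y₀ r := mem_ball_self hr
  -- membership from the cone bound
  have hin : ∀ f : ℂ → E, (∀ y ∈ ball y₀ r, ‖f y - x₀‖ ≤ M * ‖y - y₀‖) →
      ∀ y ∈ ball y₀ r, f y ∈ ball x₀ (ρ / 2) := by
    intro f hf y hy
    have h1 := hf y hy
    rw [mem_ball, dist_eq_norm] at hy ⊢
    have : M * ‖y - y₀‖ < M * r := by gcongr
    linarith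
  have hhalf : ball x₀ (ρ / 2) ⊆ ball x₀ ρ := ball_subset_ball (by linarith)
  -- one Picard step
  have step : ∀ f : {f : ℂ → E // DifferentiableOn ℂ f (ball y₀ r) ∧
        ∀ y ∈ ball y₀ r, ‖f y - x₀‖ ≤ M * ‖y - y₀‖},
      ∃ h : {f : ℂ → E // DifferentiableOn ℂ f (ball y₀ r) ∧
        ∀ y ∈ ball y₀ r, ‖f y - x₀‖ ≤ M * ‖y - y₀‖},
        h.1 y₀ = x₀ ∧ ∀ y ∈ ball y₀ r, HasDerivAt h.1 (g (f.1 y)) y := by
    intro f
    have h1 : DifferentiableOn ℂ (fun y => g (f.1 y)) (ball y₀ r) :=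
      hg.comp f.2.1 (fun y hy => hhalf (hin f.1 f.2.2 y hy))
    obtain ⟨h, hh0, hh⟩ := ca_exists_primitive_E hBo hBc h1 y₀ x₀
    refine ⟨⟨h, fun y hy => (hh y hy).differentiableAt.differentiableWithinAt, fun y hy => ?_⟩, hh0, hh⟩
    have := Convex.norm_image_sub_le_of_norm_hasDerivWithin_le (𝕜 := ℂ) (s := ball y₀ r) (C := M)
      (fun z hz => (hh z hz).hasDerivWithinAt)
      (fun z hz => hb _ (hhalf (hin f.1 f.2.2 z hz))) hBc hy₀ hy
    rwa [hh0] at this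
  choose T hT0 hT using step
  -- the contraction estimate
  have contr : ∀ (f₁ f₂ : {f : ℂ → E // DifferentiableOn ℂ f (ball y₀ r) ∧
        ∀ y ∈ ball y₀ r, ‖f y - x₀‖ ≤ M * ‖y - y₀‖}) (c : ℝ), 0 ≤ c →
      (∀ y ∈ ball y₀ r, ‖f₁.1 y - f₂.1 y‖ ≤ c) →
      ∀ y ∈ ball y₀ r, ‖(T f₁).1 y - (T f₂).1 y‖ ≤ c / 2 := by
    intro f₁ f₂ c hc0 hc y hy
    have := Convex.norm_image_sub_le_of_norm_hasDerivWithin_le (𝕜 := ℂ) (s := ball y₀ r)
      (C := 2 * M / ρ * c) (f := fun z => (T f₁).1 z - (T f₂).1 z)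
      (fun z hz => ((hT f₁ z hz).sub (hT f₂ z hz)).hasDerivWithinAt)
      (fun z hz => by
        refine (ca_lipschitz_half hρ hg hb _ (hin f₁.1 f₁.2.2 z hz) _ (hin f₂.1 f₂.2.2 z hz)).trans ?_
        have := hc z hz
        gcongr) hBc hy₀ hy
    simp only [hT0, sub_self, sub_zero] at this
    refine this.trans ?_
    rw [mem_ball, dist_eq_norm] at hy
    calc 2 * M / ρ * c * ‖y - y₀‖ ≤ 2 * M / ρ * c * r := by gcongr
      _ = 2 * (M * r) / ρ * c := by ring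
      _ = c / 2 := by rw [hMr]; field_simp; ring
  obtain ⟨u, hu⟩ : ∃ u : ℕ → {f : ℂ → E // DifferentiableOn ℂ f (ball y₀ r) ∧
        ∀ y ∈ ball y₀ r, ‖f y - x₀‖ ≤ M * ‖y - y₀‖},
      u = fun n => T^[n] ⟨fun _ => x₀, differentiableOn_const _, fun y _ => by
        rw [sub_self, norm_zero]; positivity⟩ := ⟨_, rfl⟩
  have hus : ∀ n, u (n + 1) = T (u n) := fun n => by
    rw [hu]; exact Function.iterate_succ_apply' T n _
  have hu0 : ∀ y, (u 0).1 y = x₀ := by intro y; rw [hu]; rfl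
  have est : ∀ n : ℕ, ∀ y ∈ ball y₀ r, ‖(u (n + 1)).1 y - (u n).1 y‖ ≤ ρ / 4 / 2 ^ n := by
    intro n
    induction n with
    | zero =>
      intro y hy
      have h1 := (u (0 + 1)).2.2 y hy
      rw [hu0, pow_zero, div_one]
      rw [mem_ball, dist_eq_norm] at hy
      have : M * ‖y - y₀‖ ≤ M * r := by gcongr
      linarith
    | succ n ih =>
      intro y hy
      have := contr (u (n + 1)) (u n) (ρ / 4 / 2 ^ n) (by positivity) ih y hy
      rw [← hus, ← hus] at this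
      rw [pow_succ, ← div_div]
      exact this
  have est' : ∀ n : ℕ, ∀ y ∈ ball y₀ r, dist ((u n).1 y) ((u (n + 1)).1 y) ≤ ρ / 4 * (1 / 2 : ℝ) ^ n := by
    intro n y hy
    rw [dist_comm, dist_eq_norm]
    refine (est n y hy).trans (le_of_eq ?_)
    rw [one_div, inv_pow]; ring
  have hlim : ∀ y ∈ ball y₀ r, ∃ a, Tendsto (fun n => (u n).1 y) atTop (𝓝 a) := by
    intro y hy
    exact cauchySeq_tendsto_of_complete
      (cauchySeq_of_le_geometric (1 / 2) (ρ / 4) (by norm_num) (fun n => est' n y hy))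
  choose! Y hY using hlim
  have hunif : ∀ n, ∀ y ∈ ball y₀ r, dist ((u n).1 y) (Y y) ≤ ρ / 2 * (1 / 2 : ℝ) ^ n := by
    intro n y hy
    have := dist_le_of_le_geometric_of_tendsto (1 / 2) (ρ / 4) (by norm_num) (fun n => est' n y hy)
      (hY y hy) n
    refine this.trans (le_of_eq ?_)
    ring
  have hpow : ∀ c : ℝ, Tendsto (fun n : ℕ => c * (1 / 2 : ℝ) ^ n) atTop (𝓝 0) := by
    intro c
    have : Tendsto (fun n : ℕ => c * (1 / 2 : ℝ) ^ n) atTop (𝓝 (c * 0)) :=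
      (tendsto_pow_atTop_nhds_zero_of_lt_one (by norm_num) (by norm_num)).const_mul c
    simpa using this
  have hlu : TendstoLocallyUniformlyOn (fun n => (u n).1) Y atTop (ball y₀ r) := by
    apply TendstoUniformlyOn.tendstoLocallyUniformlyOn
    rw [Metric.tendstoUniformlyOn_iff]
    intro ε hε
    filter_upwards [(hpow (ρ / 2)).eventually (gt_mem_nhds hε)] with n hn y hy
    rw [dist_comm]
    exact (hunif n y hy).trans_lt hn
  have hYd : DifferentiableOn ℂ Y (ball y₀ r) :=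
    hlu.differentiableOn (Eventually.of_forall fun n => (u n).2.1) hBo
  have hYb : ∀ y ∈ ball y₀ r, ‖Y y - x₀‖ ≤ M * ‖y - y₀‖ := by
    intro y hy
    exact le_of_tendsto (((hY y hy).sub_const x₀).norm) (Eventually.of_forall fun n => (u n).2.2 y hy)
  have hfix : ∀ y ∈ ball y₀ r, (T ⟨Y, hYd, hYb⟩).1 y = Y y := by
    intro y hy
    have h1 : ∀ n : ℕ, ‖(T ⟨Y, hYd, hYb⟩).1 y - (u (n + 1)).1 y‖ ≤ ρ / 4 * (1 / 2 : ℝ) ^ n := by
      intro n
      have := contr ⟨Y, hYd, hYb⟩ (u n) (ρ / 2 * (1 / 2 : ℝ) ^ n) (by positivity)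
        (fun z hz => by
          have := hunif n z hz
          rwa [dist_comm, dist_eq_norm] at this) y hy
      rw [← hus] at this
      refine this.trans (le_of_eq ?_)
      ring
    have h2 : Tendsto (fun n => (u (n + 1)).1 y) atTop (𝓝 ((T ⟨Y, hYd, hYb⟩).1 y)) := by
      rw [tendsto_iff_norm_sub_tendsto_zero]
      refine squeeze_zero (fun _ => norm_nonneg _) (fun n => ?_) (hpow (ρ / 4))
      rw [norm_sub_rev]
      exact h1 n
    have h3 : Tendsto (fun n => (u (n + 1)).1 y) atTop (𝓝 (Y y)) :=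
      (hY y hy).comp (tendsto_add_atTop_nat 1)
    exact tendsto_nhds_unique h2 h3
  refine ⟨Y, ?_, fun y hy => ⟨hin Y hYb y hy, ?_⟩⟩
  · rw [← hfix y₀ hy₀]; exact hT0 _
  · refine (hT ⟨Y, hYd, hYb⟩ y hy).congr_of_eventuallyEq ?_
    filter_upwards [hBo.mem_nhds hy] with w hw
    exact (hfix w hw).symm

end Claimed.Agent.R269
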