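/-
Row 269, library L3-CA1 (HOST-FREE, Mathlib only).  Owner: helper221.

ROUCHE'S THEOREM (existence form), without winding numbers.
* `ca_rouche_exists'` : bounded set `U`, `f, g` `DiffContOnCl` on `U`, `‖f - g‖ < ‖f‖` on `frontier U`, `f` has a zero in `U`  =>  `g` has a zero in `U`.
* `ca_rouche_exists`  : the same on a ball.
Proof: if `g` is zero free, `q = f/g` satisfies `|q - 1| < |q|`, i.e. `Re q > 1/2`, on the frontier; the maximum principle for `exp (-q)` gives
`Re q ≥ 1/2` at the zero of `f`.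
-/
import Mathlib

set_option autoImplicit false

namespace Claimed.Agent.R269

open Filter Topology Set Metric

/-- `|q - 1| < |q|` means `Re q > 1/2`. -/
theorem ca_re_of_norm_sub_one_lt {q : ℂ} (h : ‖q - 1‖ < ‖q‖) : 1 / 2 < q.re := by
  have h1 : ‖q - 1‖ ^ 2 < ‖q‖ ^ 2 := pow_lt_pow_left₀ h (norm_nonneg _) (by norm_num)
  rw [Complex.sq_norm, Complex.sq_norm, Complex.normSq_apply, Complex.normSq_apply] at h1
  simp only [Complex.sub_re, Complex.one_re, Complex.sub_im, Complex.one_im, sub_zero] at h1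
  nlinarith

/-- **Rouché's theorem**, existence form, on a bounded set. -/
theorem ca_rouche_exists' {f g : ℂ → ℂ} {U : Set ℂ} (hU : Bornology.IsBounded U)
    (hf : DiffContOnCl ℂ f U) (hg : DiffContOnCl ℂ g U)
    (h : ∀ z ∈ frontier U, ‖f z - g z‖ < ‖f z‖) (hz : ∃ z ∈ U, f z = 0) : ∃ z ∈ U, g z = 0 := by
  by_contra hcon
  push Not at hcon
  have hg0 : ∀ z ∈ closure U, g z ≠ 0 := by
    intro z hzc
    rw [closure_eq_self_union_frontier] at hzc
    rcases hzc with hzU | hzF
    · exact hcon z hzU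
    · intro h0
      have := h z hzF
      rw [h0, sub_zero] at this
      exact lt_irrefl _ this
  have hq : DiffContOnCl ℂ (fun z => Complex.exp (-(f z / g z))) U :=
    ⟨((hf.1.div hg.1 fun z hzU => hg0 z (subset_closure hzU)).neg).cexp,
      ((hf.2.div hg.2 hg0).neg).cexp⟩
  obtain ⟨z₀, hz₀, hfz₀⟩ := hz
  have hb : ∀ z ∈ frontier U, ‖Complex.exp (-(f z / g z))‖ ≤ Real.exp (-(1 / 2)) := by
    intro z hzF
    rw [Complex.norm_exp, Real.exp_le_exp, Complex.neg_re]
    have hgz : g z ≠ 0 := hg0 z (frontier_subset_closure hzF)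
    have h1 : ‖f z / g z - 1‖ < ‖f z / g z‖ := by
      have e : f z / g z - 1 = (f z - g z) / g z := by field_simp
      rw [e, norm_div, norm_div]
      exact div_lt_div_of_pos_right (h z hzF) (norm_pos_iff.2 hgz)
    have := ca_re_of_norm_sub_one_lt h1
    linarith
  have := Complex.norm_le_of_forall_mem_frontier_norm_le hU hq hb (subset_closure hz₀)
  rw [hfz₀, zero_div, neg_zero, Complex.exp_zero, norm_one] at this
  have h2 : Real.exp (-(1 / 2)) < 1 := by
    rw [Real.exp_lt_one_iff]; norm_num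
  linarith

/-- **Rouché's theorem**, existence form, on a ball. -/
theorem ca_rouche_exists {f g : ℂ → ℂ} {c : ℂ} {R : ℝ} (hR : 0 < R)
    (hf : DiffContOnCl ℂ f (ball c R)) (hg : DiffContOnCl ℂ g (ball c R))
    (h : ∀ z ∈ sphere c R, ‖f z - g z‖ < ‖f z‖) (hz : ∃ z ∈ ball c R, f z = 0) :
    ∃ z ∈ ball c R, g z = 0 :=
  ca_rouche_exists' isBounded_ball hf hg (by rwa [frontier_ball c hR.ne']) hz

end Claimed.Agent.R269
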