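/-
Row 269, library L3-CA1 (HOST-FREE, Mathlib only).  Owner: helper221.

THREE LINES THEOREM FOR ROW MEANS (Hardy convexity).
`g` is holomorphic on the horizontal strip `|Im z| < H` and `2π`-periodic.
* `ca_row_pairing_differentiableAt` : `z ↦ ∫ x in a..b, g (x + z) * φ x` is holomorphic on the strip (`φ` continuous).
* `ca_strip_bdd`       : a periodic holomorphic function is bounded on closed substrips.
* `ca_row_pairing_three_lines` : three lines theorem for the pairing `∫ g (x + i h) φ x dx`.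
* `ca_cauchy_schwarz`  : Cauchy-Schwarz for continuous functions on an interval.
* `ca_hardy_one`, `ca_hardy_two` : `h ↦ ∫_0^{2π} ‖g (x + i h)‖^p dx` is log-convex (multiplicative form), `p = 1, 2`.
* `ca_sup_three_lines` : the same for the row suprema.
* `ca_add_logconvex`   : two-term Hoelder inequality (a sum of log-convex functions is log-convex).
-/
import Mathlib

set_option autoImplicit false

namespace Claimed.Agent.R269

open Complex Filter Topology MeasureTheory Set Metric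
open scoped Real

theorem ca_strip_isOpen (H : ℝ) : IsOpen {z : ℂ | |z.im| < H} :=
  isOpen_lt (continuous_abs.comp continuous_im) continuous_const

theorem ca_row_continuous {g : ℂ → ℂ} {H : ℝ} (hg : ContinuousOn g {z | |z.im| < H}) {z : ℂ}
    (hz : |z.im| < H) : Continuous (fun x : ℝ => g (x + z)) :=
  hg.comp_continuous (by fun_prop) (fun x => by simpa using hz)

/-- the pairing of a row of `g` with a continuous function depends holomorphically on the row. -/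
theorem ca_row_pairing_differentiableAt {g : ℂ → ℂ} {H : ℝ}
    (hg : DifferentiableOn ℂ g {z | |z.im| < H}) {φ : ℝ → ℂ} (hφ : Continuous φ) (a b : ℝ)
    {z₁ : ℂ} (hz₁ : |z₁.im| < H) :
    DifferentiableAt ℂ (fun z => ∫ x in a..b, g (x + z) * φ x) z₁ := by
  have hS := ca_strip_isOpen H
  have hg' : ContinuousOn (deriv g) {z | |z.im| < H} := (hg.deriv hS).continuousOn
  obtain ⟨r, hr⟩ : ∃ r, r = (H - |z₁.im|) / 2 := ⟨_, rfl⟩
  have hr0 : 0 < r := by rw [hr]; linarith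
  have hball : ∀ z ∈ closedBall z₁ r, |z.im| < H := by
    intro z hz
    have h1 : |z.im - z₁.im| ≤ r := by
      have := abs_im_le_norm (z - z₁)
      rw [sub_im] at this
      exact this.trans (by simpa [dist_eq_norm] using hz)
    have h2 : |z.im| ≤ |z.im - z₁.im| + |z₁.im| := by
      have := abs_add_le (z.im - z₁.im) z₁.im
      simpa using this
    rw [hr] at h1
    linarith
  have hK : IsCompact ((fun p : ℝ × ℂ => (p.1 : ℂ) + p.2) '' (uIcc a b ×ˢ closedBall z₁ r)) :=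
    (isCompact_uIcc.prod (isCompact_closedBall _ _)).image (by fun_prop)
  have hKS : ((fun p : ℝ × ℂ => (p.1 : ℂ) + p.2) '' (uIcc a b ×ˢ closedBall z₁ r))
      ⊆ {z | |z.im| < H} := by
    rintro _ ⟨⟨x, z⟩, ⟨-, hz⟩, rfl⟩
    simpa using hball z hz
  obtain ⟨M, hM⟩ := hK.exists_bound_of_continuousOn (hg'.mono hKS)
  have key := intervalIntegral.hasDerivAt_integral_of_dominated_loc_of_deriv_le
    (μ := volume) (a := a) (b := b) (𝕜 := ℂ)
    (F := fun z x => g (x + z) * φ x) (F' := fun z x => deriv g (x + z) * φ x) (x₀ := z₁)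
    (s := ball z₁ r) (bound := fun x => M * ‖φ x‖) (ball_mem_nhds _ hr0)
    (by
      filter_upwards [ball_mem_nhds z₁ hr0] with z hz
      exact ((ca_row_continuous hg.continuousOn (hball z (ball_subset_closedBall hz))).mul
        hφ).aestronglyMeasurable)
    (((ca_row_continuous hg.continuousOn hz₁).mul hφ).intervalIntegrable _ _)
    (((ca_row_continuous hg' hz₁).mul hφ).aestronglyMeasurable)
    (by
      refine Eventually.of_forall fun x hx z hz => ?_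
      rw [norm_mul]
      have := hM _ ⟨(x, z), ⟨uIoc_subset_uIcc hx, ball_subset_closedBall hz⟩, rfl⟩
      gcongr)
    ((continuous_const.mul hφ.norm).intervalIntegrable _ _)
    (by
      refine Eventually.of_forall fun x _ z hz => ?_
      have h1 : |((x : ℂ) + z).im| < H := by simpa using hball z (ball_subset_closedBall hz)
      have h2 : HasDerivAt g (deriv g (x + z)) (x + z) :=
        ((hg _ h1).differentiableAt (hS.mem_nhds h1)).hasDerivAt
      exact (h2.comp_const_add (x : ℂ) z).mul_const (φ x))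
  exact key.2.differentiableAt

/-- periodicity of the rows. -/
theorem ca_row_periodic {g : ℂ → ℂ} {H : ℝ} (hper : ∀ z : ℂ, |z.im| < H → g (z + 2 * π) = g z)
    {z : ℂ} (hz : |z.im| < H) : Function.Periodic (fun x : ℝ => g (x + z)) (2 * π) := by
  intro x
  have h1 : |((x : ℂ) + z).im| < H := by simpa using hz
  have h2 := hper _ h1
  simp only
  rw [← h2]
  congr 1
  push_cast
  ring

/-- a periodic holomorphic (or continuous) function on a strip is bounded on closed substrips. -/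
theorem ca_strip_bdd {g : ℂ → ℂ} {H : ℝ} (hg : ContinuousOn g {z | |z.im| < H})
    (hper : ∀ z : ℂ, |z.im| < H → g (z + 2 * π) = g z) {c : ℝ} (hc : c < H) :
    ∃ M : ℝ, ∀ z : ℂ, |z.im| ≤ c → ‖g z‖ ≤ M := by
  have hK : IsCompact (Icc (0 : ℝ) (2 * π) ×ℂ Icc (-c) c) := isCompact_Icc.reProdIm isCompact_Icc
  have hKS : (Icc (0 : ℝ) (2 * π) ×ℂ Icc (-c) c) ⊆ {z : ℂ | |z.im| < H} := by
    intro z hz
    rw [mem_reProdIm] at hz
    exact (abs_le.2 hz.2).trans_lt hc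
  obtain ⟨M, hM⟩ := hK.exists_bound_of_continuousOn (hg.mono hKS)
  refine ⟨M, fun z hz => ?_⟩
  have hz' : |((z.im : ℂ) * I).im| < H := by simpa using hz.trans_lt hc
  obtain ⟨y, hy, hy'⟩ := (ca_row_periodic hper hz').exists_mem_Ico₀ Real.two_pi_pos z.re
  simp only [re_add_im] at hy'
  rw [hy']
  refine hM _ ?_
  rw [mem_reProdIm]
  refine ⟨by simpa using ⟨hy.1, hy.2.le⟩, by simpa using abs_le.1 hz⟩

/-- **Three lines theorem for the pairing** of the rows of `g` with a fixed continuous function. -/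
theorem ca_row_pairing_three_lines {g : ℂ → ℂ} {H : ℝ}
    (hg : DifferentiableOn ℂ g {z | |z.im| < H})
    (hper : ∀ z : ℂ, |z.im| < H → g (z + 2 * π) = g z) {φ : ℝ → ℂ} (hφ : Continuous φ)
    {h₀ h₁ θ a b : ℝ} (hh₀ : |h₀| < H) (hh₁ : |h₁| < H) (hθ : θ ∈ Icc (0 : ℝ) 1)
    (ha : ∀ t : ℝ, ‖∫ x in (0 : ℝ)..(2 * π), g (x + (t + h₀ * I)) * φ x‖ ≤ a)
    (hb : ∀ t : ℝ, ‖∫ x in (0 : ℝ)..(2 * π), g (x + (t + h₁ * I)) * φ x‖ ≤ b) :
    ‖∫ x in (0 : ℝ)..(2 * π), g (x + (((1 - θ) * h₀ + θ * h₁ : ℝ) : ℂ) * I) * φ x‖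
      ≤ a ^ (1 - θ) * b ^ θ := by
  obtain ⟨c, hc⟩ : ∃ c, c = max |h₀| |h₁| := ⟨_, rfl⟩
  have hcH : c < H := by rw [hc]; exact max_lt hh₀ hh₁
  have hc0 : |h₀| ≤ c := by rw [hc]; exact le_max_left _ _
  have hc1 : |h₁| ≤ c := by rw [hc]; exact le_max_right _ _
  have him : ∀ w : ℂ, (((h₀ : ℂ) + ((h₁ : ℂ) - h₀) * w) * I).im = h₀ + (h₁ - h₀) * w.re := by
    intro w; simp
  have hstrip : ∀ w : ℂ, w.re ∈ Icc (0 : ℝ) 1 → |(((h₀ : ℂ) + ((h₁ : ℂ) - h₀) * w) * I).im| ≤ c := by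
    intro w hw
    rw [him, abs_le]
    rw [abs_le] at hc0 hc1
    constructor
    · nlinarith [mul_nonneg (sub_nonneg.2 hw.2) (by linarith [hc0.1] : 0 ≤ h₀ + c),
        mul_nonneg hw.1 (by linarith [hc1.1] : 0 ≤ h₁ + c)]
    · nlinarith [mul_nonneg (sub_nonneg.2 hw.2) (by linarith [hc0.2] : 0 ≤ c - h₀),
        mul_nonneg hw.1 (by linarith [hc1.2] : 0 ≤ c - h₁)]
  obtain ⟨M, hM⟩ := ca_strip_bdd hg.continuousOn hper hcH
  obtain ⟨C, hC⟩ := (isCompact_Icc (a := (0 : ℝ)) (b := 2 * π)).exists_bound_of_continuousOn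
    hφ.continuousOn
  have hcl : closure (HadamardThreeLines.verticalStrip 0 1)
      = HadamardThreeLines.verticalClosedStrip 0 1 := by
    rw [HadamardThreeLines.verticalStrip, HadamardThreeLines.verticalClosedStrip,
      closure_preimage_re, closure_Ioo zero_ne_one]
  have key := HadamardThreeLines.norm_le_interp_of_mem_verticalClosedStrip₀₁'
    (fun w : ℂ => ∫ x in (0 : ℝ)..(2 * π), g (x + ((h₀ : ℂ) + ((h₁ : ℂ) - h₀) * w) * I) * φ x)
    (z := (θ : ℂ)) (a := a) (b := b) (by simpa [HadamardThreeLines.verticalClosedStrip] using hθ)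
    (by
      apply DifferentiableOn.diffContOnCl
      rw [hcl]
      intro w hw
      have h1 := ca_row_pairing_differentiableAt hg hφ 0 (2 * π)
        (z₁ := ((h₀ : ℂ) + ((h₁ : ℂ) - h₀) * w) * I) ((hstrip w hw).trans_lt hcH)
      have h2 : DifferentiableAt ℂ (fun w : ℂ => ((h₀ : ℂ) + ((h₁ : ℂ) - h₀) * w) * I) w := by
        fun_prop
      exact (DifferentiableAt.comp w h1 h2).differentiableWithinAt)
    (by
      refine ⟨M * C * |2 * π - 0|, ?_⟩
      rintro _ ⟨w, hw, rfl⟩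
      refine intervalIntegral.norm_integral_le_of_norm_le_const fun x hx => ?_
      rw [uIoc_of_le Real.two_pi_pos.le] at hx
      rw [norm_mul]
      have h1 : ‖g (x + ((h₀ : ℂ) + ((h₁ : ℂ) - h₀) * w) * I)‖ ≤ M := by
        refine hM _ ?_
        rw [add_im, ofReal_im, zero_add]
        exact hstrip w hw
      have h2 := hC x ⟨hx.1.le, hx.2⟩
      have h3 : 0 ≤ M := (norm_nonneg _).trans h1
      gcongr)
    (by
      intro w hw
      have hw' : w.re = 0 := hw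
      have e : ((h₀ : ℂ) + ((h₁ : ℂ) - h₀) * w) * I = ((-((h₁ - h₀) * w.im) : ℝ) : ℂ) + h₀ * I := by
        apply Complex.ext <;> simp [hw']
      simp only [e]
      exact ha _)
    (by
      intro w hw
      have hw' : w.re = 1 := hw
      have e : ((h₀ : ℂ) + ((h₁ : ℂ) - h₀) * w) * I = ((-((h₁ - h₀) * w.im) : ℝ) : ℂ) + h₁ * I := by
        apply Complex.ext <;> simp [hw']
      simp only [e]
      exact hb _)
  have e : ((h₀ : ℂ) + ((h₁ : ℂ) - h₀) * (θ : ℂ)) = (((1 - θ) * h₀ + θ * h₁ : ℝ) : ℂ) := by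
    push_cast; ring
  simp only [e, ofReal_re] at key
  exact key

/-- integrals over a period are invariant under shifts. -/
theorem ca_period_integral_shift {u : ℝ → ℝ} (hu : Function.Periodic u (2 * π)) (t : ℝ) :
    ∫ x in (0 : ℝ)..(2 * π), u (x + t) = ∫ x in (0 : ℝ)..(2 * π), u x := by
  rw [intervalIntegral.integral_comp_add_right]
  have h := hu.intervalIntegral_add_eq (0 + t) 0
  rw [zero_add (2 * π)] at h
  rw [← h]
  congr 1
  ring

/-- Cauchy-Schwarz for continuous functions on an interval. -/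
theorem ca_cauchy_schwarz {u v : ℝ → ℂ} (hu : Continuous u) (hv : Continuous v) {a b : ℝ}
    (hab : a ≤ b) :
    ‖∫ x in a..b, u x * v x‖
      ≤ Real.sqrt (∫ x in a..b, ‖u x‖ ^ 2) * Real.sqrt (∫ x in a..b, ‖v x‖ ^ 2) := by
  have h1 : ‖∫ x in a..b, u x * v x‖ ≤ ∫ x in a..b, ‖u x‖ * ‖v x‖ := by
    refine (intervalIntegral.norm_integral_le_integral_norm hab).trans (le_of_eq ?_)
    simp only [norm_mul]
  have iA : IntervalIntegrable (fun x => ‖u x‖ ^ 2) volume a b :=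
    (hu.norm.pow 2).intervalIntegrable _ _
  have iB : IntervalIntegrable (fun x => ‖u x‖ * ‖v x‖) volume a b :=
    (hu.norm.mul hv.norm).intervalIntegrable _ _
  have iC : IntervalIntegrable (fun x => ‖v x‖ ^ 2) volume a b :=
    (hv.norm.pow 2).intervalIntegrable _ _
  have hA : 0 ≤ ∫ x in a..b, ‖u x‖ ^ 2 :=
    intervalIntegral.integral_nonneg hab fun x _ => by positivity
  have hB : 0 ≤ ∫ x in a..b, ‖u x‖ * ‖v x‖ :=
    intervalIntegral.integral_nonneg hab fun x _ => by positivity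
  have hq : ∀ l : ℝ, 0 ≤ (∫ x in a..b, ‖u x‖ ^ 2) * (l * l)
      + (2 * ∫ x in a..b, ‖u x‖ * ‖v x‖) * l + ∫ x in a..b, ‖v x‖ ^ 2 := by
    intro l
    have h2 : 0 ≤ ∫ x in a..b, (l * ‖u x‖ + ‖v x‖) ^ 2 :=
      intervalIntegral.integral_nonneg hab fun x _ => by positivity
    have h3 : ∫ x in a..b, (l * ‖u x‖ + ‖v x‖) ^ 2
        = ∫ x in a..b, ((l * l) * ‖u x‖ ^ 2 + (2 * l) * (‖u x‖ * ‖v x‖) + ‖v x‖ ^ 2) := by
      congr 1; ext x; ring
    rw [h3, intervalIntegral.integral_add ((iA.const_mul _).add (iB.const_mul _)) iC,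
      intervalIntegral.integral_add (iA.const_mul _) (iB.const_mul _),
      intervalIntegral.integral_const_mul, intervalIntegral.integral_const_mul] at h2
    linarith
  have hd := discrim_le_zero hq
  rw [discrim] at hd
  refine h1.trans ?_
  rw [← Real.sqrt_mul hA]
  refine Real.le_sqrt_of_sq_le ?_
  nlinarith

/-- the interpolated height stays in the strip. -/
theorem ca_interp_abs_lt {H h₀ h₁ θ : ℝ} (hh₀ : |h₀| < H) (hh₁ : |h₁| < H)
    (hθ : θ ∈ Icc (0 : ℝ) 1) : |(1 - θ) * h₀ + θ * h₁| < H := by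
  rw [abs_lt] at *
  rcases eq_or_lt_of_le hθ.1 with h | h
  · rw [← h]; constructor <;> linarith [hh₀.1, hh₀.2]
  · constructor
    · nlinarith [mul_nonneg (sub_nonneg.2 hθ.2) (by linarith [hh₀.1] : 0 ≤ h₀ + H),
        mul_pos h (by linarith [hh₁.1] : 0 < h₁ + H)]
    · nlinarith [mul_nonneg (sub_nonneg.2 hθ.2) (by linarith [hh₀.2] : 0 ≤ H - h₀),
        mul_pos h (by linarith [hh₁.2] : 0 < H - h₁)]

/-- shift invariance of the row means of `‖g‖ ^ p`. -/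
theorem ca_row_mean_shift {g : ℂ → ℂ} {H : ℝ}
    (hper : ∀ z : ℂ, |z.im| < H → g (z + 2 * π) = g z) {h : ℝ} (hh : |h| < H) (p : ℕ) (t : ℝ) :
    ∫ x in (0 : ℝ)..(2 * π), ‖g (x + (t + h * I))‖ ^ p
      = ∫ x in (0 : ℝ)..(2 * π), ‖g (x + h * I)‖ ^ p := by
  have hz : |((h : ℂ) * I).im| < H := by simpa using hh
  have hp : Function.Periodic (fun x : ℝ => ‖g (x + h * I)‖ ^ p) (2 * π) := by
    intro x
    have := ca_row_periodic hper hz x
    simp only at this ⊢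
    rw [this]
  rw [← ca_period_integral_shift hp t]
  congr 1
  ext x
  congr 3
  push_cast
  ring

/-- **Hardy convexity**, `p = 1`. -/
theorem ca_hardy_one {g : ℂ → ℂ} {H : ℝ} (hg : DifferentiableOn ℂ g {z | |z.im| < H})
    (hper : ∀ z : ℂ, |z.im| < H → g (z + 2 * π) = g z) {h₀ h₁ θ : ℝ} (hh₀ : |h₀| < H)
    (hh₁ : |h₁| < H) (hθ : θ ∈ Icc (0 : ℝ) 1) :
    ∫ x in (0 : ℝ)..(2 * π), ‖g (x + (((1 - θ) * h₀ + θ * h₁ : ℝ) : ℂ) * I)‖
      ≤ (∫ x in (0 : ℝ)..(2 * π), ‖g (x + h₀ * I)‖) ^ (1 - θ)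
        * (∫ x in (0 : ℝ)..(2 * π), ‖g (x + h₁ * I)‖) ^ θ := by
  obtain ⟨h, hh⟩ : ∃ h, h = (1 - θ) * h₀ + θ * h₁ := ⟨_, rfl⟩
  have hhH : |h| < H := by rw [hh]; exact ca_interp_abs_lt hh₀ hh₁ hθ
  rw [← hh]
  have hz : |((h : ℂ) * I).im| < H := by simpa using hhH
  have hcont : Continuous (fun x : ℝ => g (x + h * I)) := ca_row_continuous hg.continuousOn hz
  have h2π : (0 : ℝ) ≤ 2 * π := Real.two_pi_pos.le
  refine le_of_forall_pos_le_add fun δ hδ => ?_
  obtain ⟨ε, hε⟩ : ∃ ε, ε = δ / (2 * π) := ⟨_, rfl⟩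
  have hε0 : 0 < ε := by rw [hε]; exact div_pos hδ Real.two_pi_pos
  have hφ : Continuous (fun x : ℝ => (starRingEnd ℂ) (g (x + h * I)) / ((‖g (x + h * I)‖ + ε : ℝ) : ℂ)) := by
    refine (continuous_conj.comp hcont).div (continuous_ofReal.comp (hcont.norm.add continuous_const))
      fun x => ?_
    have : 0 < ‖g (x + h * I)‖ + ε := by positivity
    exact_mod_cast this.ne'
  have hφ1 : ∀ x : ℝ, ‖(starRingEnd ℂ) (g (x + h * I)) / ((‖g (x + h * I)‖ + ε : ℝ) : ℂ)‖ ≤ 1 := by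
    intro x
    have h0 : 0 < ‖g (x + h * I)‖ + ε := by positivity
    rw [norm_div, RCLike.norm_conj, norm_real, Real.norm_of_nonneg h0.le, div_le_one h0]
    linarith
  have hline : ∀ h' : ℝ, |h'| < H → ∀ t : ℝ, ‖∫ x in (0 : ℝ)..(2 * π), g (x + (t + h' * I))
      * ((starRingEnd ℂ) (g (x + h * I)) / ((‖g (x + h * I)‖ + ε : ℝ) : ℂ))‖
      ≤ ∫ x in (0 : ℝ)..(2 * π), ‖g (x + h' * I)‖ := by
    intro h' hh' t
    have hz' : |((t : ℂ) + h' * I).im| < H := by simpa using hh'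
    have hc' : Continuous (fun x : ℝ => g (x + (t + h' * I))) :=
      ca_row_continuous hg.continuousOn hz'
    have := ca_row_mean_shift hper hh' 1 t
    simp only [pow_one] at this
    rw [← this]
    refine (intervalIntegral.norm_integral_le_integral_norm h2π).trans ?_
    refine intervalIntegral.integral_mono_on h2π ((hc'.mul hφ).norm.intervalIntegrable _ _)
      (hc'.norm.intervalIntegrable _ _) fun x _ => ?_
    rw [norm_mul]
    exact mul_le_of_le_one_right (norm_nonneg _) (hφ1 x)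
  have key := ca_row_pairing_three_lines hg hper hφ hh₀ hh₁ hθ (hline h₀ hh₀) (hline h₁ hh₁)
  rw [← hh] at key
  have e1 : ∀ x : ℝ, g (x + h * I) * ((starRingEnd ℂ) (g (x + h * I))
      / ((‖g (x + h * I)‖ + ε : ℝ) : ℂ))
      = ((‖g (x + h * I)‖ ^ 2 / (‖g (x + h * I)‖ + ε) : ℝ) : ℂ) := by
    intro x
    rw [← mul_div_assoc, mul_conj, normSq_eq_norm_sq]
    push_cast
    rfl
  simp only [e1] at key
  rw [intervalIntegral.integral_ofReal, norm_real] at key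
  have h3 : ∫ x in (0 : ℝ)..(2 * π), (‖g (x + h * I)‖ - ε)
      ≤ ∫ x in (0 : ℝ)..(2 * π), ‖g (x + h * I)‖ ^ 2 / (‖g (x + h * I)‖ + ε) := by
    refine intervalIntegral.integral_mono_on h2π
      ((hcont.norm.sub continuous_const).intervalIntegrable _ _) ?_ fun x _ => ?_
    · refine Continuous.intervalIntegrable ?_ _ _
      refine (hcont.norm.pow 2).div (hcont.norm.add continuous_const) fun x => ?_
      positivity
    · have h0 : 0 < ‖g (x + h * I)‖ + ε := by positivity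
      rw [le_div_iff₀ h0]
      nlinarith
  rw [intervalIntegral.integral_sub (hcont.norm.intervalIntegrable _ _)
    (continuous_const.intervalIntegrable _ _), intervalIntegral.integral_const] at h3
  have h4 : (2 * π - 0) • ε = δ := by
    rw [hε, smul_eq_mul, sub_zero]
    field_simp
  rw [h4] at h3
  have h5 := (le_abs_self _).trans key
  linarith

/-- **Hardy convexity**, `p = 2`. -/
theorem ca_hardy_two {g : ℂ → ℂ} {H : ℝ} (hg : DifferentiableOn ℂ g {z | |z.im| < H})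
    (hper : ∀ z : ℂ, |z.im| < H → g (z + 2 * π) = g z) {h₀ h₁ θ : ℝ} (hh₀ : |h₀| < H)
    (hh₁ : |h₁| < H) (hθ : θ ∈ Icc (0 : ℝ) 1) :
    ∫ x in (0 : ℝ)..(2 * π), ‖g (x + (((1 - θ) * h₀ + θ * h₁ : ℝ) : ℂ) * I)‖ ^ 2
      ≤ (∫ x in (0 : ℝ)..(2 * π), ‖g (x + h₀ * I)‖ ^ 2) ^ (1 - θ)
        * (∫ x in (0 : ℝ)..(2 * π), ‖g (x + h₁ * I)‖ ^ 2) ^ θ := by
  obtain ⟨h, hh⟩ : ∃ h, h = (1 - θ) * h₀ + θ * h₁ := ⟨_, rfl⟩
  have hhH : |h| < H := by rw [hh]; exact ca_interp_abs_lt hh₀ hh₁ hθ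
  rw [← hh]
  have hz : |((h : ℂ) * I).im| < H := by simpa using hhH
  have hcont : Continuous (fun x : ℝ => g (x + h * I)) := ca_row_continuous hg.continuousOn hz
  have h2π : (0 : ℝ) ≤ 2 * π := Real.two_pi_pos.le
  have hnn : ∀ h' : ℝ, 0 ≤ ∫ x in (0 : ℝ)..(2 * π), ‖g (x + h' * I)‖ ^ 2 := fun h' =>
    intervalIntegral.integral_nonneg h2π fun x _ => by positivity
  obtain ⟨N, hN⟩ : ∃ N, N = ∫ x in (0 : ℝ)..(2 * π), ‖g (x + h * I)‖ ^ 2 := ⟨_, rfl⟩
  obtain ⟨A, hA⟩ : ∃ A, A = ∫ x in (0 : ℝ)..(2 * π), ‖g (x + h₀ * I)‖ ^ 2 := ⟨_, rfl⟩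
  obtain ⟨B, hB⟩ : ∃ B, B = ∫ x in (0 : ℝ)..(2 * π), ‖g (x + h₁ * I)‖ ^ 2 := ⟨_, rfl⟩
  have hN0 : 0 ≤ N := hN ▸ hnn h
  have hA0 : 0 ≤ A := hA ▸ hnn h₀
  have hB0 : 0 ≤ B := hB ▸ hnn h₁
  rw [← hN, ← hA, ← hB]
  have hφ : Continuous (fun x : ℝ => (starRingEnd ℂ) (g (x + h * I))) := continuous_conj.comp hcont
  have hline : ∀ h' : ℝ, |h'| < H → ∀ t : ℝ, ‖∫ x in (0 : ℝ)..(2 * π), g (x + (t + h' * I))
      * (starRingEnd ℂ) (g (x + h * I))‖
      ≤ Real.sqrt (∫ x in (0 : ℝ)..(2 * π), ‖g (x + h' * I)‖ ^ 2) * Real.sqrt N := by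
    intro h' hh' t
    have hz' : |((t : ℂ) + h' * I).im| < H := by simpa using hh'
    have hc' : Continuous (fun x : ℝ => g (x + (t + h' * I))) :=
      ca_row_continuous hg.continuousOn hz'
    have h1 := ca_cauchy_schwarz hc' hφ h2π
    rw [ca_row_mean_shift hper hh' 2 t] at h1
    simp only [RCLike.norm_conj] at h1
    rw [← hN] at h1
    exact h1
  have key := ca_row_pairing_three_lines hg hper hφ hh₀ hh₁ hθ (hline h₀ hh₀) (hline h₁ hh₁)
  rw [← hh, ← hA, ← hB] at key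
  have e1 : ∀ x : ℝ, g (x + h * I) * (starRingEnd ℂ) (g (x + h * I))
      = ((‖g (x + h * I)‖ ^ 2 : ℝ) : ℂ) := by
    intro x
    rw [mul_conj, normSq_eq_norm_sq]
  simp only [e1] at key
  rw [intervalIntegral.integral_ofReal, norm_real, ← hN, Real.norm_of_nonneg hN0] at key
  rcases eq_or_lt_of_le hN0 with h0 | h0
  · rw [← h0]; positivity
  -- `N ≤ (√A √N)^(1-θ) (√B √N)^θ = √A^(1-θ) √B^θ √N`
  have hs : 0 < Real.sqrt N := Real.sqrt_pos.2 h0
  have e2 : (Real.sqrt A * Real.sqrt N) ^ (1 - θ) * (Real.sqrt B * Real.sqrt N) ^ θ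
      = (Real.sqrt A ^ (1 - θ) * Real.sqrt B ^ θ) * Real.sqrt N := by
    rw [Real.mul_rpow (Real.sqrt_nonneg _) hs.le, Real.mul_rpow (Real.sqrt_nonneg _) hs.le]
    have : Real.sqrt N ^ (1 - θ) * Real.sqrt N ^ θ = Real.sqrt N := by
      rw [← Real.rpow_add hs]; simp
    calc Real.sqrt A ^ (1 - θ) * Real.sqrt N ^ (1 - θ) * (Real.sqrt B ^ θ * Real.sqrt N ^ θ)
        = (Real.sqrt A ^ (1 - θ) * Real.sqrt B ^ θ) * (Real.sqrt N ^ (1 - θ) * Real.sqrt N ^ θ) := by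
          ring
      _ = _ := by rw [this]
  rw [e2] at key
  have e3 : N = Real.sqrt N * Real.sqrt N := (Real.mul_self_sqrt hN0).symm
  have h5 : Real.sqrt N ≤ Real.sqrt A ^ (1 - θ) * Real.sqrt B ^ θ := by
    have : Real.sqrt N * Real.sqrt N ≤ (Real.sqrt A ^ (1 - θ) * Real.sqrt B ^ θ) * Real.sqrt N := by
      rw [← e3]; exact key
    exact le_of_mul_le_mul_right this hs
  have e4 : ∀ (X s : ℝ), 0 ≤ X → Real.sqrt X ^ s * Real.sqrt X ^ s = X ^ s := by
    intro X s hX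
    rw [← Real.mul_rpow (Real.sqrt_nonneg _) (Real.sqrt_nonneg _), Real.mul_self_sqrt hX]
  calc N = Real.sqrt N * Real.sqrt N := e3
    _ ≤ (Real.sqrt A ^ (1 - θ) * Real.sqrt B ^ θ) * (Real.sqrt A ^ (1 - θ) * Real.sqrt B ^ θ) :=
        mul_le_mul h5 h5 hs.le (hs.le.trans h5)
    _ = (Real.sqrt A ^ (1 - θ) * Real.sqrt A ^ (1 - θ)) * (Real.sqrt B ^ θ * Real.sqrt B ^ θ) := by
        ring
    _ = A ^ (1 - θ) * B ^ θ := by rw [e4 A _ hA0, e4 B _ hB0]

/-- **Three lines theorem for the rows** (sup norm) of a periodic holomorphic function on a strip. -/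
theorem ca_sup_three_lines {g : ℂ → ℂ} {H : ℝ} (hg : DifferentiableOn ℂ g {z | |z.im| < H})
    (hper : ∀ z : ℂ, |z.im| < H → g (z + 2 * π) = g z) {h₀ h₁ θ a b : ℝ} (hh₀ : |h₀| < H)
    (hh₁ : |h₁| < H) (hθ : θ ∈ Icc (0 : ℝ) 1) (ha : ∀ t : ℝ, ‖g (t + h₀ * I)‖ ≤ a)
    (hb : ∀ t : ℝ, ‖g (t + h₁ * I)‖ ≤ b) (x : ℝ) :
    ‖g (x + (((1 - θ) * h₀ + θ * h₁ : ℝ) : ℂ) * I)‖ ≤ a ^ (1 - θ) * b ^ θ := by
  have hS := ca_strip_isOpen H
  obtain ⟨c, hc⟩ : ∃ c, c = max |h₀| |h₁| := ⟨_, rfl⟩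
  have hcH : c < H := by rw [hc]; exact max_lt hh₀ hh₁
  have hc0 : |h₀| ≤ c := by rw [hc]; exact le_max_left _ _
  have hc1 : |h₁| ≤ c := by rw [hc]; exact le_max_right _ _
  have hstrip : ∀ w : ℂ, w.re ∈ Icc (0 : ℝ) 1 →
      |((x : ℂ) + ((h₀ : ℂ) + ((h₁ : ℂ) - h₀) * w) * I).im| ≤ c := by
    intro w hw
    have him : ((x : ℂ) + ((h₀ : ℂ) + ((h₁ : ℂ) - h₀) * w) * I).im = h₀ + (h₁ - h₀) * w.re := by
      simp
    rw [him, abs_le]
    rw [abs_le] at hc0 hc1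
    constructor
    · nlinarith [mul_nonneg (sub_nonneg.2 hw.2) (by linarith [hc0.1] : 0 ≤ h₀ + c),
        mul_nonneg hw.1 (by linarith [hc1.1] : 0 ≤ h₁ + c)]
    · nlinarith [mul_nonneg (sub_nonneg.2 hw.2) (by linarith [hc0.2] : 0 ≤ c - h₀),
        mul_nonneg hw.1 (by linarith [hc1.2] : 0 ≤ c - h₁)]
  obtain ⟨M, hM⟩ := ca_strip_bdd hg.continuousOn hper hcH
  have hcl : closure (HadamardThreeLines.verticalStrip 0 1)
      = HadamardThreeLines.verticalClosedStrip 0 1 := by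
    rw [HadamardThreeLines.verticalStrip, HadamardThreeLines.verticalClosedStrip,
      closure_preimage_re, closure_Ioo zero_ne_one]
  have key := HadamardThreeLines.norm_le_interp_of_mem_verticalClosedStrip₀₁'
    (fun w : ℂ => g (x + ((h₀ : ℂ) + ((h₁ : ℂ) - h₀) * w) * I))
    (z := (θ : ℂ)) (a := a) (b := b) (by simpa [HadamardThreeLines.verticalClosedStrip] using hθ)
    (by
      apply DifferentiableOn.diffContOnCl
      rw [hcl]
      intro w hw
      have h0 : |((x : ℂ) + ((h₀ : ℂ) + ((h₁ : ℂ) - h₀) * w) * I).im| < H :=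
        (hstrip w hw).trans_lt hcH
      have h1 : DifferentiableAt ℂ g ((x : ℂ) + ((h₀ : ℂ) + ((h₁ : ℂ) - h₀) * w) * I) :=
        (hg _ h0).differentiableAt (hS.mem_nhds h0)
      have h2 : DifferentiableAt ℂ
          (fun w : ℂ => (x : ℂ) + ((h₀ : ℂ) + ((h₁ : ℂ) - h₀) * w) * I) w := by
        fun_prop
      exact (DifferentiableAt.comp w h1 h2).differentiableWithinAt)
    (by
      refine ⟨M, ?_⟩
      rintro _ ⟨w, hw, rfl⟩
      exact hM _ (hstrip w hw))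
    (by
      intro w hw
      have hw' : w.re = 0 := hw
      have e : (x : ℂ) + ((h₀ : ℂ) + ((h₁ : ℂ) - h₀) * w) * I
          = ((x - (h₁ - h₀) * w.im : ℝ) : ℂ) + h₀ * I := by
        apply Complex.ext <;> simp [hw', sub_eq_add_neg]
      simp only [e]
      exact ha _)
    (by
      intro w hw
      have hw' : w.re = 1 := hw
      have e : (x : ℂ) + ((h₀ : ℂ) + ((h₁ : ℂ) - h₀) * w) * I
          = ((x - (h₁ - h₀) * w.im : ℝ) : ℂ) + h₁ * I := by
        apply Complex.ext <;> simp [hw', sub_eq_add_neg]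
      simp only [e]
      exact hb _)
  have e : ((h₀ : ℂ) + ((h₁ : ℂ) - h₀) * (θ : ℂ)) = (((1 - θ) * h₀ + θ * h₁ : ℝ) : ℂ) := by
    push_cast; ring
  simp only [e, ofReal_re] at key
  exact key

/-- two-term Hoelder inequality: a sum of two log-convex functions is log-convex. -/
theorem ca_add_logconvex (a₀ a₁ c₀ c₁ θ : ℝ) (ha₀ : 0 ≤ a₀) (ha₁ : 0 ≤ a₁) (hc₀ : 0 ≤ c₀)
    (hc₁ : 0 ≤ c₁) (hθ : θ ∈ Icc (0 : ℝ) 1) :
    a₀ ^ (1 - θ) * a₁ ^ θ + c₀ ^ (1 - θ) * c₁ ^ θ ≤ (a₀ + c₀) ^ (1 - θ) * (a₁ + c₁) ^ θ := by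
  have h1θ : 0 ≤ 1 - θ := sub_nonneg.2 hθ.2
  rcases eq_or_lt_of_le (add_nonneg ha₀ hc₀) with hA | hA
  · have e1 : a₀ = 0 := by linarith
    have e2 : c₀ = 0 := by linarith
    subst e1 e2
    rcases eq_or_lt_of_le h1θ with h | h
    · have hθ1 : θ = 1 := by linarith
      subst hθ1
      simp
    · simp [Real.zero_rpow h.ne']
  rcases eq_or_lt_of_le (add_nonneg ha₁ hc₁) with hB | hB
  · have e1 : a₁ = 0 := by linarith
    have e2 : c₁ = 0 := by linarith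
    subst e1 e2
    rcases eq_or_lt_of_le hθ.1 with h | h
    · subst h
      simp
    · simp [Real.zero_rpow h.ne']
  have g1 := Real.geom_mean_le_arith_mean2_weighted h1θ hθ.1
    (div_nonneg ha₀ hA.le) (div_nonneg ha₁ hB.le) (by ring)
  have g2 := Real.geom_mean_le_arith_mean2_weighted h1θ hθ.1
    (div_nonneg hc₀ hA.le) (div_nonneg hc₁ hB.le) (by ring)
  rw [Real.div_rpow ha₀ hA.le, Real.div_rpow ha₁ hB.le] at g1
  rw [Real.div_rpow hc₀ hA.le, Real.div_rpow hc₁ hB.le] at g2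
  have pA : 0 < (a₀ + c₀) ^ (1 - θ) := Real.rpow_pos_of_pos hA _
  have pB : 0 < (a₁ + c₁) ^ θ := Real.rpow_pos_of_pos hB _
  have hsum : (1 - θ) * (a₀ / (a₀ + c₀)) + θ * (a₁ / (a₁ + c₁))
      + ((1 - θ) * (c₀ / (a₀ + c₀)) + θ * (c₁ / (a₁ + c₁))) = 1 := by
    field_simp
    ring
  have h3 : a₀ ^ (1 - θ) / (a₀ + c₀) ^ (1 - θ) * (a₁ ^ θ / (a₁ + c₁) ^ θ)
      + c₀ ^ (1 - θ) / (a₀ + c₀) ^ (1 - θ) * (c₁ ^ θ / (a₁ + c₁) ^ θ) ≤ 1 := by linarith
  have h4 : a₀ ^ (1 - θ) / (a₀ + c₀) ^ (1 - θ) * (a₁ ^ θ / (a₁ + c₁) ^ θ)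
      + c₀ ^ (1 - θ) / (a₀ + c₀) ^ (1 - θ) * (c₁ ^ θ / (a₁ + c₁) ^ θ)
      = (a₀ ^ (1 - θ) * a₁ ^ θ + c₀ ^ (1 - θ) * c₁ ^ θ)
        / ((a₀ + c₀) ^ (1 - θ) * (a₁ + c₁) ^ θ) := by
    field_simp
  rw [h4, div_le_one (mul_pos pA pB)] at h3
  exact h3

end Claimed.Agent.R269
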