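/-
Row 269, library (HOST-FREE, Mathlib + Lib/CAThreeLines).  Owner: helper7.  Sorry-free.

SECOND ORDER EXPANSION OF THE `L²` ROW MEANS of a `2π`-periodic holomorphic function `p` on the strip `|Im z| < H`:
  `∫_0^{2π} |p(x+iη)|² dx = ∫ |p(x)|² dx + η ∫ 2⟪p, i p'⟫ dx + 4 ∫_0^η (η-τ) ∫ |p'(x+iτ)|² dx dτ`      (`carm_main`),
the first order term vanishes if `p (conj z) = conj (p z)` (`carm_sym`).
Proof: pointwise Taylor formula in `τ` (`carm_taylor2`), Fubini, `∂_τ² |p|² = 4|p'|² - 2 ∂_x ⟪p, p'⟫`, periodicity.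
Tools: `carm_hasDerivAt_im`, `carm_hasDerivAt_re` (derivatives along the coordinate lines), `carm_continuousOn` (joint continuity),
`carm_rowInt_continuousOn` (continuity of row integrals), `carm_deriv_per`, `carm_deriv_conj`.
-/
import Claimed.Agent.R269.Lib.CAThreeLines

set_option autoImplicit false

namespace Claimed.Agent.R269

open Complex ComplexConjugate Filter Topology MeasureTheory Set Metric
open scoped Real InnerProductSpace

/-- second order Taylor formula with integral remainder. -/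
theorem carm_taylor2 {v v1 v2 : ℝ → ℝ} {η : ℝ} (h0 : 0 ≤ η)
    (hv : ∀ t ∈ Icc 0 η, HasDerivAt v (v1 t) t) (hv1 : ∀ t ∈ Icc 0 η, HasDerivAt v1 (v2 t) t)
    (hc : ContinuousOn v2 (Icc 0 η)) :
    v η = v 0 + η * v1 0 + ∫ t in (0 : ℝ)..η, (η - t) * v2 t := by
  have hG : ∀ t ∈ uIcc 0 η, HasDerivAt (fun t => (η - t) * v1 t + v t) ((η - t) * v2 t) t := by
    intro t ht
    rw [uIcc_of_le h0] at ht
    have h1 : HasDerivAt (fun t : ℝ => η - t) (-1) t := by
      simpa using (hasDerivAt_id t).const_sub η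
    have h2 := (h1.mul (hv1 t ht)).add (hv t ht)
    have e : -1 * v1 t + (η - t) * v2 t + v1 t = (η - t) * v2 t := by ring
    rw [e] at h2
    exact h2
  have hint : IntervalIntegrable (fun t => (η - t) * v2 t) volume 0 η := by
    apply ContinuousOn.intervalIntegrable
    rw [uIcc_of_le h0]
    exact (continuousOn_const.sub continuousOn_id).mul hc
  have := intervalIntegral.integral_eq_sub_of_hasDerivAt hG hint
  rw [this]
  ring

theorem carm_mem {H τ : ℝ} (hτ : |τ| < H) (x : ℝ) : ((x : ℂ) + (τ : ℂ) * I) ∈ {z : ℂ | |z.im| < H} := by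
  simpa using hτ

theorem carm_at {g : ℂ → ℂ} {H : ℝ} (hg : DifferentiableOn ℂ g {z | |z.im| < H}) {z : ℂ}
    (hz : |z.im| < H) : HasDerivAt g (deriv g z) z :=
  ((hg z hz).differentiableAt ((ca_strip_isOpen H).mem_nhds hz)).hasDerivAt

/-- vertical derivative. -/
theorem carm_hasDerivAt_im {g : ℂ → ℂ} {H : ℝ} (hg : DifferentiableOn ℂ g {z | |z.im| < H})
    {τ : ℝ} (hτ : |τ| < H) (x : ℝ) :
    HasDerivAt (fun t : ℝ => g ((x : ℂ) + (t : ℂ) * I)) (I * deriv g ((x : ℂ) + (τ : ℂ) * I)) τ := by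
  have h1 : HasDerivAt (fun t : ℝ => (x : ℂ) + (t : ℂ) * I) I τ := by
    have h2 : HasDerivAt (fun t : ℝ => (t : ℂ)) 1 τ := Complex.ofRealCLM.hasDerivAt
    simpa using (h2.mul_const I).const_add (x : ℂ)
  have h3 := HasDerivAt.scomp (h := fun t : ℝ => (x : ℂ) + (t : ℂ) * I) τ
    (carm_at hg (carm_mem hτ x)) h1
  rw [smul_eq_mul] at h3
  exact h3

/-- horizontal derivative. -/
theorem carm_hasDerivAt_re {g : ℂ → ℂ} {H : ℝ} (hg : DifferentiableOn ℂ g {z | |z.im| < H})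
    {τ : ℝ} (hτ : |τ| < H) (x : ℝ) :
    HasDerivAt (fun y : ℝ => g ((y : ℂ) + (τ : ℂ) * I)) (deriv g ((x : ℂ) + (τ : ℂ) * I)) x := by
  have h1 : HasDerivAt (fun y : ℝ => (y : ℂ) + (τ : ℂ) * I) 1 x := by
    have h2 : HasDerivAt (fun t : ℝ => (t : ℂ)) 1 x := Complex.ofRealCLM.hasDerivAt
    simpa using h2.add_const ((τ : ℂ) * I)
  have h3 := HasDerivAt.scomp (h := fun y : ℝ => (y : ℂ) + (τ : ℂ) * I) x
    (carm_at hg (carm_mem hτ x)) h1
  rw [one_smul] at h3
  exact h3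

/-- joint continuity in the real coordinates. -/
theorem carm_continuousOn {g : ℂ → ℂ} {H : ℝ} (hg : ContinuousOn g {z | |z.im| < H}) :
    ContinuousOn (fun q : ℝ × ℝ => g ((q.1 : ℂ) + (q.2 : ℂ) * I)) {q | |q.2| < H} := by
  refine hg.comp (by fun_prop) ?_
  intro q hq
  exact carm_mem hq q.1

theorem carm_deriv_per {g : ℂ → ℂ} {H : ℝ}
    (hper : ∀ z : ℂ, |z.im| < H → g (z + 2 * π) = g z) {z : ℂ} (hz : |z.im| < H) :
    deriv g (z + 2 * π) = deriv g z := by
  have h1 : (fun w => g (w + 2 * π)) =ᶠ[𝓝 z] g := by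
    filter_upwards [(ca_strip_isOpen H).mem_nhds hz] with w hw using hper w hw
  have h2 := h1.deriv_eq
  rwa [deriv_comp_add_const] at h2

/-- **Second order expansion of the `L²` row means** of a periodic holomorphic function on a strip:
`m(η) = m(0) + η m'(0) + 4 ∫_0^η (η - τ) ∫ |p'(x + iτ)|² dx dτ`. -/
theorem carm_main {p : ℂ → ℂ} {H : ℝ} (hp : DifferentiableOn ℂ p {z | |z.im| < H})
    (hper : ∀ z : ℂ, |z.im| < H → p (z + 2 * π) = p z) {η : ℝ} (h0 : 0 ≤ η) (hη : η < H) :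
    ∫ x in (0 : ℝ)..(2 * π), ‖p ((x : ℂ) + (η : ℂ) * I)‖ ^ 2 =
      (∫ x in (0 : ℝ)..(2 * π), ‖p ((x : ℂ) + ((0 : ℝ) : ℂ) * I)‖ ^ 2)
        + η * (∫ x in (0 : ℝ)..(2 * π), 2 * ⟪p ((x : ℂ) + ((0 : ℝ) : ℂ) * I),
            I * deriv p ((x : ℂ) + ((0 : ℝ) : ℂ) * I)⟫_ℝ)
        + 4 * ∫ τ in (0 : ℝ)..η, (η - τ) *
            ∫ x in (0 : ℝ)..(2 * π), ‖deriv p ((x : ℂ) + (τ : ℂ) * I)‖ ^ 2 := by
  have hS := ca_strip_isOpen H
  have hp1 : DifferentiableOn ℂ (deriv p) {z | |z.im| < H} := hp.deriv hS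
  have hp2 : DifferentiableOn ℂ (deriv (deriv p)) {z | |z.im| < H} := hp1.deriv hS
  have hτ : ∀ t ∈ Icc 0 η, |t| < H := fun t ht => by
    rw [abs_of_nonneg ht.1]; exact ht.2.trans_lt hη
  have hπ : (0 : ℝ) ≤ 2 * π := Real.two_pi_pos.le
  set Z : ℝ → ℝ → ℂ := fun x t => (x : ℂ) + (t : ℂ) * I with hZ
  set V1 : ℝ → ℝ → ℝ := fun x t => 2 * ⟪p (Z x t), I * deriv p (Z x t)⟫_ℝ with hV1
  set V2 : ℝ → ℝ → ℝ := fun x t => 2 * (⟪p (Z x t), I * (I * deriv (deriv p) (Z x t))⟫_ℝ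
    + ⟪I * deriv p (Z x t), I * deriv p (Z x t)⟫_ℝ) with hV2
  -- joint continuity
  have c0 := carm_continuousOn hp.continuousOn
  have c1 := carm_continuousOn hp1.continuousOn
  have c2 := carm_continuousOn hp2.continuousOn
  have cV0 : ContinuousOn (fun q : ℝ × ℝ => ‖p (Z q.1 q.2)‖ ^ 2) {q | |q.2| < H} := c0.norm.pow 2
  have cV1 : ContinuousOn (fun q : ℝ × ℝ => V1 q.1 q.2) {q | |q.2| < H} :=
    continuousOn_const.mul (c0.inner (continuousOn_const.mul c1))
  have cV2 : ContinuousOn (fun q : ℝ × ℝ => V2 q.1 q.2) {q | |q.2| < H} :=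
    continuousOn_const.mul ((c0.inner (continuousOn_const.mul (continuousOn_const.mul c2))).add
      ((continuousOn_const.mul c1).inner (continuousOn_const.mul c1)))
  have cE : ContinuousOn (fun q : ℝ × ℝ => ‖deriv p (Z q.1 q.2)‖ ^ 2) {q | |q.2| < H} :=
    c1.norm.pow 2
  have rowc : ∀ {F : ℝ × ℝ → ℝ}, ContinuousOn F {q | |q.2| < H} → ∀ t, |t| < H →
      Continuous fun x : ℝ => F (x, t) := by
    intro F hF t ht
    exact hF.comp_continuous (by fun_prop) (fun x => ht)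
  have colc : ∀ {F : ℝ × ℝ → ℝ}, ContinuousOn F {q | |q.2| < H} → ∀ x : ℝ,
      ContinuousOn (fun t : ℝ => F (x, t)) (Icc 0 η) := by
    intro F hF x
    exact hF.comp (by fun_prop) (fun t ht => hτ t ht)
  -- pointwise Taylor formula
  have htay : ∀ x : ℝ, ‖p (Z x η)‖ ^ 2 = ‖p (Z x 0)‖ ^ 2 + η * V1 x 0
      + ∫ t in (0 : ℝ)..η, (η - t) * V2 x t := by
    intro x
    refine carm_taylor2 (v := fun t => ‖p (Z x t)‖ ^ 2) (v1 := V1 x) (v2 := V2 x) h0 ?_ ?_ ?_
    · intro t ht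
      exact (carm_hasDerivAt_im hp (hτ t ht) x).norm_sq
    · intro t ht
      have h1 := carm_hasDerivAt_im hp (hτ t ht) x
      have h2 := (carm_hasDerivAt_im hp1 (hτ t ht) x).const_mul I
      exact (h1.inner ℝ h2).const_mul 2
    · exact colc cV2 x
  have h00 : |(0 : ℝ)| < H := by rw [abs_zero]; exact h0.trans_lt hη
  have hηη : |η| < H := by rw [abs_of_nonneg h0]; exact hη
  have cA : Continuous fun x : ℝ => ‖p (Z x η)‖ ^ 2 := rowc cV0 η hηη
  have cB : Continuous fun x : ℝ => ‖p (Z x 0)‖ ^ 2 := rowc cV0 0 h00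
  have cC : Continuous fun x : ℝ => V1 x 0 := rowc cV1 0 h00
  have cR : Continuous fun x : ℝ => ∫ t in (0 : ℝ)..η, (η - t) * V2 x t := by
    have : (fun x : ℝ => ∫ t in (0 : ℝ)..η, (η - t) * V2 x t) =
        fun x => ‖p (Z x η)‖ ^ 2 - ‖p (Z x 0)‖ ^ 2 - η * V1 x 0 := by
      funext x; rw [htay x]; ring
    rw [this]
    exact (cA.sub cB).sub (continuous_const.mul cC)
  have hsum : ∫ x in (0 : ℝ)..(2 * π), ‖p (Z x η)‖ ^ 2 =
      (∫ x in (0 : ℝ)..(2 * π), ‖p (Z x 0)‖ ^ 2) + η * (∫ x in (0 : ℝ)..(2 * π), V1 x 0)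
        + ∫ x in (0 : ℝ)..(2 * π), ∫ t in (0 : ℝ)..η, (η - t) * V2 x t := by
    have iB : IntervalIntegrable (fun x : ℝ => ‖p (Z x 0)‖ ^ 2) volume 0 (2 * π) :=
      cB.intervalIntegrable _ _
    have iC : IntervalIntegrable (fun x : ℝ => η * V1 x 0) volume 0 (2 * π) :=
      (continuous_const.mul cC).intervalIntegrable _ _
    have iBC : IntervalIntegrable (fun x : ℝ => ‖p (Z x 0)‖ ^ 2 + η * V1 x 0) volume 0 (2 * π) :=
      iB.add iC
    have iR : IntervalIntegrable (fun x : ℝ => ∫ t in (0 : ℝ)..η, (η - t) * V2 x t) volume 0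
        (2 * π) := cR.intervalIntegrable _ _
    rw [intervalIntegral.integral_congr (fun x _ => htay x),
      intervalIntegral.integral_add iBC iR, intervalIntegral.integral_add iB iC,
      intervalIntegral.integral_const_mul]
  -- Fubini
  have hswap : ∫ x in (0 : ℝ)..(2 * π), ∫ t in (0 : ℝ)..η, (η - t) * V2 x t =
      ∫ t in (0 : ℝ)..η, ∫ x in (0 : ℝ)..(2 * π), (η - t) * V2 x t := by
    apply intervalIntegral_intervalIntegral_swap
    have hc : ContinuousOn (Function.uncurry fun x t => (η - t) * V2 x t)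
        (Icc 0 (2 * π) ×ˢ Icc 0 η) := by
      have h1 : ContinuousOn (fun q : ℝ × ℝ => (η - q.2) * V2 q.1 q.2) {q | |q.2| < H} :=
        (continuousOn_const.sub continuousOn_snd).mul cV2
      exact h1.mono fun q hq => hτ q.2 hq.2
    refine (hc.integrableOn_compact (isCompact_Icc.prod isCompact_Icc)).mono_set ?_
    rw [uIoc_of_le hπ, uIoc_of_le h0]
    exact prod_mono Ioc_subset_Icc_self Ioc_subset_Icc_self
  -- the horizontal integral of the second derivative
  have hrow : ∀ t ∈ Icc 0 η, ∫ x in (0 : ℝ)..(2 * π), V2 x t =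
      4 * ∫ x in (0 : ℝ)..(2 * π), ‖deriv p (Z x t)‖ ^ 2 := by
    intro t ht
    have ht' := hτ t ht
    set g' : ℝ → ℝ := fun x => ⟪p (Z x t), deriv (deriv p) (Z x t)⟫_ℝ
      + ⟪deriv p (Z x t), deriv p (Z x t)⟫_ℝ with hg'
    have hkey : ∀ x, V2 x t = 4 * ‖deriv p (Z x t)‖ ^ 2 - 2 * g' x := by
      intro x
      simp only [hV2, hg']
      have e1 : I * (I * deriv (deriv p) (Z x t)) = -deriv (deriv p) (Z x t) := by
        rw [← mul_assoc, I_mul_I, neg_one_mul]
      rw [e1, inner_neg_right, real_inner_self_eq_norm_sq, real_inner_self_eq_norm_sq, norm_mul,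
        norm_I, one_mul]
      ring
    have cg' : Continuous g' := by
      have : ContinuousOn (fun q : ℝ × ℝ => ⟪p (Z q.1 q.2), deriv (deriv p) (Z q.1 q.2)⟫_ℝ
          + ⟪deriv p (Z q.1 q.2), deriv p (Z q.1 q.2)⟫_ℝ) {q | |q.2| < H} :=
        (c0.inner c2).add (c1.inner c1)
      exact rowc this t ht'
    have hg0 : ∫ x in (0 : ℝ)..(2 * π), g' x = 0 := by
      have hd : ∀ x ∈ uIcc 0 (2 * π),
          HasDerivAt (fun x : ℝ => ⟪p (Z x t), deriv p (Z x t)⟫_ℝ) (g' x) x := by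
        intro x _
        exact (carm_hasDerivAt_re hp ht' x).inner ℝ (carm_hasDerivAt_re hp1 ht' x)
      rw [intervalIntegral.integral_eq_sub_of_hasDerivAt hd (cg'.intervalIntegrable _ _)]
      have e : Z (2 * π) t = Z 0 t + 2 * π := by
        simp only [hZ]; push_cast; ring
      have hm : |(Z 0 t).im| < H := carm_mem ht' 0
      rw [e, hper _ hm, carm_deriv_per hper hm, sub_self]
    have iE : IntervalIntegrable (fun x : ℝ => 4 * ‖deriv p (Z x t)‖ ^ 2) volume 0 (2 * π) :=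
      (continuous_const.mul (rowc cE t ht')).intervalIntegrable _ _
    have ig : IntervalIntegrable (fun x : ℝ => 2 * g' x) volume 0 (2 * π) :=
      (continuous_const.mul cg').intervalIntegrable _ _
    rw [intervalIntegral.integral_congr (fun x _ => hkey x),
      intervalIntegral.integral_sub iE ig,
      intervalIntegral.integral_const_mul, intervalIntegral.integral_const_mul, hg0]
    ring
  have hfin : ∫ t in (0 : ℝ)..η, ∫ x in (0 : ℝ)..(2 * π), (η - t) * V2 x t =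
      4 * ∫ t in (0 : ℝ)..η, (η - t) * ∫ x in (0 : ℝ)..(2 * π), ‖deriv p (Z x t)‖ ^ 2 := by
    rw [← intervalIntegral.integral_const_mul]
    apply intervalIntegral.integral_congr
    intro t ht
    rw [uIcc_of_le h0] at ht
    simp only
    rw [intervalIntegral.integral_const_mul, hrow t ht]
    ring
  rw [hsum, hswap, hfin]

theorem carm_deriv_conj {g : ℂ → ℂ} {H : ℝ}
    (hg : ∀ z : ℂ, |z.im| < H → g (conj z) = conj (g z)) {s : ℂ} (hs : |s.im| < H) :
    deriv g (conj s) = conj (deriv g s) := by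
  have h1 : (conj ∘ g ∘ conj) =ᶠ[𝓝 s] g := by
    filter_upwards [(ca_strip_isOpen H).mem_nhds hs] with z hz
    simp only [Function.comp_apply]
    rw [hg z hz, Complex.conj_conj]
  have h2 := h1.deriv_eq
  rw [deriv_conj_conj] at h2
  simp only [Function.comp_apply] at h2
  have h3 : conj (conj (deriv g (conj s))) = conj (deriv g s) := by rw [h2]
  rwa [Complex.conj_conj] at h3

/-- the symmetric case: the first order term vanishes. -/
theorem carm_sym {p : ℂ → ℂ} {H : ℝ} (hp : DifferentiableOn ℂ p {z | |z.im| < H})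
    (hper : ∀ z : ℂ, |z.im| < H → p (z + 2 * π) = p z)
    (hconj : ∀ z : ℂ, |z.im| < H → p (conj z) = conj (p z)) {η : ℝ} (h0 : 0 ≤ η) (hη : η < H) :
    ∫ x in (0 : ℝ)..(2 * π), ‖p ((x : ℂ) + (η : ℂ) * I)‖ ^ 2 =
      (∫ x in (0 : ℝ)..(2 * π), ‖p ((x : ℂ) + ((0 : ℝ) : ℂ) * I)‖ ^ 2)
        + 4 * ∫ τ in (0 : ℝ)..η, (η - τ) *
            ∫ x in (0 : ℝ)..(2 * π), ‖deriv p ((x : ℂ) + (τ : ℂ) * I)‖ ^ 2 := by
  rw [carm_main hp hper h0 hη]
  have hH : 0 < H := h0.trans_lt hη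
  have hz : ∀ x : ℝ, 2 * ⟪p ((x : ℂ) + ((0 : ℝ) : ℂ) * I),
      I * deriv p ((x : ℂ) + ((0 : ℝ) : ℂ) * I)⟫_ℝ = 0 := by
    intro x
    have e : (x : ℂ) + ((0 : ℝ) : ℂ) * I = (x : ℂ) := by simp
    rw [e]
    have hx : |((x : ℂ)).im| < H := by simpa using hH
    have h1 : (p (x : ℂ)).im = 0 := by
      have := hconj x hx
      rw [Complex.conj_ofReal] at this
      exact Complex.conj_eq_iff_im.1 this.symm
    have h2 : (deriv p (x : ℂ)).im = 0 := by
      have := carm_deriv_conj hconj hx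
      rw [Complex.conj_ofReal] at this
      exact Complex.conj_eq_iff_im.1 this.symm
    rw [Complex.inner]
    simp [h1, h2]
  simp only [hz, intervalIntegral.integral_zero, mul_zero, add_zero]

/-- continuity of the row integrals. -/
theorem carm_rowInt_continuousOn {G : ℝ × ℝ → ℝ} {H : ℝ} (hG : ContinuousOn G {q | |q.2| < H})
    (a b : ℝ) {c : ℝ} (hc : c < H) :
    ContinuousOn (fun τ : ℝ => ∫ x in a..b, G (x, τ)) (Icc (-c) c) := by
  rcases lt_or_ge c 0 with hc0 | hc0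
  · have : Icc (-c) c = ∅ := Icc_eq_empty (by linarith)
    rw [this]; exact continuousOn_empty _
  set cl : ℝ → ℝ := fun τ => max (-c) (min τ c) with hcl
  have hclc : Continuous cl := by fun_prop
  have hcl' : ∀ τ, |cl τ| < H := by
    intro τ
    refine lt_of_le_of_lt (abs_le.2 ⟨le_max_left _ _, ?_⟩) hc
    exact max_le (by linarith) (min_le_right _ _)
  have h1 : Continuous (fun τ => ∫ x in a..b, G (x, cl τ)) := by
    apply intervalIntegral.continuous_parametric_intervalIntegral_of_continuous'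
    exact hG.comp_continuous (by fun_prop) (fun q => hcl' q.1)
  refine h1.continuousOn.congr ?_
  intro τ hτ
  have : cl τ = τ := by simp [hcl, hτ.1, hτ.2]
  simp only [this]

end Claimed.Agent.R269
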