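/-
Row 269, library L3-CA1 (HOST-FREE, Mathlib only).  Owner: helper221.

BOUNDARY UNIQUENESS (replaces Schwarz reflection wherever only "zero boundary values on an interval => zero" is used).
* `ca_four_rotations`      : `g` holomorphic on a closed square, `≤ B` there and `≤ ε` on the top side: `‖g centre‖^4 ≤ ε B^3`.
* `ca_boundary_uniqueness` : `g` holomorphic on a connected open `U` containing the one-sided collar
                             `[a,b] × (-η,0)`, tending to `0` uniformly at `[a,b]`: `g = 0` on `U`.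
-/
import Mathlib

set_option autoImplicit false

namespace Claimed.Agent.R269

open Filter Topology Set Metric Complex

/-- the "four rotations" estimate. -/
theorem ca_four_rotations {g : ℂ → ℂ} {z₀ : ℂ} {s B ε : ℝ} (hs : 0 < s)
    (hg : ∀ ζ : ℂ, |ζ.re - z₀.re| ≤ s → |ζ.im - z₀.im| ≤ s → DifferentiableAt ℂ g ζ)
    (hB : ∀ ζ : ℂ, |ζ.re - z₀.re| ≤ s → |ζ.im - z₀.im| ≤ s → ‖g ζ‖ ≤ B)
    (hε : ∀ ζ : ℂ, |ζ.re - z₀.re| ≤ s → ζ.im = z₀.im + s → ‖g ζ‖ ≤ ε) :
    ‖g z₀‖ ^ 4 ≤ ε * B ^ 3 := by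
  have hB0 : 0 ≤ B := (norm_nonneg _).trans (hB z₀ (by simpa using hs.le) (by simpa using hs.le))
  set Q : Set ℂ := Ioo (z₀.re - s) (z₀.re + s) ×ℂ Ioo (z₀.im - s) (z₀.im + s) with hQ
  have h1 : z₀.re - s < z₀.re + s := by linarith
  have h2 : z₀.im - s < z₀.im + s := by linarith
  have hcl : closure Q = Icc (z₀.re - s) (z₀.re + s) ×ℂ Icc (z₀.im - s) (z₀.im + s) := by
    rw [hQ, closure_reProdIm, closure_Ioo h1.ne, closure_Ioo h2.ne]
  have hmem : ∀ ζ ∈ closure Q, |ζ.re - z₀.re| ≤ s ∧ |ζ.im - z₀.im| ≤ s := by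
    intro ζ hζ
    rw [hcl, mem_reProdIm] at hζ
    obtain ⟨⟨a1, a2⟩, b1, b2⟩ := hζ
    exact ⟨abs_le.2 ⟨by linarith, by linarith⟩, abs_le.2 ⟨by linarith, by linarith⟩⟩
  set P : ℂ → ℂ := fun ζ => g (z₀ + (ζ - z₀)) * g (z₀ + I * (ζ - z₀)) * g (z₀ - (ζ - z₀))
    * g (z₀ - I * (ζ - z₀)) with hP
  -- the four rotated points stay in the closed square
  have r0 : ∀ ζ : ℂ, (z₀ + (ζ - z₀)).re - z₀.re = ζ.re - z₀.re ∧
      (z₀ + (ζ - z₀)).im - z₀.im = ζ.im - z₀.im := fun ζ => by constructor <;> simp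
  have r1 : ∀ ζ : ℂ, (z₀ + I * (ζ - z₀)).re - z₀.re = -(ζ.im - z₀.im) ∧
      (z₀ + I * (ζ - z₀)).im - z₀.im = ζ.re - z₀.re := fun ζ => by constructor <;> simp
  have r2 : ∀ ζ : ℂ, (z₀ - (ζ - z₀)).re - z₀.re = -(ζ.re - z₀.re) ∧
      (z₀ - (ζ - z₀)).im - z₀.im = -(ζ.im - z₀.im) := fun ζ => by constructor <;> simp
  have r3 : ∀ ζ : ℂ, (z₀ - I * (ζ - z₀)).re - z₀.re = ζ.im - z₀.im ∧
      (z₀ - I * (ζ - z₀)).im - z₀.im = -(ζ.re - z₀.re) := fun ζ => by constructor <;> simp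
  have hd : DiffContOnCl ℂ P Q := by
    apply DifferentiableOn.diffContOnCl
    intro ζ hζ
    obtain ⟨a, b⟩ := hmem ζ hζ
    have d0 : DifferentiableAt ℂ (fun ζ => g (z₀ + (ζ - z₀))) ζ :=
      DifferentiableAt.comp (f := fun ζ => z₀ + (ζ - z₀)) ζ
        (hg _ (by rw [(r0 ζ).1]; exact a) (by rw [(r0 ζ).2]; exact b)) (by fun_prop)
    have d1 : DifferentiableAt ℂ (fun ζ => g (z₀ + I * (ζ - z₀))) ζ :=
      DifferentiableAt.comp (f := fun ζ => z₀ + I * (ζ - z₀)) ζ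
        (hg _ (by rw [(r1 ζ).1, abs_neg]; exact b) (by rw [(r1 ζ).2]; exact a)) (by fun_prop)
    have d2 : DifferentiableAt ℂ (fun ζ => g (z₀ - (ζ - z₀))) ζ :=
      DifferentiableAt.comp (f := fun ζ => z₀ - (ζ - z₀)) ζ
        (hg _ (by rw [(r2 ζ).1, abs_neg]; exact a) (by rw [(r2 ζ).2, abs_neg]; exact b))
        (by fun_prop)
    have d3 : DifferentiableAt ℂ (fun ζ => g (z₀ - I * (ζ - z₀))) ζ :=
      DifferentiableAt.comp (f := fun ζ => z₀ - I * (ζ - z₀)) ζ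
        (hg _ (by rw [(r3 ζ).1]; exact b) (by rw [(r3 ζ).2, abs_neg]; exact a)) (by fun_prop)
    exact (((d0.mul d1).mul d2).mul d3).differentiableWithinAt
  have hfr : ∀ ζ ∈ frontier Q, ‖P ζ‖ ≤ ε * B ^ 3 := by
    intro ζ hζ
    obtain ⟨a, b⟩ := hmem ζ (frontier_subset_closure hζ)
    have b0 : ‖g (z₀ + (ζ - z₀))‖ ≤ B :=
      hB _ (by rw [(r0 ζ).1]; exact a) (by rw [(r0 ζ).2]; exact b)
    have b1 : ‖g (z₀ + I * (ζ - z₀))‖ ≤ B :=
      hB _ (by rw [(r1 ζ).1, abs_neg]; exact b) (by rw [(r1 ζ).2]; exact a)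
    have b2 : ‖g (z₀ - (ζ - z₀))‖ ≤ B :=
      hB _ (by rw [(r2 ζ).1, abs_neg]; exact a) (by rw [(r2 ζ).2, abs_neg]; exact b)
    have b3 : ‖g (z₀ - I * (ζ - z₀))‖ ≤ B :=
      hB _ (by rw [(r3 ζ).1]; exact b) (by rw [(r3 ζ).2, abs_neg]; exact a)
    have n0 := norm_nonneg (g (z₀ + (ζ - z₀)))
    have n1 := norm_nonneg (g (z₀ + I * (ζ - z₀)))
    have n2 := norm_nonneg (g (z₀ - (ζ - z₀)))
    have n3 := norm_nonneg (g (z₀ - I * (ζ - z₀)))
    have hnorm : ‖P ζ‖ = ‖g (z₀ + (ζ - z₀))‖ * ‖g (z₀ + I * (ζ - z₀))‖ * ‖g (z₀ - (ζ - z₀))‖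
        * ‖g (z₀ - I * (ζ - z₀))‖ := by simp only [hP, norm_mul]
    rw [hQ, frontier_reProdIm, closure_Ioo h1.ne, closure_Ioo h2.ne, frontier_Ioo h1,
      frontier_Ioo h2] at hζ
    rw [hnorm]
    rcases hζ with hζ | hζ
    · rw [mem_reProdIm] at hζ
      rcases hζ.2 with h | h
      · -- bottom side: rotation by `-1`
        have e2 : ‖g (z₀ - (ζ - z₀))‖ ≤ ε :=
          hε _ (by rw [(r2 ζ).1, abs_neg]; exact a) (by have := (r2 ζ).2; rw [h] at this; linarith)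
        have hε0 : 0 ≤ ε := n2.trans e2
        calc _ ≤ B * B * ε * B := by gcongr
          _ = ε * B ^ 3 := by ring
      · have e0 : ‖g (z₀ + (ζ - z₀))‖ ≤ ε :=
          hε _ (by rw [(r0 ζ).1]; exact a) (by have := (r0 ζ).2; rw [h] at this; linarith)
        have hε0 : 0 ≤ ε := n0.trans e0
        calc _ ≤ ε * B * B * B := by gcongr
          _ = ε * B ^ 3 := by ring
    · rw [mem_reProdIm] at hζ
      rcases hζ.1 with h | h
      · have e3 : ‖g (z₀ - I * (ζ - z₀))‖ ≤ ε :=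
          hε _ (by rw [(r3 ζ).1]; exact b) (by have := (r3 ζ).2; rw [h] at this; linarith)
        have hε0 : 0 ≤ ε := n3.trans e3
        calc _ ≤ B * B * B * ε := by gcongr
          _ = ε * B ^ 3 := by ring
      · have e1 : ‖g (z₀ + I * (ζ - z₀))‖ ≤ ε :=
          hε _ (by rw [(r1 ζ).1, abs_neg]; exact b) (by have := (r1 ζ).2; rw [h] at this; linarith)
        have hε0 : 0 ≤ ε := n1.trans e1
        calc _ ≤ B * ε * B * B := by gcongr
          _ = ε * B ^ 3 := by ring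
  have hbd : Bornology.IsBounded Q := (isBounded_Ioo _ _).reProdIm (isBounded_Ioo _ _)
  have hz₀ : z₀ ∈ closure Q := by
    rw [hcl, mem_reProdIm]
    exact ⟨⟨by linarith, by linarith⟩, by linarith, by linarith⟩
  have := Complex.norm_le_of_forall_mem_frontier_norm_le hbd hd hfr hz₀
  have e : P z₀ = g z₀ ^ 4 := by simp only [hP, sub_self, mul_zero, add_zero, sub_zero]; ring
  rwa [e, norm_pow] at this

/-- **Boundary uniqueness**: a holomorphic function on a connected open set containing a one-sided collar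
`[a,b] × (-η,0)` of a real interval, which tends to `0` uniformly at the interval, vanishes identically. -/
theorem ca_boundary_uniqueness {g : ℂ → ℂ} {U : Set ℂ} (hU : IsOpen U) (hc : IsPreconnected U)
    (hg : DifferentiableOn ℂ g U) {a b η : ℝ} (hab : a < b) (hη : 0 < η)
    (hsub : ∀ z : ℂ, z.re ∈ Icc a b → z.im ∈ Ioo (-η) 0 → z ∈ U)
    (h0 : ∀ ε > 0, ∃ δ > 0, ∀ z : ℂ, z.re ∈ Icc a b → z.im ∈ Ioo (-δ) 0 → ‖g z‖ ≤ ε) :
    ∀ z ∈ U, g z = 0 := by
  obtain ⟨δ₁, hδ₁, h1⟩ := h0 1 one_pos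
  -- the size of the small squares
  obtain ⟨m, hm⟩ : ∃ m, m = min (min δ₁ η) ((b - a) / 2) := ⟨_, rfl⟩
  have hm0 : 0 < m := by rw [hm]; exact lt_min (lt_min hδ₁ hη) (by linarith)
  have hmδ : m ≤ δ₁ := by rw [hm]; exact (min_le_left _ _).trans (min_le_left _ _)
  have hmη : m ≤ η := by rw [hm]; exact (min_le_left _ _).trans (min_le_right _ _)
  have hmab : m ≤ (b - a) / 2 := by rw [hm]; exact min_le_right _ _
  have key : ∀ z₀ : ℂ, a + m / 2 < z₀.re → z₀.re < b - m / 2 → z₀.im < 0 → -(m / 2) < z₀.im →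
      g z₀ = 0 := by
    intro z₀ ha hb hi hi'
    have hle : ∀ ε > 0, ‖g z₀‖ ^ 4 ≤ ε := by
      intro ε hε
      obtain ⟨δ, hδ, h2⟩ := h0 ε hε
      -- `s = -im z₀ - t`, `t = min δ (-im z₀) / 2`
      obtain ⟨t, ht⟩ : ∃ t, t = min δ (-z₀.im) / 2 := ⟨_, rfl⟩
      have ht0 : 0 < t := by rw [ht]; exact half_pos (lt_min hδ (by linarith))
      have htδ : t < δ := by
        rw [ht]; have := min_le_left δ (-z₀.im); linarith
      have hti : t < -z₀.im := by
        rw [ht]; have := min_le_right δ (-z₀.im); linarith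
      have hs : 0 < -z₀.im - t := by linarith
      have hin : ∀ ζ : ℂ, |ζ.re - z₀.re| ≤ -z₀.im - t → |ζ.im - z₀.im| ≤ -z₀.im - t →
          ζ.re ∈ Icc a b ∧ ζ.im ∈ Ioo (-m) 0 := by
        intro ζ h3 h4
        rw [abs_le] at h3 h4
        exact ⟨⟨by linarith, by linarith⟩, by linarith, by linarith⟩
      have := ca_four_rotations (g := g) (z₀ := z₀) (B := 1) (ε := ε) hs
        (fun ζ h3 h4 => by
          obtain ⟨h5, h6⟩ := hin ζ h3 h4
          exact (hg ζ (hsub ζ h5 ⟨by linarith [h6.1], h6.2⟩)).differentiableAt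
            (hU.mem_nhds (hsub ζ h5 ⟨by linarith [h6.1], h6.2⟩)))
        (fun ζ h3 h4 => by
          obtain ⟨h5, h6⟩ := hin ζ h3 h4
          exact h1 ζ h5 ⟨by linarith [h6.1], h6.2⟩)
        (fun ζ h3 h4 => by
          have h4' : |ζ.im - z₀.im| ≤ -z₀.im - t := by
            rw [h4]; simp only [add_sub_cancel_left]; exact (abs_of_pos hs).le
          obtain ⟨h5, h6⟩ := hin ζ h3 h4'
          exact h2 ζ h5 ⟨by rw [h4]; linarith, h6.2⟩)
      simpa using this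
    have h4 : ‖g z₀‖ ^ 4 ≤ 0 := le_of_forall_pos_le_add (fun ε hε => by simpa using hle ε hε)
    have h5 : ‖g z₀‖ ^ 4 = 0 := le_antisymm h4 (by positivity)
    simpa using h5
  -- an open set on which `g` vanishes
  set W : Set ℂ := {z | a + m / 2 < z.re ∧ z.re < b - m / 2 ∧ z.im < 0 ∧ -(m / 2) < z.im} with hW
  have hWo : IsOpen W := by
    have e : W = {z | a + m / 2 < z.re} ∩ ({z | z.re < b - m / 2} ∩ ({z | z.im < 0}
        ∩ {z | -(m / 2) < z.im})) := by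
      ext z; simp [hW]
    rw [e]
    exact (isOpen_lt continuous_const continuous_re).inter
      ((isOpen_lt continuous_re continuous_const).inter
        ((isOpen_lt continuous_im continuous_const).inter
          (isOpen_lt continuous_const continuous_im)))
  have hzW : (⟨(a + b) / 2, -(m / 4)⟩ : ℂ) ∈ W := by
    refine ⟨?_, ?_, ?_, ?_⟩ <;> simp only <;> linarith
  have hzU : (⟨(a + b) / 2, -(m / 4)⟩ : ℂ) ∈ U :=
    hsub _ ⟨by simp only; linarith, by simp only; linarith⟩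
      ⟨by simp only; linarith, by simp only; linarith⟩
  have hev : g =ᶠ[𝓝 (⟨(a + b) / 2, -(m / 4)⟩ : ℂ)] 0 := by
    filter_upwards [hWo.mem_nhds hzW] with z hz
    exact key z hz.1 hz.2.1 hz.2.2.1 hz.2.2.2
  exact fun z hz => (hg.analyticOnNhd hU).eqOn_zero_of_preconnected_of_eventuallyEq_zero hc hzU hev hz

end Claimed.Agent.R269
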