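/-
Row 269, library for P1 Sections 10-11 (owner: helper171).  HOST-FREE: no paper reading needed.

DISCRETE PROBABILITY FRAMEWORK replacing Brownian motion.  The sample space is `Om Ξ = ℕ → Ξ` with the product measure
`Pr ν = ν^{⊗ℕ}`.  Instead of conditional expectations we use the POINTWISE one-step mean
    `stp ν n f ω = ∫ ξ, f (update ω (n+1) ξ) ∂ν`       (resample the coordinate `n+1`).
A *process* (`Proc`) is a sequence `X n : Om Ξ → E`, measurable, bounded at each time, `X n` reading only the coordinates `≤ n`.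
THE ONLY MEASURE-THEORETIC INPUT is `integral_stp` (resampling one coordinate preserves the product measure).

RULES: the claimer of a package fills its `sorry`s IN PLACE (auxiliary lemmas above the statement, prefix `chn_`); do not change
a statement without telling helper171; land every compiled state.
-/
import Mathlib

set_option autoImplicit false

namespace Claimed.Agent.R269.Chn

open MeasureTheory Set

/-- the sample space -/
abbrev Om (Ξ : Type) : Type := ℕ → Ξ

variable {Ξ : Type} [MeasurableSpace Ξ] (ν : Measure Ξ) [IsProbabilityMeasure ν]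

/-- the product measure -/
noncomputable def Pr : Measure (Om Ξ) := Measure.infinitePi fun _ : ℕ => ν

instance instProbPr : IsProbabilityMeasure (Pr ν) := by unfold Pr; infer_instance

/-- one-step mean: resample the coordinate `n+1` -/
noncomputable def stp {E : Type} [NormedAddCommGroup E] [NormedSpace ℝ E] (n : ℕ) (f : Om Ξ → E) (ω : Om Ξ) : E :=
  ∫ ξ, f (Function.update ω (n + 1) ξ) ∂ν

/-- `f` reads only the coordinates `≤ n` -/
def Reads {α : Type} (n : ℕ) (f : Om Ξ → α) : Prop := ∀ ω ω' : Om Ξ, (∀ i, i ≤ n → ω i = ω' i) → f ω = f ω'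

/-- an adapted family of events/properties -/
structure Cut (A : ℕ → Om Ξ → Prop) : Prop where
  meas : ∀ n, MeasurableSet {ω | A n ω}
  reads : ∀ n, Reads n (A n)

/-- a bounded adapted process -/
structure Proc {E : Type} [NormedAddCommGroup E] [MeasurableSpace E] (X : ℕ → Om Ξ → E) : Prop where
  meas : ∀ n, Measurable (X n)
  reads : ∀ n, Reads n (X n)
  bdd : ∀ n, ∃ C : ℝ, ∀ ω, ‖X n ω‖ ≤ C

/-- all cuts hold strictly before time `n` -/
def Alive (A : ℕ → Om Ξ → Prop) (n : ℕ) (ω : Om Ξ) : Prop := ∀ i, i < n → A i ω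

/-! ### Package LF-Chn-1: foundations -/

theorem chn_measurable_upd (k : ℕ) :
    Measurable (fun p : Om Ξ × Ξ => Function.update p.1 k p.2) := by
  exact measurable_update'

theorem chn_map_update (k : ℕ) :
    ((Pr ν).prod ν).map (fun p : Om Ξ × Ξ => Function.update p.1 k p.2) = Pr ν := by
  classical
  unfold Pr
  refine Measure.eq_infinitePi _ fun s t ht => ?_
  rw [Measure.map_apply (chn_measurable_upd k) (MeasurableSet.pi s.countable_toSet fun i _ => ht i)]
  have hpre : (fun p : Om Ξ × Ξ => Function.update p.1 k p.2) ⁻¹' (Set.pi (s : Set ℕ) t)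
      = (Set.pi ((s.erase k : Finset ℕ) : Set ℕ) t) ×ˢ (if k ∈ s then t k else Set.univ) := by
    ext ⟨ω, ξ⟩
    simp only [Set.mem_preimage, Set.mem_pi, Set.mem_prod, Finset.mem_coe, Finset.mem_erase]
    constructor
    · intro h
      refine ⟨fun i hi => ?_, ?_⟩
      · have := h i hi.2
        rwa [Function.update_of_ne hi.1] at this
      · split_ifs with hk
        · have := h k hk
          rwa [Function.update_self] at this
        · trivial
    · rintro ⟨h1, h2⟩ i hi
      by_cases hik : i = k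
      · subst hik
        rw [if_pos hi] at h2
        rwa [Function.update_self]
      · rw [Function.update_of_ne hik]
        exact h1 i ⟨hik, hi⟩
  rw [hpre, Measure.prod_prod, Measure.infinitePi_pi _ (fun i _ => ht i)]
  by_cases hk : k ∈ s
  · rw [if_pos hk, mul_comm, Finset.mul_prod_erase s (fun i => ν (t i)) hk]
  · rw [if_neg hk, measure_univ, mul_one, Finset.erase_eq_of_notMem hk]

theorem chn_integrable {α : Type} [MeasurableSpace α] (μ : Measure α) [IsFiniteMeasure μ] (f : α → ℝ)
    (hf : Measurable f) (hb : ∃ C : ℝ, ∀ ω, |f ω| ≤ C) : Integrable f μ := by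
  obtain ⟨C, hC⟩ := hb
  exact Integrable.of_bound hf.aestronglyMeasurable C (Filter.Eventually.of_forall fun ω => by
    simpa [Real.norm_eq_abs] using hC ω)

/-- **Resampling.**  (`Measure.infinitePi`: split off the coordinate `n+1`, e.g. by `eq_infinitePi`/`infinitePi_map_...` and Fubini; or prove
that the map `(ω, ξ) ↦ update ω (n+1) ξ` pushes `Pr ν ⊗ ν` to `Pr ν` by checking it on boxes.) -/
theorem integral_stp (n : ℕ) (f : Om Ξ → ℝ) (hf : Measurable f) (hb : ∃ C : ℝ, ∀ ω, |f ω| ≤ C) :
    ∫ ω, stp ν n f ω ∂(Pr ν) = ∫ ω, f ω ∂(Pr ν) := by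
  have hm := chn_measurable_upd (Ξ := Ξ) (n + 1)
  have hint : Integrable (fun p : Om Ξ × Ξ => f (Function.update p.1 (n + 1) p.2)) ((Pr ν).prod ν) :=
    chn_integrable _ _ (hf.comp hm) (by obtain ⟨C, hC⟩ := hb; exact ⟨C, fun p => hC _⟩)
  conv_rhs => rw [← chn_map_update ν (n + 1)]
  rw [integral_map hm.aemeasurable hf.aestronglyMeasurable, integral_prod _ hint]
  rfl

/-- resampling of an arbitrary coordinate (`integral_stp` is the case `k = n + 1`) -/
theorem integral_upd (k : ℕ) (f : Om Ξ → ℝ) (hf : Measurable f) (hb : ∃ C : ℝ, ∀ ω, |f ω| ≤ C) :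
    ∫ ω, (∫ ξ, f (Function.update ω k ξ) ∂ν) ∂(Pr ν) = ∫ ω, f ω ∂(Pr ν) := by
  have hm := chn_measurable_upd (Ξ := Ξ) k
  have hint : Integrable (fun p : Om Ξ × Ξ => f (Function.update p.1 k p.2)) ((Pr ν).prod ν) :=
    chn_integrable _ _ (hf.comp hm) (by obtain ⟨C, hC⟩ := hb; exact ⟨C, fun p => hC _⟩)
  conv_rhs => rw [← chn_map_update ν k]
  rw [integral_map hm.aemeasurable hf.aestronglyMeasurable, integral_prod _ hint]

theorem measurable_stp (n : ℕ) (f : Om Ξ → ℝ) (hf : Measurable f) : Measurable (stp ν n f) := by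
  have hm := chn_measurable_upd (Ξ := Ξ) (n + 1)
  have h : StronglyMeasurable (fun p : Om Ξ × Ξ => f (Function.update p.1 (n + 1) p.2)) :=
    (hf.comp hm).stronglyMeasurable
  exact (h.integral_prod_right (ν := ν)).measurable

/-- the one-step mean of a function reading `≤ n+1` reads `≤ n` -/
theorem reads_stp (n : ℕ) (f : Om Ξ → ℝ) (hf : Reads (n + 1) f) : Reads n (stp ν n f) := by
  intro ω ω' h
  unfold stp
  congr 1
  funext ξ
  apply hf
  intro i hi
  by_cases hik : i = n + 1
  · subst hik; simp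
  · rw [Function.update_of_ne hik, Function.update_of_ne hik]
    exact h i (by omega)

theorem chn_reads_update {α : Type} (n : ℕ) (g : Om Ξ → α) (hg : Reads n g) (ω : Om Ξ) (ξ : Ξ) :
    g (Function.update ω (n + 1) ξ) = g ω := by
  apply hg
  intro i hi
  rw [Function.update_of_ne (by omega)]

/-- pull out what is known -/
theorem stp_mul (n : ℕ) (g f : Om Ξ → ℝ) (hg : Reads n g) (ω : Om Ξ) :
    stp ν n (fun ω' => g ω' * f ω') ω = g ω * stp ν n f ω := by
  unfold stp
  simp only [chn_reads_update n g hg]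
  rw [integral_const_mul]

theorem stp_const_of_reads (n : ℕ) (g : Om Ξ → ℝ) (hg : Reads n g) (ω : Om Ξ) : stp ν n g ω = g ω := by
  unfold stp
  simp only [chn_reads_update n g hg]
  simp

/-- law of the coordinate `0` -/
theorem integral_coord_zero (f : Ξ → ℝ) (hf : Measurable f) (hb : ∃ C : ℝ, ∀ ξ, |f ξ| ≤ C) :
    ∫ ω, f (ω 0) ∂(Pr ν) = ∫ ξ, f ξ ∂ν := by
  have h : (Pr ν).map (fun x : Om Ξ => x 0) = ν := by
    unfold Pr
    exact Measure.infinitePi_map_eval (fun _ : ℕ => ν) 0
  conv_rhs => rw [← h]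
  rw [integral_map (measurable_pi_apply 0).aemeasurable hf.aestronglyMeasurable]

/-- **optional stopping, elementary form**: for a process with `stp X_{n+1} ≤ X_n` while the cut holds, the mean of the process frozen at
the first failure of the cut does not increase.  `frz A X n ω = X (min n T) ω`, `T` = first `i` with `¬ A i ω`. -/
noncomputable def frz {E : Type} (A : ℕ → Om Ξ → Prop) (X : ℕ → Om Ξ → E) : ℕ → Om Ξ → E
  | 0, ω => X 0 ω
  | n + 1, ω => by classical exact if Alive A (n + 1) ω then X (n + 1) ω else frz A X n ω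

theorem frz_of_alive {E : Type} (A : ℕ → Om Ξ → Prop) (X : ℕ → Om Ξ → E) (n : ℕ) (ω : Om Ξ) (h : Alive A n ω) :
    frz A X n ω = X n ω := by
  cases n with
  | zero => rfl
  | succ n => simp only [frz]; rw [if_pos h]

theorem chn_frz_succ {E : Type} (A : ℕ → Om Ξ → Prop) (X : ℕ → Om Ξ → E) (n : ℕ) (ω : Om Ξ) :
    frz A X (n + 1) ω = by classical exact if Alive A (n + 1) ω then X (n + 1) ω else frz A X n ω := by
  simp only [frz]

theorem chn_alive_meas (A : ℕ → Om Ξ → Prop) (hA : Cut A) (n : ℕ) : MeasurableSet {ω | Alive A n ω} := by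
  have : {ω | Alive A n ω} = ⋂ i ∈ Finset.range n, {ω | A i ω} := by
    ext ω
    simp [Alive]
  rw [this]
  exact Finset.measurableSet_biInter _ fun i _ => hA.meas i

theorem chn_reads_mono {α : Type} {m n : ℕ} (hmn : m ≤ n) (f : Om Ξ → α) (hf : Reads m f) : Reads n f :=
  fun ω ω' h => hf ω ω' fun i hi => h i (hi.trans hmn)

theorem chn_alive_reads (A : ℕ → Om Ξ → Prop) (hA : Cut A) (n : ℕ) : Reads n (Alive A (n + 1)) := by
  intro ω ω' h
  unfold Alive
  apply propext
  constructor
  · intro H i hi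
    rw [← hA.reads i ω ω' fun j hj => h j (by omega)]
    exact H i hi
  · intro H i hi
    rw [hA.reads i ω ω' fun j hj => h j (by omega)]
    exact H i hi

theorem proc_frz (A : ℕ → Om Ξ → Prop) (hA : Cut A) (X : ℕ → Om Ξ → ℝ) (hX : Proc X) : Proc (frz A X) := by
  classical
  refine ⟨fun n => ?_, fun n => ?_, fun n => ?_⟩
  · induction n with
    | zero => exact hX.meas 0
    | succ n ih =>
      have : frz A X (n + 1) = fun ω => if Alive A (n + 1) ω then X (n + 1) ω else frz A X n ω := by
        funext ω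
        rw [chn_frz_succ]
      rw [this]
      exact Measurable.ite (chn_alive_meas A hA (n + 1)) (hX.meas (n + 1)) ih
  · induction n with
    | zero => exact hX.reads 0
    | succ n ih =>
      intro ω ω' h
      rw [chn_frz_succ, chn_frz_succ]
      have h1 : Alive A (n + 1) ω = Alive A (n + 1) ω' :=
        chn_alive_reads A hA n ω ω' fun i hi => h i (by omega)
      have h2 : X (n + 1) ω = X (n + 1) ω' := hX.reads (n + 1) ω ω' h
      have h3 : frz A X n ω = frz A X n ω' := ih ω ω' fun i hi => h i (by omega)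
      by_cases ha : Alive A (n + 1) ω
      · rw [if_pos ha, if_pos (h1 ▸ ha), h2]
      · rw [if_neg ha, if_neg (h1 ▸ ha), h3]
  · induction n with
    | zero => exact hX.bdd 0
    | succ n ih =>
      obtain ⟨C1, h1⟩ := ih
      obtain ⟨C2, h2⟩ := hX.bdd (n + 1)
      refine ⟨max C1 C2, fun ω => ?_⟩
      rw [chn_frz_succ]
      by_cases ha : Alive A (n + 1) ω
      · rw [if_pos ha]; exact (h2 ω).trans (le_max_right _ _)
      · rw [if_neg ha]; exact (h1 ω).trans (le_max_left _ _)

/-- one-step mean of the frozen process -/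
theorem stp_frz (A : ℕ → Om Ξ → Prop) (hA : Cut A) (X : ℕ → Om Ξ → ℝ) (hX : Proc X) (n : ℕ) (ω : Om Ξ) :
    stp ν n (frz A X (n + 1)) ω =
      by classical exact if Alive A (n + 1) ω then stp ν n (X (n + 1)) ω else frz A X n ω := by
  classical
  have hal : ∀ ξ, Alive A (n + 1) (Function.update ω (n + 1) ξ) = Alive A (n + 1) ω := fun ξ =>
    chn_reads_update n _ (chn_alive_reads A hA n) ω ξ
  by_cases ha : Alive A (n + 1) ω
  · rw [if_pos ha]
    unfold stp
    congr 1
    funext ξ
    exact frz_of_alive A X (n + 1) _ ((hal ξ).symm ▸ ha)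
  · rw [if_neg ha]
    have : ∀ ξ, frz A X (n + 1) (Function.update ω (n + 1) ξ) = frz A X n ω := by
      intro ξ
      rw [chn_frz_succ, if_neg (by rw [hal ξ]; exact ha)]
      exact chn_reads_update n _ ((proc_frz A hA X hX).reads n) ω ξ
    unfold stp
    simp only [this]
    simp

theorem chn_proc_integrable (X : ℕ → Om Ξ → ℝ) (hX : Proc X) (n : ℕ) : Integrable (X n) (Pr ν) :=
  chn_integrable _ _ (hX.meas n) (by obtain ⟨C, hC⟩ := hX.bdd n; exact ⟨C, fun ω => by simpa using hC ω⟩)

theorem integral_frz_le (A : ℕ → Om Ξ → Prop) (hA : Cut A) (X : ℕ → Om Ξ → ℝ) (hX : Proc X)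
    (hs : ∀ n ω, Alive A (n + 1) ω → stp ν n (X (n + 1)) ω ≤ X n ω) (n : ℕ) :
    ∫ ω, frz A X n ω ∂(Pr ν) ≤ ∫ ω, X 0 ω ∂(Pr ν) := by
  classical
  have hF := proc_frz A hA X hX
  induction n with
  | zero => exact le_rfl
  | succ n ih =>
    refine le_trans ?_ ih
    rw [← integral_stp ν n (frz A X (n + 1)) (hF.meas (n + 1))
      (by obtain ⟨C, hC⟩ := hF.bdd (n + 1); exact ⟨C, fun ω => by simpa using hC ω⟩)]
    have hb : ∃ C : ℝ, ∀ ω, |stp ν n (frz A X (n + 1)) ω| ≤ C := by
      obtain ⟨C, hC⟩ := hF.bdd (n + 1)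
      refine ⟨C, fun ω => ?_⟩
      unfold stp
      have := norm_integral_le_of_norm_le_const (μ := ν) (f := fun ξ => frz A X (n + 1) (Function.update ω (n + 1) ξ))
        (C := C) (Filter.Eventually.of_forall fun ξ => hC _)
      simpa using this
    refine integral_mono (chn_integrable _ _ (measurable_stp ν n _ (hF.meas (n + 1))) hb)
      (chn_proc_integrable ν _ hF n) fun ω => ?_
    rw [stp_frz ν A hA X hX n ω]
    by_cases ha : Alive A (n + 1) ω
    · rw [if_pos ha, frz_of_alive A X n ω fun i hi => ha i (by omega)]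
      exact hs n ω ha
    · rw [if_neg ha]

theorem chn_piLE_reads (n : ℕ) (s : Set (Om Ξ))
    (hs : MeasurableSet[Filtration.piLE (X := fun _ : ℕ => Ξ) n] s) : Reads n (fun ω => ω ∈ s) := by
  obtain ⟨t, -, rfl⟩ := hs
  intro ω ω' h
  have : Preorder.restrictLe (π := fun _ : ℕ => Ξ) n ω = Preorder.restrictLe (π := fun _ : ℕ => Ξ) n ω' := by
    funext ⟨i, hi⟩
    exact h i hi
  simp only [Set.mem_preimage, this]

theorem chn_stp_bdd (n : ℕ) (f : Om Ξ → ℝ) (hb : ∃ C : ℝ, ∀ ω, |f ω| ≤ C) :
    ∃ C : ℝ, ∀ ω, |stp ν n f ω| ≤ C := by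
  obtain ⟨C, hC⟩ := hb
  refine ⟨C, fun ω => ?_⟩
  unfold stp
  have := norm_integral_le_of_norm_le_const (μ := ν) (f := fun ξ => f (Function.update ω (n + 1) ξ))
    (C := C) (Filter.Eventually.of_forall fun ξ => by simpa using hC _)
  simpa using this

theorem chn_setIntegral_stp (n : ℕ) (f : Om Ξ → ℝ) (hf : Measurable f) (hb : ∃ C : ℝ, ∀ ω, |f ω| ≤ C)
    (s : Set (Om Ξ)) (hs : MeasurableSet[Filtration.piLE (X := fun _ : ℕ => Ξ) n] s) :
    ∫ ω in s, stp ν n f ω ∂(Pr ν) = ∫ ω in s, f ω ∂(Pr ν) := by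
  classical
  have hs' : MeasurableSet s := (Filtration.piLE (X := fun _ : ℕ => Ξ)).le n s hs
  have hr := chn_piLE_reads n s hs
  set g : Om Ξ → ℝ := s.indicator (fun _ => (1 : ℝ)) with hg
  have hgr : Reads n g := by
    intro ω ω' h
    have := hr ω ω' h
    simp only [hg, Set.indicator_apply]
    simp only [this]
  have hgm : Measurable g := measurable_const.indicator hs'
  have hgb : ∀ ω, |g ω| ≤ 1 := by
    intro ω
    simp only [hg, Set.indicator_apply]
    split_ifs <;> simp
  have e1 : ∀ h : Om Ξ → ℝ, ∫ ω in s, h ω ∂(Pr ν) = ∫ ω, g ω * h ω ∂(Pr ν) := by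
    intro h
    rw [← integral_indicator hs']
    congr 1
    funext ω
    simp only [hg, Set.indicator_apply]
    split_ifs <;> simp
  rw [e1, e1, ← integral_stp ν n (fun ω => g ω * f ω) (hgm.mul hf)]
  · congr 1
    funext ω
    rw [stp_mul ν n g f hgr ω]
  · obtain ⟨C, hC⟩ := hb
    refine ⟨C, fun ω => ?_⟩
    rw [abs_mul]
    calc |g ω| * |f ω| ≤ 1 * |f ω| := mul_le_mul_of_nonneg_right (hgb ω) (abs_nonneg _)
      _ ≤ C := by rw [one_mul]; exact hC ω

theorem chn_nonempty (μ : Measure Ξ) [IsProbabilityMeasure μ] : Nonempty Ξ := by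
  by_contra hcon
  rw [not_nonempty_iff] at hcon
  have h0 : μ Set.univ = 0 := by
    rw [Set.univ_eq_empty_iff.mpr hcon]; simp
  simp at h0

theorem chn_adapted (ξ0 : Ξ) (X : ℕ → Om Ξ → ℝ) (hX : Proc X) :
    StronglyAdapted (Filtration.piLE (X := fun _ : ℕ => Ξ)) X := by
  classical
  intro n
  let ext : ((i : Set.Iic n) → Ξ) → Om Ξ := fun y i => if h : i ≤ n then y ⟨i, h⟩ else ξ0
  have hext : Measurable ext := by
    refine measurable_pi_lambda _ fun i => ?_
    by_cases h : i ≤ n
    · simp only [ext, dif_pos h]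
      exact measurable_pi_apply _
    · simp only [ext, dif_neg h]
      exact measurable_const
  have hfac : X n = (X n ∘ ext) ∘ Preorder.restrictLe (π := fun _ : ℕ => Ξ) n := by
    funext ω
    apply hX.reads n
    intro i hi
    simp only [ext, dif_pos hi]
    rfl
  have hm : Measurable[Filtration.piLE (X := fun _ : ℕ => Ξ) n] (X n) := by
    rw [hfac]
    exact ((hX.meas n).comp hext).comp (comap_measurable _)
  exact hm.stronglyMeasurable

theorem chn_proc_bdd (X : ℕ → Om Ξ → ℝ) (hX : Proc X) (n : ℕ) : ∃ C : ℝ, ∀ ω, |X n ω| ≤ C := by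
  obtain ⟨C, hC⟩ := hX.bdd n
  exact ⟨C, fun ω => by simpa using hC ω⟩

/-- **Bridge to Mathlib.**  A process with `stp X_{n+1} = X_n` everywhere is a martingale for the canonical filtration. -/
theorem martingale_of_stp (X : ℕ → Om Ξ → ℝ) (hX : Proc X) (hs : ∀ n ω, stp ν n (X (n + 1)) ω = X n ω) :
    Martingale X (Filtration.piLE (X := fun _ : ℕ => Ξ)) (Pr ν) := by
  refine martingale_of_setIntegral_eq_succ (chn_adapted (chn_nonempty ν).some X hX) (chn_proc_integrable ν X hX) fun n s hs' => ?_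
  rw [← chn_setIntegral_stp ν n (X (n + 1)) (hX.meas (n + 1)) (chn_proc_bdd X hX (n + 1)) s hs']
  simp only [hs]

theorem submartingale_of_stp (X : ℕ → Om Ξ → ℝ) (hX : Proc X) (hs : ∀ n ω, X n ω ≤ stp ν n (X (n + 1)) ω) :
    Submartingale X (Filtration.piLE (X := fun _ : ℕ => Ξ)) (Pr ν) := by
  refine submartingale_of_setIntegral_le_succ (chn_adapted (chn_nonempty ν).some X hX) (chn_proc_integrable ν X hX) fun n s hs' => ?_
  rw [← chn_setIntegral_stp ν n (X (n + 1)) (hX.meas (n + 1)) (chn_proc_bdd X hX (n + 1)) s hs']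
  refine setIntegral_mono (chn_proc_integrable ν X hX n).integrableOn ?_ (hs n)
  exact (chn_integrable _ _ (measurable_stp ν n _ (hX.meas (n + 1)))
    (chn_stp_bdd ν n _ (chn_proc_bdd X hX (n + 1)))).integrableOn

end Claimed.Agent.R269.Chn
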