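/-
Row 269, library (HOST-FREE, Mathlib + Lib/CAOde only): THE ENTIRE CHORD FUNCTIONS.   Owner: helper146 (for Sections 6 and 7).

Let `φ, q` be holomorphic on a convex open set `U`, `f = φ'`.  For `s, v ∈ U` let `c(s,·)`, `d(s,·)` solve
    c'' = q c + cos(φ - φ(s)),          c(s,s) = 0, c'(s,s) = 0,
    d'' = q d - f(s) sin(φ - φ(s)),     d(s,s) = 0, d'(s,s) = 1          (derivatives in the second variable).
If `f'' = q f` and `Γ' = c_G f⁻² e_φ`, `e_ψ = (-sin ψ, cos ψ)`, `n_ψ = (cos ψ, sin ψ)`, then (see `Lib/ChordHost.lean`)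
    Γ(v) - Γ(s) = c_G / (f(s) f(v)) · [ d(s,v) e_{φ(s)} - f(s) c(s,v) n_{φ(s)} ],
and the reflection law at `Γ(s)` for the chords to `Γ(s₋)`, `Γ(s₊)` is the ENTIRE equation
    REC(s₋,s,s₊) := d(s,s₊) c(s,s₋) + d(s,s₋) c(s,s₊) = 0.
No division, no square root, no zero of `f` matters.

CONTENTS
* `IsFund`, `isFund_exists`, `IsFund.wronskian`      : fundamental system `c1,c2` of `k'' = q k` at a base point.
* `IsChord`, `isChord_exists`, `IsChord.unique`      : the chord functions, JOINTLY holomorphic on `U × U`.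
* `IsFast`, `IsChord.isFast`                         : the fast form.  With `v = s + t u`:  `C(u) = c(s,s+tu)/t²`, `Dd(u) = d(s,s+tu)/t`,
      `F(u) = t f(s+tu)`, `Q(u) = t² q(s+tu)`, `θ(u) = φ(s+tu) - φ(s)`:   θ' = F, C'' = Q C + cos θ, Dd'' = Q Dd - F(0) sin θ.
      For `s± = s ± t J±`:   REC(s₋,s,s₊) = t³ [ Dd(J₊) C(-J₋) + Dd(-J₋) C(J₊) ].
* `IsFast.refl`                                      : `u ↦ -u`:  `(F(-u), Q(-u), -θ(-u), C(-u), -C'(-u), -Dd(-u), Dd'(-u))` is fast again.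
* `isFast_stab`                                      : Gronwall: fast functions depend Lipschitz-continuously on the fields.

PROOF PLANS
(isChord_exists)  `U = ∅` trivial.  Take `z₀ ∈ U`, `c1,c2` from `isFund_exists`, primitives (`ca_exists_primitive`)
   `P1c' = c1 cos φ, P1s' = c1 sin φ, P2c' = c2 cos φ, P2s' = c2 sin φ`.   With `Δ X := X v - X s`:
     c s v  = c2 v (cos φs ΔP1c + sin φs ΔP1s) - c1 v (cos φs ΔP2c + sin φs ΔP2s)
     c' s v = c2' v ( ... same ... )           - c1' v ( ... same ... )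
     e s v  = c2 v (cos φs ΔP1s - sin φs ΔP1c) - c1 v (cos φs ΔP2s - sin φs ΔP2c),  e' likewise
     d s v  = c1 s c2 v - c2 s c1 v - f s · e s v,   d' likewise.
   The derivative of `c s` has the extra term `c2 v c1 v cos(φ v - φ s) - c1 v c2 v cos(...) = 0`; the derivative of `c' s` has the extra term
   `(c2' c1 - c1' c2)(v) cos(φ v - φ s) = cos(φ v - φ s)` (Wronskian, `Complex.cos_sub`).  Joint differentiability: finite sums of products of
   one-variable differentiable functions composed with `Prod.fst`, `Prod.snd`.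
(IsChord.unique)  `ca_ode_linear_unique` for the system `(y,y')' = (y', q y) + (0,g)`; or: the difference `w` solves `w'' = q w`, `w = w' = 0` at `s`.
(isFast_stab)     along the ray `r ↦ r u`, `r ∈ [0,1]`: `E(r) = |ΔC| + |ΔC'| + |ΔDd| + |ΔDd'|` satisfies `E' ≤ ϱ (1+B) E + ϱ K η`; `|cos a - cos b| ≤ |a-b| cosh(max |Im|)`.
-/
import Claimed.Agent.R269.Lib.CAOde
import Claimed.Agent.R269.Lib.CA1Prim

set_option autoImplicit false

namespace Claimed.Agent.R269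

open Filter Topology Set Metric

/-- `c1, c2` is the fundamental system of `k'' = q k` on `U` normalised at `z₀` (`c1', c2'` are the derivatives). -/
structure IsFund (U : Set ℂ) (q : ℂ → ℂ) (z₀ : ℂ) (c1 c1' c2 c2' : ℂ → ℂ) : Prop where
  c1_zero : c1 z₀ = 1
  c1'_zero : c1' z₀ = 0
  c2_zero : c2 z₀ = 0
  c2'_zero : c2' z₀ = 1
  c1_deriv : ∀ v ∈ U, HasDerivAt c1 (c1' v) v
  c1'_deriv : ∀ v ∈ U, HasDerivAt c1' (q v * c1 v) v
  c2_deriv : ∀ v ∈ U, HasDerivAt c2 (c2' v) v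
  c2'_deriv : ∀ v ∈ U, HasDerivAt c2' (q v * c2 v) v

theorem isFund_exists {U : Set ℂ} (hU : IsOpen U) (hc : Convex ℝ U) {q : ℂ → ℂ}
    (hq : DifferentiableOn ℂ q U) {z₀ : ℂ} (hz₀ : z₀ ∈ U) :
    ∃ c1 c1' c2 c2' : ℂ → ℂ, IsFund U q z₀ c1 c1' c2 c2' := by
  obtain ⟨c1, c1', h1, h2, h3, h4⟩ := ca_ode2_hasDeriv hU hc hq hz₀ 1 0
  obtain ⟨c2, c2', k1, k2, k3, k4⟩ := ca_ode2_hasDeriv hU hc hq hz₀ 0 1
  exact ⟨c1, c1', c2, c2', h1, h2, k1, k2, h3, h4, k3, k4⟩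

/-- the Wronskian is `1`. -/
theorem IsFund.wronskian {U : Set ℂ} (hU : IsOpen U) (hc : Convex ℝ U) {q : ℂ → ℂ} {z₀ : ℂ}
    (hz₀ : z₀ ∈ U) {c1 c1' c2 c2' : ℂ → ℂ} (h : IsFund U q z₀ c1 c1' c2 c2') :
    ∀ v ∈ U, c1 v * c2' v - c2 v * c1' v = 1 := by
  intro v hv
  have hd : ∀ w ∈ U, HasDerivAt (fun w => c1 w * c2' w - c2 w * c1' w) 0 w := by
    intro w hw
    have := ((h.c1_deriv w hw).mul (h.c2'_deriv w hw)).sub ((h.c2_deriv w hw).mul (h.c1'_deriv w hw))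
    refine this.congr_deriv ?_
    ring
  have hdiff : DifferentiableOn ℂ (fun w => c1 w * c2' w - c2 w * c1' w) U :=
    fun w hw => (hd w hw).differentiableAt.differentiableWithinAt
  have := hc.is_const_of_fderivWithin_eq_zero (𝕜 := ℂ) hdiff (fun w hw => by
    rw [fderivWithin_of_isOpen hU hw]
    have := (hd w hw).hasFDerivAt.fderiv
    rw [this]; ext; simp) hv hz₀
  rw [this, h.c1_zero, h.c2'_zero, h.c2_zero, h.c1'_zero]; ring

/-- uniqueness for `y'' = q y + g` on a convex open set. -/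
theorem ch_ode2_unique {U : Set ℂ} (hU : IsOpen U) (hc : Convex ℝ U) {q g : ℂ → ℂ}
    (hq : DifferentiableOn ℂ q U) {z₀ : ℂ} (hz₀ : z₀ ∈ U) {y y' w w' : ℂ → ℂ}
    (hy : ∀ v ∈ U, HasDerivAt y (y' v) v) (hy' : ∀ v ∈ U, HasDerivAt y' (q v * y v + g v) v)
    (hw : ∀ v ∈ U, HasDerivAt w (w' v) v) (hw' : ∀ v ∈ U, HasDerivAt w' (q v * w v + g v) v)
    (h0 : y z₀ = w z₀) (h0' : y' z₀ = w' z₀) : ∀ v ∈ U, y v = w v ∧ y' v = w' v := by
  set L₁ : ℂ × ℂ →L[ℂ] ℂ × ℂ :=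
    (ContinuousLinearMap.snd ℂ ℂ ℂ).prod (0 : ℂ × ℂ →L[ℂ] ℂ) with hL₁
  set L₂ : ℂ × ℂ →L[ℂ] ℂ × ℂ :=
    (0 : ℂ × ℂ →L[ℂ] ℂ).prod (ContinuousLinearMap.fst ℂ ℂ ℂ) with hL₂
  have hA : ContinuousOn (fun z => L₁ + q z • L₂) U :=
    ((differentiableOn_const _).add (hq.smul_const _)).continuousOn
  have key := ca_ode_linear_unique hU hc hA (b := fun z => ((0 : ℂ), g z)) hz₀
    (Y₁ := fun z => (y z, y' z)) (Y₂ := fun z => (w z, w' z))
    (fun z hz => by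
      refine ((hy z hz).prodMk (hy' z hz)).congr_deriv ?_
      simp [hL₁, hL₂])
    (fun z hz => by
      refine ((hw z hz).prodMk (hw' z hz)).congr_deriv ?_
      simp [hL₁, hL₂])
    (by simp only [h0, h0'])
  intro v hv
  have := key v hv
  exact ⟨congrArg Prod.fst this, congrArg Prod.snd this⟩

/-- existence for `y'' = q y + g` on a convex open set. -/
theorem ch_ode2_exists {U : Set ℂ} (hU : IsOpen U) (hc : Convex ℝ U) {q g : ℂ → ℂ}
    (hq : DifferentiableOn ℂ q U) (hg : DifferentiableOn ℂ g U) {z₀ : ℂ} (hz₀ : z₀ ∈ U) (a b : ℂ) :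
    ∃ y v : ℂ → ℂ, y z₀ = a ∧ v z₀ = b ∧ (∀ z ∈ U, HasDerivAt y (v z) z) ∧
      ∀ z ∈ U, HasDerivAt v (q z * y z + g z) z := by
  set L₁ : ℂ × ℂ →L[ℂ] ℂ × ℂ :=
    (ContinuousLinearMap.snd ℂ ℂ ℂ).prod (0 : ℂ × ℂ →L[ℂ] ℂ) with hL₁
  set L₂ : ℂ × ℂ →L[ℂ] ℂ × ℂ :=
    (0 : ℂ × ℂ →L[ℂ] ℂ).prod (ContinuousLinearMap.fst ℂ ℂ ℂ) with hL₂
  have hA : DifferentiableOn ℂ (fun z => L₁ + q z • L₂) U :=
    (differentiableOn_const _).add (hq.smul_const _)
  obtain ⟨Y, hY0, hY⟩ := ca_ode_linear hU hc hA (b := fun z => ((0 : ℂ), g z))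
    ((differentiableOn_const _).prodMk hg) hz₀ ((a, b) : ℂ × ℂ)
  refine ⟨fun z => (Y z).1, fun z => (Y z).2, by simp only [hY0], by simp only [hY0],
    fun z hz => ?_, fun z hz => ?_⟩
  · have := (ContinuousLinearMap.fst ℂ ℂ ℂ).hasFDerivAt.comp_hasDerivAt z (hY z hz)
    refine HasDerivAt.congr_deriv (f := fun z => (Y z).1) this ?_
    simp [hL₁, hL₂]
  · have := (ContinuousLinearMap.snd ℂ ℂ ℂ).hasFDerivAt.comp_hasDerivAt z (hY z hz)
    refine HasDerivAt.congr_deriv (f := fun z => (Y z).2) this ?_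
    simp [hL₁, hL₂]

/-- every solution of `k'' = q k` is the combination `k(z₀) c1 + k'(z₀) c2`. -/
theorem IsFund.repr {U : Set ℂ} (hU : IsOpen U) (hc : Convex ℝ U) {q : ℂ → ℂ}
    (hq : DifferentiableOn ℂ q U) {z₀ : ℂ}
    (hz₀ : z₀ ∈ U) {c1 c1' c2 c2' : ℂ → ℂ} (h : IsFund U q z₀ c1 c1' c2 c2') {k k' : ℂ → ℂ}
    (hk : ∀ v ∈ U, HasDerivAt k (k' v) v) (hk' : ∀ v ∈ U, HasDerivAt k' (q v * k v) v) :
    ∀ v ∈ U, k v = k z₀ * c1 v + k' z₀ * c2 v ∧ k' v = k z₀ * c1' v + k' z₀ * c2' v := by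
  refine ch_ode2_unique hU hc (g := fun _ => 0) hq hz₀ hk
    (fun v hv => by simpa using hk' v hv)
    (w := fun v => k z₀ * c1 v + k' z₀ * c2 v) (w' := fun v => k z₀ * c1' v + k' z₀ * c2' v)
    (fun v hv => ((h.c1_deriv v hv).const_mul _).add ((h.c2_deriv v hv).const_mul _))
    (fun v hv => by
      refine (((h.c1'_deriv v hv).const_mul (k z₀)).add
        ((h.c2'_deriv v hv).const_mul (k' z₀))).congr_deriv ?_
      ring)
    (by simp only [h.c1_zero, h.c2_zero]; ring) (by simp only [h.c1'_zero, h.c2'_zero]; ring)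

/-- the chord functions of the fields `(φ, f, q)` on `U` (`c', d'` are the derivatives in the second variable). -/
structure IsChord (U : Set ℂ) (φ f q : ℂ → ℂ) (c c' d d' : ℂ → ℂ → ℂ) : Prop where
  c_diag : ∀ s ∈ U, c s s = 0
  c'_diag : ∀ s ∈ U, c' s s = 0
  d_diag : ∀ s ∈ U, d s s = 0
  d'_diag : ∀ s ∈ U, d' s s = 1
  c_deriv : ∀ s ∈ U, ∀ v ∈ U, HasDerivAt (c s) (c' s v) v
  c'_deriv : ∀ s ∈ U, ∀ v ∈ U, HasDerivAt (c' s) (q v * c s v + Complex.cos (φ v - φ s)) v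
  d_deriv : ∀ s ∈ U, ∀ v ∈ U, HasDerivAt (d s) (d' s v) v
  d'_deriv : ∀ s ∈ U, ∀ v ∈ U, HasDerivAt (d' s) (q v * d s v - f s * Complex.sin (φ v - φ s)) v
  c_joint : DifferentiableOn ℂ (fun z : ℂ × ℂ => c z.1 z.2) (U ×ˢ U)
  c'_joint : DifferentiableOn ℂ (fun z : ℂ × ℂ => c' z.1 z.2) (U ×ˢ U)
  d_joint : DifferentiableOn ℂ (fun z : ℂ × ℂ => d z.1 z.2) (U ×ˢ U)
  d'_joint : DifferentiableOn ℂ (fun z : ℂ × ℂ => d' z.1 z.2) (U ×ˢ U)

theorem ch_diff_fst {g : ℂ → ℂ} {U : Set ℂ} (hg : DifferentiableOn ℂ g U) :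
    DifferentiableOn ℂ (fun z : ℂ × ℂ => g z.1) (U ×ˢ U) :=
  hg.comp differentiableOn_fst (fun _ hz => hz.1)

theorem ch_diff_snd {g : ℂ → ℂ} {U : Set ℂ} (hg : DifferentiableOn ℂ g U) :
    DifferentiableOn ℂ (fun z : ℂ × ℂ => g z.2) (U ×ˢ U) :=
  hg.comp differentiableOn_snd (fun _ hz => hz.2)

/-- variation of constants: `y = c2 A1 - c1 A2` with `A1' = c1 g`, `A2' = c2 g` solves `y'' = q y + g`. -/
theorem ch_var_const {U : Set ℂ} (hU : IsOpen U) (hc : Convex ℝ U) {q : ℂ → ℂ} {z₀ : ℂ}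
    (hz₀ : z₀ ∈ U) {c1 c1' c2 c2' : ℂ → ℂ} (h : IsFund U q z₀ c1 c1' c2 c2') {A1 A2 g : ℂ → ℂ}
    {v : ℂ} (hv : v ∈ U) (h1 : HasDerivAt A1 (c1 v * g v) v) (h2 : HasDerivAt A2 (c2 v * g v) v) :
    HasDerivAt (fun v => c2 v * A1 v - c1 v * A2 v) (c2' v * A1 v - c1' v * A2 v) v ∧
    HasDerivAt (fun v => c2' v * A1 v - c1' v * A2 v)
      (q v * (c2 v * A1 v - c1 v * A2 v) + g v) v := by
  have hW := h.wronskian hU hc hz₀ v hv
  constructor
  · refine (((h.c2_deriv v hv).mul h1).sub ((h.c1_deriv v hv).mul h2)).congr_deriv ?_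
    ring
  · refine (((h.c2'_deriv v hv).mul h1).sub ((h.c1'_deriv v hv).mul h2)).congr_deriv ?_
    linear_combination (g v) * hW

/-- LEAF LF-Chord-1: existence of the chord functions. -/
theorem isChord_exists {U : Set ℂ} (hU : IsOpen U) (hc : Convex ℝ U) {φ f q : ℂ → ℂ}
    (hφ : DifferentiableOn ℂ φ U) (hf : DifferentiableOn ℂ f U) (hq : DifferentiableOn ℂ q U) :
    ∃ c c' d d' : ℂ → ℂ → ℂ, IsChord U φ f q c c' d d' := by
  rcases U.eq_empty_or_nonempty with rfl | ⟨z₀, hz₀⟩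
  · exact ⟨fun _ _ => 0, fun _ _ => 0, fun _ _ => 0, fun _ _ => 0, by simp, by simp, by simp,
      by simp, by simp, by simp, by simp, by simp, by simp, by simp, by simp, by simp⟩
  obtain ⟨c1, c1', c2, c2', hF⟩ := isFund_exists hU hc hq hz₀
  have hW := hF.wronskian hU hc hz₀
  have d1 : DifferentiableOn ℂ c1 U := fun v hv =>
    (hF.c1_deriv v hv).differentiableAt.differentiableWithinAt
  have d2 : DifferentiableOn ℂ c2 U := fun v hv =>
    (hF.c2_deriv v hv).differentiableAt.differentiableWithinAt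
  have d1' : DifferentiableOn ℂ c1' U := fun v hv =>
    (hF.c1'_deriv v hv).differentiableAt.differentiableWithinAt
  have d2' : DifferentiableOn ℂ c2' U := fun v hv =>
    (hF.c2'_deriv v hv).differentiableAt.differentiableWithinAt
  obtain ⟨P1c, -, hP1c⟩ := ca_exists_primitive (f := fun v => c1 v * Complex.cos (φ v)) hU hc
    (d1.mul hφ.ccos) z₀ 0
  obtain ⟨P1s, -, hP1s⟩ := ca_exists_primitive (f := fun v => c1 v * Complex.sin (φ v)) hU hc
    (d1.mul hφ.csin) z₀ 0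
  obtain ⟨P2c, -, hP2c⟩ := ca_exists_primitive (f := fun v => c2 v * Complex.cos (φ v)) hU hc
    (d2.mul hφ.ccos) z₀ 0
  obtain ⟨P2s, -, hP2s⟩ := ca_exists_primitive (f := fun v => c2 v * Complex.sin (φ v)) hU hc
    (d2.mul hφ.csin) z₀ 0
  have e1c : DifferentiableOn ℂ P1c U := fun v hv =>
    (hP1c v hv).differentiableAt.differentiableWithinAt
  have e1s : DifferentiableOn ℂ P1s U := fun v hv =>
    (hP1s v hv).differentiableAt.differentiableWithinAt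
  have e2c : DifferentiableOn ℂ P2c U := fun v hv =>
    (hP2c v hv).differentiableAt.differentiableWithinAt
  have e2s : DifferentiableOn ℂ P2s U := fun v hv =>
    (hP2s v hv).differentiableAt.differentiableWithinAt
  -- the four integrals
  set A1 : ℂ → ℂ → ℂ := fun s v =>
    Complex.cos (φ s) * (P1c v - P1c s) + Complex.sin (φ s) * (P1s v - P1s s) with hA1
  set A2 : ℂ → ℂ → ℂ := fun s v =>
    Complex.cos (φ s) * (P2c v - P2c s) + Complex.sin (φ s) * (P2s v - P2s s) with hA2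
  set B1 : ℂ → ℂ → ℂ := fun s v =>
    Complex.cos (φ s) * (P1s v - P1s s) - Complex.sin (φ s) * (P1c v - P1c s) with hB1
  set B2 : ℂ → ℂ → ℂ := fun s v =>
    Complex.cos (φ s) * (P2s v - P2s s) - Complex.sin (φ s) * (P2c v - P2c s) with hB2
  have hA1d : ∀ s, ∀ v ∈ U, HasDerivAt (A1 s) (c1 v * Complex.cos (φ v - φ s)) v := fun s v hv => by
    refine ((((hP1c v hv).sub_const (P1c s)).const_mul (Complex.cos (φ s))).add
      (((hP1s v hv).sub_const (P1s s)).const_mul (Complex.sin (φ s)))).congr_deriv ?_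
    rw [Complex.cos_sub]; ring
  have hA2d : ∀ s, ∀ v ∈ U, HasDerivAt (A2 s) (c2 v * Complex.cos (φ v - φ s)) v := fun s v hv => by
    refine ((((hP2c v hv).sub_const (P2c s)).const_mul (Complex.cos (φ s))).add
      (((hP2s v hv).sub_const (P2s s)).const_mul (Complex.sin (φ s)))).congr_deriv ?_
    rw [Complex.cos_sub]; ring
  have hB1d : ∀ s, ∀ v ∈ U, HasDerivAt (B1 s) (c1 v * Complex.sin (φ v - φ s)) v := fun s v hv => by
    refine ((((hP1s v hv).sub_const (P1s s)).const_mul (Complex.cos (φ s))).sub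
      (((hP1c v hv).sub_const (P1c s)).const_mul (Complex.sin (φ s)))).congr_deriv ?_
    rw [Complex.sin_sub]; ring
  have hB2d : ∀ s, ∀ v ∈ U, HasDerivAt (B2 s) (c2 v * Complex.sin (φ v - φ s)) v := fun s v hv => by
    refine ((((hP2s v hv).sub_const (P2s s)).const_mul (Complex.cos (φ s))).sub
      (((hP2c v hv).sub_const (P2c s)).const_mul (Complex.sin (φ s)))).congr_deriv ?_
    rw [Complex.sin_sub]; ring
  have jA1 : DifferentiableOn ℂ (fun z : ℂ × ℂ => A1 z.1 z.2) (U ×ˢ U) :=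
    ((ch_diff_fst hφ.ccos).mul ((ch_diff_snd e1c).sub (ch_diff_fst e1c))).add
      ((ch_diff_fst hφ.csin).mul ((ch_diff_snd e1s).sub (ch_diff_fst e1s)))
  have jA2 : DifferentiableOn ℂ (fun z : ℂ × ℂ => A2 z.1 z.2) (U ×ˢ U) :=
    ((ch_diff_fst hφ.ccos).mul ((ch_diff_snd e2c).sub (ch_diff_fst e2c))).add
      ((ch_diff_fst hφ.csin).mul ((ch_diff_snd e2s).sub (ch_diff_fst e2s)))
  have jB1 : DifferentiableOn ℂ (fun z : ℂ × ℂ => B1 z.1 z.2) (U ×ˢ U) :=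
    ((ch_diff_fst hφ.ccos).mul ((ch_diff_snd e1s).sub (ch_diff_fst e1s))).sub
      ((ch_diff_fst hφ.csin).mul ((ch_diff_snd e1c).sub (ch_diff_fst e1c)))
  have jB2 : DifferentiableOn ℂ (fun z : ℂ × ℂ => B2 z.1 z.2) (U ×ˢ U) :=
    ((ch_diff_fst hφ.ccos).mul ((ch_diff_snd e2s).sub (ch_diff_fst e2s))).sub
      ((ch_diff_fst hφ.csin).mul ((ch_diff_snd e2c).sub (ch_diff_fst e2c)))
  have zA1 : ∀ s, A1 s s = 0 := fun s => by simp [hA1]
  have zA2 : ∀ s, A2 s s = 0 := fun s => by simp [hA2]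
  have zB1 : ∀ s, B1 s s = 0 := fun s => by simp [hB1]
  have zB2 : ∀ s, B2 s s = 0 := fun s => by simp [hB2]
  clear_value A1 A2 B1 B2
  refine ⟨fun s v => c2 v * A1 s v - c1 v * A2 s v, fun s v => c2' v * A1 s v - c1' v * A2 s v,
    fun s v => c1 s * c2 v - c2 s * c1 v - f s * (c2 v * B1 s v - c1 v * B2 s v),
    fun s v => c1 s * c2' v - c2 s * c1' v - f s * (c2' v * B1 s v - c1' v * B2 s v),
    fun s _ => by simp [zA1, zA2], fun s _ => by simp [zA1, zA2],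
    fun s _ => by simp only [zB1, zB2]; ring,
    fun s hs => by simp only [zB1, zB2]; linear_combination hW s hs,
    fun s _ v hv => (ch_var_const hU hc hz₀ hF (g := fun v => Complex.cos (φ v - φ s)) hv
      (hA1d s v hv) (hA2d s v hv)).1,
    fun s _ v hv => (ch_var_const hU hc hz₀ hF (g := fun v => Complex.cos (φ v - φ s)) hv
      (hA1d s v hv) (hA2d s v hv)).2,
    fun s _ v hv => ?_, fun s _ v hv => ?_, ?_, ?_, ?_, ?_⟩
  · exact ((((hF.c2_deriv v hv).const_mul (c1 s)).sub ((hF.c1_deriv v hv).const_mul (c2 s))).sub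
      ((ch_var_const hU hc hz₀ hF (g := fun v => Complex.sin (φ v - φ s)) hv
        (hB1d s v hv) (hB2d s v hv)).1.const_mul (f s)))
  · refine ((((hF.c2'_deriv v hv).const_mul (c1 s)).sub ((hF.c1'_deriv v hv).const_mul (c2 s))).sub
      ((ch_var_const hU hc hz₀ hF (g := fun v => Complex.sin (φ v - φ s)) hv
        (hB1d s v hv) (hB2d s v hv)).2.const_mul (f s))).congr_deriv ?_
    ring
  · exact ((ch_diff_snd d2).mul jA1).sub ((ch_diff_snd d1).mul jA2)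
  · exact ((ch_diff_snd d2').mul jA1).sub ((ch_diff_snd d1').mul jA2)
  · exact (((ch_diff_fst d1).mul (ch_diff_snd d2)).sub ((ch_diff_fst d2).mul (ch_diff_snd d1))).sub
      ((ch_diff_fst hf).mul (((ch_diff_snd d2).mul jB1).sub ((ch_diff_snd d1).mul jB2)))
  · exact (((ch_diff_fst d1).mul (ch_diff_snd d2')).sub
      ((ch_diff_fst d2).mul (ch_diff_snd d1'))).sub
      ((ch_diff_fst hf).mul (((ch_diff_snd d2').mul jB1).sub ((ch_diff_snd d1').mul jB2)))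

/-- LEAF LF-Chord-2: uniqueness of the chord functions. -/
theorem IsChord.unique {U : Set ℂ} (hU : IsOpen U) (hc : Convex ℝ U) {φ f q : ℂ → ℂ}
    (hq : DifferentiableOn ℂ q U) {c c' d d' e e' g g' : ℂ → ℂ → ℂ}
    (h₁ : IsChord U φ f q c c' d d') (h₂ : IsChord U φ f q e e' g g') :
    ∀ s ∈ U, ∀ v ∈ U, c s v = e s v ∧ c' s v = e' s v ∧ d s v = g s v ∧ d' s v = g' s v := by
  intro s hs v hv
  have h1 := ch_ode2_unique hU hc (g := fun v => Complex.cos (φ v - φ s)) hq hs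
    (h₁.c_deriv s hs) (h₁.c'_deriv s hs) (h₂.c_deriv s hs) (h₂.c'_deriv s hs)
    (by rw [h₁.c_diag s hs, h₂.c_diag s hs]) (by rw [h₁.c'_diag s hs, h₂.c'_diag s hs]) v hv
  have h2 := ch_ode2_unique hU hc (g := fun v => -(f s * Complex.sin (φ v - φ s))) hq hs
    (h₁.d_deriv s hs) (fun v hv => by simpa [sub_eq_add_neg] using h₁.d'_deriv s hs v hv)
    (h₂.d_deriv s hs) (fun v hv => by simpa [sub_eq_add_neg] using h₂.d'_deriv s hs v hv)
    (by rw [h₁.d_diag s hs, h₂.d_diag s hs]) (by rw [h₁.d'_diag s hs, h₂.d'_diag s hs]) v hv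
  exact ⟨h1.1, h1.2, h2.1, h2.2⟩

/-- the fast chord functions of the fast fields `F, Q` on a set `V ∋ 0` of the fast variable `u`. -/
structure IsFast (V : Set ℂ) (F Q θ C C' Dd Dd' : ℂ → ℂ) : Prop where
  θ_zero : θ 0 = 0
  C_zero : C 0 = 0
  C'_zero : C' 0 = 0
  Dd_zero : Dd 0 = 0
  Dd'_zero : Dd' 0 = 1
  θ_deriv : ∀ u ∈ V, HasDerivAt θ (F u) u
  C_deriv : ∀ u ∈ V, HasDerivAt C (C' u) u
  C'_deriv : ∀ u ∈ V, HasDerivAt C' (Q u * C u + Complex.cos (θ u)) u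
  Dd_deriv : ∀ u ∈ V, HasDerivAt Dd (Dd' u) u
  Dd'_deriv : ∀ u ∈ V, HasDerivAt Dd' (Q u * Dd u - F 0 * Complex.sin (θ u)) u

/-- LEAF LF-Chord-3: the chord functions in the fast variable. -/
theorem IsChord.isFast {U : Set ℂ} {φ f q : ℂ → ℂ} {c c' d d' : ℂ → ℂ → ℂ}
    (h : IsChord U φ f q c c' d d') (hφ : ∀ v ∈ U, HasDerivAt φ (f v) v) {s t : ℂ} (hs : s ∈ U)
    (ht : t ≠ 0) :
    IsFast {u | s + t * u ∈ U} (fun u => t * f (s + t * u)) (fun u => t ^ 2 * q (s + t * u))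
      (fun u => φ (s + t * u) - φ s) (fun u => c s (s + t * u) / t ^ 2)
      (fun u => c' s (s + t * u) / t) (fun u => d s (s + t * u) / t) (fun u => d' s (s + t * u)) := by
  have hγ : ∀ u : ℂ, HasDerivAt (fun u : ℂ => s + t * u) t u := fun u => by
    simpa using ((hasDerivAt_id u).const_mul t).const_add s
  refine ⟨by simp, by simp [h.c_diag s hs], by simp [h.c'_diag s hs], by simp [h.d_diag s hs],
    by simp [h.d'_diag s hs], fun u hu => ?_, fun u hu => ?_, fun u hu => ?_, fun u hu => ?_,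
    fun u hu => ?_⟩
  · refine (((hφ _ hu).comp u (hγ u)).sub_const (φ s)).congr_deriv ?_
    ring
  · refine (((h.c_deriv s hs _ hu).comp u (hγ u)).div_const (t ^ 2)).congr_deriv ?_
    field_simp
  · refine (((h.c'_deriv s hs _ hu).comp u (hγ u)).div_const t).congr_deriv ?_
    field_simp
  · refine (((h.d_deriv s hs _ hu).comp u (hγ u)).div_const t).congr_deriv ?_
    field_simp
  · refine ((h.d'_deriv s hs _ hu).comp u (hγ u)).congr_deriv ?_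
    simp only [mul_zero, add_zero]
    field_simp

/-- LEAF LF-Chord-3: reflection `u ↦ -u`. -/
theorem IsFast.refl {V : Set ℂ} {F Q θ C C' Dd Dd' : ℂ → ℂ} (h : IsFast V F Q θ C C' Dd Dd') :
    IsFast {u | -u ∈ V} (fun u => F (-u)) (fun u => Q (-u)) (fun u => -θ (-u)) (fun u => C (-u))
      (fun u => -C' (-u)) (fun u => -Dd (-u)) (fun u => Dd' (-u)) := by
  have hγ : ∀ u : ℂ, HasDerivAt (fun u : ℂ => -u) (-1) u := fun u => (hasDerivAt_id u).neg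
  refine ⟨by simp [h.θ_zero], by simp [h.C_zero], by simp [h.C'_zero], by simp [h.Dd_zero],
    by simp [h.Dd'_zero], fun u hu => ?_, fun u hu => ?_, fun u hu => ?_, fun u hu => ?_,
    fun u hu => ?_⟩
  · refine (((h.θ_deriv _ hu).comp u (hγ u)).neg).congr_deriv ?_
    ring
  · refine ((h.C_deriv _ hu).comp u (hγ u)).congr_deriv ?_
    ring
  · refine (((h.C'_deriv _ hu).comp u (hγ u)).neg).congr_deriv ?_
    rw [Complex.cos_neg]; ring
  · refine (((h.Dd_deriv _ hu).comp u (hγ u)).neg).congr_deriv ?_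
    ring
  · refine ((h.Dd'_deriv _ hu).comp u (hγ u)).congr_deriv ?_
    rw [Complex.sin_neg, neg_zero]; ring

/-- LEAF LF-Chord-4: existence of fast functions for given fast fields on a convex open set. -/
theorem isFast_exists {V : Set ℂ} (hV : IsOpen V) (hc : Convex ℝ V) (h0 : (0 : ℂ) ∈ V) {F Q : ℂ → ℂ}
    (hF : DifferentiableOn ℂ F V) (hQ : DifferentiableOn ℂ Q V) :
    ∃ θ C C' Dd Dd' : ℂ → ℂ, IsFast V F Q θ C C' Dd Dd' := by
  obtain ⟨θ, hθ0, hθ⟩ := ca_exists_primitive hV hc hF 0 0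
  have hθd : DifferentiableOn ℂ θ V := fun u hu => (hθ u hu).differentiableAt.differentiableWithinAt
  obtain ⟨C, C', hC0, hC'0, hC, hC'⟩ := ch_ode2_exists hV hc hQ (g := fun u => Complex.cos (θ u))
    hθd.ccos h0 0 0
  obtain ⟨Dd, Dd', hD0, hD'0, hD, hD'⟩ := ch_ode2_exists hV hc hQ
    (g := fun u => -(F 0 * Complex.sin (θ u))) (hθd.csin.const_mul _).neg h0 0 1
  exact ⟨θ, C, C', Dd, Dd', hθ0, hC0, hC'0, hD0, hD'0, hθ, hC, hC', hD,
    fun u hu => by simpa [sub_eq_add_neg] using hD' u hu⟩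

/-- LEAF LF-Chord-4: uniqueness of fast functions. -/
theorem IsFast.unique {V : Set ℂ} (hV : IsOpen V) (hc : Convex ℝ V) (h0 : (0 : ℂ) ∈ V)
    {F Q θ C C' Dd Dd' θ₂ C₂ C₂' Dd₂ Dd₂' : ℂ → ℂ} (hQ : DifferentiableOn ℂ Q V)
    (h₁ : IsFast V F Q θ C C' Dd Dd') (h₂ : IsFast V F Q θ₂ C₂ C₂' Dd₂ Dd₂') :
    ∀ u ∈ V, θ u = θ₂ u ∧ C u = C₂ u ∧ C' u = C₂' u ∧ Dd u = Dd₂ u ∧ Dd' u = Dd₂' u := by
  have hθ : ∀ u ∈ V, θ u = θ₂ u :=
    ca_ode_linear_unique hV hc (A := fun _ => (0 : ℂ →L[ℂ] ℂ)) continuousOn_const (b := F) h0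
      (fun u hu => by simpa using h₁.θ_deriv u hu) (fun u hu => by simpa using h₂.θ_deriv u hu)
      (by rw [h₁.θ_zero, h₂.θ_zero])
  intro u hu
  have h1 := ch_ode2_unique hV hc (g := fun u => Complex.cos (θ u)) hQ h0
    h₁.C_deriv h₁.C'_deriv h₂.C_deriv (fun u hu => by rw [hθ u hu]; exact h₂.C'_deriv u hu)
    (by rw [h₁.C_zero, h₂.C_zero]) (by rw [h₁.C'_zero, h₂.C'_zero]) u hu
  have h2 := ch_ode2_unique hV hc (g := fun u => -(F 0 * Complex.sin (θ u))) hQ h0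
    h₁.Dd_deriv (fun u hu => by simpa [sub_eq_add_neg] using h₁.Dd'_deriv u hu)
    h₂.Dd_deriv (fun u hu => by rw [hθ u hu]; simpa [sub_eq_add_neg] using h₂.Dd'_deriv u hu)
    (by rw [h₁.Dd_zero, h₂.Dd_zero]) (by rw [h₁.Dd'_zero, h₂.Dd'_zero]) u hu
  exact ⟨hθ u hu, h1.1, h1.2, h2.1, h2.2⟩

theorem ch_ray_hasDerivAt {h : ℂ → ℂ} {h' u : ℂ} {r : ℝ} (hh : HasDerivAt h h' ((r : ℂ) * u)) :
    HasDerivAt (fun r : ℝ => h ((r : ℂ) * u)) (u * h') r := by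
  have h1 : HasDerivAt (fun t : ℝ => (t : ℂ) * u) u r := by
    simpa using (Complex.ofRealCLM.hasDerivAt (x := r)).mul_const u
  have h2 := HasDerivAt.scomp r hh h1
  rw [smul_eq_mul] at h2
  exact h2

/-- mean value inequality along the ray `r ↦ r u`. -/
theorem ch_ray_bound {h h' : ℂ → ℂ} {u : ℂ} {C : ℝ}
    (hh : ∀ r ∈ Icc (0 : ℝ) 1, HasDerivAt h (h' ((r : ℂ) * u)) ((r : ℂ) * u))
    (hb : ∀ r ∈ Icc (0 : ℝ) 1, ‖h' ((r : ℂ) * u)‖ ≤ C) : ‖h u - h 0‖ ≤ ‖u‖ * C := by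
  have := norm_image_sub_le_of_norm_deriv_le_segment_01' (f := fun r : ℝ => h ((r : ℂ) * u))
    (f' := fun r : ℝ => u * h' ((r : ℂ) * u)) (C := ‖u‖ * C)
    (fun r hr => (ch_ray_hasDerivAt (hh r hr)).hasDerivWithinAt)
    (fun r hr => by
      rw [norm_mul]
      exact mul_le_mul_of_nonneg_left (hb r ⟨hr.1, hr.2.le⟩) (norm_nonneg _))
  simpa using this

/-- Gronwall along the ray `r ↦ r u` for `y'' = Q y + g`. -/
theorem ch_gronwall2 {ϱ B G δ : ℝ} (hϱ : 0 < ϱ) (hB : 0 ≤ B) (hG : 0 ≤ G) {u : ℂ}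
    (hu : ‖u‖ ≤ ϱ) {y y' Q g : ℂ → ℂ}
    (hy : ∀ r ∈ Icc (0 : ℝ) 1, HasDerivAt y (y' ((r : ℂ) * u)) ((r : ℂ) * u))
    (hy' : ∀ r ∈ Icc (0 : ℝ) 1,
      HasDerivAt y' (Q ((r : ℂ) * u) * y ((r : ℂ) * u) + g ((r : ℂ) * u)) ((r : ℂ) * u))
    (hQ : ∀ r ∈ Icc (0 : ℝ) 1, ‖Q ((r : ℂ) * u)‖ ≤ B)
    (hg : ∀ r ∈ Icc (0 : ℝ) 1, ‖g ((r : ℂ) * u)‖ ≤ G)
    (h0 : ‖y 0‖ ≤ δ) (h0' : ‖y' 0‖ ≤ δ) :
    ‖y u‖ ≤ Real.exp (ϱ * (1 + B)) * (δ + G) ∧ ‖y' u‖ ≤ Real.exp (ϱ * (1 + B)) * (δ + G) := by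
  have hK : 0 < ϱ * (1 + B) := by positivity
  have hd : ∀ r ∈ Icc (0 : ℝ) 1, HasDerivAt (fun r : ℝ => (y ((r : ℂ) * u), y' ((r : ℂ) * u)))
      (u * y' ((r : ℂ) * u), u * (Q ((r : ℂ) * u) * y ((r : ℂ) * u) + g ((r : ℂ) * u))) r :=
    fun r hr => (ch_ray_hasDerivAt (hy r hr)).prodMk (ch_ray_hasDerivAt (hy' r hr))
  have key := norm_le_gronwallBound_of_norm_deriv_right_le
    (f := fun r : ℝ => (y ((r : ℂ) * u), y' ((r : ℂ) * u)))
    (f' := fun r : ℝ =>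
      (u * y' ((r : ℂ) * u), u * (Q ((r : ℂ) * u) * y ((r : ℂ) * u) + g ((r : ℂ) * u))))
    (δ := δ) (K := ϱ * (1 + B)) (ε := ϱ * G) (a := 0) (b := 1)
    (fun r hr => (hd r hr).continuousAt.continuousWithinAt)
    (fun r hr => (hd r ⟨hr.1, hr.2.le⟩).hasDerivWithinAt)
    (by simp only [Complex.ofReal_zero, zero_mul, Prod.norm_mk]; exact max_le h0 h0')
    (fun r hr => by
      have hr' : r ∈ Icc (0 : ℝ) 1 := ⟨hr.1, hr.2.le⟩
      simp only [Prod.norm_mk]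
      set N := max ‖y ((r : ℂ) * u)‖ ‖y' ((r : ℂ) * u)‖ with hN
      have hN0 : 0 ≤ N := le_max_of_le_left (norm_nonneg _)
      have h1 : ‖y ((r : ℂ) * u)‖ ≤ N := le_max_left _ _
      have h2 : ‖y' ((r : ℂ) * u)‖ ≤ N := le_max_right _ _
      apply max_le
      · rw [norm_mul]
        calc ‖u‖ * ‖y' ((r : ℂ) * u)‖ ≤ ϱ * N := by gcongr
          _ ≤ ϱ * (1 + B) * N + ϱ * G := by nlinarith [mul_nonneg hϱ.le hG, mul_nonneg (mul_nonneg hϱ.le hB) hN0]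
      · rw [norm_mul]
        have h3 : ‖Q ((r : ℂ) * u) * y ((r : ℂ) * u) + g ((r : ℂ) * u)‖ ≤ B * N + G := by
          refine (norm_add_le _ _).trans ?_
          rw [norm_mul]
          have := hQ r hr'
          have := hg r hr'
          gcongr
        calc ‖u‖ * ‖Q ((r : ℂ) * u) * y ((r : ℂ) * u) + g ((r : ℂ) * u)‖ ≤ ϱ * (B * N + G) := by
              gcongr
          _ ≤ ϱ * (1 + B) * N + ϱ * G := by nlinarith [mul_nonneg hϱ.le hN0])
    1 (right_mem_Icc.2 zero_le_one)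
  rw [gronwallBound_of_K_ne_0 hK.ne'] at key
  simp only [Complex.ofReal_one, one_mul, sub_zero, mul_one, Prod.norm_mk] at key
  have hE : 1 ≤ Real.exp (ϱ * (1 + B)) := Real.one_le_exp hK.le
  have hfrac : ϱ * G / (ϱ * (1 + B)) ≤ G := by
    rw [div_le_iff₀ hK]
    nlinarith [mul_nonneg hϱ.le hG, mul_nonneg (mul_nonneg hϱ.le hG) hB]
  have hfrac0 : 0 ≤ ϱ * G / (ϱ * (1 + B)) := by positivity
  have hfin : δ * Real.exp (ϱ * (1 + B)) + ϱ * G / (ϱ * (1 + B)) * (Real.exp (ϱ * (1 + B)) - 1)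
      ≤ Real.exp (ϱ * (1 + B)) * (δ + G) := by
    have : ϱ * G / (ϱ * (1 + B)) * (Real.exp (ϱ * (1 + B)) - 1) ≤ G * Real.exp (ϱ * (1 + B)) := by
      apply mul_le_mul hfrac (by linarith) (by linarith) hG
    nlinarith
  exact ⟨(le_max_left _ _).trans (key.trans hfin), (le_max_right _ _).trans (key.trans hfin)⟩

theorem ch_norm_cos_le (z : ℂ) : ‖Complex.cos z‖ ≤ Real.exp ‖z‖ := by
  have h1 : ‖Complex.exp (z * Complex.I)‖ ≤ Real.exp ‖z‖ := by
    simpa using Complex.norm_exp_le_exp_norm (z * Complex.I)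
  have h2 : ‖Complex.exp (-z * Complex.I)‖ ≤ Real.exp ‖z‖ := by
    simpa using Complex.norm_exp_le_exp_norm (-z * Complex.I)
  rw [Complex.cos, norm_div]
  have := norm_add_le (Complex.exp (z * Complex.I)) (Complex.exp (-z * Complex.I))
  simp only [Complex.norm_ofNat]
  linarith

theorem ch_norm_sin_le (z : ℂ) : ‖Complex.sin z‖ ≤ Real.exp ‖z‖ := by
  have h1 : ‖Complex.exp (z * Complex.I)‖ ≤ Real.exp ‖z‖ := by
    simpa using Complex.norm_exp_le_exp_norm (z * Complex.I)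
  have h2 : ‖Complex.exp (-z * Complex.I)‖ ≤ Real.exp ‖z‖ := by
    simpa using Complex.norm_exp_le_exp_norm (-z * Complex.I)
  rw [Complex.sin, norm_div, norm_mul]
  have := norm_sub_le (Complex.exp (-z * Complex.I)) (Complex.exp (z * Complex.I))
  simp only [Complex.norm_ofNat, Complex.norm_I, mul_one]
  linarith

theorem ch_cos_lip {a b : ℂ} {R : ℝ} (ha : ‖a‖ ≤ R) (hb : ‖b‖ ≤ R) :
    ‖Complex.cos a - Complex.cos b‖ ≤ Real.exp R * ‖a - b‖ := by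
  refine Convex.norm_image_sub_le_of_norm_hasDerivWithin_le (s := closedBall (0 : ℂ) R)
    (f := Complex.cos) (f' := fun z => -Complex.sin z)
    (fun z _ => (Complex.hasDerivAt_cos z).hasDerivWithinAt) (fun z hz => ?_)
    (convex_closedBall _ _) (by simpa using hb) (by simpa using ha)
  rw [norm_neg]
  exact (ch_norm_sin_le z).trans (Real.exp_le_exp.2 (by simpa using hz))

theorem ch_sin_lip {a b : ℂ} {R : ℝ} (ha : ‖a‖ ≤ R) (hb : ‖b‖ ≤ R) :
    ‖Complex.sin a - Complex.sin b‖ ≤ Real.exp R * ‖a - b‖ := by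
  refine Convex.norm_image_sub_le_of_norm_hasDerivWithin_le (s := closedBall (0 : ℂ) R)
    (f := Complex.sin) (f' := fun z => Complex.cos z)
    (fun z _ => (Complex.hasDerivAt_sin z).hasDerivWithinAt) (fun z hz => ?_)
    (convex_closedBall _ _) (by simpa using hb) (by simpa using ha)
  exact (ch_norm_cos_le z).trans (Real.exp_le_exp.2 (by simpa using hz))

/-- a priori bounds of the fast functions. -/
theorem ch_fast_apriori {ϱ B : ℝ} (hϱ : 0 < ϱ) (hB : 0 ≤ B) {V : Set ℂ} (hV : V ⊆ ball (0 : ℂ) ϱ)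
    (hstar : ∀ u ∈ V, ∀ r ∈ Icc (0 : ℝ) 1, (r : ℂ) * u ∈ V) {F Q θ C C' Dd Dd' : ℂ → ℂ}
    (h : IsFast V F Q θ C C' Dd Dd') (hb : ∀ u ∈ V, ‖F u‖ ≤ B ∧ ‖Q u‖ ≤ B) :
    ∀ u ∈ V, ‖θ u‖ ≤ ϱ * B ∧
      ‖C u‖ ≤ Real.exp (ϱ * (1 + B)) * Real.exp (ϱ * B) ∧
      ‖C' u‖ ≤ Real.exp (ϱ * (1 + B)) * Real.exp (ϱ * B) ∧
      ‖Dd u‖ ≤ Real.exp (ϱ * (1 + B)) * (1 + B * Real.exp (ϱ * B)) ∧
      ‖Dd' u‖ ≤ Real.exp (ϱ * (1 + B)) * (1 + B * Real.exp (ϱ * B)) := by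
  have hθ : ∀ u ∈ V, ‖θ u‖ ≤ ϱ * B := by
    intro u hu
    have h1 := ch_ray_bound (h := θ) (h' := F) (u := u) (C := B)
      (fun r hr => h.θ_deriv _ (hstar u hu r hr)) (fun r hr => (hb _ (hstar u hu r hr)).1)
    rw [h.θ_zero, sub_zero] at h1
    have h2 : ‖u‖ ≤ ϱ := (mem_ball_zero_iff.1 (hV hu)).le
    exact h1.trans (by gcongr)
  intro u hu
  have hun : ‖u‖ ≤ ϱ := (mem_ball_zero_iff.1 (hV hu)).le
  have h0V : (0 : ℂ) ∈ V := by simpa using hstar u hu 0 ⟨le_rfl, zero_le_one⟩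
  have hG0 : 0 ≤ Real.exp (ϱ * B) := (Real.exp_pos _).le
  have h1 := ch_gronwall2 (δ := 0) (G := Real.exp (ϱ * B)) hϱ hB hG0 hun (y := C) (y' := C')
    (Q := Q) (g := fun v => Complex.cos (θ v))
    (fun r hr => h.C_deriv _ (hstar u hu r hr)) (fun r hr => h.C'_deriv _ (hstar u hu r hr))
    (fun r hr => (hb _ (hstar u hu r hr)).2)
    (fun r hr => (ch_norm_cos_le _).trans (Real.exp_le_exp.2 (hθ _ (hstar u hu r hr))))
    (by simp [h.C_zero]) (by simp [h.C'_zero])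
  have h2 := ch_gronwall2 (δ := 1) (G := B * Real.exp (ϱ * B)) hϱ hB (by positivity) hun (y := Dd)
    (y' := Dd') (Q := Q) (g := fun v => -(F 0 * Complex.sin (θ v)))
    (fun r hr => h.Dd_deriv _ (hstar u hu r hr))
    (fun r hr => by simpa [sub_eq_add_neg] using h.Dd'_deriv _ (hstar u hu r hr))
    (fun r hr => (hb _ (hstar u hu r hr)).2)
    (fun r hr => by
      rw [norm_neg, norm_mul]
      exact mul_le_mul (hb 0 h0V).1
        ((ch_norm_sin_le _).trans (Real.exp_le_exp.2 (hθ _ (hstar u hu r hr)))) (norm_nonneg _) hB)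
    (by simp [h.Dd_zero]) (by simp [h.Dd'_zero])
  rw [zero_add] at h1
  exact ⟨hθ u hu, h1.1, h1.2, h2.1, h2.2⟩

/-- LEAF LF-Chord-5 (Gronwall): a priori bound and Lipschitz dependence of the fast functions on the fields.
`V` is star shaped about `0` and contained in `ball 0 ϱ`; the fields are bounded by `B`. -/
theorem isFast_stab (ϱ B : ℝ) (hϱ : 0 < ϱ) (hB : 0 ≤ B) :
    ∃ K : ℝ, 0 < K ∧ ∀ (V : Set ℂ), V ⊆ ball (0 : ℂ) ϱ →
      (∀ u ∈ V, ∀ r ∈ Icc (0 : ℝ) 1, (r : ℂ) * u ∈ V) →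
      ∀ (F Q θ C C' Dd Dd' F₂ Q₂ θ₂ C₂ C₂' Dd₂ Dd₂' : ℂ → ℂ) (η : ℝ),
        IsFast V F Q θ C C' Dd Dd' → IsFast V F₂ Q₂ θ₂ C₂ C₂' Dd₂ Dd₂' →
        (∀ u ∈ V, ‖F u‖ ≤ B ∧ ‖Q u‖ ≤ B ∧ ‖F₂ u‖ ≤ B ∧ ‖Q₂ u‖ ≤ B) →
        (∀ u ∈ V, ‖F u - F₂ u‖ ≤ η ∧ ‖Q u - Q₂ u‖ ≤ η) →
        ∀ u ∈ V, (‖θ u‖ ≤ K ∧ ‖C u‖ ≤ K ∧ ‖C' u‖ ≤ K ∧ ‖Dd u‖ ≤ K ∧ ‖Dd' u‖ ≤ K) ∧
          ‖θ u - θ₂ u‖ ≤ K * η ∧ ‖C u - C₂ u‖ ≤ K * η ∧ ‖C' u - C₂' u‖ ≤ K * η ∧
          ‖Dd u - Dd₂ u‖ ≤ K * η ∧ ‖Dd' u - Dd₂' u‖ ≤ K * η := by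
  set M : ℝ := Real.exp (ϱ * (1 + B)) with hM
  set G : ℝ := Real.exp (ϱ * B) with hG
  have hM0 : 0 < M := Real.exp_pos _
  have hG0 : 0 < G := Real.exp_pos _
  refine ⟨ϱ * B + M * G + M * (1 + B * G) + ϱ + M * (M * G + G * ϱ)
    + M * (M * (1 + B * G) + G + B * G * ϱ) + 1, by positivity, ?_⟩
  intro V hV hstar F Q θ C C' Dd Dd' F₂ Q₂ θ₂ C₂ C₂' Dd₂ Dd₂' η h₁ h₂ hb hη u hu
  have hη0 : 0 ≤ η := (norm_nonneg _).trans (hη u hu).1
  have hun : ‖u‖ ≤ ϱ := (mem_ball_zero_iff.1 (hV hu)).le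
  have h0V : (0 : ℂ) ∈ V := by simpa using hstar u hu 0 ⟨le_rfl, zero_le_one⟩
  have ap₁ := ch_fast_apriori hϱ hB hV hstar h₁ (fun u hu => ⟨(hb u hu).1, (hb u hu).2.1⟩)
  have ap₂ := ch_fast_apriori hϱ hB hV hstar h₂ (fun u hu => ⟨(hb u hu).2.2.1, (hb u hu).2.2.2⟩)
  rw [← hM, ← hG] at ap₁ ap₂
  have hΔθ : ∀ u ∈ V, ‖θ u - θ₂ u‖ ≤ ϱ * η := by
    intro u hu
    have h1 := ch_ray_bound (h := fun v => θ v - θ₂ v) (h' := fun v => F v - F₂ v) (u := u) (C := η)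
      (fun r hr => (h₁.θ_deriv _ (hstar u hu r hr)).sub (h₂.θ_deriv _ (hstar u hu r hr)))
      (fun r hr => (hη _ (hstar u hu r hr)).1)
    simp only [h₁.θ_zero, h₂.θ_zero, sub_zero] at h1
    have h2 : ‖u‖ ≤ ϱ := (mem_ball_zero_iff.1 (hV hu)).le
    exact h1.trans (by gcongr)
  have hΔC := ch_gronwall2 (δ := 0) (G := η * (M * G) + G * (ϱ * η)) hϱ hB (by positivity) hun
    (y := fun v => C v - C₂ v) (y' := fun v => C' v - C₂' v) (Q := Q)
    (g := fun v => (Q v - Q₂ v) * C₂ v + (Complex.cos (θ v) - Complex.cos (θ₂ v)))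
    (fun r hr => (h₁.C_deriv _ (hstar u hu r hr)).sub (h₂.C_deriv _ (hstar u hu r hr)))
    (fun r hr => by
      refine ((h₁.C'_deriv _ (hstar u hu r hr)).sub
        (h₂.C'_deriv _ (hstar u hu r hr))).congr_deriv ?_
      ring)
    (fun r hr => (hb _ (hstar u hu r hr)).2.1)
    (fun r hr => by
      have hr' := hstar u hu r hr
      refine (norm_add_le _ _).trans (add_le_add ?_ ?_)
      · rw [norm_mul]
        exact mul_le_mul (hη _ hr').2 (ap₂ _ hr').2.1 (norm_nonneg _) hη0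
      · exact (ch_cos_lip (ap₁ _ hr').1 (ap₂ _ hr').1).trans
          (mul_le_mul_of_nonneg_left (hΔθ _ hr') hG0.le))
    (by simp [h₁.C_zero, h₂.C_zero]) (by simp [h₁.C'_zero, h₂.C'_zero])
  have hΔD := ch_gronwall2 (δ := 0) (G := η * (M * (1 + B * G)) + (η * G + B * (G * (ϱ * η)))) hϱ hB
    (by positivity) hun
    (y := fun v => Dd v - Dd₂ v) (y' := fun v => Dd' v - Dd₂' v) (Q := Q)
    (g := fun v => (Q v - Q₂ v) * Dd₂ v - ((F 0 - F₂ 0) * Complex.sin (θ v)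
      + F₂ 0 * (Complex.sin (θ v) - Complex.sin (θ₂ v))))
    (fun r hr => (h₁.Dd_deriv _ (hstar u hu r hr)).sub (h₂.Dd_deriv _ (hstar u hu r hr)))
    (fun r hr => by
      refine ((h₁.Dd'_deriv _ (hstar u hu r hr)).sub
        (h₂.Dd'_deriv _ (hstar u hu r hr))).congr_deriv ?_
      ring)
    (fun r hr => (hb _ (hstar u hu r hr)).2.1)
    (fun r hr => by
      have hr' := hstar u hu r hr
      refine (norm_sub_le _ _).trans (add_le_add ?_ ((norm_add_le _ _).trans (add_le_add ?_ ?_)))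
      · rw [norm_mul]
        exact mul_le_mul (hη _ hr').2 (ap₂ _ hr').2.2.2.1 (norm_nonneg _) hη0
      · rw [norm_mul]
        exact mul_le_mul (hη 0 h0V).1
          ((ch_norm_sin_le _).trans (Real.exp_le_exp.2 (ap₁ _ hr').1)) (norm_nonneg _) hη0
      · rw [norm_mul]
        exact mul_le_mul (hb 0 h0V).2.2.1 ((ch_sin_lip (ap₁ _ hr').1 (ap₂ _ hr').1).trans
          (mul_le_mul_of_nonneg_left (hΔθ _ hr') hG0.le)) (norm_nonneg _) hB)
    (by simp [h₁.Dd_zero, h₂.Dd_zero]) (by simp [h₁.Dd'_zero, h₂.Dd'_zero])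
  rw [← hM, zero_add] at hΔC hΔD
  obtain ⟨a1, a2, a3, a4, a5⟩ := ap₁ u hu
  have p1 : 0 ≤ ϱ * B := by positivity
  have p2 : 0 ≤ M * G := by positivity
  have p3 : 0 ≤ M * (1 + B * G) := by positivity
  have p4 : 0 ≤ M * (M * G + G * ϱ) := by positivity
  have p5 : 0 ≤ M * (M * (1 + B * G) + G + B * G * ϱ) := by positivity
  refine ⟨⟨by linarith, by linarith, by linarith, by linarith, by linarith⟩, ?_, ?_, ?_, ?_, ?_⟩
  · refine (hΔθ u hu).trans (mul_le_mul_of_nonneg_right ?_ hη0)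
    linarith
  · refine hΔC.1.trans ?_
    have : M * (η * (M * G) + G * (ϱ * η)) = M * (M * G + G * ϱ) * η := by ring
    rw [this]
    exact mul_le_mul_of_nonneg_right (by linarith) hη0
  · refine hΔC.2.trans ?_
    have : M * (η * (M * G) + G * (ϱ * η)) = M * (M * G + G * ϱ) * η := by ring
    rw [this]
    exact mul_le_mul_of_nonneg_right (by linarith) hη0
  · refine hΔD.1.trans ?_
    have : M * (η * (M * (1 + B * G)) + (η * G + B * (G * (ϱ * η))))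
        = M * (M * (1 + B * G) + G + B * G * ϱ) * η := by ring
    rw [this]
    exact mul_le_mul_of_nonneg_right (by linarith) hη0
  · refine hΔD.2.trans ?_
    have : M * (η * (M * (1 + B * G)) + (η * G + B * (G * (ϱ * η))))
        = M * (M * (1 + B * G) + G + B * G * ϱ) * η := by ring
    rw [this]
    exact mul_le_mul_of_nonneg_right (by linarith) hη0

end Claimed.Agent.R269
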