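/-
Row 269, library L1-SCV: the `Mero2` toolkit (units 4A of Section 4).  Owner: helper270.

Jointly meromorphic functions of two complex variables in the captain's form (`R269/Cplx.lean`): functions `ℂ × ℂ → ℂ` with
junk values on the polar set.

* `genF z`       the GENERIC FILTER at `z`: sets containing `{k ≠ 0}` near `z` for some analytic `k`, not locally `0`;
                 `Mero2At F z ↔ F =ᶠ[genF z] g / k`,  `Mero2EqAt F P z ↔ Mero2At F z ∧ F =ᶠ[genF z] P`;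
* closure of `Mero2At`, `Mero2On`, `Mero2EqAt` under the field operations, finite sums, polynomials;
* `Mero2At.comp` composition with a local biholomorphism, `comp_shear`, `conj_conj`;
* `Mero2On.eqAt_of_isPreconnected`   the IDENTITY THEOREM;
* `mnf F`        the NORMAL FORM (value of the analytic representative where the germ is analytic, `0` elsewhere);
* `Mero2.exists_glue`   GLUING of germ-compatible local meromorphic functions.
-/
import Claimed.Agent.R269.Cplx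
import Claimed.Agent.R269.Lib.SCV0

set_option autoImplicit false

namespace Claimed.Agent.R269

open Complex ComplexConjugate Filter Topology Set

/-! ### The generic filter -/

/-- the germ of `k` at `z` is not zero. -/
def NZAt (k : ℂ × ℂ → ℂ) (z : ℂ × ℂ) : Prop := ¬ ∀ᶠ w in 𝓝 z, k w = 0

theorem NZAt.frequently {k : ℂ × ℂ → ℂ} {z : ℂ × ℂ} (h : NZAt k z) : ∃ᶠ w in 𝓝 z, k w ≠ 0 :=
  Filter.not_eventually.1 h

theorem NZAt.of_frequently {k : ℂ × ℂ → ℂ} {z : ℂ × ℂ} (h : ∃ᶠ w in 𝓝 z, k w ≠ 0) : NZAt k z :=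
  Filter.not_eventually.2 h

theorem NZAt.mul {k k' : ℂ × ℂ → ℂ} {z : ℂ × ℂ} (hk : AnalyticAt ℂ k z) (hk' : AnalyticAt ℂ k' z)
    (h : NZAt k z) (h' : NZAt k' z) : NZAt (fun w => k w * k' w) z := fun h0 =>
  (SCV.eventually_eq_zero_or_of_mul hk hk' h0).elim h h'

theorem NZAt.of_ne_zero {k : ℂ × ℂ → ℂ} {z : ℂ × ℂ} (h : k z ≠ 0) : NZAt k z := fun h0 =>
  h h0.self_of_nhds

theorem NZAt.eventually {k : ℂ × ℂ → ℂ} {z : ℂ × ℂ} (hk : AnalyticAt ℂ k z) (h : NZAt k z) :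
    ∀ᶠ z' in 𝓝 z, NZAt k z' :=
  (SCV.eventually_frequently_ne_zero hk h.frequently).mono fun _ h' => NZAt.of_frequently h'

/-- The generic filter at `z`. -/
def genF (z : ℂ × ℂ) : Filter (ℂ × ℂ) where
  sets := {s | ∃ k : ℂ × ℂ → ℂ, AnalyticAt ℂ k z ∧ NZAt k z ∧ ∀ᶠ w in 𝓝 z, k w ≠ 0 → w ∈ s}
  univ_sets := ⟨fun _ => 1, analyticAt_const, NZAt.of_ne_zero one_ne_zero,
    Eventually.of_forall fun _ _ => mem_univ _⟩
  sets_of_superset := by
    rintro s t ⟨k, hk, h0, h⟩ hst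
    exact ⟨k, hk, h0, h.mono fun w hw hkw => hst (hw hkw)⟩
  inter_sets := by
    rintro s t ⟨k, hk, h0, h⟩ ⟨k', hk', h0', h'⟩
    refine ⟨fun w => k w * k' w, hk.mul hk', h0.mul hk hk' h0', ?_⟩
    filter_upwards [h, h'] with w hw hw' hne
    exact ⟨hw (left_ne_zero_of_mul hne), hw' (right_ne_zero_of_mul hne)⟩

theorem eventually_genF_iff {z : ℂ × ℂ} {p : ℂ × ℂ → Prop} :
    (∀ᶠ w in genF z, p w) ↔
      ∃ k : ℂ × ℂ → ℂ, AnalyticAt ℂ k z ∧ NZAt k z ∧ ∀ᶠ w in 𝓝 z, k w ≠ 0 → p w := Iff.rfl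

theorem genF_le_nhds (z : ℂ × ℂ) : genF z ≤ 𝓝 z := fun _ hs =>
  ⟨fun _ => 1, analyticAt_const, NZAt.of_ne_zero one_ne_zero, Filter.Eventually.mono hs fun _ hw _ => hw⟩

theorem _root_.Filter.Eventually.genF {z : ℂ × ℂ} {p : ℂ × ℂ → Prop} (h : ∀ᶠ w in 𝓝 z, p w) :
    ∀ᶠ w in genF z, p w := genF_le_nhds z h

instance genF_neBot (z : ℂ × ℂ) : (genF z).NeBot := by
  refine ⟨fun h => ?_⟩
  have h1 : (∅ : Set (ℂ × ℂ)) ∈ genF z := by rw [h]; exact mem_bot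
  obtain ⟨k, -, h0, h2⟩ := h1
  exact h0 (h2.mono fun w hw => by_contra fun hne => hw hne)

theorem eventually_genF_ne_zero {k : ℂ × ℂ → ℂ} {z : ℂ × ℂ} (hk : AnalyticAt ℂ k z)
    (h0 : NZAt k z) : ∀ᶠ w in genF z, k w ≠ 0 :=
  ⟨k, hk, h0, Eventually.of_forall fun _ h => h⟩

/-- a generic property at `z` is generic at all nearby points. -/
theorem eventually_nhds_genF {z : ℂ × ℂ} {p : ℂ × ℂ → Prop} (h : ∀ᶠ w in genF z, p w) :
    ∀ᶠ z' in 𝓝 z, ∀ᶠ w in genF z', p w := by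
  obtain ⟨k, hk, h0, h1⟩ := h
  filter_upwards [hk.eventually_analyticAt, h0.eventually hk, h1.eventually_nhds] with z' a b c
  exact ⟨k, a, b, c⟩

/-- a generic property holds on a dense set. -/
theorem frequently_nhds_of_genF {z : ℂ × ℂ} {p : ℂ × ℂ → Prop} (h : ∀ᶠ w in genF z, p w) :
    ∃ᶠ w in 𝓝 z, p w := by
  obtain ⟨k, -, h0, h1⟩ := h
  exact (h0.frequently.and_eventually h1).mono fun w hw => hw.2 hw.1

/-- analytic functions which agree generically agree. -/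
theorem eventuallyEq_nhds_of_genF {H H' : ℂ × ℂ → ℂ} {z : ℂ × ℂ} (hH : AnalyticAt ℂ H z)
    (hH' : AnalyticAt ℂ H' z) (h : H =ᶠ[genF z] H') : H =ᶠ[𝓝 z] H' := by
  obtain ⟨k, hk, h0, h1⟩ := h
  have h2 : ∀ᶠ w in 𝓝 z, k w * (H w - H' w) = 0 := by
    filter_upwards [h1] with w hw
    by_cases hkw : k w = 0
    · rw [hkw, zero_mul]
    · rw [hw hkw, sub_self, mul_zero]
  rcases SCV.eventually_eq_zero_or_of_mul hk (hH.sub hH') h2 with h3 | h3
  · exact absurd h3 h0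
  · exact h3.mono fun w hw => sub_eq_zero.1 hw

/-! ### `Mero2At`, `Mero2EqAt` through the generic filter -/

theorem mero2At_iff_genF {F : ℂ × ℂ → ℂ} {z : ℂ × ℂ} :
    Mero2At F z ↔ ∃ g k : ℂ × ℂ → ℂ, AnalyticAt ℂ g z ∧ AnalyticAt ℂ k z ∧ NZAt k z ∧
      F =ᶠ[genF z] fun w => g w / k w := by
  constructor
  · rintro ⟨g, k, hg, hk, h0, h⟩
    exact ⟨g, k, hg, hk, h0, k, hk, h0, h⟩
  · rintro ⟨g, k, hg, hk, h0, k', hk', h0', h⟩
    refine ⟨fun w => g w * k' w, fun w => k w * k' w, hg.mul hk', hk.mul hk', h0.mul hk hk' h0', ?_⟩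
    filter_upwards [h] with w hw hne
    rw [hw (right_ne_zero_of_mul hne), mul_div_mul_right _ _ (right_ne_zero_of_mul hne)]

theorem mero2EqAt_iff_genF {F P : ℂ × ℂ → ℂ} {z : ℂ × ℂ} :
    Mero2EqAt F P z ↔ Mero2At F z ∧ F =ᶠ[genF z] P := by
  constructor
  · rintro ⟨g, k, hg, hk, h0, h⟩
    exact ⟨⟨g, k, hg, hk, h0, h.mono fun w hw hne => (hw hne).1⟩, k, hk, h0,
      h.mono fun w hw hne => (hw hne).1.trans (hw hne).2.symm⟩
  · rintro ⟨⟨g, k, hg, hk, h0, h⟩, k', hk', h0', h'⟩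
    refine ⟨fun w => g w * k' w, fun w => k w * k' w, hg.mul hk', hk.mul hk',
      NZAt.mul hk hk' h0 h0', ?_⟩
    filter_upwards [h, h'] with w hw hw' hne
    have h1 : F w = g w * k' w / (k w * k' w) := by
      rw [hw (left_ne_zero_of_mul hne), mul_div_mul_right _ _ (right_ne_zero_of_mul hne)]
    exact ⟨h1, (hw' (right_ne_zero_of_mul hne)).symm.trans h1⟩

theorem Mero2At.congr {F P : ℂ × ℂ → ℂ} {z : ℂ × ℂ} (h : Mero2At F z) (hFP : F =ᶠ[genF z] P) :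
    Mero2At P z := by
  obtain ⟨g, k, hg, hk, h0, h1⟩ := mero2At_iff_genF.1 h
  exact mero2At_iff_genF.2 ⟨g, k, hg, hk, h0, hFP.symm.trans h1⟩

theorem Mero2At.eventually {F : ℂ × ℂ → ℂ} {z : ℂ × ℂ} (h : Mero2At F z) :
    ∀ᶠ z' in 𝓝 z, Mero2At F z' := by
  obtain ⟨g, k, hg, hk, h0, h1⟩ := h
  filter_upwards [hg.eventually_analyticAt, hk.eventually_analyticAt, NZAt.eventually hk h0,
    h1.eventually_nhds] with z' a b c d
  exact ⟨g, k, a, b, c, d⟩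

theorem Mero2EqAt.eventually {F P : ℂ × ℂ → ℂ} {z : ℂ × ℂ} (h : Mero2EqAt F P z) :
    ∀ᶠ z' in 𝓝 z, Mero2EqAt F P z' := by
  obtain ⟨g, k, hg, hk, h0, h1⟩ := h
  filter_upwards [hg.eventually_analyticAt, hk.eventually_analyticAt, NZAt.eventually hk h0,
    h1.eventually_nhds] with z' a b c d
  exact ⟨g, k, a, b, c, d⟩

theorem Mero2At.refl {F : ℂ × ℂ → ℂ} {z : ℂ × ℂ} (h : Mero2At F z) : Mero2EqAt F F z :=
  mero2EqAt_iff_genF.2 ⟨h, EventuallyEq.rfl⟩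

theorem Mero2EqAt.left {F P : ℂ × ℂ → ℂ} {z : ℂ × ℂ} (h : Mero2EqAt F P z) : Mero2At F z :=
  (mero2EqAt_iff_genF.1 h).1

theorem Mero2EqAt.eventuallyEq {F P : ℂ × ℂ → ℂ} {z : ℂ × ℂ} (h : Mero2EqAt F P z) :
    F =ᶠ[genF z] P := (mero2EqAt_iff_genF.1 h).2

theorem Mero2EqAt.right {F P : ℂ × ℂ → ℂ} {z : ℂ × ℂ} (h : Mero2EqAt F P z) : Mero2At P z :=
  h.left.congr h.eventuallyEq

theorem Mero2EqAt.symm {F P : ℂ × ℂ → ℂ} {z : ℂ × ℂ} (h : Mero2EqAt F P z) : Mero2EqAt P F z :=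
  mero2EqAt_iff_genF.2 ⟨h.right, h.eventuallyEq.symm⟩

theorem Mero2EqAt.trans {F P Q : ℂ × ℂ → ℂ} {z : ℂ × ℂ} (h : Mero2EqAt F P z)
    (h' : Mero2EqAt P Q z) : Mero2EqAt F Q z :=
  mero2EqAt_iff_genF.2 ⟨h.left, h.eventuallyEq.trans h'.eventuallyEq⟩

/-- functions which agree near `z` have the same germ. -/
theorem Mero2At.eqAt_of_eventuallyEq {F P : ℂ × ℂ → ℂ} {z : ℂ × ℂ} (h : Mero2At F z)
    (hFP : F =ᶠ[𝓝 z] P) : Mero2EqAt F P z :=
  mero2EqAt_iff_genF.2 ⟨h, genF_le_nhds z hFP⟩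

/-! ### Closure properties -/

theorem _root_.AnalyticAt.mero2At {F : ℂ × ℂ → ℂ} {z : ℂ × ℂ} (h : AnalyticAt ℂ F z) :
    Mero2At F z :=
  ⟨F, fun _ => 1, h, analyticAt_const, NZAt.of_ne_zero one_ne_zero,
    Eventually.of_forall fun w _ => (div_one (F w)).symm⟩

theorem _root_.AnalyticOnNhd.mero2On {F : ℂ × ℂ → ℂ} {W : Set (ℂ × ℂ)} (h : AnalyticOnNhd ℂ F W) :
    Mero2On F W := fun z hz => (h z hz).mero2At

theorem _root_.DifferentiableOn.mero2On {F : ℂ × ℂ → ℂ} {W : Set (ℂ × ℂ)} (hW : IsOpen W)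
    (h : DifferentiableOn ℂ F W) : Mero2On F W :=
  (SCV.analyticOnNhd_of_differentiableOn hW h).mero2On

theorem mero2At_const (c : ℂ) (z : ℂ × ℂ) : Mero2At (fun _ => c) z := analyticAt_const.mero2At

theorem Mero2At.add {F P : ℂ × ℂ → ℂ} {z : ℂ × ℂ} (hF : Mero2At F z) (hP : Mero2At P z) :
    Mero2At (fun w => F w + P w) z := by
  obtain ⟨g, k, hg, hk, h0, h1⟩ := mero2At_iff_genF.1 hF
  obtain ⟨g', k', hg', hk', h0', h1'⟩ := mero2At_iff_genF.1 hP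
  refine mero2At_iff_genF.2 ⟨fun w => g w * k' w + g' w * k w, fun w => k w * k' w,
    (hg.mul hk').add (hg'.mul hk), hk.mul hk', h0.mul hk hk' h0', ?_⟩
  filter_upwards [h1, h1', eventually_genF_ne_zero hk h0, eventually_genF_ne_zero hk' h0']
    with w a b c d
  rw [a, b]
  field_simp

theorem Mero2At.neg {F : ℂ × ℂ → ℂ} {z : ℂ × ℂ} (hF : Mero2At F z) : Mero2At (fun w => -F w) z := by
  obtain ⟨g, k, hg, hk, h0, h1⟩ := mero2At_iff_genF.1 hF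
  refine mero2At_iff_genF.2 ⟨fun w => -g w, k, hg.neg, hk, h0, ?_⟩
  filter_upwards [h1] with w a
  rw [a, neg_div]

theorem Mero2At.sub {F P : ℂ × ℂ → ℂ} {z : ℂ × ℂ} (hF : Mero2At F z) (hP : Mero2At P z) :
    Mero2At (fun w => F w - P w) z := by
  simpa only [sub_eq_add_neg] using hF.add hP.neg

theorem Mero2At.mul {F P : ℂ × ℂ → ℂ} {z : ℂ × ℂ} (hF : Mero2At F z) (hP : Mero2At P z) :
    Mero2At (fun w => F w * P w) z := by
  obtain ⟨g, k, hg, hk, h0, h1⟩ := mero2At_iff_genF.1 hF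
  obtain ⟨g', k', hg', hk', h0', h1'⟩ := mero2At_iff_genF.1 hP
  refine mero2At_iff_genF.2 ⟨fun w => g w * g' w, fun w => k w * k' w,
    hg.mul hg', hk.mul hk', h0.mul hk hk' h0', ?_⟩
  filter_upwards [h1, h1'] with w a b
  rw [a, b, div_mul_div_comm]

/-- no hypothesis: the inverse of the zero germ is the zero germ (`0⁻¹ = 0`). -/
theorem Mero2At.inv {F : ℂ × ℂ → ℂ} {z : ℂ × ℂ} (hF : Mero2At F z) : Mero2At (fun w => (F w)⁻¹) z := by
  obtain ⟨g, k, hg, hk, h0, h1⟩ := mero2At_iff_genF.1 hF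
  by_cases hg0 : NZAt g z
  · refine mero2At_iff_genF.2 ⟨k, g, hk, hg, hg0, ?_⟩
    filter_upwards [h1] with w a
    rw [a, inv_div]
  · have hg1 : ∀ᶠ w in 𝓝 z, g w = 0 := not_not.1 hg0
    refine (mero2At_const 0 z).congr ?_
    filter_upwards [h1, hg1.genF] with w a b
    rw [a, b, zero_div, inv_zero]

theorem Mero2At.div {F P : ℂ × ℂ → ℂ} {z : ℂ × ℂ} (hF : Mero2At F z) (hP : Mero2At P z) :
    Mero2At (fun w => F w / P w) z := by
  simpa only [div_eq_mul_inv] using hF.mul hP.inv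

theorem Mero2At.pow {F : ℂ × ℂ → ℂ} {z : ℂ × ℂ} (hF : Mero2At F z) (n : ℕ) :
    Mero2At (fun w => F w ^ n) z := by
  induction n with
  | zero => simpa using mero2At_const 1 z
  | succ n ih => simpa only [pow_succ] using ih.mul hF

theorem Mero2At.zpow {F : ℂ × ℂ → ℂ} {z : ℂ × ℂ} (hF : Mero2At F z) (n : ℤ) :
    Mero2At (fun w => F w ^ n) z := by
  cases n with
  | ofNat n => simpa using hF.pow n
  | negSucc n => simpa only [zpow_negSucc] using (hF.pow (n + 1)).inv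

theorem Mero2At.sum {ι : Type*} {s : Finset ι} {F : ι → ℂ × ℂ → ℂ} {z : ℂ × ℂ}
    (hF : ∀ i ∈ s, Mero2At (F i) z) : Mero2At (fun w => ∑ i ∈ s, F i w) z := by
  classical
  induction s using Finset.induction_on with
  | empty => simpa using mero2At_const 0 z
  | insert i s hi ih =>
    simp only [Finset.sum_insert hi]
    exact (hF i (Finset.mem_insert_self i s)).add
      (ih fun j hj => hF j (Finset.mem_insert_of_mem hj))

theorem Mero2At.prod {ι : Type*} {s : Finset ι} {F : ι → ℂ × ℂ → ℂ} {z : ℂ × ℂ}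
    (hF : ∀ i ∈ s, Mero2At (F i) z) : Mero2At (fun w => ∏ i ∈ s, F i w) z := by
  classical
  induction s using Finset.induction_on with
  | empty => simpa using mero2At_const 1 z
  | insert i s hi ih =>
    simp only [Finset.prod_insert hi]
    exact (hF i (Finset.mem_insert_self i s)).mul
      (ih fun j hj => hF j (Finset.mem_insert_of_mem hj))

/-- a polynomial in (the variables that occur of) a family of meromorphic functions. -/
theorem Mero2At.mvPolynomial_eval {σ : Type*} {F : σ → ℂ × ℂ → ℂ} {z : ℂ × ℂ}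
    (p : MvPolynomial σ ℂ) (hF : ∀ i ∈ p.vars, Mero2At (F i) z) :
    Mero2At (fun w => MvPolynomial.eval (fun i => F i w) p) z := by
  simp only [MvPolynomial.eval_eq]
  refine Mero2At.sum fun m hm => (mero2At_const _ z).mul (Mero2At.prod fun i hi => ?_)
  exact (hF i ((MvPolynomial.mem_vars_iff_mem_support i).2 ⟨m, hm, hi⟩)).pow _

/-- a polynomial with meromorphic coefficients evaluated at a meromorphic function. -/
theorem Mero2At.polynomial_eval {d : ℕ} {a : ℕ → ℂ × ℂ → ℂ} {u : ℂ × ℂ → ℂ} {z : ℂ × ℂ}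
    (ha : ∀ i ∈ Finset.range d, Mero2At (a i) z) (hu : Mero2At u z) :
    Mero2At (fun w => ∑ i ∈ Finset.range d, a i w * u w ^ i) z :=
  Mero2At.sum fun i hi => (ha i hi).mul (hu.pow i)

/-! congruences: use `Mero2EqAt.eventuallyEq`, `filter_upwards` and `mero2EqAt_iff_genF`; the two
most frequent ones: -/

theorem Mero2EqAt.map₂ {F P F' P' : ℂ × ℂ → ℂ} {z : ℂ × ℂ} (op : ℂ → ℂ → ℂ) (h : Mero2EqAt F P z)
    (h' : Mero2EqAt F' P' z) (hop : Mero2At (fun w => op (F w) (F' w)) z) :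
    Mero2EqAt (fun w => op (F w) (F' w)) (fun w => op (P w) (P' w)) z :=
  mero2EqAt_iff_genF.2 ⟨hop, by
    filter_upwards [h.eventuallyEq, h'.eventuallyEq] with w h1 h2
    rw [h1, h2]⟩

theorem Mero2EqAt.map {F P : ℂ × ℂ → ℂ} {z : ℂ × ℂ} (op : ℂ → ℂ) (h : Mero2EqAt F P z)
    (hop : Mero2At (fun w => op (F w)) z) :
    Mero2EqAt (fun w => op (F w)) (fun w => op (P w)) z :=
  mero2EqAt_iff_genF.2 ⟨hop, by
    filter_upwards [h.eventuallyEq] with w h1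
    rw [h1]⟩

/-- the germs form a domain. -/
theorem Mero2At.eq_zero_or_of_mul {F P : ℂ × ℂ → ℂ} {z : ℂ × ℂ} (hF : Mero2At F z)
    (hP : Mero2At P z) (h : ∀ᶠ w in genF z, F w * P w = 0) :
    (∀ᶠ w in genF z, F w = 0) ∨ ∀ᶠ w in genF z, P w = 0 := by
  obtain ⟨g, k, hg, hk, h0, h1⟩ := mero2At_iff_genF.1 hF
  obtain ⟨g', k', hg', hk', h0', h1'⟩ := mero2At_iff_genF.1 hP
  have h2 : (fun w => g w * g' w) =ᶠ[genF z] fun _ => 0 := by
    filter_upwards [h, h1, h1', eventually_genF_ne_zero hk h0, eventually_genF_ne_zero hk' h0']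
      with w a b c d e
    rw [b, c, div_mul_div_comm, div_eq_zero_iff] at a
    exact a.resolve_right (mul_ne_zero d e)
  have h3 := eventuallyEq_nhds_of_genF (hg.mul hg') analyticAt_const h2
  rcases SCV.eventually_eq_zero_or_of_mul hg hg' h3 with h4 | h4
  · left
    filter_upwards [h1, h4.genF] with w a b
    rw [a, b, zero_div]
  · right
    filter_upwards [h1', h4.genF] with w a b
    rw [a, b, zero_div]

/-- a nonzero germ is generically nonzero. -/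
theorem Mero2At.eventually_ne_zero {F : ℂ × ℂ → ℂ} {z : ℂ × ℂ} (hF : Mero2At F z)
    (h : ¬ ∀ᶠ w in genF z, F w = 0) : ∀ᶠ w in genF z, F w ≠ 0 := by
  obtain ⟨g, k, hg, hk, h0, h1⟩ := mero2At_iff_genF.1 hF
  have hg0 : NZAt g z := by
    intro hg1
    apply h
    filter_upwards [h1, hg1.genF] with w a b
    rw [a, b, zero_div]
  filter_upwards [h1, eventually_genF_ne_zero hk h0, eventually_genF_ne_zero hg hg0] with w a b c
  rw [a]
  exact div_ne_zero c b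

/-! ### Composition -/

/-- nonzero germs pull back to nonzero germs under maps which are open at the point. -/
theorem NZAt.comp_of_le_map {k : ℂ × ℂ → ℂ} {Φ : ℂ × ℂ → ℂ × ℂ} {z : ℂ × ℂ} (h : NZAt k (Φ z))
    (hopen : 𝓝 (Φ z) ≤ map Φ (𝓝 z)) : NZAt (fun w => k (Φ w)) z := fun h0 => h (hopen h0)

theorem le_map_of_rightInverse {Φ Ψ : ℂ × ℂ → ℂ × ℂ} {z : ℂ × ℂ}
    (h1 : Tendsto Ψ (𝓝 (Φ z)) (𝓝 z)) (h2 : ∀ᶠ w in 𝓝 (Φ z), Φ (Ψ w) = w) :
    𝓝 (Φ z) ≤ map Φ (𝓝 z) := by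
  intro S hS
  have h3 : ∀ᶠ w in 𝓝 (Φ z), Φ (Ψ w) ∈ S := h1 hS
  filter_upwards [h2, h3] with w a b
  rwa [a] at b

/-- an analytic map which is open at `z` maps the generic filter to the generic filter. -/
theorem tendsto_genF_of_le_map {Φ : ℂ × ℂ → ℂ × ℂ} {z : ℂ × ℂ} (hΦ : AnalyticAt ℂ Φ z)
    (hopen : 𝓝 (Φ z) ≤ map Φ (𝓝 z)) : Tendsto Φ (genF z) (genF (Φ z)) := by
  rintro s ⟨k, hk, h0, h1⟩
  exact ⟨fun w => k (Φ w), AnalyticAt.comp (f := Φ) (g := k) hk hΦ, h0.comp_of_le_map hopen,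
    hΦ.continuousAt.eventually h1⟩

theorem Mero2At.comp_of_le_map {F : ℂ × ℂ → ℂ} {Φ : ℂ × ℂ → ℂ × ℂ} {z : ℂ × ℂ}
    (hF : Mero2At F (Φ z)) (hΦ : AnalyticAt ℂ Φ z) (hopen : 𝓝 (Φ z) ≤ map Φ (𝓝 z)) :
    Mero2At (fun w => F (Φ w)) z := by
  obtain ⟨g, k, hg, hk, h0, h1⟩ := mero2At_iff_genF.1 hF
  exact mero2At_iff_genF.2 ⟨fun w => g (Φ w), fun w => k (Φ w),
    AnalyticAt.comp (f := Φ) (g := g) hg hΦ, AnalyticAt.comp (f := Φ) (g := k) hk hΦ,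
    h0.comp_of_le_map hopen, (tendsto_genF_of_le_map hΦ hopen).eventually h1⟩

theorem le_map_of_hasFDerivAt {Φ : ℂ × ℂ → ℂ × ℂ} {z : ℂ × ℂ} (hΦ : AnalyticAt ℂ Φ z)
    (Φ' : (ℂ × ℂ) ≃L[ℂ] (ℂ × ℂ)) (hΦ' : HasFDerivAt Φ (Φ' : (ℂ × ℂ) →L[ℂ] (ℂ × ℂ)) z) :
    𝓝 (Φ z) ≤ map Φ (𝓝 z) := by
  have h1 : HasStrictFDerivAt Φ (Φ' : (ℂ × ℂ) →L[ℂ] (ℂ × ℂ)) z := by
    have := hΦ.hasStrictFDerivAt
    rwa [hΦ'.fderiv] at this
  exact h1.map_nhds_eq_of_equiv.ge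

/-- a local biholomorphism maps the generic filter to the generic filter. -/
theorem tendsto_genF {Φ : ℂ × ℂ → ℂ × ℂ} {z : ℂ × ℂ} (hΦ : AnalyticAt ℂ Φ z)
    (Φ' : (ℂ × ℂ) ≃L[ℂ] (ℂ × ℂ)) (hΦ' : HasFDerivAt Φ (Φ' : (ℂ × ℂ) →L[ℂ] (ℂ × ℂ)) z) :
    Tendsto Φ (genF z) (genF (Φ z)) :=
  tendsto_genF_of_le_map hΦ (le_map_of_hasFDerivAt hΦ Φ' hΦ')

theorem Mero2At.comp {F : ℂ × ℂ → ℂ} {Φ : ℂ × ℂ → ℂ × ℂ} {z : ℂ × ℂ} (hF : Mero2At F (Φ z))
    (hΦ : AnalyticAt ℂ Φ z) (Φ' : (ℂ × ℂ) ≃L[ℂ] (ℂ × ℂ))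
    (hΦ' : HasFDerivAt Φ (Φ' : (ℂ × ℂ) →L[ℂ] (ℂ × ℂ)) z) : Mero2At (fun w => F (Φ w)) z :=
  hF.comp_of_le_map hΦ (le_map_of_hasFDerivAt hΦ Φ' hΦ')

theorem Mero2EqAt.comp {F P : ℂ × ℂ → ℂ} {Φ : ℂ × ℂ → ℂ × ℂ} {z : ℂ × ℂ}
    (h : Mero2EqAt F P (Φ z)) (hΦ : AnalyticAt ℂ Φ z) (Φ' : (ℂ × ℂ) ≃L[ℂ] (ℂ × ℂ))
    (hΦ' : HasFDerivAt Φ (Φ' : (ℂ × ℂ) →L[ℂ] (ℂ × ℂ)) z) :
    Mero2EqAt (fun w => F (Φ w)) (fun w => P (Φ w)) z :=
  mero2EqAt_iff_genF.2 ⟨h.left.comp hΦ Φ' hΦ', (tendsto_genF hΦ Φ' hΦ').eventually h.eventuallyEq⟩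

/-- The triangular maps `(w, ζ) ↦ (w + a ζ, t₀ + r ζ)`, `r ≠ 0`: shears `(y + q t + c, t)`, the reflection `(y, -t)`,
the disc families `(x₀ + λ g ζ + w, t₀ + r ζ)`. -/
def shear (a : ℂ → ℂ) (t₀ r : ℂ) (w : ℂ × ℂ) : ℂ × ℂ := (w.1 + a w.2, t₀ + r * w.2)

theorem analyticAt_shear {a : ℂ → ℂ} {t₀ r : ℂ} {z : ℂ × ℂ} (ha : AnalyticAt ℂ a z.2) :
    AnalyticAt ℂ (shear a t₀ r) z := by
  have h1 : AnalyticAt ℂ (fun w : ℂ × ℂ => a w.2) z :=
    AnalyticAt.comp (f := fun w : ℂ × ℂ => w.2) (g := a) ha analyticAt_snd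
  exact (analyticAt_fst.add h1).prod (analyticAt_const.add (analyticAt_const.mul analyticAt_snd))

theorem le_map_shear {a : ℂ → ℂ} {t₀ r : ℂ} {z : ℂ × ℂ} (ha : ContinuousAt a z.2) (hr : r ≠ 0) :
    𝓝 (shear a t₀ r z) ≤ map (shear a t₀ r) (𝓝 z) := by
  refine le_map_of_rightInverse
    (Ψ := fun w => (w.1 - a ((w.2 - t₀) / r), (w.2 - t₀) / r)) ?_ (Eventually.of_forall fun w => ?_)
  · have h0 : ((shear a t₀ r z).2 - t₀) / r = z.2 := by
      simp only [shear]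
      field_simp
      ring
    have h1 : ContinuousAt (fun w : ℂ × ℂ => (w.2 - t₀) / r) (shear a t₀ r z) := by fun_prop
    have h2 : ContinuousAt (fun w : ℂ × ℂ => a ((w.2 - t₀) / r)) (shear a t₀ r z) :=
      ContinuousAt.comp (f := fun w : ℂ × ℂ => (w.2 - t₀) / r) (g := a) (by rwa [h0]) h1
    have h3 : ContinuousAt (fun w : ℂ × ℂ => (w.1 - a ((w.2 - t₀) / r), (w.2 - t₀) / r))
        (shear a t₀ r z) := (continuousAt_fst.sub h2).prodMk h1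
    have h4 : ((shear a t₀ r z).1 - a (((shear a t₀ r z).2 - t₀) / r),
        ((shear a t₀ r z).2 - t₀) / r) = z := by
      refine Prod.ext ?_ h0
      show (shear a t₀ r z).1 - a (((shear a t₀ r z).2 - t₀) / r) = z.1
      rw [h0]
      simp [shear]
    have h5 := h3.tendsto
    rwa [h4] at h5
  · refine Prod.ext ?_ ?_
    · simp [shear]
    · simp only [shear]
      field_simp
      ring

theorem tendsto_genF_shear {a : ℂ → ℂ} {t₀ r : ℂ} {z : ℂ × ℂ} (ha : AnalyticAt ℂ a z.2)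
    (hr : r ≠ 0) : Tendsto (shear a t₀ r) (genF z) (genF (shear a t₀ r z)) :=
  tendsto_genF_of_le_map (analyticAt_shear ha) (le_map_shear ha.continuousAt hr)

theorem Mero2At.comp_shear {F : ℂ × ℂ → ℂ} {a : ℂ → ℂ} {t₀ r : ℂ} {z : ℂ × ℂ}
    (hF : Mero2At F (shear a t₀ r z)) (ha : AnalyticAt ℂ a z.2) (hr : r ≠ 0) :
    Mero2At (fun w => F (shear a t₀ r w)) z :=
  hF.comp_of_le_map (analyticAt_shear ha) (le_map_shear ha.continuousAt hr)

theorem Mero2EqAt.comp_shear {F P : ℂ × ℂ → ℂ} {a : ℂ → ℂ} {t₀ r : ℂ} {z : ℂ × ℂ}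
    (h : Mero2EqAt F P (shear a t₀ r z)) (ha : AnalyticAt ℂ a z.2) (hr : r ≠ 0) :
    Mero2EqAt (fun w => F (shear a t₀ r w)) (fun w => P (shear a t₀ r w)) z :=
  mero2EqAt_iff_genF.2 ⟨h.left.comp_shear ha hr, (tendsto_genF_shear ha hr).eventually h.eventuallyEq⟩

theorem differentiableAt_conj_conj {g : ℂ × ℂ → ℂ} {z : ℂ × ℂ}
    (hg : DifferentiableAt ℂ g (conj z.1, conj z.2)) :
    DifferentiableAt ℂ (fun w : ℂ × ℂ => conj (g (conj w.1, conj w.2))) z := by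
  obtain ⟨L, hL⟩ := hg
  let L₀ : ℂ × ℂ →ₗ[ℂ] ℂ :=
    { toFun := fun v => conj (L (conj v.1, conj v.2))
      map_add' := by
        intro u v
        have : ((conj (u + v).1, conj (u + v).2) : ℂ × ℂ) = (conj u.1, conj u.2) + (conj v.1, conj v.2) := by
          simp
        rw [this, map_add, map_add]
      map_smul' := by
        intro a v
        have : ((conj (a • v).1, conj (a • v).2) : ℂ × ℂ) = (conj a) • (conj v.1, conj v.2) := by
          simp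
        rw [this, map_smul]
        simp }
  refine ⟨LinearMap.toContinuousLinearMap L₀, ?_⟩
  rw [hasFDerivAt_iff_isLittleO_nhds_zero] at hL ⊢
  have hσ : Tendsto (fun h : ℂ × ℂ => ((conj h.1, conj h.2) : ℂ × ℂ)) (𝓝 0) (𝓝 0) := by
    have : Continuous (fun h : ℂ × ℂ => ((conj h.1, conj h.2) : ℂ × ℂ)) := by fun_prop
    have h1 := this.tendsto 0
    have h2 : ((conj (0 : ℂ × ℂ).1, conj (0 : ℂ × ℂ).2) : ℂ × ℂ) = 0 := by simp
    rwa [h2] at h1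
  have h1 := (hL.comp_tendsto hσ).norm_norm
  refine Asymptotics.IsLittleO.of_norm_norm (h1.congr (fun h => ?_) (fun h => ?_))
  · simp only [Function.comp]
    rw [← Complex.norm_conj]
    congr 1
    simp [L₀]
  · simp [Prod.norm_def]

/-- conjugation symmetry `F^*(z) = conj (F (conj z))`. -/
theorem analyticAt_conj_conj {g : ℂ × ℂ → ℂ} {z : ℂ × ℂ} (hg : AnalyticAt ℂ g (conj z.1, conj z.2)) :
    AnalyticAt ℂ (fun w : ℂ × ℂ => conj (g (conj w.1, conj w.2))) z := by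
  have hσ : ContinuousAt (fun h : ℂ × ℂ => ((conj h.1, conj h.2) : ℂ × ℂ)) z := by fun_prop
  have h1 : ∀ᶠ w in 𝓝 z, AnalyticAt ℂ g (conj w.1, conj w.2) :=
    hσ.eventually hg.eventually_analyticAt
  refine SCV.analyticAt_of_differentiableOn
    (U := {w : ℂ × ℂ | AnalyticAt ℂ g (conj w.1, conj w.2)}) ?_ h1
  intro w hw
  exact (differentiableAt_conj_conj (AnalyticAt.differentiableAt hw)).differentiableWithinAt

theorem NZAt.conj_conj {k : ℂ × ℂ → ℂ} {z : ℂ × ℂ} (h0 : NZAt k (conj z.1, conj z.2)) :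
    NZAt (fun w : ℂ × ℂ => conj (k (conj w.1, conj w.2))) z := by
  intro h2
  apply h0
  have hσ : ContinuousAt (fun h : ℂ × ℂ => ((conj h.1, conj h.2) : ℂ × ℂ)) (conj z.1, conj z.2) := by
    fun_prop
  have h3 : ∀ᶠ w in 𝓝 ((fun h : ℂ × ℂ => ((conj h.1, conj h.2) : ℂ × ℂ)) (conj z.1, conj z.2)),
      conj (k (conj w.1, conj w.2)) = 0 := by
    simpa using h2
  filter_upwards [hσ.eventually h3] with w hw
  simpa using hw

theorem tendsto_genF_conj (z : ℂ × ℂ) :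
    Tendsto (fun w : ℂ × ℂ => ((conj w.1, conj w.2) : ℂ × ℂ)) (genF z)
      (genF (conj z.1, conj z.2)) := by
  rintro s ⟨k, hk, h0, h1⟩
  have hσ : ContinuousAt (fun h : ℂ × ℂ => ((conj h.1, conj h.2) : ℂ × ℂ)) z := by fun_prop
  refine ⟨fun w => conj (k (conj w.1, conj w.2)), analyticAt_conj_conj hk, h0.conj_conj, ?_⟩
  filter_upwards [hσ.eventually h1] with w hw hne
  exact hw (by simpa using hne)

theorem Mero2At.conj_conj {F : ℂ × ℂ → ℂ} {z : ℂ × ℂ} (hF : Mero2At F (conj z.1, conj z.2)) :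
    Mero2At (fun w : ℂ × ℂ => conj (F (conj w.1, conj w.2))) z := by
  obtain ⟨g, k, hg, hk, h0, h1⟩ := mero2At_iff_genF.1 hF
  refine mero2At_iff_genF.2 ⟨_, _, analyticAt_conj_conj hg, analyticAt_conj_conj hk,
    h0.conj_conj, ?_⟩
  filter_upwards [(tendsto_genF_conj z).eventually h1] with w a
  rw [a, map_div₀]

theorem Mero2EqAt.conj_conj {F P : ℂ × ℂ → ℂ} {z : ℂ × ℂ}
    (h : Mero2EqAt F P (conj z.1, conj z.2)) :
    Mero2EqAt (fun w : ℂ × ℂ => conj (F (conj w.1, conj w.2)))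
      (fun w : ℂ × ℂ => conj (P (conj w.1, conj w.2))) z := by
  refine mero2EqAt_iff_genF.2 ⟨h.left.conj_conj, ?_⟩
  filter_upwards [(tendsto_genF_conj z).eventually h.eventuallyEq] with w a
  rw [a]

/-! ### The identity theorem -/

/-- **Identity theorem** for generic identities. -/
theorem Mero2On.eventually_eq_zero_of_isPreconnected {F : ℂ × ℂ → ℂ} {W : Set (ℂ × ℂ)}
    (hWc : IsPreconnected W) (hF : Mero2On F W) {z₀ : ℂ × ℂ} (hz₀ : z₀ ∈ W)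
    (h : ∀ᶠ w in genF z₀, F w = 0) : ∀ z ∈ W, ∀ᶠ w in genF z, F w = 0 := by
  intro z hz
  by_contra hcon
  have hu : IsOpen {z | ∀ᶠ w in genF z, F w = 0} :=
    isOpen_iff_mem_nhds.2 fun z hz => eventually_nhds_genF hz
  have hv : IsOpen {z | ∀ᶠ w in genF z, F w ≠ 0} :=
    isOpen_iff_mem_nhds.2 fun z hz => eventually_nhds_genF hz
  obtain ⟨z', -, h1, h2⟩ := hWc _ _ hu hv
    (fun z hz => (em (∀ᶠ w in genF z, F w = 0)).imp id fun h => (hF z hz).eventually_ne_zero h)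
    ⟨z₀, hz₀, h⟩ ⟨z, hz, (hF z hz).eventually_ne_zero hcon⟩
  have h1' : ∀ᶠ w in genF z', F w = 0 := h1
  have h2' : ∀ᶠ w in genF z', F w ≠ 0 := h2
  obtain ⟨w, hw1, hw2⟩ := (h1'.and h2').exists
  exact hw2 hw1

/-- **Identity theorem** for jointly meromorphic functions. -/
theorem Mero2On.eqAt_of_isPreconnected {F P : ℂ × ℂ → ℂ} {W : Set (ℂ × ℂ)}
    (hWc : IsPreconnected W) (hF : Mero2On F W) (hP : Mero2On P W) {z₀ : ℂ × ℂ} (hz₀ : z₀ ∈ W)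
    (h : Mero2EqAt F P z₀) : ∀ z ∈ W, Mero2EqAt F P z := by
  intro z hz
  have h1 := Mero2On.eventually_eq_zero_of_isPreconnected hWc
    (F := fun w => F w - P w) (fun z hz => (hF z hz).sub (hP z hz)) hz₀
    (h.eventuallyEq.mono fun w hw => sub_eq_zero.2 hw) z hz
  exact mero2EqAt_iff_genF.2 ⟨hF z hz, h1.mono fun w hw => sub_eq_zero.1 hw⟩

/-! ### Normal form and gluing -/

open Classical in
/-- The normal form of a meromorphic function: the value of the analytic representative where the germ is analytic,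
`0` elsewhere.  It depends only on the germs. -/
noncomputable def mnf (F : ℂ × ℂ → ℂ) (z : ℂ × ℂ) : ℂ :=
  if h : ∃ H : ℂ × ℂ → ℂ, AnalyticAt ℂ H z ∧ F =ᶠ[genF z] H then h.choose z else 0

theorem mnf_eq_of_analyticAt {F H : ℂ × ℂ → ℂ} {z : ℂ × ℂ} (hH : AnalyticAt ℂ H z)
    (h : F =ᶠ[genF z] H) : mnf F z = H z := by
  have hex : ∃ H : ℂ × ℂ → ℂ, AnalyticAt ℂ H z ∧ F =ᶠ[genF z] H := ⟨H, hH, h⟩
  rw [mnf, dif_pos hex]
  exact (eventuallyEq_nhds_of_genF hex.choose_spec.1 hH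
    (hex.choose_spec.2.symm.trans h)).self_of_nhds

theorem mnf_eq_zero {F : ℂ × ℂ → ℂ} {z : ℂ × ℂ}
    (h : ¬ ∃ H : ℂ × ℂ → ℂ, AnalyticAt ℂ H z ∧ F =ᶠ[genF z] H) : mnf F z = 0 := by
  rw [mnf, dif_neg h]

theorem mnf_congr {F P : ℂ × ℂ → ℂ} {z : ℂ × ℂ} (h : F =ᶠ[genF z] P) : mnf F z = mnf P z := by
  by_cases hex : ∃ H : ℂ × ℂ → ℂ, AnalyticAt ℂ H z ∧ F =ᶠ[genF z] H
  · obtain ⟨H, hH, hFH⟩ := hex
    rw [mnf_eq_of_analyticAt hH hFH, mnf_eq_of_analyticAt hH (h.symm.trans hFH)]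
  · rw [mnf_eq_zero hex, mnf_eq_zero]
    rintro ⟨H, hH, hPH⟩
    exact hex ⟨H, hH, h.trans hPH⟩

theorem mnf_eventuallyEq_of_analyticAt {F H : ℂ × ℂ → ℂ} {z : ℂ × ℂ} (hH : AnalyticAt ℂ H z)
    (h : F =ᶠ[genF z] H) : mnf F =ᶠ[𝓝 z] H := by
  filter_upwards [hH.eventually_analyticAt, eventually_nhds_genF h] with z' h1 h2
  exact mnf_eq_of_analyticAt h1 h2

theorem Mero2At.mnf_eqAt {F : ℂ × ℂ → ℂ} {z : ℂ × ℂ} (hF : Mero2At F z) : Mero2EqAt (mnf F) F z := by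
  obtain ⟨g, k, hg, hk, h0, h1⟩ := mero2At_iff_genF.1 hF
  refine Mero2EqAt.symm (mero2EqAt_iff_genF.2 ⟨hF, ?_⟩)
  filter_upwards [h1, eventually_genF_ne_zero hk h0, (eventually_nhds_genF h1).genF,
    hg.eventually_analyticAt.genF, hk.eventually_analyticAt.genF] with w a b c d e
  rw [mnf_eq_of_analyticAt (H := fun w => g w / k w) (d.div e b) c, a]

theorem Mero2At.mnf {F : ℂ × ℂ → ℂ} {z : ℂ × ℂ} (hF : Mero2At F z) : Mero2At (mnf F) z :=
  hF.mnf_eqAt.left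

/-- **Gluing.** -/
theorem Mero2.exists_glue {ι : Type*} (U : ι → Set (ℂ × ℂ)) (hU : ∀ i, IsOpen (U i))
    (F : ι → ℂ × ℂ → ℂ) (hF : ∀ i, Mero2On (F i) (U i))
    (hcomp : ∀ i j, ∀ z ∈ U i ∩ U j, Mero2EqAt (F i) (F j) z) :
    ∃ Fg : ℂ × ℂ → ℂ, Mero2On Fg (⋃ i, U i) ∧ (∀ i, ∀ z ∈ U i, Mero2EqAt Fg (F i) z) ∧
      ∀ i, ∀ z ∈ U i, Fg z = mnf (F i) z := by
  classical
  let Fg : ℂ × ℂ → ℂ := fun z => if h : ∃ i, z ∈ U i then mnf (F h.choose) z else 0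
  have h1 : ∀ i, ∀ z ∈ U i, Fg z = mnf (F i) z := by
    intro i z hz
    have hex : ∃ i, z ∈ U i := ⟨i, hz⟩
    show (if h : ∃ i, z ∈ U i then mnf (F h.choose) z else 0) = _
    rw [dif_pos hex]
    exact mnf_congr (hcomp _ _ z ⟨hex.choose_spec, hz⟩).eventuallyEq
  have h2 : ∀ i, ∀ z ∈ U i, Mero2EqAt Fg (F i) z := by
    intro i z hz
    have h3 : mnf (F i) =ᶠ[𝓝 z] Fg := by
      filter_upwards [(hU i).mem_nhds hz] with w hw
      exact (h1 i w hw).symm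
    exact ((hF i z hz).mnf.eqAt_of_eventuallyEq h3).symm.trans (hF i z hz).mnf_eqAt
  refine ⟨Fg, ?_, h2, h1⟩
  intro z hz
  obtain ⟨i, hi⟩ := mem_iUnion.1 hz
  exact (h2 i z hi).left

/-- gluing of two functions. -/
theorem Mero2.exists_glue₂ {U V : Set (ℂ × ℂ)} (hU : IsOpen U) (hV : IsOpen V) {F P : ℂ × ℂ → ℂ}
    (hF : Mero2On F U) (hP : Mero2On P V) (hcomp : ∀ z ∈ U ∩ V, Mero2EqAt F P z) :
    ∃ Fg : ℂ × ℂ → ℂ, Mero2On Fg (U ∪ V) ∧ (∀ z ∈ U, Mero2EqAt Fg F z) ∧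
      ∀ z ∈ V, Mero2EqAt Fg P z := by
  obtain ⟨Fg, h1, h2, -⟩ := Mero2.exists_glue (fun b : Bool => cond b U V)
    (fun b => by cases b <;> assumption) (fun b : Bool => cond b F P)
    (fun b => by cases b <;> assumption) (by
      intro i j z hz
      cases i <;> cases j
      · exact (hP z hz.1).refl
      · exact (hcomp z ⟨hz.2, hz.1⟩).symm
      · exact hcomp z hz
      · exact (hF z hz.1).refl)
  refine ⟨Fg, ?_, h2 true, h2 false⟩
  intro z hz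
  rcases hz with hz | hz
  · exact (h2 true z hz).left
  · exact (h2 false z hz).left

end Claimed.Agent.R269
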