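/-
Row 269, library L1-SCV: elementary facts on the partial derivatives `pdy`, `pdt`, `pd a b` of `S4/Defs.lean` (congruence, analyticity, slices).
Owner: helper270.   Split off from `Lib/Mero2b.lean` (which imports this file), so that files which must not see the `Mero2` toolkit
(name clash `shear` / `Lau.shear`) can use them.
-/
import Claimed.Agent.R269.S4.Defs

set_option autoImplicit false

namespace Claimed.Agent.R269

open Complex Filter Topology Set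

theorem tendsto_mk_fst (z : ℂ × ℂ) : Tendsto (fun y : ℂ => (y, z.2)) (𝓝 z.1) (𝓝 z) := by
  have h : Continuous (fun y : ℂ => (y, z.2)) := by fun_prop
  exact h.tendsto z.1

theorem tendsto_mk_snd (z : ℂ × ℂ) : Tendsto (fun t : ℂ => (z.1, t)) (𝓝 z.2) (𝓝 z) := by
  have h : Continuous (fun t : ℂ => (z.1, t)) := by fun_prop
  exact h.tendsto z.2

theorem pdy_congr_nhds {F P : ℂ × ℂ → ℂ} {z : ℂ × ℂ} (h : F =ᶠ[𝓝 z] P) : pdy F z = pdy P z :=
  Filter.EventuallyEq.deriv_eq ((tendsto_mk_fst z).eventually h)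

theorem pdt_congr_nhds {F P : ℂ × ℂ → ℂ} {z : ℂ × ℂ} (h : F =ᶠ[𝓝 z] P) : pdt F z = pdt P z :=
  Filter.EventuallyEq.deriv_eq ((tendsto_mk_snd z).eventually h)

theorem pdy_congr_nhds' {F P : ℂ × ℂ → ℂ} {z : ℂ × ℂ} (h : F =ᶠ[𝓝 z] P) :
    pdy F =ᶠ[𝓝 z] pdy P := h.eventually_nhds.mono fun _ hw => pdy_congr_nhds hw

theorem pdt_congr_nhds' {F P : ℂ × ℂ → ℂ} {z : ℂ × ℂ} (h : F =ᶠ[𝓝 z] P) :
    pdt F =ᶠ[𝓝 z] pdt P := h.eventually_nhds.mono fun _ hw => pdt_congr_nhds hw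

theorem pd_congr_nhds {F P : ℂ × ℂ → ℂ} {z : ℂ × ℂ} (a b : ℕ) (h : F =ᶠ[𝓝 z] P) :
    pd a b F =ᶠ[𝓝 z] pd a b P := by
  have h1 : (pdt^[b]) F =ᶠ[𝓝 z] (pdt^[b]) P := by
    induction b with
    | zero => exact h
    | succ b ih =>
      rw [Function.iterate_succ_apply', Function.iterate_succ_apply']
      exact pdt_congr_nhds' ih
  unfold pd
  induction a with
  | zero => exact h1
  | succ a ih =>
    rw [Function.iterate_succ_apply', Function.iterate_succ_apply']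
    exact pdy_congr_nhds' ih

theorem pdy_eq_fderiv {g : ℂ × ℂ → ℂ} {z : ℂ × ℂ} (hg : DifferentiableAt ℂ g z) :
    pdy g z = fderiv ℂ g z (1, 0) := by
  have h1 : HasDerivAt (fun y : ℂ => (y, z.2)) ((1 : ℂ), (0 : ℂ)) z.1 :=
    (hasDerivAt_id z.1).prodMk (hasDerivAt_const z.1 z.2)
  have h2 : HasFDerivAt g (fderiv ℂ g z) ((fun y : ℂ => (y, z.2)) z.1) := hg.hasFDerivAt
  exact (h2.comp_hasDerivAt z.1 h1).deriv

theorem pdt_eq_fderiv {g : ℂ × ℂ → ℂ} {z : ℂ × ℂ} (hg : DifferentiableAt ℂ g z) :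
    pdt g z = fderiv ℂ g z (0, 1) := by
  have h1 : HasDerivAt (fun t : ℂ => (z.1, t)) ((0 : ℂ), (1 : ℂ)) z.2 :=
    (hasDerivAt_const z.2 z.1).prodMk (hasDerivAt_id z.2)
  have h2 : HasFDerivAt g (fderiv ℂ g z) ((fun t : ℂ => (z.1, t)) z.2) := hg.hasFDerivAt
  exact (h2.comp_hasDerivAt z.2 h1).deriv

theorem analyticAt_fderiv_apply₂ {g : ℂ × ℂ → ℂ} {z : ℂ × ℂ} (hg : AnalyticAt ℂ g z) (v : ℂ × ℂ) :
    AnalyticAt ℂ (fun w => fderiv ℂ g w v) z :=
  ((ContinuousLinearMap.apply ℂ ℂ v).analyticAt (fderiv ℂ g z)).comp hg.fderiv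

theorem analyticAt_pdy {g : ℂ × ℂ → ℂ} {z : ℂ × ℂ} (hg : AnalyticAt ℂ g z) :
    AnalyticAt ℂ (pdy g) z :=
  (analyticAt_fderiv_apply₂ hg (1, 0)).congr
    (hg.eventually_analyticAt.mono fun _ hw => (pdy_eq_fderiv hw.differentiableAt).symm)

theorem analyticAt_pdt {g : ℂ × ℂ → ℂ} {z : ℂ × ℂ} (hg : AnalyticAt ℂ g z) :
    AnalyticAt ℂ (pdt g) z :=
  (analyticAt_fderiv_apply₂ hg (0, 1)).congr
    (hg.eventually_analyticAt.mono fun _ hw => (pdt_eq_fderiv hw.differentiableAt).symm)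

theorem analyticAt_pd {g : ℂ × ℂ → ℂ} {z : ℂ × ℂ} (a b : ℕ) (hg : AnalyticAt ℂ g z) :
    AnalyticAt ℂ (pd a b g) z := by
  have h1 : AnalyticAt ℂ ((pdt^[b]) g) z := by
    induction b with
    | zero => exact hg
    | succ b ih =>
      rw [Function.iterate_succ_apply']
      exact analyticAt_pdt ih
  unfold pd
  induction a with
  | zero => exact h1
  | succ a ih =>
    rw [Function.iterate_succ_apply']
    exact analyticAt_pdy ih

theorem differentiableAt_slice_fst {g : ℂ × ℂ → ℂ} {z : ℂ × ℂ} (hg : DifferentiableAt ℂ g z) :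
    DifferentiableAt ℂ (fun y => g (y, z.2)) z.1 := by
  have h1 : DifferentiableAt ℂ (fun y : ℂ => (y, z.2)) z.1 := by fun_prop
  exact DifferentiableAt.comp (f := fun y : ℂ => (y, z.2)) (g := g) z.1 hg h1

theorem differentiableAt_slice_snd {g : ℂ × ℂ → ℂ} {z : ℂ × ℂ} (hg : DifferentiableAt ℂ g z) :
    DifferentiableAt ℂ (fun t => g (z.1, t)) z.2 := by
  have h1 : DifferentiableAt ℂ (fun t : ℂ => (z.1, t)) z.2 := by fun_prop
  exact DifferentiableAt.comp (f := fun t : ℂ => (z.1, t)) (g := g) z.2 hg h1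

theorem analyticAt_slice_fst {g : ℂ × ℂ → ℂ} {z : ℂ × ℂ} (hg : AnalyticAt ℂ g z) :
    AnalyticAt ℂ (fun y => g (y, z.2)) z.1 := by
  have h1 : AnalyticAt ℂ (fun y : ℂ => (y, z.2)) z.1 := analyticAt_id.prod analyticAt_const
  exact AnalyticAt.comp (f := fun y : ℂ => (y, z.2)) (g := g) hg h1

theorem analyticAt_slice_snd {g : ℂ × ℂ → ℂ} {z : ℂ × ℂ} (hg : AnalyticAt ℂ g z) :
    AnalyticAt ℂ (fun t => g (z.1, t)) z.2 := by
  have h1 : AnalyticAt ℂ (fun t : ℂ => (z.1, t)) z.2 := analyticAt_const.prod analyticAt_id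
  exact AnalyticAt.comp (f := fun t : ℂ => (z.1, t)) (g := g) hg h1

theorem isPreconnected_ballC (c : ℂ) (r : ℝ) : IsPreconnected (Metric.ball c r) :=
  (convex_ball c r : Convex ℝ (Metric.ball c r)).isPreconnected

end Claimed.Agent.R269
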