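/-
Row 269, library L1-SCV: the `Mero2` toolkit, part 2 (unit 4A of Section 4).  Owner: helper270.

* `Mero2At.pdy/pdt/pd`, `Mero2EqAt.pdy/pdt/pd`, `pd_congr_genF`      partial derivatives;
* `exists_eq_pow_mul_snd/fst`     `g = (t - t₁)^N g₁`, `g₁(.,t₁)` not identically `0`;
* `Mero2On.exists_countable_slice_snd/fst`, `Mero2On.exists_countable_generic`    generic slices;
* `sliceMero_mnf`, `SliceMero.meromorphicOn`, `SliceMero.mero2On`      no polar component `t = const`;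
* `exists_analytic_root`          local roots of a polynomial with simple roots.

REMARK ON JUNK VALUES.  A `Mero2On` function has arbitrary values on the zero set of the denominators of ITS local
representations, which may contain whole slices `t = t₁`.  Every pointwise statement is therefore about `mnf F`.
-/
import Claimed.Agent.R269.Lib.Mero2
import Claimed.Agent.R269.Lib.PdBasic
import Claimed.Agent.R269.Lib.SCVb
import Claimed.Agent.R269.S4.Defs
import Claimed.Agent.R269.S5.Pre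

set_option autoImplicit false

namespace Claimed.Agent.R269

open Complex Filter Topology Set

/-! ### Partial derivatives -/

theorem eventually_genF_nhds {z : ℂ × ℂ} {p : ℂ × ℂ → Prop} (h : ∀ᶠ w in genF z, p w) :
    ∀ᶠ w in genF z, ∀ᶠ w' in 𝓝 w, p w' := by
  obtain ⟨k, hk, h0, h1⟩ := h
  refine ⟨k, hk, h0, ?_⟩
  filter_upwards [h1.eventually_nhds, hk.eventually_analyticAt] with w a b hne
  filter_upwards [a, b.continuousAt.eventually_ne hne] with w' c d using c d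

theorem pdy_congr_genF {F P : ℂ × ℂ → ℂ} {z : ℂ × ℂ} (h : F =ᶠ[genF z] P) :
    pdy F =ᶠ[genF z] pdy P :=
  (eventually_genF_nhds h).mono fun _ hw => pdy_congr_nhds hw

theorem pdt_congr_genF {F P : ℂ × ℂ → ℂ} {z : ℂ × ℂ} (h : F =ᶠ[genF z] P) :
    pdt F =ᶠ[genF z] pdt P :=
  (eventually_genF_nhds h).mono fun _ hw => pdt_congr_nhds hw

theorem pd_congr_genF {F P : ℂ × ℂ → ℂ} {z : ℂ × ℂ} (a b : ℕ) (h : F =ᶠ[genF z] P) :
    pd a b F =ᶠ[genF z] pd a b P :=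
  (eventually_genF_nhds h).mono fun _ hw => (pd_congr_nhds a b hw).self_of_nhds

theorem Mero2At.pdy {F : ℂ × ℂ → ℂ} {z : ℂ × ℂ} (hF : Mero2At F z) : Mero2At (pdy F) z := by
  obtain ⟨g, k, hg, hk, h0, h1⟩ := mero2At_iff_genF.1 hF
  refine mero2At_iff_genF.2 ⟨fun w => R269.pdy g w * k w - g w * R269.pdy k w, fun w => k w ^ 2,
    ((analyticAt_pdy hg).mul hk).sub (hg.mul (analyticAt_pdy hk)), hk.pow 2, ?_, ?_⟩
  · simpa only [pow_two] using h0.mul hk hk h0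
  · filter_upwards [pdy_congr_genF h1, eventually_genF_ne_zero hk h0,
      hg.eventually_analyticAt.genF, hk.eventually_analyticAt.genF] with w a b c d
    rw [a]
    exact deriv_fun_div (differentiableAt_slice_fst c.differentiableAt)
      (differentiableAt_slice_fst d.differentiableAt) b

theorem Mero2At.pdt {F : ℂ × ℂ → ℂ} {z : ℂ × ℂ} (hF : Mero2At F z) : Mero2At (pdt F) z := by
  obtain ⟨g, k, hg, hk, h0, h1⟩ := mero2At_iff_genF.1 hF
  refine mero2At_iff_genF.2 ⟨fun w => R269.pdt g w * k w - g w * R269.pdt k w, fun w => k w ^ 2,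
    ((analyticAt_pdt hg).mul hk).sub (hg.mul (analyticAt_pdt hk)), hk.pow 2, ?_, ?_⟩
  · simpa only [pow_two] using h0.mul hk hk h0
  · filter_upwards [pdt_congr_genF h1, eventually_genF_ne_zero hk h0,
      hg.eventually_analyticAt.genF, hk.eventually_analyticAt.genF] with w a b c d
    rw [a]
    exact deriv_fun_div (differentiableAt_slice_snd c.differentiableAt)
      (differentiableAt_slice_snd d.differentiableAt) b

theorem Mero2At.pd {F : ℂ × ℂ → ℂ} {z : ℂ × ℂ} (a b : ℕ) (hF : Mero2At F z) :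
    Mero2At (pd a b F) z := by
  have h1 : Mero2At ((R269.pdt^[b]) F) z := by
    induction b with
    | zero => exact hF
    | succ b ih =>
      rw [Function.iterate_succ_apply']
      exact ih.pdt
  unfold R269.pd
  induction a with
  | zero => exact h1
  | succ a ih =>
    rw [Function.iterate_succ_apply']
    exact ih.pdy

theorem Mero2EqAt.pdy {F P : ℂ × ℂ → ℂ} {z : ℂ × ℂ} (h : Mero2EqAt F P z) :
    Mero2EqAt (pdy F) (pdy P) z :=
  mero2EqAt_iff_genF.2 ⟨h.left.pdy, pdy_congr_genF h.eventuallyEq⟩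

theorem Mero2EqAt.pdt {F P : ℂ × ℂ → ℂ} {z : ℂ × ℂ} (h : Mero2EqAt F P z) :
    Mero2EqAt (pdt F) (pdt P) z :=
  mero2EqAt_iff_genF.2 ⟨h.left.pdt, pdt_congr_genF h.eventuallyEq⟩

theorem Mero2EqAt.pd {F P : ℂ × ℂ → ℂ} {z : ℂ × ℂ} (a b : ℕ) (h : Mero2EqAt F P z) :
    Mero2EqAt (pd a b F) (pd a b P) z :=
  mero2EqAt_iff_genF.2 ⟨h.left.pd a b, pd_congr_genF a b h.eventuallyEq⟩

theorem Mero2On.pd {F : ℂ × ℂ → ℂ} {W : Set (ℂ × ℂ)} (a b : ℕ) (hF : Mero2On F W) :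
    Mero2On (pd a b F) W := fun z hz => (hF z hz).pd a b

/-! ### More on the normal form -/

theorem analyticAt_mnf {F H : ℂ × ℂ → ℂ} {z : ℂ × ℂ} (hH : AnalyticAt ℂ H z)
    (h : F =ᶠ[genF z] H) : AnalyticAt ℂ (mnf F) z :=
  hH.congr (mnf_eventuallyEq_of_analyticAt hH h).symm

theorem mnf_of_analyticAt {F : ℂ × ℂ → ℂ} {z : ℂ × ℂ} (hF : AnalyticAt ℂ F z) : mnf F z = F z :=
  mnf_eq_of_analyticAt hF EventuallyEq.rfl

/-- where the denominator does not vanish the normal form is the quotient. -/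
theorem mnf_eq_div {F g k : ℂ × ℂ → ℂ} {z : ℂ × ℂ} (hg : AnalyticAt ℂ g z) (hk : AnalyticAt ℂ k z)
    (h0 : k z ≠ 0) (h : F =ᶠ[genF z] fun w => g w / k w) : mnf F z = g z / k z :=
  mnf_eq_of_analyticAt (H := fun w => g w / k w) (hg.div hk h0) h

/-! ### Orders along a slice -/

/-- factor out the power of `t - t₁`. -/
theorem exists_eq_pow_mul_snd {g : ℂ × ℂ → ℂ} {z : ℂ × ℂ} (hg : AnalyticAt ℂ g z) (h0 : NZAt g z) :
    ∃ (N : ℕ) (g₁ : ℂ × ℂ → ℂ), AnalyticAt ℂ g₁ z ∧ (¬ ∀ᶠ y in 𝓝 z.1, g₁ (y, z.2) = 0) ∧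
      ∀ᶠ w in 𝓝 z, g w = (w.2 - z.2) ^ N * g₁ w := by
  obtain ⟨N, g₁, hg₁, h1, h2⟩ := SCV.exists_eq_pow_mul (ContinuousLinearMap.snd ℂ ℂ ℂ)
    (v := ((0 : ℂ), (1 : ℂ))) (by simp) hg h0.frequently
  refine ⟨N, g₁, hg₁, fun h3 => ?_, h1.mono fun w hw => by simpa using hw⟩
  have h4 : ∀ᶠ w in 𝓝 z, g₁ (w.1, z.2) = 0 := continuousAt_fst.eventually h3
  obtain ⟨w, ⟨hw1, hw2⟩, hw3⟩ := (h2.and_eventually h4).exists
  apply hw2
  have h5 : w.2 = z.2 := by simpa [sub_eq_zero] using hw1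
  rw [← h5] at hw3
  exact hw3

/-- factor out the power of `y - y₁`. -/
theorem exists_eq_pow_mul_fst {g : ℂ × ℂ → ℂ} {z : ℂ × ℂ} (hg : AnalyticAt ℂ g z) (h0 : NZAt g z) :
    ∃ (N : ℕ) (g₁ : ℂ × ℂ → ℂ), AnalyticAt ℂ g₁ z ∧ (¬ ∀ᶠ t in 𝓝 z.2, g₁ (z.1, t) = 0) ∧
      ∀ᶠ w in 𝓝 z, g w = (w.1 - z.1) ^ N * g₁ w := by
  obtain ⟨N, g₁, hg₁, h1, h2⟩ := SCV.exists_eq_pow_mul (ContinuousLinearMap.fst ℂ ℂ ℂ)
    (v := ((1 : ℂ), (0 : ℂ))) (by simp) hg h0.frequently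
  refine ⟨N, g₁, hg₁, fun h3 => ?_, h1.mono fun w hw => by simpa using hw⟩
  have h4 : ∀ᶠ w in 𝓝 z, g₁ (z.1, w.2) = 0 := continuousAt_snd.eventually h3
  obtain ⟨w, ⟨hw1, hw2⟩, hw3⟩ := (h2.and_eventually h4).exists
  apply hw2
  have h5 : w.1 = z.1 := by simpa [sub_eq_zero] using hw1
  rw [← h5] at hw3
  exact hw3

/-! ### Generic slices -/

/-- a subset of `ℂ` without accumulation points in `U` meets `U` in a countable set. -/
theorem countable_inter_of_eventually_notMem {Z U : Set ℂ}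
    (h : ∀ x ∈ U, ∀ᶠ y in 𝓝[≠] x, y ∉ Z) : (Z ∩ U).Countable := by
  apply (HereditarilyLindelofSpace.isLindelof _).countable_of_isDiscrete
    (isDiscrete_of_codiscreteWithin _)
  rw [mem_codiscreteWithin]
  intro x hx
  rw [disjoint_principal_right]
  filter_upwards [h x hx] with y hy hy'
  exact hy'.2 hy

theorem countable_zeros {φ : ℂ → ℂ} {U : Set ℂ} (hφ : AnalyticOnNhd ℂ φ U) (hU : IsPreconnected U)
    {x : ℂ} (hx : x ∈ U) (h : φ x ≠ 0) : ({t | φ t = 0} ∩ U).Countable := by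
  refine countable_inter_of_eventually_notMem fun y hy => ?_
  rcases (hφ y hy).eventually_eq_zero_or_eventually_ne_zero with h1 | h1
  · exact absurd (hφ.eqOn_zero_of_preconnected_of_eventuallyEq_zero hU hy h1 hx) h
  · exact h1

theorem Mero2At.exists_box {F : ℂ × ℂ → ℂ} {z : ℂ × ℂ} (hF : Mero2At F z) :
    ∃ (g k : ℂ × ℂ → ℂ) (r : ℝ), 0 < r ∧ NZAt k z ∧
      ∀ z' ∈ Metric.ball z.1 r ×ˢ Metric.ball z.2 r, AnalyticAt ℂ g z' ∧ AnalyticAt ℂ k z' ∧
        F =ᶠ[genF z'] fun w => g w / k w := by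
  obtain ⟨g, k, hg, hk, h0, h1⟩ := mero2At_iff_genF.1 hF
  obtain ⟨r, hr, h2⟩ := Metric.eventually_nhds_iff_ball.1
    (hg.eventually_analyticAt.and (hk.eventually_analyticAt.and (eventually_nhds_genF h1)))
  refine ⟨g, k, r, hr, h0, fun z' hz' => h2 z' ?_⟩
  rw [← Prod.mk.eta (p := z), ← ball_prod_same]
  exact hz'

/-- Outside a countable set of `t` no polar component of `F` is contained in the slice `t = const`. -/
theorem Mero2On.exists_countable_slice_snd {F : ℂ × ℂ → ℂ} {W : Set (ℂ × ℂ)} (hF : Mero2On F W) :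
    ∃ B : Set ℂ, B.Countable ∧ ∀ z ∈ W, z.2 ∉ B → ∃ g k : ℂ × ℂ → ℂ, AnalyticAt ℂ g z ∧
      AnalyticAt ℂ k z ∧ (¬ ∀ᶠ y in 𝓝 z.1, k (y, z.2) = 0) ∧ F =ᶠ[genF z] fun w => g w / k w := by
  choose! g k r hr hNZ hbox using fun z (hz : z ∈ W) => (hF z hz).exists_box
  have hmem : ∀ z ∈ W, Metric.ball z.1 (r z) ×ˢ Metric.ball z.2 (r z) ∈ 𝓝 z := fun z hz =>
    prod_mem_nhds (Metric.ball_mem_nhds _ (hr z hz)) (Metric.ball_mem_nhds _ (hr z hz))
  obtain ⟨T, hTW, hTc, hcov⟩ := TopologicalSpace.countable_cover_nhdsWithin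
    (f := fun z : ℂ × ℂ => Metric.ball z.1 (r z) ×ˢ Metric.ball z.2 (r z)) (s := W)
    (fun z hz => mem_nhdsWithin_of_mem_nhds (hmem z hz))
  refine ⟨⋃ z ∈ T, {t | t ∈ Metric.ball z.2 (r z) ∧ ∀ y ∈ Metric.ball z.1 (r z), k z (y, t) = 0},
    hTc.biUnion fun z hz => ?_, ?_⟩
  · obtain ⟨w, hw2, hw1⟩ := ((hNZ z (hTW hz)).frequently.and_eventually (hmem z (hTW hz))).exists
    refine (countable_zeros (φ := fun t => k z (w.1, t)) (U := Metric.ball z.2 (r z)) ?_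
      (isPreconnected_ballC _ _) hw1.2 hw2).mono ?_
    · intro t ht
      exact analyticAt_slice_snd (z := (w.1, t)) (hbox z (hTW hz) (w.1, t) ⟨hw1.1, ht⟩).2.1
    · rintro t ⟨ht1, ht2⟩
      exact ⟨ht2 w.1 hw1.1, ht1⟩
  · intro z' hz' hB
    obtain ⟨z, hzT, hz'box⟩ := mem_iUnion₂.1 (hcov hz')
    obtain ⟨h1, h2, h3⟩ := hbox z (hTW hzT) z' hz'box
    refine ⟨g z, k z, h1, h2, fun h0 => hB ?_, h3⟩
    refine mem_iUnion₂.2 ⟨z, hzT, hz'box.2, fun y hy => ?_⟩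
    have h5 : AnalyticOnNhd ℂ (fun y => k z (y, z'.2)) (Metric.ball z.1 (r z)) := by
      intro y hy
      exact analyticAt_slice_fst (z := (y, z'.2)) (hbox z (hTW hzT) (y, z'.2) ⟨hy, hz'box.2⟩).2.1
    exact h5.eqOn_zero_of_preconnected_of_eventuallyEq_zero
      (isPreconnected_ballC _ _) hz'box.1 h0 hy

/-! swap -/

theorem analyticAt_swap (z : ℂ × ℂ) : AnalyticAt ℂ (Prod.swap : ℂ × ℂ → ℂ × ℂ) z :=
  analyticAt_snd.prod analyticAt_fst

theorem le_map_swap (z : ℂ × ℂ) : 𝓝 (Prod.swap z) ≤ map (Prod.swap : ℂ × ℂ → ℂ × ℂ) (𝓝 z) :=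
  le_map_of_rightInverse (Ψ := Prod.swap)
    (by simpa using (continuous_swap.tendsto (Prod.swap z)))
    (Eventually.of_forall fun w => Prod.swap_swap w)

theorem tendsto_genF_swap (z : ℂ × ℂ) :
    Tendsto (Prod.swap : ℂ × ℂ → ℂ × ℂ) (genF z) (genF (Prod.swap z)) :=
  tendsto_genF_of_le_map (analyticAt_swap z) (le_map_swap z)

theorem Mero2At.swap {F : ℂ × ℂ → ℂ} {z : ℂ × ℂ} (hF : Mero2At F (Prod.swap z)) :
    Mero2At (fun w => F (Prod.swap w)) z :=
  hF.comp_of_le_map (analyticAt_swap z) (le_map_swap z)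

/-- the same for the slices `y = const`. -/
theorem Mero2On.exists_countable_slice_fst {F : ℂ × ℂ → ℂ} {W : Set (ℂ × ℂ)} (hF : Mero2On F W) :
    ∃ B : Set ℂ, B.Countable ∧ ∀ z ∈ W, z.1 ∉ B → ∃ g k : ℂ × ℂ → ℂ, AnalyticAt ℂ g z ∧
      AnalyticAt ℂ k z ∧ (¬ ∀ᶠ t in 𝓝 z.2, k (z.1, t) = 0) ∧ F =ᶠ[genF z] fun w => g w / k w := by
  have h1 : Mero2On (fun w => F (Prod.swap w)) (Prod.swap ⁻¹' W) := fun z hz =>
    Mero2At.swap (hF _ hz)
  obtain ⟨B, hB, h2⟩ := h1.exists_countable_slice_snd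
  refine ⟨B, hB, fun z hz hzB => ?_⟩
  obtain ⟨g, k, hg, hk, h3, h4⟩ := h2 (Prod.swap z) (by simpa using hz) hzB
  refine ⟨fun w => g (Prod.swap w), fun w => k (Prod.swap w),
    AnalyticAt.comp (f := Prod.swap) (g := g) hg (analyticAt_swap z),
    AnalyticAt.comp (f := Prod.swap) (g := k) hk (analyticAt_swap z), h3, ?_⟩
  filter_upwards [(tendsto_genF_swap z).eventually h4] with w hw
  simpa using hw

/-- **Generic slices.**  If `F` is nowhere the zero germ then, for `t` outside a countable set, the points `y` of the slice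
where `F` is not analytic or vanishes have no accumulation point in the slice of `W`. -/
theorem Mero2On.exists_countable_generic {F : ℂ × ℂ → ℂ} {W : Set (ℂ × ℂ)} (hF : Mero2On F W)
    (h0 : ∀ z ∈ W, ¬ ∀ᶠ w in genF z, F w = 0) :
    ∃ B : Set ℂ, B.Countable ∧ ∀ z ∈ W, z.2 ∉ B →
      ∀ᶠ y in 𝓝[≠] z.1, AnalyticAt ℂ (mnf F) (y, z.2) ∧ mnf F (y, z.2) ≠ 0 := by
  obtain ⟨B, hB, h1⟩ := hF.exists_countable_slice_snd
  obtain ⟨B', hB', h1'⟩ := Mero2On.exists_countable_slice_snd (F := fun w => (F w)⁻¹) (W := W)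
    (fun z hz => (hF z hz).inv)
  refine ⟨B ∪ B', hB.union hB', fun z hz hzB => ?_⟩
  obtain ⟨g, k, hg, hk, hk0, hFg⟩ := h1 z hz (fun h => hzB (Or.inl h))
  obtain ⟨g', k', hg', hk', hk0', hFg'⟩ := h1' z hz (fun h => hzB (Or.inr h))
  have e1 : ∀ᶠ y in 𝓝[≠] z.1, k (y, z.2) ≠ 0 :=
    ((analyticAt_slice_fst hk).eventually_eq_zero_or_eventually_ne_zero).resolve_left hk0
  have e2 : ∀ᶠ y in 𝓝[≠] z.1, k' (y, z.2) ≠ 0 :=
    ((analyticAt_slice_fst hk').eventually_eq_zero_or_eventually_ne_zero).resolve_left hk0'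
  have e3 : ∀ᶠ w in 𝓝 z, AnalyticAt ℂ g w ∧ AnalyticAt ℂ k w ∧ AnalyticAt ℂ g' w ∧
      AnalyticAt ℂ k' w ∧ (F =ᶠ[genF w] fun w => g w / k w) ∧
      ((fun w => (F w)⁻¹) =ᶠ[genF w] fun w => g' w / k' w) ∧ ∀ᶠ w' in genF w, F w' ≠ 0 := by
    filter_upwards [hg.eventually_analyticAt, hk.eventually_analyticAt,
      hg'.eventually_analyticAt, hk'.eventually_analyticAt, eventually_nhds_genF hFg,
      eventually_nhds_genF hFg',
      eventually_nhds_genF ((hF z hz).eventually_ne_zero (h0 z hz))] with w a b c d e f g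
      using ⟨a, b, c, d, e, f, g⟩
  have e4 := ((tendsto_mk_fst z).eventually e3).filter_mono
    (nhdsWithin_le_nhds (s := ({z.1}ᶜ : Set ℂ)))
  filter_upwards [e1, e2, e4] with y a b c
  obtain ⟨c1, c2, c3, c4, c5, c6, c7⟩ := c
  have hA : AnalyticAt ℂ (fun w => g w / k w) (y, z.2) := c1.div c2 a
  have hA' : AnalyticAt ℂ (fun w => g' w / k' w) (y, z.2) := c3.div c4 b
  refine ⟨analyticAt_mnf hA c5, ?_⟩
  rw [mnf_eq_of_analyticAt hA c5]
  have h5 : (fun w => (g w / k w) * (g' w / k' w)) =ᶠ[genF (y, z.2)] fun _ => 1 := by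
    filter_upwards [c5, c6, c7] with w p q r
    rw [← p, ← q]
    exact mul_inv_cancel₀ r
  have h6 : (g (y, z.2) / k (y, z.2)) * (g' (y, z.2) / k' (y, z.2)) = 1 :=
    (eventuallyEq_nhds_of_genF (hA.mul hA') analyticAt_const h5).self_of_nhds
  intro h7
  rw [h7, zero_mul] at h6
  exact zero_ne_one h6

/-! ### `SliceMero` -/

theorem SliceMero.mero2On {F : ℂ × ℂ → ℂ} {W : Set (ℂ × ℂ)} (h : SliceMero F W) : Mero2On F W := by
  intro z hz
  obtain ⟨g, k, hg, hk, h0, h1⟩ := h z hz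
  exact ⟨g, k, hg, hk, fun h2 => h0 ((tendsto_mk_fst z).eventually h2), h1⟩

theorem SliceMero.meromorphicOn {F : ℂ × ℂ → ℂ} {W : Set (ℂ × ℂ)} (h : SliceMero F W) (t : ℂ) :
    MeromorphicOn (fun y => F (y, t)) {y | (y, t) ∈ W} := by
  intro y hy
  obtain ⟨g, k, hg, hk, h0, h1⟩ := h (y, t) hy
  have hg' : AnalyticAt ℂ (fun y' => g (y', t)) y := analyticAt_slice_fst (z := (y, t)) hg
  have hk' : AnalyticAt ℂ (fun y' => k (y', t)) y := analyticAt_slice_fst (z := (y, t)) hk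
  have e1 : ∀ᶠ y' in 𝓝[≠] y, k (y', t) ≠ 0 :=
    hk'.eventually_eq_zero_or_eventually_ne_zero.resolve_left h0
  have e2 : ∀ᶠ y' in 𝓝[≠] y, k (y', t) ≠ 0 → F (y', t) = g (y', t) / k (y', t) :=
    ((tendsto_mk_fst (y, t)).eventually h1).filter_mono nhdsWithin_le_nhds
  refine (hg'.meromorphicAt.div hk'.meromorphicAt).congr ?_
  filter_upwards [e1, e2] with y' a b
  exact (b a).symm

/-- a representation with a denominator which is not identically zero on the slice gives `SliceMero (mnf F)`. -/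
theorem sliceMero_mnf_of_forall {F : ℂ × ℂ → ℂ} {W : Set (ℂ × ℂ)}
    (h : ∀ z ∈ W, ∃ g k : ℂ × ℂ → ℂ, AnalyticAt ℂ g z ∧ AnalyticAt ℂ k z ∧
      (¬ ∀ᶠ y in 𝓝 z.1, k (y, z.2) = 0) ∧ F =ᶠ[genF z] fun w => g w / k w) :
    SliceMero (mnf F) W := by
  intro z hz
  obtain ⟨g, k, hg, hk, h0, h1⟩ := h z hz
  refine ⟨g, k, hg, hk, h0, ?_⟩
  filter_upwards [hg.eventually_analyticAt, hk.eventually_analyticAt, eventually_nhds_genF h1]
    with w a b c hne
  exact mnf_eq_div a b hne c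

theorem nzAt_snd_sub_pow (t₁ : ℂ) (a : ℕ) (z : ℂ × ℂ) :
    NZAt (fun w : ℂ × ℂ => (w.2 - t₁) ^ a) z := by
  intro h
  have h1 : ∀ᶠ t in 𝓝 z.2, (t - t₁) ^ a = 0 := (tendsto_mk_snd z).eventually h
  have h2 : AnalyticOnNhd ℂ (fun t : ℂ => (t - t₁) ^ a) univ := fun t _ => by fun_prop
  have h3 := h2.eqOn_zero_of_preconnected_of_eventuallyEq_zero isPreconnected_univ
    (mem_univ z.2) h1 (mem_univ (t₁ + 1))
  simp at h3

theorem nzAt_fst_sub_pow (y₁ : ℂ) (a : ℕ) (z : ℂ × ℂ) :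
    NZAt (fun w : ℂ × ℂ => (w.1 - y₁) ^ a) z := by
  intro h
  have h1 : ∀ᶠ t in 𝓝 z.1, (t - y₁) ^ a = 0 := (tendsto_mk_fst z).eventually h
  have h2 : AnalyticOnNhd ℂ (fun t : ℂ => (t - y₁) ^ a) univ := fun t _ => by fun_prop
  have h3 := h2.eqOn_zero_of_preconnected_of_eventuallyEq_zero isPreconnected_univ
    (mem_univ z.1) h1 (mem_univ (y₁ + 1))
  simp at h3

theorem analyticAt_snd_sub_pow (t₁ : ℂ) (a : ℕ) (z : ℂ × ℂ) :
    AnalyticAt ℂ (fun w : ℂ × ℂ => (w.2 - t₁) ^ a) z := (analyticAt_snd.sub analyticAt_const).pow a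

theorem analyticAt_fst_sub_pow (y₁ : ℂ) (a : ℕ) (z : ℂ × ℂ) :
    AnalyticAt ℂ (fun w : ℂ × ℂ => (w.1 - y₁) ^ a) z := (analyticAt_fst.sub analyticAt_const).pow a

/-- **No polar component `t = const`.**  `F` meromorphic on `B × V`, `B` connected, with analytic germs at the points of
`S × V`, `S ⊆ B` nonempty. -/
theorem sliceMero_mnf {F : ℂ × ℂ → ℂ} {B S V : Set ℂ} (hBc : IsPreconnected B)
    (hSB : S ⊆ B) (hS : S.Nonempty) (hF : Mero2On F (B ×ˢ V))
    (hFS : ∀ z ∈ S ×ˢ V, ∃ H : ℂ × ℂ → ℂ, AnalyticAt ℂ H z ∧ F =ᶠ[genF z] H) :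
    SliceMero (mnf F) (B ×ˢ V) := by
  refine sliceMero_mnf_of_forall ?_
  rintro ⟨y₁, t₁⟩ ⟨hy₁, ht₁⟩
  let P : ℂ → Prop := fun y => ∃ g k : ℂ × ℂ → ℂ, AnalyticAt ℂ g (y, t₁) ∧ AnalyticAt ℂ k (y, t₁) ∧
    (¬ ∀ᶠ y' in 𝓝 y, k (y', t₁) = 0) ∧ F =ᶠ[genF (y, t₁)] fun w => g w / k w
  have hopen : IsOpen {y | P y} := by
    rw [isOpen_iff_mem_nhds]
    rintro y ⟨g, k, hg, hk, h0, h1⟩
    have e1 : ∀ᶠ y' in 𝓝 y, ∃ᶠ y'' in 𝓝 y', k (y'', t₁) ≠ 0 :=
      SCV.eventually_frequently_ne_zero (analyticAt_slice_fst (z := (y, t₁)) hk)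
        (Filter.not_eventually.1 h0)
    have e2 : ∀ᶠ y' in 𝓝 y, AnalyticAt ℂ g (y', t₁) ∧ AnalyticAt ℂ k (y', t₁) ∧
        F =ᶠ[genF (y', t₁)] fun w => g w / k w :=
      (tendsto_mk_fst (y, t₁)).eventually (hg.eventually_analyticAt.and
        (hk.eventually_analyticAt.and (eventually_nhds_genF h1)))
    filter_upwards [e1, e2] with y' a b
    exact ⟨g, k, b.1, b.2.1, Filter.not_eventually.2 a, b.2.2⟩
  have hne : (B ∩ {y | P y}).Nonempty := by
    obtain ⟨s, hs⟩ := hS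
    obtain ⟨H, hH, hFH⟩ := hFS (s, t₁) ⟨hs, ht₁⟩
    refine ⟨s, hSB hs, H, fun _ => 1, hH, analyticAt_const,
      fun h => one_ne_zero h.self_of_nhds, ?_⟩
    simpa using hFH
  have hclosed : closure {y | P y} ∩ B ⊆ {y | P y} := by
    rintro y₀ ⟨hcl, hy₀⟩
    obtain ⟨g, k, hg, hk, hk0, hFg⟩ := mero2At_iff_genF.1 (hF (y₀, t₁) ⟨hy₀, ht₁⟩)
    by_cases hg0 : NZAt g (y₀, t₁)
    swap
    · refine ⟨fun _ => 0, fun _ => 1, analyticAt_const, analyticAt_const,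
        fun h => one_ne_zero h.self_of_nhds, ?_⟩
      have hg1 : ∀ᶠ w in 𝓝 (y₀, t₁), g w = 0 := not_not.1 hg0
      filter_upwards [hFg, hg1.genF] with w a b
      rw [a, b]
      simp
    obtain ⟨a, g₁, hg₁, hg₁0, hge⟩ := exists_eq_pow_mul_snd hg hg0
    obtain ⟨b, k₁, hk₁, hk₁0, hke⟩ := exists_eq_pow_mul_snd hk hk0
    simp only at hg₁0 hk₁0 hge hke
    by_cases hab : b ≤ a
    · refine ⟨fun w => (w.2 - t₁) ^ (a - b) * g₁ w, k₁, (analyticAt_snd_sub_pow t₁ _ _).mul hg₁,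
        hk₁, hk₁0, ?_⟩
      filter_upwards [hFg, hge.genF, hke.genF,
        eventually_genF_ne_zero (analyticAt_snd_sub_pow t₁ b _) (nzAt_snd_sub_pow t₁ b _)]
        with w p q r s
      have h1 : (w.2 - t₁) ^ a = (w.2 - t₁) ^ (a - b) * (w.2 - t₁) ^ b := by
        rw [← pow_add, Nat.sub_add_cancel hab]
      rw [p, q, r, h1, mul_right_comm, mul_comm ((w.2 - t₁) ^ b) (k₁ w), mul_div_mul_right _ _ s]
    · exfalso
      have hab' : a < b := not_le.1 hab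
      have hfreq : ∃ᶠ y in 𝓝 y₀, P y := mem_closure_iff_frequently.1 hcl
      have e0 : ∀ᶠ w in 𝓝 (y₀, t₁), AnalyticAt ℂ g₁ w ∧ AnalyticAt ℂ k₁ w ∧ AnalyticAt ℂ g w ∧
          AnalyticAt ℂ k w ∧ NZAt k w ∧ (F =ᶠ[genF w] fun w => g w / k w) ∧
          (∀ᶠ w' in 𝓝 w, g w' = (w'.2 - t₁) ^ a * g₁ w') ∧
          (∀ᶠ w' in 𝓝 w, k w' = (w'.2 - t₁) ^ b * k₁ w') := by
        filter_upwards [hg₁.eventually_analyticAt, hk₁.eventually_analyticAt,
          hg.eventually_analyticAt, hk.eventually_analyticAt, hk0.eventually hk,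
          eventually_nhds_genF hFg, hge.eventually_nhds, hke.eventually_nhds]
          with w c1 c2 c3 c4 c5 c6 c7 c8 using ⟨c1, c2, c3, c4, c5, c6, c7, c8⟩
      have e1 := ((tendsto_mk_fst (y₀, t₁)).eventually e0).eventually_nhds
      have e2 : ∀ᶠ y in 𝓝 y₀, ∃ᶠ y' in 𝓝 y, g₁ (y', t₁) ≠ 0 :=
        SCV.eventually_frequently_ne_zero (analyticAt_slice_fst (z := (y₀, t₁)) hg₁)
          (Filter.not_eventually.1 hg₁0)
      obtain ⟨y, hPy, hy1, hy2⟩ := (hfreq.and_eventually (e1.and e2)).exists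
      obtain ⟨g', k', hg', hk', hk'0, hFg'⟩ := hPy
      have f1 : ∀ᶠ y'' in 𝓝[≠] y, k' (y'', t₁) ≠ 0 :=
        (analyticAt_slice_fst (z := (y, t₁)) hk').eventually_eq_zero_or_eventually_ne_zero.resolve_left
          hk'0
      have f2 : ∀ᶠ y'' in 𝓝[≠] y, g₁ (y'', t₁) ≠ 0 :=
        (analyticAt_slice_fst (z := (y, t₁))
          hy1.self_of_nhds.1).eventually_eq_zero_or_eventually_ne_zero.resolve_left
          (Filter.not_eventually.2 hy2)
      have f3 := hy1.filter_mono (nhdsWithin_le_nhds (s := ({y}ᶜ : Set ℂ)))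
      have f4 : ∀ᶠ y'' in 𝓝[≠] y, AnalyticAt ℂ g' (y'', t₁) ∧ AnalyticAt ℂ k' (y'', t₁) ∧
          F =ᶠ[genF (y'', t₁)] fun w => g' w / k' w :=
        ((tendsto_mk_fst (y, t₁)).eventually (hg'.eventually_analyticAt.and
          (hk'.eventually_analyticAt.and (eventually_nhds_genF hFg')))).filter_mono
          nhdsWithin_le_nhds
      obtain ⟨y'', q1, q2, ⟨c1, c2, c3, c4, c5, c6, c7, c8⟩, d1, d2, d3⟩ :=
        (f1.and (f2.and (f3.and f4))).exists
      have hH : AnalyticAt ℂ (fun w => g' w / k' w) (y'', t₁) := d1.div d2 q1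
      have h8 : (fun w => (g' w / k' w) * k w) =ᶠ[genF (y'', t₁)] g := by
        filter_upwards [c6, d3, eventually_genF_ne_zero c4 c5] with w p q r
        rw [← q, p, div_mul_cancel₀ _ r]
      have h9 := eventuallyEq_nhds_of_genF (hH.mul c4) c3 h8
      have h10 : ∀ᶠ w in 𝓝 (y'', t₁), (w.2 - t₁) ^ a *
          ((g' w / k' w) * ((w.2 - t₁) ^ (b - a) * k₁ w) - g₁ w) = 0 := by
        filter_upwards [h9, c7, c8] with w p q r
        have h1 : (w.2 - t₁) ^ b = (w.2 - t₁) ^ a * (w.2 - t₁) ^ (b - a) := by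
          rw [← pow_add, Nat.add_sub_cancel' hab'.le]
        have p' : (g' w / k' w) * k w = g w := p
        rw [q, r, h1] at p'
        linear_combination p'
      rcases SCV.eventually_eq_zero_or_of_mul (analyticAt_snd_sub_pow t₁ a _)
        ((hH.mul ((analyticAt_snd_sub_pow t₁ (b - a) _).mul c2)).sub c1) h10 with h11 | h11
      · exact nzAt_snd_sub_pow t₁ a _ h11
      · have h12 : (g' (y'', t₁) / k' (y'', t₁)) * ((t₁ - t₁) ^ (b - a) * k₁ (y'', t₁)) -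
            g₁ (y'', t₁) = 0 := h11.self_of_nhds
        rw [sub_self, zero_pow (by omega), zero_mul, mul_zero, zero_sub, neg_eq_zero] at h12
        exact q2 h12
  exact hBc.subset_of_closure_inter_subset hopen hne hclosed hy₁

theorem isOpen_hband (a b : ℝ) : IsOpen (hband a b) :=
  (isOpen_lt continuous_const Complex.continuous_im).inter
    (isOpen_lt Complex.continuous_im continuous_const)

theorem isPreconnected_hband (a b : ℝ) : IsPreconnected (hband a b) := by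
  have h : Convex ℝ (hband a b) := by
    intro x hx y hy s t hs ht hst
    have h1 : (s • x + t • y).im = s * x.im + t * y.im := by simp
    refine ⟨?_, ?_⟩
    · rw [h1]
      rcases eq_or_lt_of_le hs with rfl | hs'
      · have : t = 1 := by linarith
        subst this
        simpa using hy.1
      · have e1 := mul_lt_mul_of_pos_left hx.1 hs'
        have e2 := mul_le_mul_of_nonneg_left hy.1.le ht
        have e3 : a = s * a + t * a := by rw [← add_mul, hst, one_mul]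
        linarith
    · rw [h1]
      rcases eq_or_lt_of_le hs with rfl | hs'
      · have : t = 1 := by linarith
        subst this
        simpa using hy.2
      · have e1 := mul_lt_mul_of_pos_left hx.2 hs'
        have e2 := mul_le_mul_of_nonneg_left hy.2.le ht
        have e3 : b = s * b + t * b := by rw [← add_mul, hst, one_mul]
        linarith
  exact h.isPreconnected

/-- the form used for the widths. -/
theorem sliceMero_mnf_hband {F : ℂ × ℂ → ℂ} {V : Set ℂ} {a a' b' b : ℝ} (h1 : a ≤ a') (h2 : a' < b')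
    (h3 : b' ≤ b) (hF : Mero2On F (hband a b ×ˢ V)) (hF' : AnalyticOnNhd ℂ F (hband a' b' ×ˢ V)) :
    SliceMero (mnf F) (hband a b ×ˢ V) := by
  refine sliceMero_mnf (S := hband a' b') (isPreconnected_hband a b)
    (fun y hy => ⟨h1.trans_lt hy.1, hy.2.trans_le h3⟩)
    ⟨((a' + b') / 2 : ℝ) * I, by simp [hband]; constructor <;> linarith⟩ hF
    fun z hz => ⟨F, hF' z hz, EventuallyEq.rfl⟩

/-! ### Normal form and composition; the implicit function theorem -/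

/-- the normal form commutes with local biholomorphisms. -/
theorem mnf_comp_of_inverse {F : ℂ × ℂ → ℂ} {Φ Ψ : ℂ × ℂ → ℂ × ℂ} {z : ℂ × ℂ}
    (hΦ : AnalyticAt ℂ Φ z) (hΨ : AnalyticAt ℂ Ψ (Φ z)) (h1 : Ψ (Φ z) = z)
    (h2 : ∀ᶠ w in 𝓝 (Φ z), Φ (Ψ w) = w) (h3 : ∀ᶠ w in 𝓝 z, Ψ (Φ w) = w) :
    mnf (fun w => F (Φ w)) z = mnf F (Φ z) := by
  have hΨt : Tendsto Ψ (𝓝 (Φ z)) (𝓝 z) := by
    have := hΨ.continuousAt.tendsto
    rwa [h1] at this
  have l1 : 𝓝 (Φ z) ≤ map Φ (𝓝 z) := le_map_of_rightInverse hΨt h2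
  have l2 : 𝓝 (Ψ (Φ z)) ≤ map Ψ (𝓝 (Φ z)) := by
    refine le_map_of_rightInverse (Φ := Ψ) (Ψ := Φ) (z := Φ z) ?_ ?_
    · rw [h1]
      exact hΦ.continuousAt.tendsto
    · rw [h1]
      exact h3
  by_cases hex : ∃ H : ℂ × ℂ → ℂ, AnalyticAt ℂ H (Φ z) ∧ F =ᶠ[genF (Φ z)] H
  · obtain ⟨H, hH, hFH⟩ := hex
    rw [mnf_eq_of_analyticAt hH hFH]
    exact mnf_eq_of_analyticAt (H := fun w => H (Φ w)) (AnalyticAt.comp (f := Φ) (g := H) hH hΦ)
      ((tendsto_genF_of_le_map hΦ l1).eventually hFH)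
  · rw [mnf_eq_zero hex, mnf_eq_zero]
    rintro ⟨H, hH, hFH⟩
    apply hex
    have hH' : AnalyticAt ℂ H (Ψ (Φ z)) := by rwa [h1]
    refine ⟨fun w => H (Ψ w), AnalyticAt.comp (f := Ψ) (g := H) hH' hΨ, ?_⟩
    have h4 : Tendsto Ψ (genF (Φ z)) (genF z) := by
      have := tendsto_genF_of_le_map hΨ l2
      rwa [h1] at this
    filter_upwards [h4.eventually hFH, h2.genF] with w a b
    rw [← a, b]

theorem mnf_comp_shear {F : ℂ × ℂ → ℂ} {a : ℂ → ℂ} {t₀ r : ℂ} {z : ℂ × ℂ}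
    (ha : AnalyticAt ℂ a z.2) (hr : r ≠ 0) :
    mnf (fun w => F (shear a t₀ r w)) z = mnf F (shear a t₀ r z) := by
  have h0 : ((shear a t₀ r z).2 - t₀) / r = z.2 := by
    simp only [shear]
    field_simp
    ring
  have hΨ : AnalyticAt ℂ (fun w : ℂ × ℂ => (w.1 - a ((w.2 - t₀) / r), (w.2 - t₀) / r))
      (shear a t₀ r z) := by
    have h1 : AnalyticAt ℂ (fun w : ℂ × ℂ => (w.2 - t₀) / r) (shear a t₀ r z) :=
      (analyticAt_snd.sub analyticAt_const).div analyticAt_const hr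
    have h2 : AnalyticAt ℂ (fun w : ℂ × ℂ => a ((w.2 - t₀) / r)) (shear a t₀ r z) :=
      AnalyticAt.comp (f := fun w : ℂ × ℂ => (w.2 - t₀) / r) (g := a) (by rwa [h0]) h1
    exact (analyticAt_fst.sub h2).prod h1
  have hl : ∀ w : ℂ × ℂ, (fun w : ℂ × ℂ => (w.1 - a ((w.2 - t₀) / r), (w.2 - t₀) / r))
      (shear a t₀ r w) = w := by
    intro w
    have h0 : ((shear a t₀ r w).2 - t₀) / r = w.2 := by
      simp only [shear]
      field_simp
      ring
    refine Prod.ext ?_ h0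
    show (shear a t₀ r w).1 - a (((shear a t₀ r w).2 - t₀) / r) = w.1
    rw [h0]
    simp [shear]
  refine mnf_comp_of_inverse (analyticAt_shear ha) hΨ (hl z) (Eventually.of_forall fun w => ?_)
    (Eventually.of_forall hl)
  refine Prod.ext ?_ ?_
  · simp [shear]
  · simp only [shear]
    field_simp
    ring

/-! ### Local roots -/

theorem Mero2At.exists_eq_zero_of_prod {ι : Type*} {s : Finset ι} {F : ι → ℂ × ℂ → ℂ} {z : ℂ × ℂ}
    (hF : ∀ i ∈ s, Mero2At (F i) z) (h : ∀ᶠ w in genF z, ∏ i ∈ s, F i w = 0) :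
    ∃ i ∈ s, ∀ᶠ w in genF z, F i w = 0 := by
  classical
  induction s using Finset.induction_on with
  | empty =>
    obtain ⟨w, hw⟩ := h.exists
    simp at hw
  | insert i s hi ih =>
    simp only [Finset.prod_insert hi] at h
    rcases (hF i (Finset.mem_insert_self i s)).eq_zero_or_of_mul
      (Mero2At.prod fun j hj => hF j (Finset.mem_insert_of_mem hj)) h with h1 | h1
    · exact ⟨i, Finset.mem_insert_self i s, h1⟩
    · obtain ⟨j, hj, h2⟩ := ih (fun j hj => hF j (Finset.mem_insert_of_mem hj)) h1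
      exact ⟨j, Finset.mem_insert_of_mem hj, h2⟩

/-- **Local roots.**  `Π_w(X) = ∑_{i ≤ d} a_i(w) X^i` with coefficients analytic at `z₁`, `a_d(z₁) ≠ 0`, all roots of `Π_{z₁}`
simple.  `u` meromorphic on a set `O` which is "connected at `z₁`", `Π(u) = 0` generically.  Then `u` extends
analytically to a neighbourhood of `z₁`. -/
theorem exists_analytic_root {d : ℕ} {a : ℕ → ℂ × ℂ → ℂ} {z₁ : ℂ × ℂ}
    (ha : ∀ i ≤ d, AnalyticAt ℂ (a i) z₁) (hd : a d z₁ ≠ 0)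
    (hsimple : ∀ x : ℂ, ∑ i ∈ Finset.range (d + 1), a i z₁ * x ^ i = 0 →
      ∑ i ∈ Finset.range (d + 1), a i z₁ * ((i : ℂ) * x ^ (i - 1)) ≠ 0)
    {O : Set (ℂ × ℂ)} (_hO : IsOpen O)
    (hconn : ∀ N ∈ 𝓝 z₁, ∃ N' ⊆ N, IsOpen N' ∧ z₁ ∈ N' ∧ (O ∩ N').Nonempty ∧ IsPreconnected (O ∩ N'))
    {u : ℂ × ℂ → ℂ} (hu : Mero2On u O)
    (hroot : ∀ z ∈ O, ∀ᶠ w in genF z, ∑ i ∈ Finset.range (d + 1), a i w * u w ^ i = 0) :
    ∃ U : ℂ × ℂ → ℂ, AnalyticAt ℂ U z₁ ∧ ∀ᶠ z in 𝓝 z₁, z ∈ O → Mero2EqAt u U z := by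
  classical
  let Pw : ℂ × ℂ → Polynomial ℂ := fun w =>
    ∑ i ∈ Finset.range (d + 1), Polynomial.C (a i w) * Polynomial.X ^ i
  have heval : ∀ w x, (Pw w).eval x = ∑ i ∈ Finset.range (d + 1), a i w * x ^ i := by
    intro w x
    simp [Pw, Polynomial.eval_finsetSum]
  have hcoeff : ∀ w, (Pw w).coeff d = a d w := by
    intro w
    simp only [Pw, Polynomial.finsetSum_coeff, Polynomial.coeff_C_mul, Polynomial.coeff_X_pow]
    rw [Finset.sum_eq_single d]
    · simp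
    · intro i _ hi
      simp [Ne.symm hi]
    · intro h
      exact absurd (Finset.mem_range.2 (Nat.lt_succ_self d)) h
  have hdeg : ∀ w, (Pw w).natDegree ≤ d := by
    intro w
    refine Polynomial.natDegree_sum_le_of_forall_le _ _ fun i hi => ?_
    exact (Polynomial.natDegree_C_mul_X_pow_le _ _).trans (Nat.lt_succ_iff.1 (Finset.mem_range.1 hi))
  have hderiv : ∀ x, (Pw z₁).derivative.eval x =
      ∑ i ∈ Finset.range (d + 1), a i z₁ * ((i : ℂ) * x ^ (i - 1)) := by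
    intro x
    simp only [Pw, Polynomial.derivative_sum, Polynomial.eval_finsetSum,
      Polynomial.derivative_C_mul_X_pow, Polynomial.eval_mul, Polynomial.eval_C,
      Polynomial.eval_pow, Polynomial.eval_X]
    refine Finset.sum_congr rfl fun i _ => ?_
    simp [mul_assoc]
  have hP₁0 : Pw z₁ ≠ 0 := fun h => hd (by rw [← hcoeff, h]; simp)
  have hnodup : (Pw z₁).roots.Nodup := by
    rw [Multiset.nodup_iff_count_le_one]
    intro x
    rw [Polynomial.count_roots]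
    by_contra hc
    obtain ⟨h1, h2⟩ := (Polynomial.one_lt_rootMultiplicity_iff_isRoot hP₁0).1 (not_le.1 hc)
    exact hsimple x (by rw [← heval]; exact h1) (by rw [← hderiv]; exact h2)
  have hP₁deg : (Pw z₁).natDegree = d :=
    le_antisymm (hdeg z₁) (Polynomial.le_natDegree_of_ne_zero (by rw [hcoeff]; exact hd))
  set R : Finset ℂ := (Pw z₁).roots.toFinset with hR
  have hcard : R.card = d := by
    rw [hR, Multiset.toFinset_card_of_nodup hnodup, IsAlgClosed.card_roots_eq_natDegree, hP₁deg]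
  -- implicit functions
  let Φ : (ℂ × ℂ) × ℂ → ℂ := fun p => ∑ i ∈ Finset.range (d + 1), a i p.1 * p.2 ^ i
  have hU : ∀ x ∈ R, ∃ ψ : ℂ × ℂ → ℂ, AnalyticAt ℂ ψ z₁ ∧ ψ z₁ = x ∧
      ∀ᶠ w in 𝓝 z₁, Φ (w, ψ w) = 0 := by
    intro x hx
    have hx0 : ∑ i ∈ Finset.range (d + 1), a i z₁ * x ^ i = 0 := by
      rw [← heval]
      exact (Polynomial.mem_roots hP₁0).1 (Multiset.mem_toFinset.1 hx)
    have hΦ : AnalyticAt ℂ Φ (z₁, x) := by
      refine Finset.analyticAt_fun_sum _ fun i hi => ?_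
      have h1 : AnalyticAt ℂ (fun p : (ℂ × ℂ) × ℂ => a i p.1) (z₁, x) :=
        AnalyticAt.comp (f := fun p : (ℂ × ℂ) × ℂ => p.1) (g := a i)
          (ha i (Nat.lt_succ_iff.1 (Finset.mem_range.1 hi))) analyticAt_fst
      exact h1.mul (analyticAt_snd.pow i)
    have hder : deriv (fun x' => Φ (z₁, x')) x ≠ 0 := by
      have h1 : (fun x' => Φ (z₁, x')) = fun x' => (Pw z₁).eval x' := by
        funext x'
        rw [heval]
      rw [h1, Polynomial.deriv, hderiv]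
      exact hsimple x hx0
    obtain ⟨ψ, h1, h2, h3, -⟩ := exists_implicit (u := (z₁, x)) hΦ hder
    exact ⟨ψ, h1, h2, h3.mono fun w hw => hw.trans hx0⟩
  choose! U hUa hU0 hUroot using hU
  have E1 : ∀ᶠ w in 𝓝 z₁, ∀ x ∈ R, AnalyticAt ℂ (U x) w :=
    (Filter.eventually_all_finset R).2 fun x hx => (hUa x hx).eventually_analyticAt
  have E2 : ∀ᶠ w in 𝓝 z₁, ∀ x ∈ R, Φ (w, U x w) = 0 :=
    (Filter.eventually_all_finset R).2 fun x hx => hUroot x hx
  have E3 : ∀ᶠ w in 𝓝 z₁, ∀ x ∈ R, ∀ x' ∈ R, x ≠ x' → U x w ≠ U x' w := by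
    refine (Filter.eventually_all_finset R).2 fun x hx =>
      (Filter.eventually_all_finset R).2 fun x' hx' => ?_
    by_cases hxx : x = x'
    · exact Eventually.of_forall fun w h => absurd hxx h
    · have h1 : ContinuousAt (fun w => U x w - U x' w) z₁ :=
        (hUa x hx).continuousAt.sub (hUa x' hx').continuousAt
      have h2 : U x z₁ - U x' z₁ ≠ 0 := by
        rw [hU0 x hx, hU0 x' hx']
        exact sub_ne_zero.2 hxx
      exact (h1.eventually_ne h2).mono fun w hw _ => sub_ne_zero.1 hw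
  have E4 : ∀ᶠ w in 𝓝 z₁, a d w ≠ 0 := (ha d le_rfl).continuousAt.eventually_ne hd
  obtain ⟨N', hN'N, hN'o, hz₁N', hne, hpc⟩ := hconn _ (E1.and (E2.and (E3.and E4)))
  -- pointwise
  have hpt : ∀ w ∈ N', ∀ v : ℂ, ∑ i ∈ Finset.range (d + 1), a i w * v ^ i = 0 →
      ∏ x ∈ R, (v - U x w) = 0 := by
    intro w hw v hv
    obtain ⟨-, e2, e3, e4⟩ := hN'N hw
    by_contra hcon
    have hvn : v ∉ R.image (fun x => U x w) := by
      intro hmem
      obtain ⟨x, hx, hxv⟩ := Finset.mem_image.1 hmem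
      exact hcon (Finset.prod_eq_zero hx (by rw [hxv, sub_self]))
    have hPw0 : Pw w ≠ 0 := fun h => e4 (by rw [← hcoeff, h]; simp)
    have hsub : (insert v (R.image (fun x => U x w))).val ⊆ (Pw w).roots := by
      intro y hy
      rw [Polynomial.mem_roots hPw0, Polynomial.IsRoot, heval]
      have hy' : y ∈ insert v (R.image (fun x => U x w)) := hy
      rcases Finset.mem_insert.1 hy' with rfl | hy
      · exact hv
      · obtain ⟨x, hx, rfl⟩ := Finset.mem_image.1 hy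
        exact e2 x hx
    have h1 := Polynomial.card_le_degree_of_subset_roots hsub
    rw [Finset.card_insert_of_notMem hvn, Finset.card_image_of_injOn, hcard] at h1
    · exact absurd (h1.trans (hdeg w)) (by omega)
    · intro x hx x' hx' hxx
      by_contra hne
      exact e3 x hx x' hx' hne hxx
  have hM : ∀ x ∈ R, Mero2On (fun w => u w - U x w) (O ∩ N') := fun x hx z hz =>
    (hu z hz.1).sub ((hN'N hz.2).1 x hx).mero2At
  obtain ⟨zs, hzs⟩ := hne
  have hprod : ∀ᶠ w in genF zs, ∏ x ∈ R, (u w - U x w) = 0 := by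
    have hN'e : ∀ᶠ w in 𝓝 zs, w ∈ N' := hN'o.mem_nhds hzs.2
    filter_upwards [hroot zs hzs.1, hN'e.genF] with w p q
    exact hpt w q _ p
  obtain ⟨x, hx, hx0⟩ := Mero2At.exists_eq_zero_of_prod (fun x hx => hM x hx zs hzs) hprod
  refine ⟨U x, hUa x hx, ?_⟩
  filter_upwards [hN'o.mem_nhds hz₁N'] with z hzN' hzO
  have h1 := Mero2On.eventually_eq_zero_of_isPreconnected hpc (hM x hx) hzs hx0 z ⟨hzO, hzN'⟩
  exact mero2EqAt_iff_genF.2 ⟨hu z hzO, h1.mono fun w hw => sub_eq_zero.1 hw⟩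

end Claimed.Agent.R269
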