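/-
Row 269, library (HOST-FREE, over Lib/Chord.lean + Lib/Mero2b.lean).   Blueprint: helper264.    FIVE LEAVES IN ONE FILE (fill in place, statements verbatim):
  §1 LF-ChordForm   `IsChord.mono`, `IsChord.first`, `IsChord.formula`
  §2 LF-CA-ctay     `ca_taylor_bound` (Mathlib only)          LF-ChordExp-1  `chord_taylor`
  §3 LF-ChordExp-2  `exists_eq_pow_mul_of_order`, `liftV_analyticAt`, `lift_decomp`, `lift_exp`
  §4 LF-ChordExp-3  `chord_exp`  (P1 Prop 5.6 / (5.24) in local form:  V'' = (f² + 8 q)'/120)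

================ §1 ================

PLAN.
(mono)     all fields are `∀ s ∈ U, ∀ v ∈ U`; `DifferentiableOn.mono` with `Set.prod_mono`.
(first)    fix `s`.  `A(v) = d' s v * f v - d s v * f' v` has derivative `(q v d - f s sin Δ) f + d' f' - d' f' - d f'' = - f s f v sin Δ`, `Δ = φ v - φ s` (use `hfq`: `f'' = q f`);
           so has `f s cos Δ`; both equal `f s` at `v = s` (`d_diag`, `d'_diag`).  `U` convex: a function with zero derivative is constant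
           (`Convex.is_const_of_fderivWithin_eq_zero`, as in `IsFund.wronskian`).   Same for `B(v) = c' f - c f'`, `B' = f v cos Δ = (sin Δ)'`, `B(s) = 0`.
(formula)  fix `s`.  `k(v) = cG/(f s f v)`.  `(k d)' = cG/(f s) (d' f - d f')/f² = cG cos Δ/f v²`, `(k f s c)' = cG (c' f - c f')/f² = cG sin Δ / f v²`  (by `first`).
           `cos Δ e_{φ s} - sin Δ n_{φ s} = e_{φ v}` (`Complex.sin_add`, `Complex.cos_add` with `φ v = φ s + Δ`), `e_ψ = (-sin ψ, cos ψ)`, `n_ψ = (cos ψ, sin ψ)`.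
           So `v ↦ Γ v - Γ s - RHS(v)` has derivative `0` on `U` and vanishes at `v = s`.  Work componentwise (`Prod`), or with `HasDerivAt.prodMk`.

================ §2 ================
PLAN of `ca_taylor_bound`.  `Complex.hasSum_taylorSeries_on_ball` (or `Complex.taylorSeries_eq_on_ball'`) on `ball c R'`... use `R` itself: `g` is differentiable on `ball c R` and continuous on the closed ball
 (`DiffContOnCl`), Cauchy estimate `Complex.norm_iteratedDeriv_le_of_forall_mem_sphere_norm_le : ‖iteratedDeriv k g c‖ ≤ k! * M / R^k`.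
 So the `k`-th term of the Taylor series at `c + η` is `≤ M (‖η‖/R)^k`; for `‖η‖ ≤ R/2` the tail `∑_{k ≥ n}` is `≤ 2 M (‖η‖/R)^n` (geometric series; `HasSum.sum_add_tsum_nat_add`-type splitting, `tsum_geometric_of_lt_one`,
 `norm_tsum_le_tsum_norm`).

PLAN of `chord_taylor`.
 1. choose `r > 0` with `closedBall s₀ (3 r) ⊆ U`.  `(s,v) ↦ c s v`, `d s v` are continuous on the compact set `closedBall s₀ r ×ˢ closedBall s₀ (3 r)` (`c_joint`, `d_joint`), hence bounded by some `M`.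
    For `s ∈ ball s₀ r`: `closedBall s (2 r) ⊆ closedBall s₀ (3 r)`.  Apply `ca_taylor_bound` to `g = c s` (resp. `d s`), centre `s`, `R = 2 r`, `n = 6` (resp. `5`), `‖η‖ < r`.   `C := 2 M / (2 r)^6 + 2 M / (2 r)^5`… (take the max).
 2. the derivatives at the centre.  With `Δ(v) = φ v - φ s` (`Δ' = f v`), all functions of `v` on the open set `U` (`q`, `f` holomorphic ⇒ `deriv q`, `deriv (deriv q)`, … differentiable on `U`: `DifferentiableOn.deriv`):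
      u₀ = c s, u₁ = c' s, u₂ = q u₀ + cos Δ, u₃ = q' u₀ + q u₁ - f sin Δ, u₄ = q'' u₀ + 2 q' u₁ + q u₂ - f' sin Δ - f² cos Δ,
      u₅ = q''' u₀ + 3 q'' u₁ + 3 q' u₂ + q u₃ - f'' sin Δ - 3 f f' cos Δ + f³ sin Δ,          `HasDerivAt u_k (u_{k+1} v) v` on `U`;
      w₀ = d s, w₁ = d' s, w₂ = q w₀ - f s sin Δ, w₃ = q' w₀ + q w₁ - f s f cos Δ, w₄ = q'' w₀ + 2 q' w₁ + q w₂ - f s f' cos Δ + f s f² sin Δ.
    Hence `iteratedDeriv k (c s) s = u_k s` (`iteratedDeriv_succ`, `Filter.EventuallyEq.deriv_eq` on the open set `U`; induction-free: five rewriting steps).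
    Values at `v = s`:  `u = (0, 0, 1, 0, q - f², 3 q' - 3 f f')`,  `w = (0, 1, 0, q - f², 2 q' - f f')`.   Divide by `k!`:  `1/2, (q-f²)/24, (q'-f f')/40`;  `1, (q-f²)/6, (2q'-f f')/24`.

================ §3 ================
PLAN.
(`exists_eq_pow_mul_of_order`)  If `F` is locally `0` take `R = 0`.  Otherwise `exists_eq_pow_mul_snd`: `F w = (w.2 - z₀.2)^N g₁ w` near `z₀`, `g₁ (·, z₀.2)` not locally `0` at `z₀.1`.
   Pick `y₁` (frequently ∧ eventually) with `g₁ (y₁, z₀.2) ≠ 0`, the factorisation valid near `(y₁, z₀.2)`, `g₁` analytic at `(y₁,z₀.2)` and `n ≤ analyticOrderAt (F (y₁, ·)) z₀.2`.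
   Then `analyticOrderAt (F (y₁,·)) z₀.2 = N` (`AnalyticAt.analyticOrderAt_eq_natCast`), so `n ≤ N`, `R := (w.2 - z₀.2)^(N-n) g₁`.
(`liftV_analyticAt`)  `liftV S y = pdt (pdt S) (y, 0) / 2` by `rfl`-unfolding of `pdt`; `analyticAt_pdt` twice, composed with `y ↦ (y,0)`.
(`lift_decomp`)  `F(y,t) := S(y,t) - y - t² V(y)` is analytic at `(y₀,0)`.  For `y` near `y₀` the one-variable function `u = F(y,·)` is analytic at `0` and
   `iteratedDeriv j u 0 = 0` for `j < 4`:  `j = 0`: `h0`;  `j = 2`: definition of `V` (`iteratedDeriv 2 (t²) = 2`);  `j = 1, 3`: `u` is even near `0` (`hev`), so its odd derivatives vanish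
   (`iteratedDeriv_comp_neg`: `iteratedDeriv j (u ∘ neg) 0 = (-1)^j iteratedDeriv j u 0`).   `natCast_le_analyticOrderAt_iff_iteratedDeriv_eq_zero`, then `exists_eq_pow_mul_of_order` with `n = 4`.
(`lift_exp`)  from `S(y,t) = y + t² V(y) + t⁴ R(y,t)` near `(y₀,0)`:
   `(S(y₀+t,t) - S(y₀,t))/t = 1 + t (V(y₀+t) - V(y₀)) + t³ (R(y₀+t,t) - R(y₀,t)) → 1` (continuity);   same for the backward difference;
   `(S(y₀+t,t) + S(y₀-t,t) - 2 S(y₀,t))/t⁴ = (V(y₀+t) + V(y₀-t) - 2 V(y₀))/t² + (R(y₀+t,t) + R(y₀-t,t) - 2 R(y₀,t)) → V''(y₀) + 0`;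
   second symmetric difference quotient of the analytic function `V`: `ca_taylor_bound` (above) with `n = 3` at `±t`, or `V(y₀+t) = V + V' t + V''/2 t² + t³ (analytic)` from `analyticOrderAt`.

================ §4 ================
PLAN of `chord_exp`.   Notation: `s = S(y₀,t)`, `h₊ = S(y₀+t,t) - s`, `h₋ = s - S(y₀-t,t)`; `a = (q-f²)/24`, `b = (q'-ff')/40`, `e = (q-f²)/6`, `g = (2q'-ff')/24` EVALUATED AT `s` (`s → y₀` as `t → 0`, and
 `q, f, q', f'` are continuous at `y₀`: holomorphic on the open set `U`).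
 By `lift_exp`:  `h₊/t → 1`, `h₋/t → 1`, `(h₊ - h₋)/t⁴ → V''(y₀)`   along `𝓝[≠] 0`.    In particular `h± → 0`, `s ∈ ball y₀ r`, `‖h±‖ < r` eventually, so `chord_taylor` applies with `η = h₊` and `η = -h₋`:
   c₊ = h₊²/2 + a h₊⁴ + b h₊⁵ + O(t⁶),   c₋ = h₋²/2 + a h₋⁴ - b h₋⁵ + O(t⁶),   d₊ = h₊ + e h₊³ + g h₊⁴ + O(t⁵),   d₋ = -h₋ - e h₋³ + g h₋⁴ + O(t⁵).
 Polynomial identity (`ring`), main parts only:
   d₊ c₋ + d₋ c₊ = h₊ h₋ (h₋ - h₊)/2  +  a h₊ h₋ (h₋³ - h₊³) + (e/2) h₊² h₋² (h₊ - h₋)  +  (g/2)(h₊⁴ h₋² + h₋⁴ h₊²) - b (h₊ h₋⁵ + h₋ h₊⁵)  +  (terms of degree ≥ 7 in (h₊,h₋)).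
 Divide by `t⁶` and let `t → 0`, `t ≠ 0`:  1st term `→ -V''/2`;  2nd, 3rd `→ 0` (they contain the factor `(h₊-h₋)/t⁴ · t²`);   4th, 5th `→ g - 2 b`;   the rest `→ 0` (`O(t⁷)/t⁶`).
 Since the left side is `0` (`hrec`):   `V''(y₀) = 2 (g - 2 b)(y₀) = (2 f f' + 8 q')(y₀)/120`.
 Suggested organisation: write `c₊ = t² (1/2 (h₊/t)² + t² [a (h₊/t)⁴ + t (b (h₊/t)⁵ + t E₁)])` with `E₁` bounded etc.; i.e. introduce `u± = h±/t → 1`, `w = (h₊-h₋)/t⁴ → V''`, bounded error functions `E_i`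
 (`‖E_i‖ ≤ C ‖u±‖^k`), get the exact identity `0 = -u₊ u₋ w/2 + (g/2)(u₊⁴u₋² + u₋⁴u₊²) - b (u₊u₋⁵ + u₋u₊⁵) + t · (bounded)`, and conclude with `tendsto_nhds_unique`.
-/
import Claimed.Agent.R269.Lib.Chord
import Claimed.Agent.R269.Lib.Mero2b

set_option autoImplicit false

namespace Claimed.Agent.R269

open Filter Topology Set Metric

/-! ## §1 first integrals and the chord formula -/

theorem IsChord.mono {U U' : Set ℂ} {φ f q : ℂ → ℂ} {c c' d d' : ℂ → ℂ → ℂ}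
(h : IsChord U φ f q c c' d d') (hU : U' ⊆ U) : IsChord U' φ f q c c' d d' :=
  ⟨fun s hs => h.c_diag s (hU hs), fun s hs => h.c'_diag s (hU hs), fun s hs => h.d_diag s (hU hs),
    fun s hs => h.d'_diag s (hU hs), fun s hs v hv => h.c_deriv s (hU hs) v (hU hv),
    fun s hs v hv => h.c'_deriv s (hU hs) v (hU hv), fun s hs v hv => h.d_deriv s (hU hs) v (hU hv),
    fun s hs v hv => h.d'_deriv s (hU hs) v (hU hv), h.c_joint.mono (Set.prod_mono hU hU),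
    h.c'_joint.mono (Set.prod_mono hU hU), h.d_joint.mono (Set.prod_mono hU hU),
    h.d'_joint.mono (Set.prod_mono hU hU)⟩

/-- a function with vanishing derivative on a convex open set is constant. -/
theorem chf_const {U : Set ℂ} (hU : IsOpen U) (hc : Convex ℝ U) {g : ℂ → ℂ}
    (hg : ∀ v ∈ U, HasDerivAt g 0 v) {a b : ℂ} (ha : a ∈ U) (hb : b ∈ U) : g a = g b := by
  have hdiff : DifferentiableOn ℂ g U := fun w hw => (hg w hw).differentiableAt.differentiableWithinAt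
  exact hc.is_const_of_fderivWithin_eq_zero (𝕜 := ℂ) hdiff (fun w hw => by
    rw [fderivWithin_of_isOpen hU hw]
    have := (hg w hw).hasFDerivAt.fderiv
    rw [this]; ext; simp) ha hb

/-- the two first integrals. -/
theorem IsChord.first {U : Set ℂ} (hU : IsOpen U) (hc : Convex ℝ U) {φ f q : ℂ → ℂ}
    {c c' d d' : ℂ → ℂ → ℂ} (hφ : ∀ v ∈ U, HasDerivAt φ (f v) v) (hf : DifferentiableOn ℂ f U)
    (hfq : ∀ v ∈ U, deriv (deriv f) v = q v * f v) (h : IsChord U φ f q c c' d d') :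
    ∀ s ∈ U, ∀ v ∈ U,
      d' s v * f v - d s v * deriv f v = f s * Complex.cos (φ v - φ s) ∧
      c' s v * f v - c s v * deriv f v = Complex.sin (φ v - φ s) := by
  intro s hs v hv
  have hfd : ∀ v ∈ U, HasDerivAt f (deriv f v) v := fun v hv =>
    (hf.differentiableAt (hU.mem_nhds hv)).hasDerivAt
  have hfd' : ∀ v ∈ U, HasDerivAt (deriv f) (q v * f v) v := fun v hv => by
    have h2 := ((hf.deriv hU).differentiableAt (hU.mem_nhds hv)).hasDerivAt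
    rwa [hfq v hv] at h2
  have hΔ : ∀ w ∈ U, HasDerivAt (fun w => φ w - φ s) (f w) w := fun w hw => (hφ w hw).sub_const _
  constructor
  · have key := chf_const hU hc
      (g := fun w => d' s w * f w - d s w * deriv f w - f s * Complex.cos (φ w - φ s))
      (fun w hw => by
        refine ((((h.d'_deriv s hs w hw).mul (hfd w hw)).sub
          ((h.d_deriv s hs w hw).mul (hfd' w hw))).sub
          ((hΔ w hw).ccos.const_mul (f s))).congr_deriv ?_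
        ring) hv hs
    simp only [h.d'_diag s hs, h.d_diag s hs, sub_self, Complex.cos_zero] at key
    linear_combination key
  · have key := chf_const hU hc
      (g := fun w => c' s w * f w - c s w * deriv f w - Complex.sin (φ w - φ s))
      (fun w hw => by
        refine ((((h.c'_deriv s hs w hw).mul (hfd w hw)).sub
          ((h.c_deriv s hs w hw).mul (hfd' w hw))).sub
          ((hΔ w hw).csin)).congr_deriv ?_
        ring) hv hs
    simp only [h.c'_diag s hs, h.c_diag s hs, sub_self, Complex.sin_zero] at key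
    linear_combination key

/-- the chord formula. -/
theorem IsChord.formula {U : Set ℂ} (hU : IsOpen U) (hc : Convex ℝ U) {φ f q : ℂ → ℂ}
    {c c' d d' : ℂ → ℂ → ℂ} (hφ : ∀ v ∈ U, HasDerivAt φ (f v) v) (hf : DifferentiableOn ℂ f U)
    (hfq : ∀ v ∈ U, deriv (deriv f) v = q v * f v) (h : IsChord U φ f q c c' d d')
    {Γ : ℂ → ℂ × ℂ} {cG : ℂ} (hne : ∀ v ∈ U, f v ≠ 0)
    (hΓ : ∀ v ∈ U, HasDerivAt Γ ((cG / f v ^ 2) • (-Complex.sin (φ v), Complex.cos (φ v))) v) :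
    ∀ s ∈ U, ∀ v ∈ U,
      Γ v - Γ s = (cG / (f s * f v)) •
        (d s v • ((-Complex.sin (φ s), Complex.cos (φ s)) : ℂ × ℂ)
          - (f s * c s v) • ((Complex.cos (φ s), Complex.sin (φ s)) : ℂ × ℂ)) := by
  intro s hs v hv
  have hfirst := IsChord.first hU hc hφ hf hfq h
  have hfd : ∀ v ∈ U, HasDerivAt f (deriv f v) v := fun v hv =>
    (hf.differentiableAt (hU.mem_nhds hv)).hasDerivAt
  have hfs := hne s hs
  have hX : ∀ w ∈ U, HasDerivAt (fun w => d s w / f w)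
      (f s * Complex.cos (φ w - φ s) / f w ^ 2) w := fun w hw => by
    have := (h.d_deriv s hs w hw).div (hfd w hw) (hne w hw)
    rwa [(hfirst s hs w hw).1] at this
  have hY : ∀ w ∈ U, HasDerivAt (fun w => c s w / f w)
      (Complex.sin (φ w - φ s) / f w ^ 2) w := fun w hw => by
    have := (h.c_deriv s hs w hw).div (hfd w hw) (hne w hw)
    rwa [(hfirst s hs w hw).2] at this
  have hΓ1 : ∀ w ∈ U, HasDerivAt (fun w => (Γ w).1) (cG / f w ^ 2 * -Complex.sin (φ w)) w :=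
    fun w hw => by
    have := (ContinuousLinearMap.fst ℂ ℂ ℂ).hasFDerivAt.comp_hasDerivAt w (hΓ w hw)
    refine HasDerivAt.congr_deriv (f := fun w => (Γ w).1) this ?_
    simp
  have hΓ2 : ∀ w ∈ U, HasDerivAt (fun w => (Γ w).2) (cG / f w ^ 2 * Complex.cos (φ w)) w :=
    fun w hw => by
    have := (ContinuousLinearMap.snd ℂ ℂ ℂ).hasFDerivAt.comp_hasDerivAt w (hΓ w hw)
    refine HasDerivAt.congr_deriv (f := fun w => (Γ w).2) this ?_
    simp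
  have hsin : ∀ w, Complex.sin (φ w) = Complex.sin (φ s) * Complex.cos (φ w - φ s)
      + Complex.cos (φ s) * Complex.sin (φ w - φ s) := fun w => by
    rw [← Complex.sin_add]; congr 1; ring
  have hcos : ∀ w, Complex.cos (φ w) = Complex.cos (φ s) * Complex.cos (φ w - φ s)
      - Complex.sin (φ s) * Complex.sin (φ w - φ s) := fun w => by
    rw [← Complex.cos_add]; congr 1; ring
  have k1 := chf_const hU hc
    (g := fun w => (Γ w).1 - cG / f s * ((d s w / f w) * (-Complex.sin (φ s))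
      - f s * (c s w / f w) * Complex.cos (φ s)))
    (fun w hw => by
      have hfw := hne w hw
      refine ((hΓ1 w hw).sub ((((hX w hw).mul_const _).sub
        (((hY w hw).const_mul (f s)).mul_const _)).const_mul _)).congr_deriv ?_
      rw [hsin w]
      field_simp
      ring) hv hs
  have k2 := chf_const hU hc
    (g := fun w => (Γ w).2 - cG / f s * ((d s w / f w) * (Complex.cos (φ s))
      - f s * (c s w / f w) * Complex.sin (φ s)))
    (fun w hw => by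
      have hfw := hne w hw
      refine ((hΓ2 w hw).sub ((((hX w hw).mul_const _).sub
        (((hY w hw).const_mul (f s)).mul_const _)).const_mul _)).congr_deriv ?_
      rw [hcos w]
      field_simp
      ring) hv hs
  simp only [h.d_diag s hs, h.c_diag s hs, zero_div, zero_mul, mul_zero, sub_zero] at k1 k2
  have hfv := hne v hv
  ext
  · simp only [Prod.fst_sub, Prod.smul_fst, smul_eq_mul]
    rw [← k1]
    field_simp
    ring
  · simp only [Prod.snd_sub, Prod.smul_snd, smul_eq_mul]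
    rw [← k2]
    field_simp
    ring

/-! ## §2 Taylor expansion on the diagonal -/

/-- Taylor's formula with the Cauchy bound for the remainder. -/
theorem ca_taylor_bound {g : ℂ → ℂ} {c : ℂ} {R M : ℝ} (hR : 0 < R)
    (hg : DiffContOnCl ℂ g (ball c R)) (hM : ∀ z ∈ sphere c R, ‖g z‖ ≤ M) (n : ℕ) {η : ℂ}
    (hη : ‖η‖ ≤ R / 2) :
    ‖g (c + η) - ∑ k ∈ Finset.range n, iteratedDeriv k g c / (k.factorial : ℂ) * η ^ k‖
      ≤ 2 * M * (‖η‖ / R) ^ n := by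
  have hM0 : 0 ≤ M := by
    obtain ⟨z, hz⟩ : (sphere c R).Nonempty := NormedSpace.sphere_nonempty.2 hR.le
    exact (norm_nonneg _).trans (hM z hz)
  have hz : c + η ∈ ball c R := by
    rw [mem_ball, dist_eq_norm, add_sub_cancel_left]; linarith
  have h1 := Complex.hasSum_taylorSeries_on_ball hg.differentiableOn hz
  rw [add_sub_cancel_left] at h1
  have h2 := (hasSum_nat_add_iff' n).2 h1
  obtain ⟨x, hx⟩ : ∃ x, x = ‖η‖ / R := ⟨_, rfl⟩
  have hx0 : 0 ≤ x := by rw [hx]; positivity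
  have hx1 : x ≤ 1 / 2 := by rw [hx, div_le_iff₀ hR]; linarith
  have h3 : HasSum (fun k : ℕ => M * x ^ n * x ^ k) (M * x ^ n * (1 - x)⁻¹) :=
    (hasSum_geometric_of_lt_one hx0 (by linarith)).mul_left _
  have h4 := h2.norm_le_of_bounded h3 (fun k => by
    have h5 := Complex.norm_iteratedDeriv_le_of_forall_mem_sphere_norm_le (k + n) hR hg hM
    have hf : (0 : ℝ) < ((k + n).factorial : ℝ) := by positivity
    rw [smul_eq_mul, smul_eq_mul, norm_mul, norm_mul, norm_inv, norm_pow, Complex.norm_natCast]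
    calc ((k + n).factorial : ℝ)⁻¹ * (‖η‖ ^ (k + n) * ‖iteratedDeriv (k + n) g c‖)
        ≤ ((k + n).factorial : ℝ)⁻¹ * (‖η‖ ^ (k + n) * ((k + n).factorial * M / R ^ (k + n))) := by
          gcongr
      _ = M * (‖η‖ / R) ^ (k + n) := by
          rw [div_pow]; field_simp
      _ = M * x ^ n * x ^ k := by rw [← hx, pow_add]; ring)
  have e : ∑ k ∈ Finset.range n, iteratedDeriv k g c / (k.factorial : ℂ) * η ^ k
      = ∑ i ∈ Finset.range n, ((i.factorial : ℂ)⁻¹ • η ^ i • iteratedDeriv i g c) := by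
    apply Finset.sum_congr rfl
    intro k _
    rw [smul_eq_mul, smul_eq_mul]
    ring
  rw [e, ← hx]
  refine h4.trans ?_
  have h6 : (1 - x)⁻¹ ≤ 2 := by
    rw [inv_le_comm₀ (by linarith) (by norm_num)]
    linarith
  calc M * x ^ n * (1 - x)⁻¹ ≤ M * x ^ n * 2 := by gcongr
    _ = 2 * M * x ^ n := by ring

/-- one step in the computation of iterated derivatives on an open set. -/
theorem chx_iter_step {U : Set ℂ} (hU : IsOpen U) {g a b : ℂ → ℂ} {k : ℕ}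
    (h : ∀ v ∈ U, iteratedDeriv k g v = a v) (ha : ∀ v ∈ U, HasDerivAt a (b v) v) :
    ∀ v ∈ U, iteratedDeriv (k + 1) g v = b v := by
  intro v hv
  rw [iteratedDeriv_succ]
  have : iteratedDeriv k g =ᶠ[𝓝 v] a := by
    filter_upwards [hU.mem_nhds hv] with w hw
    exact h w hw
  rw [this.deriv_eq, (ha v hv).deriv]

/-- the derivatives of `c s` at the diagonal. -/
theorem chx_c_derivs {U : Set ℂ} (hU : IsOpen U) {φ f q : ℂ → ℂ} {c c' d d' : ℂ → ℂ → ℂ}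
    (hφ : ∀ v ∈ U, HasDerivAt φ (f v) v) (hf : DifferentiableOn ℂ f U)
    (hq : DifferentiableOn ℂ q U) (h : IsChord U φ f q c c' d d') {s : ℂ} (hs : s ∈ U) :
    iteratedDeriv 0 (c s) s = 0 ∧ iteratedDeriv 1 (c s) s = 0 ∧ iteratedDeriv 2 (c s) s = 1 ∧
      iteratedDeriv 3 (c s) s = 0 ∧ iteratedDeriv 4 (c s) s = q s - f s ^ 2 ∧
      iteratedDeriv 5 (c s) s = 3 * deriv q s - 3 * f s * deriv f s := by
  have hd : ∀ {g : ℂ → ℂ}, DifferentiableOn ℂ g U → ∀ v ∈ U, HasDerivAt g (deriv g v) v :=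
    fun hg v hv => ((hg v hv).differentiableAt (hU.mem_nhds hv)).hasDerivAt
  have q1 := hd hq
  have q2 := hd (hq.deriv hU)
  have q3 := hd ((hq.deriv hU).deriv hU)
  have f1 := hd hf
  have f2 := hd (hf.deriv hU)
  have hΔ : ∀ v ∈ U, HasDerivAt (fun v => φ v - φ s) (f v) v := fun v hv => (hφ v hv).sub_const _
  have hcos : ∀ v ∈ U, HasDerivAt (fun v => Complex.cos (φ v - φ s))
      (-Complex.sin (φ v - φ s) * f v) v := fun v hv => (hΔ v hv).ccos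
  have hsin : ∀ v ∈ U, HasDerivAt (fun v => Complex.sin (φ v - φ s))
      (Complex.cos (φ v - φ s) * f v) v := fun v hv => (hΔ v hv).csin
  have u0 := h.c_deriv s hs
  have u1 := h.c'_deriv s hs
  have u2 : ∀ v ∈ U, HasDerivAt (fun v => q v * c s v + Complex.cos (φ v - φ s))
      (deriv q v * c s v + q v * c' s v - f v * Complex.sin (φ v - φ s)) v := by
    intro v hv
    refine (((q1 v hv).mul (u0 v hv)).add (hcos v hv)).congr_deriv ?_
    ring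
  have u3 : ∀ v ∈ U, HasDerivAt
      (fun v => deriv q v * c s v + q v * c' s v - f v * Complex.sin (φ v - φ s))
      (deriv (deriv q) v * c s v + 2 * deriv q v * c' s v
        + q v * (q v * c s v + Complex.cos (φ v - φ s))
        - deriv f v * Complex.sin (φ v - φ s) - f v ^ 2 * Complex.cos (φ v - φ s)) v := by
    intro v hv
    refine ((((q2 v hv).mul (u0 v hv)).add ((q1 v hv).mul (u1 v hv))).sub
      ((f1 v hv).mul (hsin v hv))).congr_deriv ?_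
    ring
  have u4 : ∀ v ∈ U, HasDerivAt
      (fun v => deriv (deriv q) v * c s v + 2 * deriv q v * c' s v
        + q v * (q v * c s v + Complex.cos (φ v - φ s))
        - deriv f v * Complex.sin (φ v - φ s) - f v ^ 2 * Complex.cos (φ v - φ s))
      (deriv (deriv (deriv q)) v * c s v + 3 * deriv (deriv q) v * c' s v
        + 3 * deriv q v * (q v * c s v + Complex.cos (φ v - φ s))
        + q v * (deriv q v * c s v + q v * c' s v - f v * Complex.sin (φ v - φ s))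
        - deriv (deriv f) v * Complex.sin (φ v - φ s)
        - 3 * f v * deriv f v * Complex.cos (φ v - φ s) + f v ^ 3 * Complex.sin (φ v - φ s)) v := by
    intro v hv
    refine ((((((q3 v hv).mul (u0 v hv)).add (((q2 v hv).const_mul 2).mul (u1 v hv))).add
      ((q1 v hv).mul (u2 v hv))).sub ((f2 v hv).mul (hsin v hv))).sub
      (((f1 v hv).pow 2).mul (hcos v hv))).congr_deriv ?_
    simp only [Nat.cast_ofNat, Nat.add_one_sub_one, pow_one, Pi.pow_apply]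
    ring
  have I0 : ∀ v ∈ U, iteratedDeriv 0 (c s) v = c s v := fun v _ => by rw [iteratedDeriv_zero]
  have I1 := chx_iter_step hU I0 u0
  have I2 := chx_iter_step hU I1 u1
  have I3 := chx_iter_step hU I2 u2
  have I4 := chx_iter_step hU I3 u3
  have I5 := chx_iter_step hU I4 u4
  have e0 := h.c_diag s hs
  have e1 := h.c'_diag s hs
  refine ⟨?_, ?_, ?_, ?_, ?_, ?_⟩
  · rw [I0 s hs, e0]
  · rw [I1 s hs, e1]
  · rw [I2 s hs, e0, sub_self, Complex.cos_zero]; ring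
  · rw [I3 s hs, e0, e1, sub_self, Complex.sin_zero]; ring
  · rw [I4 s hs, e0, e1, sub_self, Complex.sin_zero, Complex.cos_zero]; ring
  · rw [I5 s hs, e0, e1, sub_self, Complex.sin_zero, Complex.cos_zero]; ring

/-- the derivatives of `d s` at the diagonal. -/
theorem chx_d_derivs {U : Set ℂ} (hU : IsOpen U) {φ f q : ℂ → ℂ} {c c' d d' : ℂ → ℂ → ℂ}
    (hφ : ∀ v ∈ U, HasDerivAt φ (f v) v) (hf : DifferentiableOn ℂ f U)
    (hq : DifferentiableOn ℂ q U) (h : IsChord U φ f q c c' d d') {s : ℂ} (hs : s ∈ U) :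
    iteratedDeriv 0 (d s) s = 0 ∧ iteratedDeriv 1 (d s) s = 1 ∧ iteratedDeriv 2 (d s) s = 0 ∧
      iteratedDeriv 3 (d s) s = q s - f s ^ 2 ∧
      iteratedDeriv 4 (d s) s = 2 * deriv q s - f s * deriv f s := by
  have hd : ∀ {g : ℂ → ℂ}, DifferentiableOn ℂ g U → ∀ v ∈ U, HasDerivAt g (deriv g v) v :=
    fun hg v hv => ((hg v hv).differentiableAt (hU.mem_nhds hv)).hasDerivAt
  have q1 := hd hq
  have q2 := hd (hq.deriv hU)
  have f1 := hd hf
  have hΔ : ∀ v ∈ U, HasDerivAt (fun v => φ v - φ s) (f v) v := fun v hv => (hφ v hv).sub_const _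
  have hcos : ∀ v ∈ U, HasDerivAt (fun v => Complex.cos (φ v - φ s))
      (-Complex.sin (φ v - φ s) * f v) v := fun v hv => (hΔ v hv).ccos
  have hsin : ∀ v ∈ U, HasDerivAt (fun v => Complex.sin (φ v - φ s))
      (Complex.cos (φ v - φ s) * f v) v := fun v hv => (hΔ v hv).csin
  have w0 := h.d_deriv s hs
  have w1 := h.d'_deriv s hs
  have w2 : ∀ v ∈ U, HasDerivAt (fun v => q v * d s v - f s * Complex.sin (φ v - φ s))
      (deriv q v * d s v + q v * d' s v - f s * f v * Complex.cos (φ v - φ s)) v := by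
    intro v hv
    refine (((q1 v hv).mul (w0 v hv)).sub ((hsin v hv).const_mul (f s))).congr_deriv ?_
    ring
  have w3 : ∀ v ∈ U, HasDerivAt
      (fun v => deriv q v * d s v + q v * d' s v - f s * f v * Complex.cos (φ v - φ s))
      (deriv (deriv q) v * d s v + 2 * deriv q v * d' s v
        + q v * (q v * d s v - f s * Complex.sin (φ v - φ s))
        - f s * deriv f v * Complex.cos (φ v - φ s)
        + f s * f v ^ 2 * Complex.sin (φ v - φ s)) v := by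
    intro v hv
    refine ((((q2 v hv).mul (w0 v hv)).add ((q1 v hv).mul (w1 v hv))).sub
      (((f1 v hv).const_mul (f s)).mul (hcos v hv))).congr_deriv ?_
    ring
  have I0 : ∀ v ∈ U, iteratedDeriv 0 (d s) v = d s v := fun v _ => by rw [iteratedDeriv_zero]
  have I1 := chx_iter_step hU I0 w0
  have I2 := chx_iter_step hU I1 w1
  have I3 := chx_iter_step hU I2 w2
  have I4 := chx_iter_step hU I3 w3
  have e0 := h.d_diag s hs
  have e1 := h.d'_diag s hs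
  refine ⟨?_, ?_, ?_, ?_, ?_⟩
  · rw [I0 s hs, e0]
  · rw [I1 s hs, e1]
  · rw [I2 s hs, e0, sub_self, Complex.sin_zero]; ring
  · rw [I3 s hs, e0, e1, sub_self, Complex.cos_zero]; ring
  · rw [I4 s hs, e0, e1, sub_self, Complex.sin_zero, Complex.cos_zero]; ring

/-- Taylor expansion of the chord functions on the diagonal, uniformly in the base point. -/
theorem chord_taylor {U : Set ℂ} (hU : IsOpen U) {φ f q : ℂ → ℂ} {c c' d d' : ℂ → ℂ → ℂ}
    (hφ : ∀ v ∈ U, HasDerivAt φ (f v) v) (hf : DifferentiableOn ℂ f U)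
    (hq : DifferentiableOn ℂ q U) (h : IsChord U φ f q c c' d d') {s₀ : ℂ} (hs₀ : s₀ ∈ U) :
    ∃ C r : ℝ, 0 < r ∧ ∀ s ∈ ball s₀ r, ∀ η : ℂ, ‖η‖ < r →
      ‖c s (s + η) - (η ^ 2 / 2 + (q s - f s ^ 2) / 24 * η ^ 4
          + (deriv q s - f s * deriv f s) / 40 * η ^ 5)‖ ≤ C * ‖η‖ ^ 6 ∧
      ‖d s (s + η) - (η + (q s - f s ^ 2) / 6 * η ^ 3
          + (2 * deriv q s - f s * deriv f s) / 24 * η ^ 4)‖ ≤ C * ‖η‖ ^ 5 := by
  obtain ⟨ε, hε, hεU⟩ := Metric.nhds_basis_closedBall.mem_iff.1 (hU.mem_nhds hs₀)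
  obtain ⟨r, hrdef⟩ : ∃ r, r = ε / 3 := ⟨_, rfl⟩
  have hr : 0 < r := by rw [hrdef]; positivity
  have h3r : closedBall s₀ (3 * r) ⊆ U := by
    rw [hrdef, show 3 * (ε / 3) = ε by ring]; exact hεU
  have hKc : IsCompact (closedBall s₀ r ×ˢ closedBall s₀ (3 * r)) :=
    (isCompact_closedBall _ _).prod (isCompact_closedBall _ _)
  have hKU : closedBall s₀ r ×ˢ closedBall s₀ (3 * r) ⊆ U ×ˢ U :=
    Set.prod_mono ((closedBall_subset_closedBall (by linarith)).trans h3r) h3r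
  obtain ⟨M₁, hM₁⟩ := hKc.exists_bound_of_continuousOn (h.c_joint.continuousOn.mono hKU)
  obtain ⟨M₂, hM₂⟩ := hKc.exists_bound_of_continuousOn (h.d_joint.continuousOn.mono hKU)
  have hs₀K : (s₀, s₀) ∈ closedBall s₀ r ×ˢ closedBall s₀ (3 * r) :=
    ⟨mem_closedBall_self hr.le, mem_closedBall_self (by positivity)⟩
  have hM₁0 : 0 ≤ M₁ := (norm_nonneg _).trans (hM₁ _ hs₀K)
  have hM₂0 : 0 ≤ M₂ := (norm_nonneg _).trans (hM₂ _ hs₀K)
  refine ⟨2 * M₁ / (2 * r) ^ 6 + 2 * M₂ / (2 * r) ^ 5, r, hr, ?_⟩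
  intro s hs η hη
  have hsub : closedBall s (2 * r) ⊆ closedBall s₀ (3 * r) := by
    apply closedBall_subset_closedBall'
    have := mem_ball.1 hs
    linarith
  have hsU : s ∈ U := h3r (hsub (mem_closedBall_self (by positivity)))
  have hscl : s ∈ closedBall s₀ r := ball_subset_closedBall hs
  have hη' : ‖η‖ ≤ 2 * r / 2 := by linarith
  have h2r : (0 : ℝ) < 2 * r := by positivity
  constructor
  · have hdc : DiffContOnCl ℂ (c s) (ball s (2 * r)) :=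
      DifferentiableOn.diffContOnCl_ball (U := U)
        (fun v hv => (h.c_deriv s hsU v hv).differentiableAt.differentiableWithinAt)
        (hsub.trans h3r)
    have hb := ca_taylor_bound h2r hdc
      (fun z hz => hM₁ (s, z) ⟨hscl, hsub (sphere_subset_closedBall hz)⟩) 6 hη'
    obtain ⟨a0, a1, a2, a3, a4, a5⟩ := chx_c_derivs hU hφ hf hq h hsU
    simp only [Finset.sum_range_succ, Finset.sum_range_zero, a0, a1, a2, a3, a4, a5,
      Nat.factorial] at hb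
    have e : c s (s + η) - (η ^ 2 / 2 + (q s - f s ^ 2) / 24 * η ^ 4
          + (deriv q s - f s * deriv f s) / 40 * η ^ 5)
        = c s (s + η) - (0 + 0 / ((1 : ℕ) : ℂ) * η ^ 0 + 0 / (((0 + 1) * 1 : ℕ) : ℂ) * η ^ 1
          + 1 / (((1 + 1) * ((0 + 1) * 1) : ℕ) : ℂ) * η ^ 2
          + 0 / (((2 + 1) * ((1 + 1) * ((0 + 1) * 1)) : ℕ) : ℂ) * η ^ 3
          + (q s - f s ^ 2) / (((3 + 1) * ((2 + 1) * ((1 + 1) * ((0 + 1) * 1))) : ℕ) : ℂ) * η ^ 4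
          + (3 * deriv q s - 3 * f s * deriv f s)
            / (((4 + 1) * ((3 + 1) * ((2 + 1) * ((1 + 1) * ((0 + 1) * 1)))) : ℕ) : ℂ) * η ^ 5) := by
      push_cast
      ring
    rw [e]
    refine hb.trans ?_
    rw [div_pow]
    have : 0 ≤ 2 * M₂ / (2 * r) ^ 5 * ‖η‖ ^ 6 := by positivity
    calc 2 * M₁ * (‖η‖ ^ 6 / (2 * r) ^ 6) = 2 * M₁ / (2 * r) ^ 6 * ‖η‖ ^ 6 := by ring
      _ ≤ (2 * M₁ / (2 * r) ^ 6 + 2 * M₂ / (2 * r) ^ 5) * ‖η‖ ^ 6 := by linarith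
  · have hdc : DiffContOnCl ℂ (d s) (ball s (2 * r)) :=
      DifferentiableOn.diffContOnCl_ball (U := U)
        (fun v hv => (h.d_deriv s hsU v hv).differentiableAt.differentiableWithinAt)
        (hsub.trans h3r)
    have hb := ca_taylor_bound h2r hdc
      (fun z hz => hM₂ (s, z) ⟨hscl, hsub (sphere_subset_closedBall hz)⟩) 5 hη'
    obtain ⟨a0, a1, a2, a3, a4⟩ := chx_d_derivs hU hφ hf hq h hsU
    simp only [Finset.sum_range_succ, Finset.sum_range_zero, a0, a1, a2, a3, a4,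
      Nat.factorial] at hb
    have e : d s (s + η) - (η + (q s - f s ^ 2) / 6 * η ^ 3
          + (2 * deriv q s - f s * deriv f s) / 24 * η ^ 4)
        = d s (s + η) - (0 + 0 / ((1 : ℕ) : ℂ) * η ^ 0 + 1 / (((0 + 1) * 1 : ℕ) : ℂ) * η ^ 1
          + 0 / (((1 + 1) * ((0 + 1) * 1) : ℕ) : ℂ) * η ^ 2
          + (q s - f s ^ 2) / (((2 + 1) * ((1 + 1) * ((0 + 1) * 1)) : ℕ) : ℂ) * η ^ 3
          + (2 * deriv q s - f s * deriv f s)
            / (((3 + 1) * ((2 + 1) * ((1 + 1) * ((0 + 1) * 1))) : ℕ) : ℂ) * η ^ 4) := by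
      push_cast
      ring
    rw [e]
    refine hb.trans ?_
    rw [div_pow]
    have : 0 ≤ 2 * M₁ / (2 * r) ^ 6 * ‖η‖ ^ 5 := by positivity
    calc 2 * M₂ * (‖η‖ ^ 5 / (2 * r) ^ 5) = 2 * M₂ / (2 * r) ^ 5 * ‖η‖ ^ 5 := by ring
      _ ≤ (2 * M₁ / (2 * r) ^ 6 + 2 * M₂ / (2 * r) ^ 5) * ‖η‖ ^ 5 := by linarith

/-! ## §3 expansion of the lift -/

/-- division by a power of `t - t₀`. -/
theorem exists_eq_pow_mul_of_order {F : ℂ × ℂ → ℂ} {z₀ : ℂ × ℂ} (hF : AnalyticAt ℂ F z₀) (n : ℕ)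
    (h : ∀ᶠ y in 𝓝 z₀.1, (n : ℕ∞) ≤ analyticOrderAt (fun t => F (y, t)) z₀.2) :
    ∃ R : ℂ × ℂ → ℂ, AnalyticAt ℂ R z₀ ∧ ∀ᶠ w in 𝓝 z₀, F w = (w.2 - z₀.2) ^ n * R w := by
  by_cases hz : NZAt F z₀
  swap
  · have hz' : ∀ᶠ w in 𝓝 z₀, F w = 0 := by
      unfold NZAt at hz
      exact not_not.1 hz
    exact ⟨fun _ => 0, analyticAt_const, hz'.mono fun w hw => by rw [hw, mul_zero]⟩
  obtain ⟨N, g₁, hg₁, hne, hfac⟩ := exists_eq_pow_mul_snd hF hz
  have hfreq : ∃ᶠ y in 𝓝 z₀.1, g₁ (y, z₀.2) ≠ 0 := by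
    rw [Filter.frequently_iff_forall_eventually_exists_and] 
    intro p hp
    by_contra hcon
    push Not at hcon
    exact hne (hp.mono fun y hy => by
      by_contra h1
      exact hcon y h1 hy)
  have e1 : ∀ᶠ y in 𝓝 z₀.1, ∀ᶠ w in 𝓝 (y, z₀.2), F w = (w.2 - z₀.2) ^ N * g₁ w :=
    (tendsto_mk_fst z₀).eventually hfac.eventually_nhds
  have e2 : ∀ᶠ y in 𝓝 z₀.1, AnalyticAt ℂ g₁ (y, z₀.2) :=
    (tendsto_mk_fst z₀).eventually hg₁.eventually_analyticAt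
  have e3 : ∀ᶠ y in 𝓝 z₀.1, AnalyticAt ℂ F (y, z₀.2) :=
    (tendsto_mk_fst z₀).eventually hF.eventually_analyticAt
  obtain ⟨y₁, hy1, hy2, hy3, hy4, hy5⟩ := (hfreq.and_eventually (e1.and (e2.and (e3.and h)))).exists
  have hord : analyticOrderAt (fun t => F (y₁, t)) z₀.2 = N := by
    rw [(analyticAt_slice_snd (z := (y₁, z₀.2)) hy4).analyticOrderAt_eq_natCast]
    refine ⟨fun t => g₁ (y₁, t), analyticAt_slice_snd (z := (y₁, z₀.2)) hy3, hy1, ?_⟩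
    have := (tendsto_mk_snd (y₁, z₀.2)).eventually hy2
    exact this.mono fun t ht => by simpa using ht
  rw [hord] at hy5
  have hnN : n ≤ N := by exact_mod_cast hy5
  refine ⟨fun w => (w.2 - z₀.2) ^ (N - n) * g₁ w, ?_, ?_⟩
  · exact ((analyticAt_snd.sub analyticAt_const).pow _).mul hg₁
  · filter_upwards [hfac] with w hw
    rw [hw, ← mul_assoc, ← pow_add, Nat.add_sub_cancel' hnN]

/-- the first displacement coefficient `V(y) = ∂_t² S(y,0)/2`. -/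
noncomputable def liftV (S : ℂ × ℂ → ℂ) (y : ℂ) : ℂ := deriv (deriv fun t : ℂ => S (y, t)) 0 / 2

theorem liftV_analyticAt {S : ℂ × ℂ → ℂ} {y₀ : ℂ} (hS : AnalyticAt ℂ S (y₀, 0)) :
    AnalyticAt ℂ (liftV S) y₀ := by
  have h1 : AnalyticAt ℂ (pdt (pdt S)) (y₀, 0) := analyticAt_pdt (analyticAt_pdt hS)
  have h2 : AnalyticAt ℂ (fun y => pdt (pdt S) (y, 0)) y₀ := analyticAt_slice_fst (z := (y₀, 0)) h1
  exact h2.div analyticAt_const two_ne_zero

theorem lift_decomp {S : ℂ × ℂ → ℂ} {y₀ : ℂ} (hS : AnalyticAt ℂ S (y₀, 0))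
    (h0 : ∀ᶠ y in 𝓝 y₀, S (y, 0) = y) (hev : ∀ᶠ z : ℂ × ℂ in 𝓝 (y₀, 0), S (z.1, -z.2) = S z) :
    ∃ R : ℂ × ℂ → ℂ, AnalyticAt ℂ R (y₀, 0) ∧
      ∀ᶠ w : ℂ × ℂ in 𝓝 (y₀, 0), S w = w.1 + w.2 ^ 2 * liftV S w.1 + w.2 ^ 4 * R w := by
  have hV : AnalyticAt ℂ (fun w : ℂ × ℂ => liftV S w.1) (y₀, 0) :=
    AnalyticAt.comp (g := liftV S) (f := Prod.fst) (x := ((y₀, 0) : ℂ × ℂ)) (liftV_analyticAt hS)
      analyticAt_fst
  have hF : AnalyticAt ℂ (fun w : ℂ × ℂ => S w - w.1 - w.2 ^ 2 * liftV S w.1) (y₀, 0) :=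
    (hS.sub analyticAt_fst).sub ((analyticAt_snd.pow 2).mul hV)
  have e1 : ∀ᶠ y in 𝓝 y₀, AnalyticAt ℂ S (y, 0) :=
    (tendsto_mk_fst ((y₀, 0) : ℂ × ℂ)).eventually hS.eventually_analyticAt
  have e2 : ∀ᶠ y in 𝓝 y₀, ∀ᶠ z : ℂ × ℂ in 𝓝 (y, 0), S (z.1, -z.2) = S z :=
    (tendsto_mk_fst ((y₀, 0) : ℂ × ℂ)).eventually hev.eventually_nhds
  have e3 : ∀ᶠ y in 𝓝 y₀, AnalyticAt ℂ (fun w : ℂ × ℂ => S w - w.1 - w.2 ^ 2 * liftV S w.1) (y, 0) :=
    (tendsto_mk_fst ((y₀, 0) : ℂ × ℂ)).eventually hF.eventually_analyticAt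
  have key : ∀ᶠ y in 𝓝 y₀, ((4 : ℕ) : ℕ∞) ≤ analyticOrderAt
      (fun t => (fun w : ℂ × ℂ => S w - w.1 - w.2 ^ 2 * liftV S w.1) (y, t)) 0 := by
    filter_upwards [h0, e1, e2, e3] with y hy0 hy1 hy2 hy3
    have hu : AnalyticAt ℂ (fun t => S (y, t)) 0 := analyticAt_slice_snd (z := (y, 0)) hy1
    have heven : (fun t => S (y, -t)) =ᶠ[𝓝 0] fun t => S (y, t) :=
      (tendsto_mk_snd ((y, 0) : ℂ × ℂ)).eventually hy2
    have hodd : ∀ j : ℕ, Odd j → iteratedDeriv j (fun t => S (y, t)) 0 = 0 := by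
      intro j hj
      have h1 := heven.iteratedDeriv_eq j
      rw [iteratedDeriv_comp_neg j (fun t => S (y, t)) 0, neg_zero, hj.neg_one_pow, smul_eq_mul] at h1
      have h2 : 2 * iteratedDeriv j (fun t => S (y, t)) 0 = 0 := by linear_combination -h1
      simpa using h2
    obtain ⟨G, hG, hGe⟩ := hu.exists_eventuallyEq_sum_add_pow_mul 4
    rw [natCast_le_analyticOrderAt (analyticAt_slice_snd (z := (y, 0)) hy3)]
    refine ⟨G, hG, ?_⟩
    filter_upwards [hGe] with t ht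
    have i0 : iteratedDeriv 0 (fun t => S (y, t)) 0 = y := by rw [iteratedDeriv_zero]; exact hy0
    have i1 := hodd 1 (by decide)
    have i3 := hodd 3 (by decide)
    have i2 : iteratedDeriv 2 (fun t => S (y, t)) 0 = 2 * liftV S y := by
      rw [iteratedDeriv_succ, iteratedDeriv_one]
      unfold liftV
      ring
    simp only [Finset.sum_range_succ, Finset.sum_range_zero, i0, i1, i2, i3, smul_eq_mul,
      Nat.factorial] at ht
    simp only [sub_zero, smul_eq_mul]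
    rw [ht]
    push_cast
    ring
  obtain ⟨R, hR, hRe⟩ := exists_eq_pow_mul_of_order (z₀ := ((y₀, 0) : ℂ × ℂ)) hF 4 key
  refine ⟨R, hR, hRe.mono fun w hw => ?_⟩
  simp only [sub_zero] at hw
  linear_combination hw

theorem lift_exp {S : ℂ × ℂ → ℂ} {y₀ : ℂ} (hS : AnalyticAt ℂ S (y₀, 0))
    (h0 : ∀ᶠ y in 𝓝 y₀, S (y, 0) = y) (hev : ∀ᶠ z : ℂ × ℂ in 𝓝 (y₀, 0), S (z.1, -z.2) = S z) :
    Tendsto (fun t : ℂ => (S (y₀ + t, t) - S (y₀, t)) / t) (𝓝[≠] 0) (𝓝 1) ∧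
    Tendsto (fun t : ℂ => (S (y₀, t) - S (y₀ - t, t)) / t) (𝓝[≠] 0) (𝓝 1) ∧
    Tendsto (fun t : ℂ => (S (y₀ + t, t) + S (y₀ - t, t) - 2 * S (y₀, t)) / t ^ 4) (𝓝[≠] 0)
      (𝓝 (deriv (deriv (liftV S)) y₀)) := by
  obtain ⟨R, hR, hdec⟩ := lift_decomp hS h0 hev
  have hV := liftV_analyticAt hS
  have tp : Tendsto (fun t : ℂ => ((y₀ + t, t) : ℂ × ℂ)) (𝓝 0) (𝓝 (y₀, 0)) := by
    have h : Continuous (fun t : ℂ => ((y₀ + t, t) : ℂ × ℂ)) := by fun_prop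
    simpa using h.tendsto 0
  have tm : Tendsto (fun t : ℂ => ((y₀ - t, t) : ℂ × ℂ)) (𝓝 0) (𝓝 (y₀, 0)) := by
    have h : Continuous (fun t : ℂ => ((y₀ - t, t) : ℂ × ℂ)) := by fun_prop
    simpa using h.tendsto 0
  have t0 : Tendsto (fun t : ℂ => ((y₀, t) : ℂ × ℂ)) (𝓝 0) (𝓝 (y₀, 0)) := by
    have h : Continuous (fun t : ℂ => ((y₀, t) : ℂ × ℂ)) := by fun_prop
    simpa using h.tendsto 0
  have dp := tp.eventually hdec
  have dm := tm.eventually hdec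
  have d0 := t0.eventually hdec
  have Rp : Tendsto (fun t : ℂ => R (y₀ + t, t)) (𝓝 0) (𝓝 (R (y₀, 0))) := hR.continuousAt.tendsto.comp tp
  have Rm : Tendsto (fun t : ℂ => R (y₀ - t, t)) (𝓝 0) (𝓝 (R (y₀, 0))) := hR.continuousAt.tendsto.comp tm
  have R0 : Tendsto (fun t : ℂ => R (y₀, t)) (𝓝 0) (𝓝 (R (y₀, 0))) := hR.continuousAt.tendsto.comp t0
  have Vp : Tendsto (fun t : ℂ => liftV S (y₀ + t)) (𝓝 0) (𝓝 (liftV S y₀)) := by
    have h : Tendsto (fun t : ℂ => y₀ + t) (𝓝 0) (𝓝 y₀) := by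
      have h : Continuous (fun t : ℂ => y₀ + t) := by fun_prop
      simpa using h.tendsto 0
    exact hV.continuousAt.tendsto.comp h
  have Vm : Tendsto (fun t : ℂ => liftV S (y₀ - t)) (𝓝 0) (𝓝 (liftV S y₀)) := by
    have h : Tendsto (fun t : ℂ => y₀ - t) (𝓝 0) (𝓝 y₀) := by
      have h : Continuous (fun t : ℂ => y₀ - t) := by fun_prop
      simpa using h.tendsto 0
    exact hV.continuousAt.tendsto.comp h
  have tid : Tendsto (fun t : ℂ => t) (𝓝 0) (𝓝 0) := tendsto_id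
  have hne : ∀ᶠ t : ℂ in 𝓝[≠] 0, t ≠ 0 := eventually_mem_nhdsWithin
  refine ⟨?_, ?_, ?_⟩
  · have L : Tendsto (fun t : ℂ => 1 + t * (liftV S (y₀ + t) - liftV S y₀)
        + t ^ 3 * (R (y₀ + t, t) - R (y₀, t))) (𝓝 0) (𝓝 (1 + 0 * (liftV S y₀ - liftV S y₀)
        + 0 ^ 3 * (R (y₀, 0) - R (y₀, 0)))) :=
      (tendsto_const_nhds.add (tid.mul (Vp.sub tendsto_const_nhds))).add ((tid.pow 3).mul (Rp.sub R0))
    have L' := L.mono_left (nhdsWithin_le_nhds (s := {0}ᶜ))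
    simp only [sub_self, mul_zero, add_zero] at L'
    refine L'.congr' ?_
    filter_upwards [hne, dp.filter_mono nhdsWithin_le_nhds, d0.filter_mono nhdsWithin_le_nhds]
      with t ht h1 h2
    rw [h1, h2]
    field_simp
    ring
  · have L : Tendsto (fun t : ℂ => 1 + t * (liftV S y₀ - liftV S (y₀ - t))
        + t ^ 3 * (R (y₀, t) - R (y₀ - t, t))) (𝓝 0) (𝓝 (1 + 0 * (liftV S y₀ - liftV S y₀)
        + 0 ^ 3 * (R (y₀, 0) - R (y₀, 0)))) :=
      (tendsto_const_nhds.add (tid.mul (tendsto_const_nhds.sub Vm))).add ((tid.pow 3).mul (R0.sub Rm))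
    have L' := L.mono_left (nhdsWithin_le_nhds (s := {0}ᶜ))
    simp only [sub_self, mul_zero, add_zero] at L'
    refine L'.congr' ?_
    filter_upwards [hne, dm.filter_mono nhdsWithin_le_nhds, d0.filter_mono nhdsWithin_le_nhds]
      with t ht h1 h2
    rw [h1, h2]
    field_simp
    ring
  · have hW : AnalyticAt ℂ (fun t : ℂ => liftV S (y₀ + t)) 0 := by
      have h1 : AnalyticAt ℂ (fun t : ℂ => y₀ + t) 0 := analyticAt_const.add analyticAt_id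
      exact AnalyticAt.comp (g := liftV S) (f := fun t : ℂ => y₀ + t) (x := (0 : ℂ))
        (by simpa using hV) h1
    obtain ⟨G, hG, hGe⟩ := hW.exists_eq_sum_add_pow_mul 3
    have i2 : iteratedDeriv 2 (fun t : ℂ => liftV S (y₀ + t)) 0 = deriv (deriv (liftV S)) y₀ := by
      rw [iteratedDeriv_comp_const_add]
      simp only [add_zero]
      rw [iteratedDeriv_succ, iteratedDeriv_one]
    have Gp : Tendsto (fun t : ℂ => G t) (𝓝 0) (𝓝 (G 0)) := hG.continuousAt.tendsto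
    have Gm : Tendsto (fun t : ℂ => G (-t)) (𝓝 0) (𝓝 (G 0)) := by
      have h : Tendsto (fun t : ℂ => -t) (𝓝 0) (𝓝 0) := by
        have h : Continuous (fun t : ℂ => -t) := by fun_prop
        simpa using h.tendsto 0
      exact hG.continuousAt.tendsto.comp h
    have L : Tendsto (fun t : ℂ => deriv (deriv (liftV S)) y₀ + t * (G t - G (-t))
        + (R (y₀ + t, t) + R (y₀ - t, t) - 2 * R (y₀, t))) (𝓝 0)
        (𝓝 (deriv (deriv (liftV S)) y₀ + 0 * (G 0 - G 0)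
          + (R (y₀, 0) + R (y₀, 0) - 2 * R (y₀, 0)))) :=
      (tendsto_const_nhds.add (tid.mul (Gp.sub Gm))).add ((Rp.add Rm).sub (R0.const_mul 2))
    have L' := L.mono_left (nhdsWithin_le_nhds (s := {0}ᶜ))
    have e : deriv (deriv (liftV S)) y₀ + 0 * (G 0 - G 0) + (R (y₀, 0) + R (y₀, 0) - 2 * R (y₀, 0))
        = deriv (deriv (liftV S)) y₀ := by ring
    rw [e] at L'
    refine L'.congr' ?_
    filter_upwards [hne, dp.filter_mono nhdsWithin_le_nhds, dm.filter_mono nhdsWithin_le_nhds,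
      d0.filter_mono nhdsWithin_le_nhds] with t ht h1 h2 h3
    have g1 := hGe t
    have g2 := hGe (-t)
    have g3 := hGe 0
    simp only [Finset.sum_range_succ, Finset.sum_range_zero, i2, smul_eq_mul, Nat.factorial] at g1 g2 g3
    rw [← sub_eq_add_neg] at g2
    rw [add_zero] at g3
    rw [h1, h2, h3]
    rw [g1, g2, g3]
    field_simp
    push_cast
    ring

/-! ## §4 the first displacement coefficient -/

/-- the polynomial identity behind `chord_exp`. -/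
theorem chx_alg (t x z w a b e g δ₁ δ₂ δ₃ δ₄ : ℂ) (hw : x + z = t ^ 3 * w) :
    (t * x + e * (t * x) ^ 3 + g * (t * x) ^ 4 + t ^ 4 * δ₃)
        * ((t * z) ^ 2 / 2 + a * (t * z) ^ 4 + b * (t * z) ^ 5 + t ^ 5 * δ₂)
      + (t * z + e * (t * z) ^ 3 + g * (t * z) ^ 4 + t ^ 4 * δ₄)
        * ((t * x) ^ 2 / 2 + a * (t * x) ^ 4 + b * (t * x) ^ 5 + t ^ 5 * δ₁)
      = t ^ 6 * (w * x * z / 2 + t ^ 2 * w * (a * x * z * (x ^ 2 - x * z + z ^ 2) + e / 2 * x ^ 2 * z ^ 2)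
        + b * (x * z ^ 5 + z * x ^ 5) + g / 2 * (x ^ 4 * z ^ 2 + z ^ 4 * x ^ 2) + t * e * a * (x ^ 3 * z ^ 4
        + z ^ 3 * x ^ 4) + t ^ 2 * (e * b * (x ^ 3 * z ^ 5 + z ^ 3 * x ^ 5) + 2 * g * a * x ^ 4 * z ^ 4)
        + t ^ 3 * g * b * (x ^ 4 * z ^ 5 + z ^ 4 * x ^ 5) + δ₃ * (z ^ 2 / 2 + a * t ^ 2 * z ^ 4
        + b * t ^ 3 * z ^ 5) + δ₂ * (x + e * t ^ 2 * x ^ 3 + g * t ^ 3 * x ^ 4) + δ₄ * (x ^ 2 / 2
        + a * t ^ 2 * x ^ 4 + b * t ^ 3 * x ^ 5) + δ₁ * (z + e * t ^ 2 * z ^ 3 + g * t ^ 3 * z ^ 4)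
        + t ^ 3 * (δ₃ * δ₂ + δ₄ * δ₁)) := by
  obtain rfl : x = t ^ 3 * w - z := by linear_combination hw
  ring

/-- the limit computation behind `chord_exp`. -/
theorem chx_limit {l : Filter ℂ} [l.NeBot] {t x z w a b e g δ₁ δ₂ δ₃ δ₄ : ℂ → ℂ}
    {W a₀ b₀ e₀ g₀ : ℂ} (ht : Tendsto t l (𝓝 0)) (hx : Tendsto x l (𝓝 1))
    (hz : Tendsto z l (𝓝 (-1))) (hw : Tendsto w l (𝓝 W)) (ha : Tendsto a l (𝓝 a₀))
    (hb : Tendsto b l (𝓝 b₀)) (he : Tendsto e l (𝓝 e₀)) (hg : Tendsto g l (𝓝 g₀))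
    (h₁ : Tendsto δ₁ l (𝓝 0)) (h₂ : Tendsto δ₂ l (𝓝 0)) (h₃ : Tendsto δ₃ l (𝓝 0))
    (h₄ : Tendsto δ₄ l (𝓝 0)) (hne : ∀ᶠ τ in l, t τ ≠ 0)
    (hxz : ∀ᶠ τ in l, x τ + z τ = t τ ^ 3 * w τ)
    (hrec : ∀ᶠ τ in l,
      (t τ * x τ + e τ * (t τ * x τ) ^ 3 + g τ * (t τ * x τ) ^ 4 + t τ ^ 4 * δ₃ τ)
        * ((t τ * z τ) ^ 2 / 2 + a τ * (t τ * z τ) ^ 4 + b τ * (t τ * z τ) ^ 5 + t τ ^ 5 * δ₂ τ)
      + (t τ * z τ + e τ * (t τ * z τ) ^ 3 + g τ * (t τ * z τ) ^ 4 + t τ ^ 4 * δ₄ τ)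
        * ((t τ * x τ) ^ 2 / 2 + a τ * (t τ * x τ) ^ 4 + b τ * (t τ * x τ) ^ 5 + t τ ^ 5 * δ₁ τ)
      = 0) :
    W = 2 * (g₀ - 2 * b₀) := by
  have hΨ : Continuous (fun p : ℂ × ℂ × ℂ × ℂ × ℂ × ℂ × ℂ × ℂ × ℂ × ℂ × ℂ × ℂ =>
      p.2.2.2.1 * p.2.1 * p.2.2.1 / 2
      + p.1 ^ 2 * p.2.2.2.1 * (p.2.2.2.2.1 * p.2.1 * p.2.2.1 * (p.2.1 ^ 2 - p.2.1 * p.2.2.1 + p.2.2.1 ^ 2)
      + p.2.2.2.2.2.2.1 / 2 * p.2.1 ^ 2 * p.2.2.1 ^ 2) + p.2.2.2.2.2.1 * (p.2.1 * p.2.2.1 ^ 5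
      + p.2.2.1 * p.2.1 ^ 5) + p.2.2.2.2.2.2.2.1 / 2 * (p.2.1 ^ 4 * p.2.2.1 ^ 2 + p.2.2.1 ^ 4 * p.2.1 ^ 2)
      + p.1 * p.2.2.2.2.2.2.1 * p.2.2.2.2.1 * (p.2.1 ^ 3 * p.2.2.1 ^ 4 + p.2.2.1 ^ 3 * p.2.1 ^ 4)
      + p.1 ^ 2 * (p.2.2.2.2.2.2.1 * p.2.2.2.2.2.1 * (p.2.1 ^ 3 * p.2.2.1 ^ 5 + p.2.2.1 ^ 3 * p.2.1 ^ 5)
      + 2 * p.2.2.2.2.2.2.2.1 * p.2.2.2.2.1 * p.2.1 ^ 4 * p.2.2.1 ^ 4)
      + p.1 ^ 3 * p.2.2.2.2.2.2.2.1 * p.2.2.2.2.2.1 * (p.2.1 ^ 4 * p.2.2.1 ^ 5 + p.2.2.1 ^ 4 * p.2.1 ^ 5)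
      + p.2.2.2.2.2.2.2.2.2.2.1 * (p.2.2.1 ^ 2 / 2 + p.2.2.2.2.1 * p.1 ^ 2 * p.2.2.1 ^ 4
      + p.2.2.2.2.2.1 * p.1 ^ 3 * p.2.2.1 ^ 5) + p.2.2.2.2.2.2.2.2.2.1 * (p.2.1
      + p.2.2.2.2.2.2.1 * p.1 ^ 2 * p.2.1 ^ 3 + p.2.2.2.2.2.2.2.1 * p.1 ^ 3 * p.2.1 ^ 4)
      + p.2.2.2.2.2.2.2.2.2.2.2 * (p.2.1 ^ 2 / 2 + p.2.2.2.2.1 * p.1 ^ 2 * p.2.1 ^ 4
      + p.2.2.2.2.2.1 * p.1 ^ 3 * p.2.1 ^ 5) + p.2.2.2.2.2.2.2.2.1 * (p.2.2.1
      + p.2.2.2.2.2.2.1 * p.1 ^ 2 * p.2.2.1 ^ 3 + p.2.2.2.2.2.2.2.1 * p.1 ^ 3 * p.2.2.1 ^ 4)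
      + p.1 ^ 3 * (p.2.2.2.2.2.2.2.2.2.2.1 * p.2.2.2.2.2.2.2.2.2.1
      + p.2.2.2.2.2.2.2.2.2.2.2 * p.2.2.2.2.2.2.2.2.1)) := by
    fun_prop
  have T := (hΨ.tendsto (0, 1, -1, W, a₀, b₀, e₀, g₀, 0, 0, 0, 0)).comp
    (ht.prodMk_nhds (hx.prodMk_nhds (hz.prodMk_nhds (hw.prodMk_nhds (ha.prodMk_nhds
      (hb.prodMk_nhds (he.prodMk_nhds (hg.prodMk_nhds (h₁.prodMk_nhds (h₂.prodMk_nhds
        (h₃.prodMk_nhds h₄)))))))))))
  have Z : Tendsto (fun _ : ℂ => (0 : ℂ)) l (𝓝 0) := tendsto_const_nhds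
  have key := tendsto_nhds_unique T (Z.congr' ?_)
  · simp only at key
    linear_combination (-2) * key
  · filter_upwards [hne, hxz, hrec] with τ n1 n2 n3
    have := chx_alg (t τ) (x τ) (z τ) (w τ) (a τ) (b τ) (e τ) (g τ) (δ₁ τ) (δ₂ τ) (δ₃ τ) (δ₄ τ) n2
    rw [n3] at this
    have h6 : t τ ^ 6 ≠ 0 := pow_ne_zero _ n1
    have := (mul_eq_zero.1 this.symm).resolve_left h6
    simp only [Function.comp]
    exact this.symm

/-- an error term of order `n + 1` divided by `t ^ n` tends to `0`. -/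
theorem chx_small {E η : ℂ → ℂ} {C : ℝ} {n : ℕ} {κ : ℂ}
    (hη : Tendsto (fun t => η t / t) (𝓝[≠] 0) (𝓝 κ))
    (hE : ∀ᶠ t in 𝓝[≠] (0 : ℂ), ‖E t‖ ≤ C * ‖η t‖ ^ (n + 1)) :
    Tendsto (fun t => E t / t ^ n) (𝓝[≠] 0) (𝓝 0) := by
  have hne : ∀ᶠ t : ℂ in 𝓝[≠] 0, t ≠ 0 := eventually_mem_nhdsWithin
  have tid : Tendsto (fun t : ℂ => ‖t‖) (𝓝[≠] 0) (𝓝 0) := by
    have : Tendsto (fun t : ℂ => ‖t‖) (𝓝 0) (𝓝 ‖(0 : ℂ)‖) := continuous_norm.tendsto 0
    rw [norm_zero] at this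
    exact this.mono_left nhdsWithin_le_nhds
  have B : Tendsto (fun t => C * ‖η t / t‖ ^ (n + 1) * ‖t‖) (𝓝[≠] 0)
      (𝓝 (C * ‖κ‖ ^ (n + 1) * 0)) := ((hη.norm.pow (n + 1)).const_mul C).mul tid
  rw [mul_zero] at B
  refine squeeze_zero_norm' ?_ B
  filter_upwards [hne, hE] with t ht h1
  have hp : 0 < ‖t‖ := norm_pos_iff.2 ht
  rw [norm_div, norm_pow, norm_div, div_pow, div_le_iff₀ (by positivity)]
  refine h1.trans (le_of_eq ?_)
  rw [pow_succ ‖t‖ n]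
  field_simp

/-- P1 Prop 5.6 in local form: the exact recurrence forces `V'' = (f² + 8 q)'/120`. -/
theorem chord_exp {U : Set ℂ} (hU : IsOpen U) {φ f q : ℂ → ℂ} {c c' d d' : ℂ → ℂ → ℂ}
    (hφ : ∀ v ∈ U, HasDerivAt φ (f v) v) (hf : DifferentiableOn ℂ f U)
    (hq : DifferentiableOn ℂ q U) (h : IsChord U φ f q c c' d d') {y₀ : ℂ} (hy₀ : y₀ ∈ U)
    {S : ℂ × ℂ → ℂ} (hS : AnalyticAt ℂ S (y₀, 0)) (h0 : ∀ᶠ y in 𝓝 y₀, S (y, 0) = y)
    (hev : ∀ᶠ z : ℂ × ℂ in 𝓝 (y₀, 0), S (z.1, -z.2) = S z)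
    (hrec : ∀ᶠ t : ℂ in 𝓝 0,
      d (S (y₀, t)) (S (y₀ + t, t)) * c (S (y₀, t)) (S (y₀ - t, t))
        + d (S (y₀, t)) (S (y₀ - t, t)) * c (S (y₀, t)) (S (y₀ + t, t)) = 0) :
    deriv (deriv (liftV S)) y₀ = (2 * f y₀ * deriv f y₀ + 8 * deriv q y₀) / 120 := by
  obtain ⟨L1, L2, L3⟩ := lift_exp hS h0 hev
  obtain ⟨C, r, hr, hT⟩ := chord_taylor hU hφ hf hq h hy₀
  have hne : ∀ᶠ t : ℂ in 𝓝[≠] 0, t ≠ 0 := eventually_mem_nhdsWithin
  have hS0 : S (y₀, 0) = y₀ := h0.self_of_nhds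
  have tp : Tendsto (fun t : ℂ => ((y₀ + t, t) : ℂ × ℂ)) (𝓝 0) (𝓝 (y₀, 0)) := by
    have h : Continuous (fun t : ℂ => ((y₀ + t, t) : ℂ × ℂ)) := by fun_prop
    simpa using h.tendsto 0
  have tm : Tendsto (fun t : ℂ => ((y₀ - t, t) : ℂ × ℂ)) (𝓝 0) (𝓝 (y₀, 0)) := by
    have h : Continuous (fun t : ℂ => ((y₀ - t, t) : ℂ × ℂ)) := by fun_prop
    simpa using h.tendsto 0
  have t0 : Tendsto (fun t : ℂ => ((y₀, t) : ℂ × ℂ)) (𝓝 0) (𝓝 (y₀, 0)) := by
    have h : Continuous (fun t : ℂ => ((y₀, t) : ℂ × ℂ)) := by fun_prop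
    simpa using h.tendsto 0
  have Sp : Tendsto (fun t : ℂ => S (y₀ + t, t)) (𝓝 0) (𝓝 y₀) := by
    have := hS.continuousAt.tendsto.comp tp
    rwa [hS0] at this
  have Sm : Tendsto (fun t : ℂ => S (y₀ - t, t)) (𝓝 0) (𝓝 y₀) := by
    have := hS.continuousAt.tendsto.comp tm
    rwa [hS0] at this
  have Sz : Tendsto (fun t : ℂ => S (y₀, t)) (𝓝 0) (𝓝 y₀) := by
    have := hS.continuousAt.tendsto.comp t0
    rwa [hS0] at this
  have Sz' : Tendsto (fun t : ℂ => S (y₀, t)) (𝓝[≠] 0) (𝓝 y₀) := Sz.mono_left nhdsWithin_le_nhds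
  have hz : Tendsto (fun t : ℂ => (S (y₀ - t, t) - S (y₀, t)) / t) (𝓝[≠] 0) (𝓝 (-1)) := by
    refine L2.neg.congr fun t => ?_
    ring
  have hd1 : ∀ᶠ t : ℂ in 𝓝 0, S (y₀, t) ∈ ball y₀ r := Sz.eventually (ball_mem_nhds y₀ hr)
  have hd2 : ∀ᶠ t : ℂ in 𝓝 0, ‖S (y₀ + t, t) - S (y₀, t)‖ < r := by
    have := (Sp.sub Sz).norm
    rw [sub_self, norm_zero] at this
    exact this.eventually (gt_mem_nhds hr)
  have hd3 : ∀ᶠ t : ℂ in 𝓝 0, ‖S (y₀ - t, t) - S (y₀, t)‖ < r := by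
    have := (Sm.sub Sz).norm
    rw [sub_self, norm_zero] at this
    exact this.eventually (gt_mem_nhds hr)
  have hca : ∀ {k : ℂ → ℂ}, DifferentiableOn ℂ k U →
      Tendsto (fun t : ℂ => k (S (y₀, t))) (𝓝[≠] 0) (𝓝 (k y₀)) := fun hk =>
    (((hk y₀ hy₀).differentiableAt (hU.mem_nhds hy₀)).continuousAt.tendsto).comp Sz'
  have cq := hca hq
  have cf := hca hf
  have cq' := hca (hq.deriv hU)
  have cf' := hca (hf.deriv hU)
  have key := chx_limit (l := 𝓝[≠] (0 : ℂ)) (t := fun t => t)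
    (x := fun t => (S (y₀ + t, t) - S (y₀, t)) / t)
    (z := fun t => (S (y₀ - t, t) - S (y₀, t)) / t)
    (w := fun t => (S (y₀ + t, t) + S (y₀ - t, t) - 2 * S (y₀, t)) / t ^ 4)
    (a := fun t => (q (S (y₀, t)) - f (S (y₀, t)) ^ 2) / 24)
    (b := fun t => (deriv q (S (y₀, t)) - f (S (y₀, t)) * deriv f (S (y₀, t))) / 40)
    (e := fun t => (q (S (y₀, t)) - f (S (y₀, t)) ^ 2) / 6)
    (g := fun t => (2 * deriv q (S (y₀, t)) - f (S (y₀, t)) * deriv f (S (y₀, t))) / 24)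
    (δ₁ := fun t => (c (S (y₀, t)) (S (y₀ + t, t)) - ((S (y₀ + t, t) - S (y₀, t)) ^ 2 / 2
      + (q (S (y₀, t)) - f (S (y₀, t)) ^ 2) / 24 * (S (y₀ + t, t) - S (y₀, t)) ^ 4
      + (deriv q (S (y₀, t)) - f (S (y₀, t)) * deriv f (S (y₀, t))) / 40
        * (S (y₀ + t, t) - S (y₀, t)) ^ 5)) / t ^ 5)
    (δ₂ := fun t => (c (S (y₀, t)) (S (y₀ - t, t)) - ((S (y₀ - t, t) - S (y₀, t)) ^ 2 / 2
      + (q (S (y₀, t)) - f (S (y₀, t)) ^ 2) / 24 * (S (y₀ - t, t) - S (y₀, t)) ^ 4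
      + (deriv q (S (y₀, t)) - f (S (y₀, t)) * deriv f (S (y₀, t))) / 40
        * (S (y₀ - t, t) - S (y₀, t)) ^ 5)) / t ^ 5)
    (δ₃ := fun t => (d (S (y₀, t)) (S (y₀ + t, t)) - ((S (y₀ + t, t) - S (y₀, t))
      + (q (S (y₀, t)) - f (S (y₀, t)) ^ 2) / 6 * (S (y₀ + t, t) - S (y₀, t)) ^ 3
      + (2 * deriv q (S (y₀, t)) - f (S (y₀, t)) * deriv f (S (y₀, t))) / 24
        * (S (y₀ + t, t) - S (y₀, t)) ^ 4)) / t ^ 4)
    (δ₄ := fun t => (d (S (y₀, t)) (S (y₀ - t, t)) - ((S (y₀ - t, t) - S (y₀, t))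
      + (q (S (y₀, t)) - f (S (y₀, t)) ^ 2) / 6 * (S (y₀ - t, t) - S (y₀, t)) ^ 3
      + (2 * deriv q (S (y₀, t)) - f (S (y₀, t)) * deriv f (S (y₀, t))) / 24
        * (S (y₀ - t, t) - S (y₀, t)) ^ 4)) / t ^ 4)
    (tendsto_id.mono_left nhdsWithin_le_nhds) L1 hz L3
    ((cq.sub (cf.pow 2)).div_const 24) ((cq'.sub (cf.mul cf')).div_const 40)
    ((cq.sub (cf.pow 2)).div_const 6) (((cq'.const_mul 2).sub (cf.mul cf')).div_const 24)
    (chx_small (C := C) (n := 5) L1 ?_) (chx_small (C := C) (n := 5) hz ?_)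
    (chx_small (C := C) (n := 4) L1 ?_) (chx_small (C := C) (n := 4) hz ?_) hne ?_ ?_
  · rw [key]
    ring
  · filter_upwards [hd1.filter_mono nhdsWithin_le_nhds, hd2.filter_mono nhdsWithin_le_nhds]
      with t a1 a2
    have := (hT _ a1 _ a2).1
    rwa [add_sub_cancel] at this
  · filter_upwards [hd1.filter_mono nhdsWithin_le_nhds, hd3.filter_mono nhdsWithin_le_nhds]
      with t a1 a2
    have := (hT _ a1 _ a2).1
    rwa [add_sub_cancel] at this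
  · filter_upwards [hd1.filter_mono nhdsWithin_le_nhds, hd2.filter_mono nhdsWithin_le_nhds]
      with t a1 a2
    have := (hT _ a1 _ a2).2
    rwa [add_sub_cancel] at this
  · filter_upwards [hd1.filter_mono nhdsWithin_le_nhds, hd3.filter_mono nhdsWithin_le_nhds]
      with t a1 a2
    have := (hT _ a1 _ a2).2
    rwa [add_sub_cancel] at this
  · filter_upwards [hne] with t ht
    field_simp
    ring
  · filter_upwards [hne, hrec.filter_mono nhdsWithin_le_nhds] with t ht hr'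
    have k1 : t * ((S (y₀ + t, t) - S (y₀, t)) / t) = S (y₀ + t, t) - S (y₀, t) := by field_simp
    have k2 : t * ((S (y₀ - t, t) - S (y₀, t)) / t) = S (y₀ - t, t) - S (y₀, t) := by field_simp
    have k5 : ∀ X : ℂ, t ^ 5 * (X / t ^ 5) = X := fun X => by field_simp
    have k4 : ∀ X : ℂ, t ^ 4 * (X / t ^ 4) = X := fun X => by field_simp
    rw [k1, k2, k5, k5, k4, k4]
    linear_combination hr'

end Claimed.Agent.R269
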