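/-
Row 269, library L1-SCV, part 0: functions of two complex variables.
Statements: helper264.  Proofs: helper270 (LF-SCV-osgood), from the ported open056 library `Lib/SCVa.lean`, `Lib/SCV0.lean`.

* `osgood`                               continuous + separately holomorphic => jointly analytic
* `analyticOnNhd_of_differentiableOn₂`   complex differentiable on an open subset of `ℂ × ℂ` => analytic
* `SCV.clm_circleIntegral`, `SCV.analyticOnNhd_continuousMap`   auxiliary
-/
import Claimed.Agent.R269.Lib.SCV0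

set_option autoImplicit false

namespace Claimed.Agent.R269

open Complex Filter Topology Set Metric
open scoped Real

namespace SCV

/-- continuous linear maps commute with circle integrals. -/
theorem clm_circleIntegral {E F : Type*} [NormedAddCommGroup E] [NormedSpace ℂ E] [CompleteSpace E]
    [NormedAddCommGroup F] [NormedSpace ℂ F] [CompleteSpace F] (L : E →L[ℂ] F) {f : ℂ → E} {c : ℂ}
    {R : ℝ} (hf : CircleIntegrable f c R) :
    L (∮ z in C(c, R), f z) = ∮ z in C(c, R), L (f z) := by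
  simp only [circleIntegral]
  rw [← ContinuousLinearMap.intervalIntegral_comp_comm L hf.out]
  simp only [map_smul]

/-- a continuous map into `C(K, G)` which is pointwise holomorphic is holomorphic. -/
theorem analyticOnNhd_continuousMap {K : Type*} [TopologicalSpace K] [CompactSpace K]
    {G : Type*} [NormedAddCommGroup G] [NormedSpace ℂ G] [CompleteSpace G] {c : ℂ → C(K, G)}
    {V : Set ℂ} (hV : IsOpen V) (hc : ContinuousOn c V)
    (hd : ∀ ζ, DifferentiableOn ℂ (fun y => c y ζ) V) : AnalyticOnNhd ℂ c V := by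
  intro y₀ hy₀
  obtain ⟨ρ, hρ, hball⟩ := Metric.nhds_basis_closedBall.mem_iff.1 (hV.mem_nhds hy₀)
  lift ρ to NNReal using hρ.le
  have hci : CircleIntegrable c y₀ ρ :=
    (hc.mono (sphere_subset_closedBall.trans hball)).circleIntegrable ρ.2
  have h1 := (hasFPowerSeriesOn_cauchy_integral hci (by exact_mod_cast hρ)).analyticAt
  refine h1.congr ?_
  filter_upwards [ball_mem_nhds y₀ hρ] with y hy
  ext ζ
  let ev : C(K, G) →L[ℂ] G := ContinuousMap.evalCLM ℂ ζ
  have hci2 : CircleIntegrable (fun z => (z - y)⁻¹ • c z) y₀ ρ := by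
    refine ContinuousOn.circleIntegrable ρ.2 ?_
    have h5 : ContinuousOn (fun z : ℂ => (z - y)⁻¹) (sphere y₀ ρ) := by
      refine ContinuousOn.inv₀ (by fun_prop) fun z hz => ?_
      rw [sub_ne_zero]
      rintro rfl
      rw [mem_sphere] at hz
      rw [mem_ball] at hy
      exact hy.ne hz
    exact h5.smul (hc.mono (sphere_subset_closedBall.trans hball))
  have h2 : ev ((2 * π * I : ℂ)⁻¹ • ∮ z in C(y₀, ρ), (z - y)⁻¹ • c z) =
      (2 * π * I : ℂ)⁻¹ • ∮ z in C(y₀, ρ), (z - y)⁻¹ • c z ζ := by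
    rw [map_smul, clm_circleIntegral ev hci2]
    simp only [map_smul]
    rfl
  have h3 : (2 * π * I : ℂ)⁻¹ • ∮ z in C(y₀, ρ), (z - y)⁻¹ • c z ζ = c y ζ := by
    have := ((hd ζ).mono hball).circleIntegral_sub_inv_smul hy
    rw [this, inv_smul_smul₀]
    simp [Real.pi_ne_zero, I_ne_zero]
  exact h2.trans h3

end SCV

variable {E : Type*} [NormedAddCommGroup E] [NormedSpace ℂ E] [CompleteSpace E]

open SCV in
/-- **Osgood's lemma**: continuous + separately holomorphic ⇒ jointly analytic. -/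
theorem osgood {f : ℂ × ℂ → E} {U : Set (ℂ × ℂ)} (hU : IsOpen U) (hc : ContinuousOn f U)
    (h1 : ∀ z ∈ U, DifferentiableAt ℂ (fun y => f (y, z.2)) z.1)
    (h2 : ∀ z ∈ U, DifferentiableAt ℂ (fun t => f (z.1, t)) z.2) : AnalyticOnNhd ℂ f U := by
  rintro ⟨x₀, t₀⟩ hp₀
  obtain ⟨ε, hε, hball⟩ := Metric.isOpen_iff.1 hU _ hp₀
  set R : ℝ := ε / 2 with hRdef
  have hR : 0 < R := by positivity
  set V : Set ℂ := ball x₀ ε with hVdef
  have hV : IsOpen V := isOpen_ball
  have hmem : ∀ x ∈ V, ∀ z ∈ closedBall t₀ R, (x, z) ∈ U := by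
    intro x hx z hz
    apply hball
    rw [mem_ball, Prod.dist_eq, max_lt_iff]
    refine ⟨hx, lt_of_le_of_lt hz ?_⟩
    rw [hRdef]; linarith
  have hmemS : ∀ x ∈ V, ∀ z : sphere t₀ R, (x, (z : ℂ)) ∈ U := fun x hx z =>
    hmem x hx z (sphere_subset_closedBall z.2)
  classical
  let c : ℂ → C(sphere t₀ R, E) := fun x =>
    if hx : x ∈ V then ⟨fun z => f (x, z),
      hc.comp_continuous (by fun_prop) (hmemS x hx)⟩ else 0
  have hcv : ∀ x ∈ V, ∀ z, c x z = f (x, z) := by
    intro x hx z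
    simp only [c, dif_pos hx]
    rfl
  have hccont : ContinuousOn c V := by
    apply continuousOn_of_continuousOn_uncurry
    have h3 : ContinuousOn (fun p : ℂ × sphere t₀ R => f (p.1, (p.2 : ℂ))) (V ×ˢ univ) :=
      hc.comp (by fun_prop) fun p hp => hmemS p.1 hp.1 p.2
    exact h3.congr fun p hp => hcv p.1 hp.1 p.2
  have hcd : ∀ ζ, DifferentiableOn ℂ (fun y => c y ζ) V := by
    intro ζ y hy
    refine DifferentiableAt.differentiableWithinAt ?_
    refine (h1 (y, ζ) (hmemS y hy ζ)).congr_of_eventuallyEq ?_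
    filter_upwards [hV.mem_nhds hy] with y' hy' using hcv y' hy' ζ
  have hcan : AnalyticAt ℂ c x₀ := analyticOnNhd_continuousMap hV hccont hcd x₀ (mem_ball_self hε)
  have hK : AnalyticAt ℂ (fun p : ℂ × ℂ => cauchyKernel E t₀ hR (p.2 - t₀)) (x₀, t₀) := by
    have h1 : AnalyticAt ℂ (cauchyKernel E t₀ hR) (((x₀, t₀) : ℂ × ℂ).2 - t₀) := by
      simpa using analyticAt_cauchyKernel (G := E) t₀ hR (s := 0) (by simpa using hR)
    exact AnalyticAt.comp (f := fun p : ℂ × ℂ => p.2 - t₀) h1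
      (analyticAt_snd.sub analyticAt_const)
  have hC : AnalyticAt ℂ (fun p : ℂ × ℂ => c p.1) (x₀, t₀) :=
    AnalyticAt.comp (g := c) (f := fun p : ℂ × ℂ => p.1) (x := (x₀, t₀)) hcan analyticAt_fst
  have hmain : AnalyticAt ℂ (fun p : ℂ × ℂ => cauchyKernel E t₀ hR (p.2 - t₀) (c p.1)) (x₀, t₀) :=
    AnalyticAt.comp₂ (h := fun q : (C(sphere t₀ R, E) →L[ℂ] E) × C(sphere t₀ R, E) => q.1 q.2)
      ((ContinuousLinearMap.id ℂ (C(sphere t₀ R, E) →L[ℂ] E)).analyticAt_bilinear _) hK hC
  refine hmain.congr ?_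
  have hnhds : V ×ˢ ball t₀ R ∈ 𝓝 (x₀, t₀) :=
    prod_mem_nhds (hV.mem_nhds (mem_ball_self hε)) (ball_mem_nhds t₀ hR)
  filter_upwards [hnhds] with p hp
  have hg : DifferentiableOn ℂ (fun z : ℂ => f (p.1, z)) (closedBall t₀ R) := by
    intro z hz
    exact (h2 (p.1, z) (hmem p.1 hp.1 z hz)).differentiableWithinAt
  have := cauchyKernel_apply t₀ hR (s := p.2 - t₀) (by simpa [dist_eq_norm] using hp.2) hg (c p.1)
    (fun z => hcv p.1 hp.1 z)
  rw [this]
  simp

/-- complex differentiable on an open subset of `ℂ × ℂ` ⇒ analytic. -/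
theorem analyticOnNhd_of_differentiableOn₂ {f : ℂ × ℂ → E} {U : Set (ℂ × ℂ)} (hU : IsOpen U)
    (hf : DifferentiableOn ℂ f U) : AnalyticOnNhd ℂ f U :=
  SCV.analyticOnNhd_of_differentiableOn hU hf

end Claimed.Agent.R269
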