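/-
Row 269: THE ENTIRE RECURRENCE ON THE MAXIMAL PASSAGE.   Owner: helper146 (for Sections 6 and 7).   Host-free part: `Lib/Chord.lean`.

`Sh.chC s v`, `Sh.chD s v` (`Sh.chC'`, `Sh.chD'` = derivatives in `v`) are the chord functions of `(φ, f, q)` on the shape strip `Sh.D`; they are jointly holomorphic on `D × D`.
    `Sh.chREC s₋ s s₊ = chD s s₊ * chC s s₋ + chD s s₋ * chC s s₊`.
MAIN RESULT `Shape.ch_rec`: if `(y-t,t), (y,t), (y+t,t)` lie in the maximal passage then `chREC (Smax (y-t,t)) (Smax (y,t)) (Smax (y+t,t)) = 0`.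
Also: the fundamental system `chc1, chc2` at `0` and its monodromy (`ch_c2_per`), wanted by Section 6 (Theorem 6.7).

PROOF PLANS
(ch_first)  `A(v) = chD' s v f v - chD s v f' v` has `A' = - f s f v sin(φ v - φ s)` (use `q_eq`: `f'' = q f`), as has `f s cos(φ v - φ s)`; equal at `v = s`; `D` convex.  Same for `B = chC' f - chC f'`, `B' = f v cos(φ v - φ s)`.
(ch_formula_local)  `f 0 ≠ 0` (`G.φ'_pos`, `φ_base`), so `f ≠ 0` on a ball `ball 0 ε ⊆ D`.  Fix `s`; `v ↦ Γ v - Γ s - RHS` has derivative `0` on the ball by `Γ_deriv`, `ch_first` and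
     `cos Δ e_ψ - sin Δ n_ψ = e_{ψ+Δ}`, and vanishes at `v = s`.
(ch_rec_local)  everything near `(y,t) = (0,0)`.  Put `ψ(y,t) = (Θ(y-t/2,t) + Θ(y+t/2,t))/2`, so `G.X0 (y,t) = suppPt hc ψ`.
   1. `lift_base`, `Γ_base`: `X0 (y,t) = Γ0 (lift (y,t)) = suppPt hc (φ (lift (y,t)))`  (`Γ0 s = X0 (s,0)`, `φ_base`).
   2. `ψ = φ ∘ lift` near `(0,0)`: both are continuous, equal to `φ 0` at `(0,0)` (`lift_zero`), and `suppPt hc` is injective near `φ 0`: the function `ψ ↦ ⟨suppPt hc ψ, e_{φ 0}⟩` has derivative `(hc + hc'')(φ 0) ≠ 0`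
      at `φ 0` (`rad_pos`; `φ 0` is real by `Θ_conj`), `HasStrictDerivAt` ⇒ locally injective.
   3. `refl_in`/`refl_out` say: `X0 (y',t)` lies on the lines `(Θ,p)(y' ± t/2, t)`:  `⟨X0 (y',t), n_Θ⟩ = p`.  Hence `⟨X0 (y+t,t) - X0 (y,t), n_{ψ+δ}⟩ = 0`, `⟨X0 (y-t,t) - X0 (y,t), n_{ψ-δ}⟩ = 0`, `δ = (Θ(y+t/2,t) - Θ(y-t/2,t))/2`.
   4. `ch_formula_local` with `s = lift (y,t)`, `v = lift (y±t,t)`:  `X0(y±t,t) - X0(y,t) = A± e_ψ + B± n_ψ`, `A± = k± chD s s±`, `B± = - k± f s chC s s±`, `k± = c_G/(f s f s±) ≠ 0`.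
      `⟨e_ψ, n_{ψ±δ}⟩ = ± sin δ`, `⟨n_ψ, n_{ψ±δ}⟩ = cos δ`:  `A₊ sin δ + B₊ cos δ = 0`, `- A₋ sin δ + B₋ cos δ = 0`, so `(A₋ B₊ + A₊ B₋) cos δ = 0`; `cos δ ≠ 0` near `(0,0)`.
(ch_rec)  `Ω₃ = {(y,t) : (y-t,t), (y,t), (y+t,t) ∈ Rmax}` is open, `R(y,t) = chREC (Smax ..) (Smax ..) (Smax ..)` is differentiable on it (`s9k_max`, `ch_isChord.c_joint`, ...), hence analytic (`SCV.analyticOnNhd_of_differentiableOn`).
   `B₀ = {(y,t) : |t| < ρ, |Im y| + |Im t| < G.s}` is convex, contained in `Ω₃` (the three points lie in the tube by `Glance.le_hX`, `ρ ≤ r₁ < s`; `T ⊆ Rmax`, `Smax = lift` on `T` by `s9k_max_spec Sh.s9k_tube`).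
   Given `(y*,t*) ∈ Ω₃`, the vertical segment from `(Re y*, t*) ∈ B₀` to `(y*,t*)` lies in `Ω₃` by `s9k_fibre` (three times).  `B₀ ∪ segment` is preconnected and contains `(0,0)`:
   `AnalyticOnNhd.eqOn_zero_of_preconnected_of_eventuallyEq_zero`.
(ch_c2_per)  `q (s+2π) = q s` on `D` (`f` periodic by `φ_per`; `q_eq`; zeros of `f` are isolated, `f ≢ 0`; continuity).  So `k(s) = chc2 (s+2π)` solves `k'' = q k`; by `IsFund.repr`  `k = k(0) c1 + k'(0) c2`, `f = f(0) c1 + f'(0) c2`.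
   On the real axis `f > 0` and `(c2/f)' = f(0)/f²` (Wronskian of `f, c2` is `f(0)`), so `c2(x+2π)/f(x) - c2(x)/f(x) = f(0) ∫_x^{x+2π} f⁻² = a`, a positive constant.  Two solutions of `k'' = q k` equal on `ℝ` are equal on `D`.
-/
import Claimed.Agent.R269.Lib.Chord
import Claimed.Agent.R269.Lib.SCV0
import Claimed.Agent.R269.S5.LiftWidth
import Claimed.Agent.R269.S9.PassageMax
import Claimed.Agent.R269.ShapeBasic
import Claimed.Agent.R269.S5.Zeros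

set_option autoImplicit false

namespace Claimed.Agent.R269

open Filter Topology Set Metric
open scoped Real

/-- a function with vanishing derivative on a convex open set is constant. -/
theorem chh_const {U : Set ℂ} (hU : IsOpen U) (hc : Convex ℝ U) {g : ℂ → ℂ}
    (hg : ∀ v ∈ U, HasDerivAt g 0 v) {a b : ℂ} (ha : a ∈ U) (hb : b ∈ U) : g a = g b := by
  have hdiff : DifferentiableOn ℂ g U := fun w hw => (hg w hw).differentiableAt.differentiableWithinAt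
  exact hc.is_const_of_fderivWithin_eq_zero (𝕜 := ℂ) hdiff (fun w hw => by
    rw [fderivWithin_of_isOpen hU hw]
    have := (hg w hw).hasFDerivAt.fderiv
    rw [this]; ext; simp) ha hb

namespace Shape

variable (Sh : Shape)

theorem ch_isOpen_D : IsOpen Sh.D := isOpen_estrip _

theorem ch_convex_D : Convex ℝ Sh.D := convex_estrip _

theorem ch_f_diff : DifferentiableOn ℂ Sh.f Sh.D := Sh.φ_diff.deriv Sh.ch_isOpen_D

theorem ch_φ_deriv : ∀ v ∈ Sh.D, HasDerivAt Sh.φ (Sh.f v) v := fun v hv =>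
  (Sh.φ_diff.differentiableAt (Sh.ch_isOpen_D.mem_nhds hv)).hasDerivAt

/-- LEAF LF-Chord-6a: the strip `|Im s| < G.s` is contained in the shape strip. -/
theorem ch_hstrip_subset_D : hstrip Sh.G.s ⊆ Sh.D := by
  intro z hz
  have hs : 0 < Sh.G.s := Sh.G.r₁_pos.trans Sh.G.r₁_lt
  have h1 : ENNReal.ofReal Sh.G.s ≤ Sh.G.hX 0 := Sh.G.le_hX (by simpa using Sh.G.r₁_pos)
  have h2 : ENNReal.ofReal |z.im| < ENNReal.ofReal Sh.G.s := (ENNReal.ofReal_lt_ofReal_iff hs).2 hz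
  exact h2.trans_le h1

theorem ch_exists : ∃ c c' d d' : ℂ → ℂ → ℂ, IsChord Sh.D Sh.φ Sh.f Sh.q c c' d d' :=
  isChord_exists Sh.ch_isOpen_D Sh.ch_convex_D Sh.φ_diff Sh.ch_f_diff Sh.q_diff

/-- the normal chord function `c(s,v)`. -/
noncomputable def chC : ℂ → ℂ → ℂ := Sh.ch_exists.choose
/-- `∂_v c(s,v)`. -/
noncomputable def chC' : ℂ → ℂ → ℂ := Sh.ch_exists.choose_spec.choose
/-- the tangential chord function `d(s,v)`. -/
noncomputable def chD : ℂ → ℂ → ℂ := Sh.ch_exists.choose_spec.choose_spec.choose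
/-- `∂_v d(s,v)`. -/
noncomputable def chD' : ℂ → ℂ → ℂ := Sh.ch_exists.choose_spec.choose_spec.choose_spec.choose

theorem ch_isChord : IsChord Sh.D Sh.φ Sh.f Sh.q Sh.chC Sh.chC' Sh.chD Sh.chD' :=
  Sh.ch_exists.choose_spec.choose_spec.choose_spec.choose_spec

/-- the entire reflection equation. -/
noncomputable def chREC (sm s sp : ℂ) : ℂ := Sh.chD s sp * Sh.chC s sm + Sh.chD s sm * Sh.chC s sp

/-- the fast form of the chord functions at `s ∈ D`, `t ≠ 0`. -/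
theorem ch_isFast {s t : ℂ} (hs : s ∈ Sh.D) (ht : t ≠ 0) :
    IsFast {u | s + t * u ∈ Sh.D} (fun u => t * Sh.f (s + t * u)) (fun u => t ^ 2 * Sh.q (s + t * u))
      (fun u => Sh.φ (s + t * u) - Sh.φ s) (fun u => Sh.chC s (s + t * u) / t ^ 2)
      (fun u => Sh.chC' s (s + t * u) / t) (fun u => Sh.chD s (s + t * u) / t)
      (fun u => Sh.chD' s (s + t * u)) :=
  Sh.ch_isChord.isFast Sh.ch_φ_deriv hs ht

theorem chh_f_deriv : ∀ v ∈ Sh.D, HasDerivAt Sh.f (deriv Sh.f v) v := fun _ hv =>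
  (Sh.ch_f_diff.differentiableAt (Sh.ch_isOpen_D.mem_nhds hv)).hasDerivAt

theorem chh_f'_deriv : ∀ v ∈ Sh.D, HasDerivAt (deriv Sh.f) (Sh.q v * Sh.f v) v := fun v hv => by
  have h1 : DifferentiableOn ℂ (deriv Sh.f) Sh.D := Sh.ch_f_diff.deriv Sh.ch_isOpen_D
  have h2 := (h1.differentiableAt (Sh.ch_isOpen_D.mem_nhds hv)).hasDerivAt
  have h3 : deriv (deriv Sh.f) v = Sh.q v * Sh.f v := Sh.q_eq v hv
  rwa [h3] at h2

/-- LEAF LF-Chord-6b: the two first integrals. -/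
theorem ch_first : ∀ s ∈ Sh.D, ∀ v ∈ Sh.D,
    Sh.chD' s v * Sh.f v - Sh.chD s v * deriv Sh.f v = Sh.f s * Complex.cos (Sh.φ v - Sh.φ s) ∧
    Sh.chC' s v * Sh.f v - Sh.chC s v * deriv Sh.f v = Complex.sin (Sh.φ v - Sh.φ s) := by
  intro s hs v hv
  have hI := Sh.ch_isChord
  have hΔ : ∀ w ∈ Sh.D, HasDerivAt (fun w => Sh.φ w - Sh.φ s) (Sh.f w) w := fun w hw =>
    (Sh.ch_φ_deriv w hw).sub_const _
  constructor
  · have key := chh_const Sh.ch_isOpen_D Sh.ch_convex_D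
      (g := fun w => Sh.chD' s w * Sh.f w - Sh.chD s w * deriv Sh.f w
        - Sh.f s * Complex.cos (Sh.φ w - Sh.φ s))
      (fun w hw => by
        refine ((((hI.d'_deriv s hs w hw).mul (Sh.chh_f_deriv w hw)).sub
          ((hI.d_deriv s hs w hw).mul (Sh.chh_f'_deriv w hw))).sub
          ((hΔ w hw).ccos.const_mul (Sh.f s))).congr_deriv ?_
        ring) hv hs
    simp only [hI.d'_diag s hs, hI.d_diag s hs, sub_self, Complex.cos_zero] at key
    linear_combination key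
  · have key := chh_const Sh.ch_isOpen_D Sh.ch_convex_D
      (g := fun w => Sh.chC' s w * Sh.f w - Sh.chC s w * deriv Sh.f w
        - Complex.sin (Sh.φ w - Sh.φ s))
      (fun w hw => by
        refine ((((hI.c'_deriv s hs w hw).mul (Sh.chh_f_deriv w hw)).sub
          ((hI.c_deriv s hs w hw).mul (Sh.chh_f'_deriv w hw))).sub
          ((hΔ w hw).csin)).congr_deriv ?_
        ring) hv hs
    simp only [hI.c'_diag s hs, hI.c_diag s hs, sub_self, Complex.sin_zero] at key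
    linear_combination key

/-- `f = φ'` coincides with the derivative of `Θ(·,0)` on the real axis. -/
theorem chh_f_real (x : ℝ) : Sh.f x = deriv (fun y => Sh.G.Θ y 0) x := by
  have hs : 0 < Sh.G.s := Sh.sb_Gs_pos
  have hev : Sh.φ =ᶠ[𝓝 (x : ℂ)] fun y => Sh.G.Θ y 0 := by
    filter_upwards [(sb_hstrip_isOpen (Sh.G.s / 2)).mem_nhds
      (show (x : ℂ) ∈ hstrip (Sh.G.s / 2) by simp [hstrip]; positivity)] with y hy
      using Sh.φ_base y hy
  exact hev.deriv_eq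

theorem chh_f_re_pos (x : ℝ) : 0 < (Sh.f x).re := by
  rw [Sh.chh_f_real x]; exact Sh.G.φ'_pos x

theorem chh_f_real_ne (x : ℝ) : Sh.f x ≠ 0 := fun h => by
  have := Sh.chh_f_re_pos x
  rw [h] at this
  simp at this

/-- LEAF LF-Chord-6c: the chord formula near `0`. -/
theorem ch_formula_local : ∃ ε : ℝ, 0 < ε ∧ ball (0 : ℂ) ε ⊆ Sh.D ∧ (∀ s ∈ ball (0 : ℂ) ε, Sh.f s ≠ 0) ∧
    ∀ s ∈ ball (0 : ℂ) ε, ∀ v ∈ ball (0 : ℂ) ε,
      Sh.Γ v - Sh.Γ s = ((Sh.G.c : ℂ) / (Sh.f s * Sh.f v)) •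
        (Sh.chD s v • ((-Complex.sin (Sh.φ s), Complex.cos (Sh.φ s)) : ℂ × ℂ)
          - (Sh.f s * Sh.chC s v) • ((Complex.cos (Sh.φ s), Complex.sin (Sh.φ s)) : ℂ × ℂ)) := by
  have h0D : (0 : ℂ) ∈ Sh.D := Sh.sb_zero_mem_D
  have hf0 : Sh.f 0 ≠ 0 := by simpa using Sh.chh_f_real_ne 0
  have hcont : ContinuousAt Sh.f 0 := (Sh.chh_f_deriv 0 h0D).continuousAt
  have hev : ∀ᶠ s in 𝓝 (0 : ℂ), s ∈ Sh.D ∧ Sh.f s ≠ 0 :=
    (Sh.ch_isOpen_D.eventually_mem h0D).and (hcont.eventually_ne hf0)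
  obtain ⟨ε, hε, hball⟩ := Metric.eventually_nhds_iff_ball.1 hev
  refine ⟨ε, hε, fun s hs => (hball s hs).1, fun s hs => (hball s hs).2, fun s hs v hv => ?_⟩
  have hI := Sh.ch_isChord
  have hsD := (hball s hs).1
  have hfs := (hball s hs).2
  -- quotients
  have hX : ∀ w ∈ ball (0 : ℂ) ε, HasDerivAt (fun w => Sh.chD s w / Sh.f w)
      (Sh.f s * Complex.cos (Sh.φ w - Sh.φ s) / Sh.f w ^ 2) w := fun w hw => by
    have := (hI.d_deriv s hsD w (hball w hw).1).div (Sh.chh_f_deriv w (hball w hw).1) (hball w hw).2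
    rwa [(Sh.ch_first s hsD w (hball w hw).1).1] at this
  have hY : ∀ w ∈ ball (0 : ℂ) ε, HasDerivAt (fun w => Sh.chC s w / Sh.f w)
      (Complex.sin (Sh.φ w - Sh.φ s) / Sh.f w ^ 2) w := fun w hw => by
    have := (hI.c_deriv s hsD w (hball w hw).1).div (Sh.chh_f_deriv w (hball w hw).1) (hball w hw).2
    rwa [(Sh.ch_first s hsD w (hball w hw).1).2] at this
  have hΓ : ∀ w ∈ ball (0 : ℂ) ε, HasDerivAt Sh.Γ (((Sh.G.c : ℂ) / Sh.f w ^ 2) •
      ((-Complex.sin (Sh.φ w), Complex.cos (Sh.φ w)) : ℂ × ℂ)) w := fun w hw =>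
    Sh.Γ_deriv w (hball w hw).1 (hball w hw).2
  have hΓ1 : ∀ w ∈ ball (0 : ℂ) ε, HasDerivAt (fun w => (Sh.Γ w).1)
      ((Sh.G.c : ℂ) / Sh.f w ^ 2 * -Complex.sin (Sh.φ w)) w := fun w hw => by
    have := (ContinuousLinearMap.fst ℂ ℂ ℂ).hasFDerivAt.comp_hasDerivAt w (hΓ w hw)
    refine HasDerivAt.congr_deriv (f := fun w => (Sh.Γ w).1) this ?_
    simp
  have hΓ2 : ∀ w ∈ ball (0 : ℂ) ε, HasDerivAt (fun w => (Sh.Γ w).2)
      ((Sh.G.c : ℂ) / Sh.f w ^ 2 * Complex.cos (Sh.φ w)) w := fun w hw => by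
    have := (ContinuousLinearMap.snd ℂ ℂ ℂ).hasFDerivAt.comp_hasDerivAt w (hΓ w hw)
    refine HasDerivAt.congr_deriv (f := fun w => (Sh.Γ w).2) this ?_
    simp
  have hsin : ∀ w, Complex.sin (Sh.φ w) = Complex.sin (Sh.φ s) * Complex.cos (Sh.φ w - Sh.φ s)
      + Complex.cos (Sh.φ s) * Complex.sin (Sh.φ w - Sh.φ s) := fun w => by
    rw [← Complex.sin_add]; congr 1; ring
  have hcos : ∀ w, Complex.cos (Sh.φ w) = Complex.cos (Sh.φ s) * Complex.cos (Sh.φ w - Sh.φ s)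
      - Complex.sin (Sh.φ s) * Complex.sin (Sh.φ w - Sh.φ s) := fun w => by
    rw [← Complex.cos_add]; congr 1; ring
  have k1 := chh_const isOpen_ball (convex_ball (0 : ℂ) ε)
    (g := fun w => (Sh.Γ w).1 - (Sh.G.c : ℂ) / Sh.f s * ((Sh.chD s w / Sh.f w) * (-Complex.sin (Sh.φ s))
      - Sh.f s * (Sh.chC s w / Sh.f w) * Complex.cos (Sh.φ s)))
    (fun w hw => by
      have hfw := (hball w hw).2
      refine ((hΓ1 w hw).sub ((((hX w hw).mul_const _).sub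
        (((hY w hw).const_mul (Sh.f s)).mul_const _)).const_mul _)).congr_deriv ?_
      rw [hsin w]
      field_simp
      ring) hv hs
  have k2 := chh_const isOpen_ball (convex_ball (0 : ℂ) ε)
    (g := fun w => (Sh.Γ w).2 - (Sh.G.c : ℂ) / Sh.f s * ((Sh.chD s w / Sh.f w) * (Complex.cos (Sh.φ s))
      - Sh.f s * (Sh.chC s w / Sh.f w) * Complex.sin (Sh.φ s)))
    (fun w hw => by
      have hfw := (hball w hw).2
      refine ((hΓ2 w hw).sub ((((hX w hw).mul_const _).sub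
        (((hY w hw).const_mul (Sh.f s)).mul_const _)).const_mul _)).congr_deriv ?_
      rw [hcos w]
      field_simp
      ring) hv hs
  simp only [hI.d_diag s hsD, hI.c_diag s hsD, zero_div, zero_mul, mul_zero, sub_zero] at k1 k2
  have hfv := (hball v hv).2
  ext
  · simp only [Prod.fst_sub, Prod.smul_fst, smul_eq_mul]
    rw [← k1]
    field_simp
    ring
  · simp only [Prod.snd_sub, Prod.smul_snd, smul_eq_mul]
    rw [← k2]
    field_simp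
    ring

/-- LEAF LF-Chord-7: the recurrence for the lift near `(0,0)`. -/
theorem ch_rec_local : ∀ᶠ z : ℂ × ℂ in 𝓝 (0, 0),
    Sh.chREC (Sh.lift (z.1 - z.2, z.2)) (Sh.lift z) (Sh.lift (z.1 + z.2, z.2)) = 0 := by
  obtain ⟨ε, -, hsub, -, h⟩ := Sh.toBase.rec_local
  exact h Sh.q Sh.chC Sh.chC' Sh.chD Sh.chD' (fun s hs => Sh.q_eq s (hsub hs))
    (Sh.ch_isChord.mono hsub)

/-- the thin part of the tube. -/
theorem chh_mem_T {y t : ℂ} (ht : t ∈ ball (0 : ℂ) Sh.ρ) (hy : |y.im| < Sh.G.s) : (y, t) ∈ Sh.T := by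
  have hs : 0 < Sh.G.s := Sh.sb_Gs_pos
  have ht1 : t ∈ ball (0 : ℂ) Sh.G.r₁ := ball_subset_ball Sh.ρ_le ht
  have ht2 : (starRingEnd ℂ) t ∈ ball (0 : ℂ) Sh.G.r₁ := by
    simpa [mem_ball_zero_iff] using ht1
  refine ⟨ht, ?_, ?_⟩
  · exact ((ENNReal.ofReal_lt_ofReal_iff hs).2 ((le_abs_self _).trans_lt hy)).trans_le
      (Sh.G.le_hX ht1)
  · exact ((ENNReal.ofReal_lt_ofReal_iff hs).2 ((neg_le_abs _).trans_lt hy)).trans_le
      (Sh.G.le_hX ht2)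

/-- the domain of the recurrence. -/
def chΩ : Set (ℂ × ℂ) :=
  {z | (z.1 - z.2, z.2) ∈ Sh.s9Rmax ∧ z ∈ Sh.s9Rmax ∧ (z.1 + z.2, z.2) ∈ Sh.s9Rmax}

theorem chh_Ω_open : IsOpen Sh.chΩ := by
  have ho := Sh.s9k_max.isOpen
  have c1 : Continuous fun z : ℂ × ℂ => (z.1 - z.2, z.2) := by fun_prop
  have c2 : Continuous fun z : ℂ × ℂ => (z.1 + z.2, z.2) := by fun_prop
  exact (ho.preimage c1).inter (ho.inter (ho.preimage c2))

theorem chh_R_diff : DifferentiableOn ℂ (fun z : ℂ × ℂ =>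
    Sh.chREC (Sh.s9Smax (z.1 - z.2, z.2)) (Sh.s9Smax z) (Sh.s9Smax (z.1 + z.2, z.2))) Sh.chΩ := by
  have hS := Sh.s9k_max
  have hI := Sh.ch_isChord
  have d1 : Differentiable ℂ fun z : ℂ × ℂ => (z.1 - z.2, z.2) := by fun_prop
  have d2 : Differentiable ℂ fun z : ℂ × ℂ => (z.1 + z.2, z.2) := by fun_prop
  have Sm : DifferentiableOn ℂ (fun z : ℂ × ℂ => Sh.s9Smax (z.1 - z.2, z.2)) Sh.chΩ :=
    hS.diff.comp d1.differentiableOn (fun z hz => hz.1)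
  have S0 : DifferentiableOn ℂ (fun z : ℂ × ℂ => Sh.s9Smax z) Sh.chΩ :=
    hS.diff.mono (fun z hz => hz.2.1)
  have Sp : DifferentiableOn ℂ (fun z : ℂ × ℂ => Sh.s9Smax (z.1 + z.2, z.2)) Sh.chΩ :=
    hS.diff.comp d2.differentiableOn (fun z hz => hz.2.2)
  have mp : MapsTo (fun z : ℂ × ℂ => (Sh.s9Smax z, Sh.s9Smax (z.1 + z.2, z.2))) Sh.chΩ
      (Sh.D ×ˢ Sh.D) := fun z hz => ⟨hS.mem _ hz.2.1, hS.mem _ hz.2.2⟩
  have mm : MapsTo (fun z : ℂ × ℂ => (Sh.s9Smax z, Sh.s9Smax (z.1 - z.2, z.2))) Sh.chΩ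
      (Sh.D ×ˢ Sh.D) := fun z hz => ⟨hS.mem _ hz.2.1, hS.mem _ hz.1⟩
  unfold chREC
  exact ((hI.d_joint.comp (S0.prodMk Sp) mp).mul (hI.c_joint.comp (S0.prodMk Sm) mm)).add
    ((hI.d_joint.comp (S0.prodMk Sm) mm).mul (hI.c_joint.comp (S0.prodMk Sp) mp))

/-- the convex base set. -/
def chB0 : Set (ℂ × ℂ) := {z | z.2 ∈ ball (0 : ℂ) Sh.ρ ∧ |z.1.im| + |z.2.im| < Sh.G.s}

theorem chh_B0_convex : Convex ℝ Sh.chB0 := by
  have h1 : Convex ℝ {z : ℂ × ℂ | z.2 ∈ ball (0 : ℂ) Sh.ρ} :=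
    (convex_ball (0 : ℂ) Sh.ρ).is_linear_preimage (f := Prod.snd) ⟨fun _ _ => rfl, fun _ _ => rfl⟩
  have h2 : Convex ℝ {z : ℂ × ℂ | |z.1.im| + |z.2.im| < Sh.G.s} := by
    have hf : ConvexOn ℝ univ (fun z : ℂ × ℂ => |z.1.im| + |z.2.im|) := by
      refine ⟨convex_univ, fun a _ b _ p q hp hq _ => ?_⟩
      simp only [Prod.fst_add, Prod.snd_add, Prod.smul_fst, Prod.smul_snd, Complex.add_im,
        Complex.real_smul, Complex.mul_im, Complex.ofReal_re, Complex.ofReal_im, zero_mul, add_zero,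
        smul_eq_mul]
      have e1 := abs_add_le (p * a.1.im) (q * b.1.im)
      have e2 := abs_add_le (p * a.2.im) (q * b.2.im)
      rw [abs_mul, abs_mul, abs_of_nonneg hp, abs_of_nonneg hq] at e1 e2
      linarith
    have := hf.convex_lt Sh.G.s
    simpa using this
  exact h1.inter h2

theorem chh_B0_sub_T {z : ℂ × ℂ} (hz : z ∈ Sh.chB0) :
    (z.1 - z.2, z.2) ∈ Sh.T ∧ z ∈ Sh.T ∧ (z.1 + z.2, z.2) ∈ Sh.T := by
  obtain ⟨h1, h2⟩ := hz
  refine ⟨Sh.chh_mem_T h1 ?_, Sh.chh_mem_T h1 ?_, Sh.chh_mem_T h1 ?_⟩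
  · rw [Complex.sub_im]
    exact (abs_sub _ _).trans_lt h2
  · linarith [abs_nonneg z.2.im]
  · rw [Complex.add_im]
    exact (abs_add_le _ _).trans_lt h2

theorem chh_B0_sub : Sh.chB0 ⊆ Sh.chΩ := fun _ hz =>
  let h := Sh.chh_B0_sub_T hz
  let hT := (Sh.s9k_max_spec Sh.s9k_tube).1
  ⟨hT h.1, hT h.2.1, hT h.2.2⟩

theorem chh_B0_open : IsOpen Sh.chB0 := by
  have c1 : Continuous fun z : ℂ × ℂ => |z.1.im| + |z.2.im| := by fun_prop
  exact (isOpen_ball.preimage continuous_snd).inter (isOpen_lt c1 continuous_const)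

/-- LEAF LF-Chord-8: **the entire recurrence on the maximal passage**. -/
theorem ch_rec (y t : ℂ) (hm : (y - t, t) ∈ Sh.s9Rmax) (h0 : (y, t) ∈ Sh.s9Rmax)
    (hp : (y + t, t) ∈ Sh.s9Rmax) :
    Sh.chREC (Sh.s9Smax (y - t, t)) (Sh.s9Smax (y, t)) (Sh.s9Smax (y + t, t)) = 0 := by
  have hs : 0 < Sh.G.s := Sh.sb_Gs_pos
  have ht : t ∈ ball (0 : ℂ) Sh.ρ := Sh.s9k_max.param _ h0
  have htim : |t.im| < Sh.G.s := by
    have h1 : ‖t‖ < Sh.ρ := by simpa using ht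
    have h2 := Complex.abs_im_le_norm t
    linarith [Sh.ρ_le, Sh.G.r₁_lt]
  -- the vertical segment
  set seg : Set (ℂ × ℂ) := (fun τ : ℝ => ((⟨y.re, τ⟩ : ℂ), t)) '' uIcc 0 y.im with hseg
  have hcont : Continuous (fun τ : ℝ => ((⟨y.re, τ⟩ : ℂ), t)) := by
    have : (fun τ : ℝ => ((⟨y.re, τ⟩ : ℂ), t)) = fun τ : ℝ => ((y.re : ℂ) + τ * Complex.I, t) := by
      funext τ
      congr 1
      apply Complex.ext <;> simp
    rw [this]; fun_prop
  have hsegc : IsPreconnected seg := isPreconnected_uIcc.image _ hcont.continuousOn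
  have hbase : ((⟨y.re, 0⟩ : ℂ), t) ∈ Sh.chB0 := ⟨ht, by simpa using htim⟩
  have hbaseΩ := Sh.chh_B0_sub hbase
  have hsegΩ : seg ⊆ Sh.chΩ := by
    rintro _ ⟨τ, hτ, rfl⟩
    -- a general fibre statement
    have fib : ∀ a : ℂ, ((⟨y.re, 0⟩ : ℂ) + a, t) ∈ Sh.s9Rmax → (y + a, t) ∈ Sh.s9Rmax →
        ((⟨y.re, τ⟩ : ℂ) + a, t) ∈ Sh.s9Rmax := by
      intro a h1 h2
      have e0 : ((⟨y.re, 0⟩ : ℂ) + a) = ⟨y.re + a.re, 0 + a.im⟩ := by
        apply Complex.ext <;> simp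
      have e1 : y + a = ⟨y.re + a.re, y.im + a.im⟩ := by
        apply Complex.ext <;> simp
      have e2 : ((⟨y.re, τ⟩ : ℂ) + a) = ⟨y.re + a.re, τ + a.im⟩ := by
        apply Complex.ext <;> simp
      rw [e0] at h1
      rw [e1] at h2
      rw [e2]
      rcases le_total 0 y.im with hy | hy
      · rw [uIcc_of_le hy] at hτ
        exact Sh.s9k_fibre _ _ _ _ t h1 h2 ⟨by linarith [hτ.1], by linarith [hτ.2]⟩
      · rw [uIcc_of_ge hy] at hτ
        exact Sh.s9k_fibre _ _ _ _ t h2 h1 ⟨by linarith [hτ.1], by linarith [hτ.2]⟩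
    refine ⟨?_, ?_, ?_⟩
    · have := fib (-t) (by simpa [sub_eq_add_neg] using hbaseΩ.1) (by simpa [sub_eq_add_neg] using hm)
      simpa [sub_eq_add_neg] using this
    · have := fib 0 (by simpa using hbaseΩ.2.1) (by simpa using h0)
      simpa using this
    · exact fib t hbaseΩ.2.2 hp
  have hUc : IsPreconnected (Sh.chB0 ∪ seg) :=
    IsPreconnected.union ((⟨y.re, 0⟩ : ℂ), t) hbase ⟨0, left_mem_uIcc, rfl⟩
      Sh.chh_B0_convex.isPreconnected hsegc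
  have hA : AnalyticOnNhd ℂ (fun z : ℂ × ℂ =>
      Sh.chREC (Sh.s9Smax (z.1 - z.2, z.2)) (Sh.s9Smax z) (Sh.s9Smax (z.1 + z.2, z.2)))
      (Sh.chB0 ∪ seg) :=
    (SCV.analyticOnNhd_of_differentiableOn Sh.chh_Ω_open Sh.chh_R_diff).mono
      (union_subset Sh.chh_B0_sub hsegΩ)
  have h00 : ((0 : ℂ), (0 : ℂ)) ∈ Sh.chB0 := ⟨by simpa using Sh.ρ_pos, by simpa using hs⟩
  have hev : (fun z : ℂ × ℂ =>
      Sh.chREC (Sh.s9Smax (z.1 - z.2, z.2)) (Sh.s9Smax z) (Sh.s9Smax (z.1 + z.2, z.2)))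
      =ᶠ[𝓝 (0, 0)] 0 := by
    filter_upwards [Sh.ch_rec_local, Sh.chh_B0_open.mem_nhds h00] with z hz hzB
    have hT := Sh.chh_B0_sub_T hzB
    have hE := (Sh.s9k_max_spec Sh.s9k_tube).2
    rw [← hE hT.1, ← hE hT.2.1, ← hE hT.2.2]
    exact hz
  have key := hA.eqOn_zero_of_preconnected_of_eventuallyEq_zero hUc (Or.inl h00) hev
  have hmem : (y, t) ∈ Sh.chB0 ∪ seg := Or.inr ⟨y.im, right_mem_uIcc, by simp⟩
  exact key hmem

/-! ### the fundamental system at `0` (for Section 6) -/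

theorem ch_zero_mem_D : (0 : ℂ) ∈ Sh.D :=
  Sh.ch_hstrip_subset_D (by
    have := Sh.G.r₁_pos; have := Sh.G.r₁_lt
    simp only [hstrip, mem_setOf_eq, Complex.zero_im, abs_zero]; linarith)

theorem ch_fund_exists : ∃ c1 c1' c2 c2' : ℂ → ℂ, IsFund Sh.D Sh.q 0 c1 c1' c2 c2' :=
  isFund_exists Sh.ch_isOpen_D Sh.ch_convex_D Sh.q_diff Sh.ch_zero_mem_D

noncomputable def chc1 : ℂ → ℂ := Sh.ch_fund_exists.choose
noncomputable def chc1' : ℂ → ℂ := Sh.ch_fund_exists.choose_spec.choose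
noncomputable def chc2 : ℂ → ℂ := Sh.ch_fund_exists.choose_spec.choose_spec.choose
noncomputable def chc2' : ℂ → ℂ := Sh.ch_fund_exists.choose_spec.choose_spec.choose_spec.choose

theorem ch_isFund : IsFund Sh.D Sh.q 0 Sh.chc1 Sh.chc1' Sh.chc2 Sh.chc2' :=
  Sh.ch_fund_exists.choose_spec.choose_spec.choose_spec.choose_spec

theorem ch_wronskian : ∀ v ∈ Sh.D, Sh.chc1 v * Sh.chc2' v - Sh.chc2 v * Sh.chc1' v = 1 :=
  Sh.ch_isFund.wronskian Sh.ch_isOpen_D Sh.ch_convex_D Sh.ch_zero_mem_D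

/-- LEAF LF-Chord-9a: `q` is `2π`-periodic. -/
theorem ch_q_per : ∀ s ∈ Sh.D, Sh.q (s + 2 * π) = Sh.q s := Sh.sb_q_per

theorem chh_f_c2 : ∀ s ∈ Sh.D, Sh.f s * Sh.chc2' s - deriv Sh.f s * Sh.chc2 s = Sh.f 0 := by
  intro s hs
  have hF := Sh.ch_isFund
  have key := chh_const Sh.ch_isOpen_D Sh.ch_convex_D
    (g := fun w => Sh.f w * Sh.chc2' w - deriv Sh.f w * Sh.chc2 w)
    (fun w hw => by
      refine (((Sh.chh_f_deriv w hw).mul (hF.c2'_deriv w hw)).sub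
        ((Sh.chh_f'_deriv w hw).mul (hF.c2_deriv w hw))).congr_deriv ?_
      ring) hs Sh.ch_zero_mem_D
  simp only [hF.c2'_zero, hF.c2_zero] at key
  rw [key]; ring

/-- `f` is real on the real axis. -/
theorem chh_f_im (x : ℝ) : (Sh.f x).im = 0 := by
  have h := Sh.sb_f_conj x (Sh.sb_real_mem_D x)
  rw [Complex.conj_ofReal] at h
  exact Complex.conj_eq_iff_im.1 h.symm

theorem chh_f'_per : ∀ s ∈ Sh.D, deriv Sh.f (s + 2 * π) = deriv Sh.f s := by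
  intro s hs
  have hev : (fun z => Sh.f (z + 2 * π)) =ᶠ[𝓝 s] Sh.f := by
    filter_upwards [Sh.ch_isOpen_D.mem_nhds hs] with z hz using Sh.sb_f_per z hz
  rw [← hev.deriv_eq, deriv_comp_add_const]

/-- LEAF LF-Chord-9b: the monodromy of `c2`: `c2/(f(0) f)` is a primitive of `f⁻²`. -/
theorem ch_c2_per : ∃ a : ℝ, 0 < a ∧ ∀ s ∈ Sh.D, Sh.chc2 (s + 2 * π) = Sh.chc2 s + a * Sh.f s := by
  have hF := Sh.ch_isFund
  have h0D := Sh.ch_zero_mem_D
  have hf0 : Sh.f 0 ≠ 0 := by simpa using Sh.chh_f_real_ne 0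
  -- the quotient `c2 / f` along the real axis
  have hquot : ∀ x : ℝ, HasDerivAt (fun z => Sh.chc2 z / Sh.f z) (Sh.f 0 / Sh.f x ^ 2) (x : ℂ) := by
    intro x
    have hx := Sh.sb_real_mem_D x
    have := (hF.c2_deriv x hx).div (Sh.chh_f_deriv x hx) (Sh.chh_f_real_ne x)
    refine this.congr_deriv ?_
    rw [← Sh.chh_f_c2 x hx]; ring
  have hval : ∀ x : ℝ, Sh.f 0 / Sh.f x ^ 2 = (((Sh.f 0).re / (Sh.f x).re ^ 2 : ℝ) : ℂ) := by
    intro x
    have e1 : Sh.f x = ((Sh.f x).re : ℂ) := Complex.ext (by simp) (by simpa using Sh.chh_f_im x)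
    have e0 : Sh.f 0 = ((Sh.f 0).re : ℂ) := Complex.ext (by simp) (by simpa using Sh.chh_f_im 0)
    rw [e1, e0]
    push_cast
    simp
  have hre : ∀ x : ℝ, HasDerivAt (fun x : ℝ => (Sh.chc2 x / Sh.f x).re)
      ((Sh.f 0).re / (Sh.f x).re ^ 2) x := by
    intro x
    have := (hquot x).real_of_complex
    rwa [hval x, Complex.ofReal_re] at this
  have him : ∀ x : ℝ, HasDerivAt (fun x : ℝ => (Sh.chc2 x / Sh.f x).im) 0 x := by
    intro x
    have := ((hquot x).const_mul (-Complex.I)).real_of_complex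
    rw [hval x] at this
    refine HasDerivAt.congr_deriv (f := fun x : ℝ => (Sh.chc2 x / Sh.f x).im) (by simpa using this) ?_
    have e : ((Sh.f 0).re : ℂ) / ((Sh.f x).re : ℂ) ^ 2 = (((Sh.f 0).re / (Sh.f x).re ^ 2 : ℝ) : ℂ) := by
      push_cast; ring
    rw [e, Complex.ofReal_im]
  have hmono : StrictMono (fun x : ℝ => (Sh.chc2 x / Sh.f x).re) := by
    apply strictMono_of_deriv_pos
    intro x
    rw [(hre x).deriv]
    have h1 := Sh.chh_f_re_pos x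
    have h2 : 0 < (Sh.f 0).re := by simpa using Sh.chh_f_re_pos 0
    positivity
  have hconst : ∀ x : ℝ, (Sh.chc2 x / Sh.f x).im = 0 := by
    intro x
    have := is_const_of_deriv_eq_zero (f := fun x : ℝ => (Sh.chc2 x / Sh.f x).im)
      (fun x => (him x).differentiableAt) (fun x => (him x).deriv) x 0
    simpa [hF.c2_zero] using this
  have hpos : 0 < (Sh.chc2 ((2 * π : ℝ) : ℂ) / Sh.f ((2 * π : ℝ) : ℂ)).re := by
    have := hmono (show (0 : ℝ) < 2 * π by positivity)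
    simpa [hF.c2_zero] using this
  have h2π : ((2 * π : ℝ) : ℂ) = 0 + 2 * π := by push_cast; ring
  have hf2π : Sh.f ((2 * π : ℝ) : ℂ) = Sh.f 0 := by rw [h2π]; exact Sh.sb_f_per 0 h0D
  have hf'2π : deriv Sh.f ((2 * π : ℝ) : ℂ) = deriv Sh.f 0 := by rw [h2π]; exact Sh.chh_f'_per 0 h0D
  set a : ℝ := (Sh.chc2 ((2 * π : ℝ) : ℂ) / Sh.f ((2 * π : ℝ) : ℂ)).re with ha
  have haC : (a : ℂ) = Sh.chc2 ((2 * π : ℝ) : ℂ) / Sh.f 0 := by
    rw [← hf2π]
    exact Complex.ext (by simp [ha]) (by simpa using (hconst (2 * π)).symm)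
  refine ⟨a, hpos, ?_⟩
  have hc2 : Sh.chc2 ((2 * π : ℝ) : ℂ) = a * Sh.f 0 := by rw [haC]; field_simp
  have hW := Sh.chh_f_c2 ((2 * π : ℝ) : ℂ) (Sh.sb_real_mem_D _)
  rw [hf2π, hf'2π, hc2] at hW
  have hc2' : Sh.chc2' ((2 * π : ℝ) : ℂ) = 1 + a * deriv Sh.f 0 := by
    have : Sh.f 0 * (Sh.chc2' ((2 * π : ℝ) : ℂ) - (1 + a * deriv Sh.f 0)) = 0 := by
      linear_combination hW
    rcases mul_eq_zero.1 this with h | h
    · exact absurd h hf0
    · exact sub_eq_zero.1 h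
  have hshift : ∀ w : ℂ, HasDerivAt (fun w : ℂ => w + 2 * π) 1 w := fun w =>
    (hasDerivAt_id w).add_const _
  have key := ch_ode2_unique Sh.ch_isOpen_D Sh.ch_convex_D (g := fun _ => 0) Sh.q_diff h0D
    (y := fun w => Sh.chc2 (w + 2 * π)) (y' := fun w => Sh.chc2' (w + 2 * π))
    (w := fun w => Sh.chc2 w + a * Sh.f w) (w' := fun w => Sh.chc2' w + a * deriv Sh.f w)
    (fun w hw => by
      refine ((hF.c2_deriv _ (Sh.sb_add_two_pi_mem_D hw)).comp w (hshift w)).congr_deriv ?_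
      ring)
    (fun w hw => by
      have := (hF.c2'_deriv _ (Sh.sb_add_two_pi_mem_D hw)).comp w (hshift w)
      rw [Sh.sb_q_per w hw] at this
      refine this.congr_deriv ?_
      ring)
    (fun w hw => (hF.c2_deriv w hw).add ((Sh.chh_f_deriv w hw).const_mul _))
    (fun w hw => by
      refine ((hF.c2'_deriv w hw).add ((Sh.chh_f'_deriv w hw).const_mul (a : ℂ))).congr_deriv ?_
      ring)
    (by simp only [← h2π, hc2, hF.c2_zero]; ring)
    (by simp only [← h2π, hc2', hF.c2'_zero])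
  exact fun s hs => (key s hs).1

/-- LEAF LF-Chord-9c: Wronskian of `f` and `c2`. -/
theorem ch_f_c2 : ∀ s ∈ Sh.D, Sh.f s * Sh.chc2' s - deriv Sh.f s * Sh.chc2 s = Sh.f 0 :=
  Sh.chh_f_c2

end Shape

end Claimed.Agent.R269
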