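/-
Row 269, library (HOST-FREE): ONE STEP OF THE ENTIRE RECURRENCE FOR SMALL FIELDS, and HOLOMORPHIC DEPENDENCE OF ROOTS.   Statements: helper146 (asked for by helper218, Section 6).

The step equation in the fast variable (see `Lib/Chord.lean`): for `s± = s ± t J±`
      REC(s₋,s,s₊) = t³ [ Dd(J₊) C(-J₋) + Dd(-J₋) C(J₊) ].

* `chord_step`  (LEAF LF-Chord-10).  Fields on the STADIUM `{u : dist(u,[-1,1]) < w}`, `|F| ≤ a`, `|Q| ≤ a²`, `a ≤ e₁(w₀)`, `w ≥ w₀`, `η = min(w,1)/8`: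
      for every `J₋ ∈ closedBall 1 η` there is a unique root `J₊ ∈ ball 1 (2η)`, it is simple, and `|J₊ - J₋| ≤ C₁ a²/w`.
  PROOF.  (i) A priori: on the stadium of radius `2η` (star shaped about `0`, inside `ball 0 2`): `|θ| ≤ 2a`, `|C - u²/2| ≤ K a²`, `|C' - u| ≤ K a²`, `|Dd - u| ≤ K a²`, `|Dd' - 1| ≤ K a²`
      (compare with the fast functions `0, u²/2, u, u, 1` of the zero fields by Gronwall along rays; the forcing differences are `Q C`, `cos θ - 1`, `Q Dd`, `F(0) sin θ`, all `O(a²)`; NOT `isFast_stab`, which only gives `O(a)`).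
      (ii) Reflected system (`IsFast.refl`): `Ct(u) = C(-u)`, `Ddt(u) = -Dd(-u)` are the fast functions of `Ft(u) = F(-u)`, `Qt(u) = Q(-u)`, `θt(u) = -θ(-u)`.  Cauchy estimates on discs of radius `w - 2η ≥ 3w/4`:
      `|Q - Qt| ≤ K a²/w`, `|F - Ft| ≤ K a/w`, so `|θ - θt| ≤ K a/w`, `|θ + θt| ≤ 4a`, `|cos θ - cos θt| ≤ K a²/w`, `|F(0)| |sin θ - sin θt| ≤ K a²/w`.  Gronwall: `|C - Ct| + |Dd - Ddt| ≤ K a²/w`.
      (iii) `G(J) = Dd(J) Ct(J₋) - Ddt(J₋) C(J)`.  `G(J₋) = (Dd - Ddt)(J₋) Ct(J₋) - Ddt(J₋) (C - Ct)(J₋) = O(a²/w)`;  `G'(J) = Dd'(J) Ct(J₋) - Ddt(J₋) C'(J) = J₋ (J₋/2 - J) + O(a²)`, whose negative has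
      real part `≥ 1/16` on `ball 1 (2η)` (`|J₋ - 1| ≤ 1/8`, `|J - 1| < 1/4`).  So `G` is injective on the ball (mean value along segments), and Newton/contraction `J ↦ J + 2 G(J)`... or
      `Complex`-valued inverse function estimate gives a root within `16 |G(J₋)|` of `J₋`; this is `< η` for `a ≤ e₁`.
* `ch_root_holo` (LEAF LF-Chord-11).  A root which is unique in a ball about a continuously moving centre, and simple, depends holomorphically on the parameters.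
  PROOF.  `Φ` is analytic on `𝒰` (`SCV.analyticOnNhd_of_differentiableOn`), hence strictly differentiable; implicit function theorem at `(z₀, J z₀)` gives a differentiable `j` near `z₀` with `Φ (z, j z) = 0`, `j z₀ = J z₀`;
      by continuity `(z, j z) ∈ 𝒰`, `‖j z - c z‖ < r` near `z₀`; uniqueness gives `j = J` near `z₀`.
-/
import Claimed.Agent.R269.Lib.Chord
import Claimed.Agent.R269.Lib.SCV0

set_option autoImplicit false

namespace Claimed.Agent.R269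

open Filter Topology Set Metric

/-- the stadium `{u : dist(u,[-1,1]) < w}`. -/
def chStadium (w : ℝ) : Set ℂ := {u | ∃ r ∈ Icc (-1 : ℝ) 1, ‖u - (r : ℂ)‖ < w}

/-- abstract root finding: `G' ≈ -1/2` on a ball. -/
theorem chs_root_exists {G G' : ℂ → ℂ} {c : ℂ} {r : ℝ}
    (hG : ∀ J ∈ ball c r, HasDerivAt G (G' J) J) (hG' : ∀ J ∈ ball c r, ‖G' J + 1 / 2‖ ≤ 3 / 8)
    {Jm : ℂ} (hJm : closedBall Jm (8 * ‖G Jm‖) ⊆ ball c r) :
    ∃ Jp ∈ ball c r, G Jp = 0 ∧ ‖Jp - Jm‖ ≤ 8 * ‖G Jm‖ ∧ ∀ J ∈ ball c r, G J = 0 → J = Jp := by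
  have hLip : ∀ x ∈ ball c r, ∀ y ∈ ball c r,
      ‖(G x + x / 2) - (G y + y / 2)‖ ≤ 3 / 8 * ‖x - y‖ := by
    intro x hx y hy
    refine Convex.norm_image_sub_le_of_norm_hasDerivWithin_le (s := ball c r)
      (f := fun J => G J + J / 2) (f' := fun J => G' J + 1 / 2)
      (fun z hz => ((hG z hz).add ((hasDerivAt_id z).div_const 2)).hasDerivWithinAt)
      hG' (convex_ball _ _) hy hx
  have hA : ApproximatesLinearOn (fun J => -2 * G J) (ContinuousLinearMap.id ℂ ℂ) (ball c r)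
      (3 / 4 : NNReal) := by
    intro x hx y hy
    have h1 := hLip x hx y hy
    have h2 : -2 * G x - -2 * G y - (ContinuousLinearMap.id ℂ ℂ) (x - y)
        = (-2 : ℂ) * ((G x + x / 2) - (G y + y / 2)) := by
      simp only [ContinuousLinearMap.id_apply]; ring
    rw [h2, norm_mul]
    have h3 : ‖(-2 : ℂ)‖ = 2 := by simp
    rw [h3]
    have h4 : (((3 / 4 : NNReal) : NNReal) : ℝ) = 3 / 4 := by simp
    rw [h4]
    linarith
  have hS := hA.surjOn_closedBall_of_nonlinearRightInverse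
    (⟨id, 1, by simp, by simp⟩ : (ContinuousLinearMap.id ℂ ℂ).NonlinearRightInverse)
    (ε := 8 * ‖G Jm‖) (b := Jm) (by positivity) hJm
  have h0 : (0 : ℂ) ∈ closedBall (-2 * G Jm)
      (((((1 : NNReal) : ℝ))⁻¹ - ((3 / 4 : NNReal) : ℝ)) * (8 * ‖G Jm‖)) := by
    rw [mem_closedBall, dist_eq_norm]
    have h4 : (((3 / 4 : NNReal) : NNReal) : ℝ) = 3 / 4 := by simp
    rw [h4]
    simp only [zero_sub, neg_mul, neg_neg, norm_mul, Complex.norm_ofNat, NNReal.coe_one, inv_one]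
    linarith [norm_nonneg (G Jm)]
  obtain ⟨Jp, hJp, hJp0⟩ := hS h0
  have hJpG : G Jp = 0 := by
    have : (-2 : ℂ) * G Jp = 0 := hJp0
    simpa using this
  refine ⟨Jp, hJm hJp, hJpG, by simpa [dist_eq_norm] using hJp, fun J hJ hJ0 => ?_⟩
  have h1 := hLip J hJ Jp (hJm hJp)
  rw [hJ0, hJpG] at h1
  have h2 : (0 + J / 2 - (0 + Jp / 2) : ℂ) = (J - Jp) / 2 := by ring
  rw [h2, norm_div] at h1
  simp only [Complex.norm_ofNat] at h1
  have h3 : ‖J - Jp‖ ≤ 0 := by linarith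
  exact sub_eq_zero.1 (norm_le_zero_iff.1 h3)

theorem chs_isOpen (w : ℝ) : IsOpen (chStadium w) := by
  have : chStadium w = ⋃ r ∈ Icc (-1 : ℝ) 1, ball (r : ℂ) w := by
    ext u
    simp [chStadium, dist_eq_norm]
  rw [this]
  exact isOpen_biUnion fun _ _ => isOpen_ball

theorem chs_mono {ρ w : ℝ} (h : ρ ≤ w) : chStadium ρ ⊆ chStadium w := by
  rintro u ⟨r, hr, hu⟩
  exact ⟨r, hr, hu.trans_le h⟩

theorem chs_scale {ρ : ℝ} {u : ℂ} (hu : u ∈ chStadium ρ) {t : ℝ} (ht : t ∈ Icc (-1 : ℝ) 1) :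
    (t : ℂ) * u ∈ chStadium ρ := by
  obtain ⟨r, hr, hur⟩ := hu
  have habs : |t| ≤ 1 := abs_le.2 ht
  refine ⟨t * r, ?_, ?_⟩
  · have : |t * r| ≤ 1 := by
      rw [abs_mul]
      exact mul_le_one₀ habs (abs_nonneg _) (abs_le.2 hr)
    exact abs_le.1 this
  · have h1 : (t : ℂ) * u - ((t * r : ℝ) : ℂ) = (t : ℂ) * (u - r) := by push_cast; ring
    rw [h1, norm_mul, Complex.norm_real, Real.norm_eq_abs]
    calc |t| * ‖u - r‖ ≤ 1 * ‖u - r‖ := by gcongr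
      _ < ρ := by rwa [one_mul]

theorem chs_neg {ρ : ℝ} {u : ℂ} (hu : u ∈ chStadium ρ) : -u ∈ chStadium ρ := by
  simpa using chs_scale hu (t := -1) ⟨le_rfl, by norm_num⟩

theorem chs_norm_lt {ρ : ℝ} {u : ℂ} (hu : u ∈ chStadium ρ) : ‖u‖ < 1 + ρ := by
  obtain ⟨r, hr, hur⟩ := hu
  have h1 : ‖u‖ ≤ ‖u - r‖ + ‖(r : ℂ)‖ := by simpa using norm_add_le (u - r) (r : ℂ)
  have h2 : ‖(r : ℂ)‖ ≤ 1 := by
    rw [Complex.norm_real, Real.norm_eq_abs]; exact abs_le.2 hr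
  linarith

theorem chs_closedBall {ρ R w : ℝ} {u : ℂ} (hu : u ∈ chStadium ρ) (h : ρ + R ≤ w) :
    closedBall u R ⊆ chStadium w := by
  obtain ⟨r, hr, hur⟩ := hu
  intro z hz
  refine ⟨r, hr, ?_⟩
  have h1 : ‖z - r‖ ≤ ‖z - u‖ + ‖u - r‖ := by simpa using norm_add_le (z - u) (u - r)
  have h2 : ‖z - u‖ ≤ R := by simpa [dist_eq_norm] using hz
  linarith

theorem chs_ball_one {ρ : ℝ} : ball (1 : ℂ) ρ ⊆ chStadium ρ := by
  intro u hu
  exact ⟨1, ⟨by norm_num, le_rfl⟩, by simpa [dist_eq_norm] using hu⟩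

theorem chs_norm_cos_sub_one_le {z : ℂ} (hz : ‖z‖ ≤ 1) : ‖Complex.cos z - 1‖ ≤ ‖z‖ ^ 2 := by
  have h1 := Complex.norm_exp_sub_one_sub_id_le (x := z * Complex.I) (by simpa using hz)
  have h2 := Complex.norm_exp_sub_one_sub_id_le (x := -z * Complex.I) (by simpa using hz)
  have h3 : Complex.cos z - 1 = ((Complex.exp (z * Complex.I) - 1 - z * Complex.I)
      + (Complex.exp (-z * Complex.I) - 1 - -z * Complex.I)) / 2 := by
    rw [Complex.cos]; ring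
  rw [h3, norm_div]
  have h4 := norm_add_le (Complex.exp (z * Complex.I) - 1 - z * Complex.I)
    (Complex.exp (-z * Complex.I) - 1 - -z * Complex.I)
  simp only [norm_mul, norm_neg, Complex.norm_I, mul_one] at h1 h2
  simp only [Complex.norm_ofNat]
  linarith

theorem chs_norm_sin_le {z : ℂ} (hz : ‖z‖ ≤ 1) : ‖Complex.sin z‖ ≤ Real.exp 1 * ‖z‖ := by
  simpa using ch_sin_lip (a := z) (b := 0) (R := 1) hz (by simp)

theorem chs_cos_lip {x y : ℂ} {R : ℝ} (hR : R ≤ 1) (hx : ‖x‖ ≤ R) (hy : ‖y‖ ≤ R) :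
    ‖Complex.cos x - Complex.cos y‖ ≤ Real.exp 1 * R * ‖x - y‖ := by
  refine Convex.norm_image_sub_le_of_norm_hasDerivWithin_le (s := closedBall (0 : ℂ) R)
    (f := Complex.cos) (f' := fun z => -Complex.sin z)
    (fun z _ => (Complex.hasDerivAt_cos z).hasDerivWithinAt) (fun z hz => ?_)
    (convex_closedBall _ _) (by simpa using hy) (by simpa using hx)
  have hz' : ‖z‖ ≤ R := by simpa using hz
  rw [norm_neg]
  exact (chs_norm_sin_le (hz'.trans hR)).trans (by gcongr)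

/-- the constant of the a priori estimate. -/
noncomputable def chsK0 : ℝ := Real.exp (2 * (1 + 1)) * (6 + 2 * Real.exp 1)

theorem chsK0_pos : 0 < chsK0 := by unfold chsK0; positivity

/-- (i) a priori: comparison with the fast functions `0, u²/2, u, u, 1` of the zero fields. -/
theorem chs_apriori {w a ρ : ℝ} (hρ : ρ ≤ 1) (hρw : ρ ≤ w) (ha : 0 ≤ a) (ha' : a ≤ 1 / 2)
    {F Q θ C C' Dd Dd' : ℂ → ℂ} (h : IsFast (chStadium w) F Q θ C C' Dd Dd')
    (hb : ∀ u ∈ chStadium w, ‖F u‖ ≤ a ∧ ‖Q u‖ ≤ a ^ 2) :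
    ∀ u ∈ chStadium ρ, ‖θ u‖ ≤ 2 * a ∧ ‖C u - u ^ 2 / 2‖ ≤ chsK0 * a ^ 2 ∧
      ‖C' u - u‖ ≤ chsK0 * a ^ 2 ∧ ‖Dd u - u‖ ≤ chsK0 * a ^ 2 ∧ ‖Dd' u - 1‖ ≤ chsK0 * a ^ 2 := by
  have hray : ∀ u ∈ chStadium ρ, ∀ r ∈ Icc (0 : ℝ) 1, (r : ℂ) * u ∈ chStadium ρ :=
    fun u hu r hr => chs_scale hu ⟨by linarith [hr.1], hr.2⟩
  have hsub := chs_mono hρw
  have hn2 : ∀ u ∈ chStadium ρ, ‖u‖ ≤ 2 := fun u hu => by linarith [chs_norm_lt hu]
  have hθ : ∀ u ∈ chStadium ρ, ‖θ u‖ ≤ 2 * a := by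
    intro u hu
    have h1 := ch_ray_bound (h := θ) (h' := F) (u := u) (C := a)
      (fun r hr => h.θ_deriv _ (hsub (hray u hu r hr))) (fun r hr => (hb _ (hsub (hray u hu r hr))).1)
    rw [h.θ_zero, sub_zero] at h1
    exact h1.trans (by gcongr; exact hn2 u hu)
  intro u hu
  have h0V : (0 : ℂ) ∈ chStadium w := by simpa using hsub (hray u hu 0 ⟨le_rfl, zero_le_one⟩)
  have hE : 0 < Real.exp 1 := Real.exp_pos _
  have ha2 : a ^ 2 ≤ 1 := by nlinarith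
  have hG0 : 0 ≤ (6 + 2 * Real.exp 1) * a ^ 2 := by positivity
  have h1 := ch_gronwall2 (ϱ := 2) (B := 1) (δ := 0) (G := (6 + 2 * Real.exp 1) * a ^ 2) (by norm_num)
    (by norm_num) hG0 (hn2 u hu) (y := fun v => C v - v ^ 2 / 2) (y' := fun v => C' v - v)
    (Q := Q) (g := fun v => Q v * (v ^ 2 / 2) + (Complex.cos (θ v) - 1))
    (fun r hr => by
      refine ((h.C_deriv _ (hsub (hray u hu r hr))).sub
        (((hasDerivAt_id ((r : ℂ) * u)).pow 2).div_const 2)).congr_deriv ?_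
      simp)
    (fun r hr => by
      refine ((h.C'_deriv _ (hsub (hray u hu r hr))).sub
        (hasDerivAt_id ((r : ℂ) * u))).congr_deriv ?_
      ring)
    (fun r hr => ((hb _ (hsub (hray u hu r hr))).2).trans ha2)
    (fun r hr => by
      have hv := hray u hu r hr
      set v := (r : ℂ) * u
      have e1 : ‖Q v * (v ^ 2 / 2)‖ ≤ a ^ 2 * 2 := by
        rw [norm_mul]
        refine mul_le_mul (hb _ (hsub hv)).2 ?_ (norm_nonneg _) (by positivity)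
        rw [norm_div, norm_pow]
        simp only [Complex.norm_ofNat]
        nlinarith [hn2 v hv, norm_nonneg v]
      have e2 : ‖Complex.cos (θ v) - 1‖ ≤ (2 * a) ^ 2 :=
        (chs_norm_cos_sub_one_le ((hθ v hv).trans (by linarith))).trans
          (by gcongr; exact hθ v hv)
      refine (norm_add_le _ _).trans ?_
      nlinarith [mul_nonneg hE.le (sq_nonneg a)])
    (by simp [h.C_zero]) (by simp [h.C'_zero])
  have h2 := ch_gronwall2 (ϱ := 2) (B := 1) (δ := 0) (G := (6 + 2 * Real.exp 1) * a ^ 2) (by norm_num)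
    (by norm_num) hG0 (hn2 u hu) (y := fun v => Dd v - v) (y' := fun v => Dd' v - 1)
    (Q := Q) (g := fun v => Q v * v - F 0 * Complex.sin (θ v))
    (fun r hr => (h.Dd_deriv _ (hsub (hray u hu r hr))).sub (hasDerivAt_id ((r : ℂ) * u)))
    (fun r hr => by
      refine ((h.Dd'_deriv _ (hsub (hray u hu r hr))).sub_const 1).congr_deriv ?_
      ring)
    (fun r hr => ((hb _ (hsub (hray u hu r hr))).2).trans ha2)
    (fun r hr => by
      have hv := hray u hu r hr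
      set v := (r : ℂ) * u
      have e1 : ‖Q v * v‖ ≤ a ^ 2 * 2 := by
        rw [norm_mul]
        exact mul_le_mul (hb _ (hsub hv)).2 (hn2 v hv) (norm_nonneg _) (by positivity)
      have e2 : ‖F 0 * Complex.sin (θ v)‖ ≤ a * (Real.exp 1 * (2 * a)) := by
        rw [norm_mul]
        refine mul_le_mul (hb 0 h0V).1 ?_ (norm_nonneg _) ha
        exact (chs_norm_sin_le ((hθ v hv).trans (by linarith))).trans (by gcongr; exact hθ v hv)
      refine (norm_sub_le _ _).trans ?_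
      nlinarith [sq_nonneg a])
    (by simp [h.Dd_zero]) (by simp [h.Dd'_zero])
  have hK : Real.exp (2 * (1 + 1)) * (0 + (6 + 2 * Real.exp 1) * a ^ 2) = chsK0 * a ^ 2 := by
    unfold chsK0; ring
  rw [hK] at h1 h2
  exact ⟨hθ u hu, h1.1, h1.2, h2.1, h2.2⟩

/-- Cauchy estimate: the odd part of a bounded holomorphic function on the stadium. -/
theorem chs_odd_diff {w ρ A : ℝ} (hw : 0 < w) (hρ : ρ ≤ 1) (hρw : ρ ≤ w / 4) {f : ℂ → ℂ}
    (hf : DifferentiableOn ℂ f (chStadium w)) (hb : ∀ u ∈ chStadium w, ‖f u‖ ≤ A) :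
    ∀ u ∈ chStadium ρ, ‖f u - f (-u)‖ ≤ 8 * A / w := by
  intro u hu
  have hsub : chStadium ρ ⊆ chStadium w := chs_mono (by linarith)
  have hA : 0 ≤ A := (norm_nonneg _).trans (hb u (hsub hu))
  have hd : ∀ v ∈ chStadium ρ, ‖deriv f v‖ ≤ A / (w / 2) := by
    intro v hv
    have hcb : closedBall v (w / 2) ⊆ chStadium w := chs_closedBall hv (by linarith)
    exact Complex.norm_deriv_le_of_forall_mem_sphere_norm_le (by positivity)
      (hf.diffContOnCl_ball hcb) (fun z hz => hb z (hcb (sphere_subset_closedBall hz)))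
  have hn2 : ‖u‖ ≤ 2 := by linarith [chs_norm_lt hu]
  have key := norm_image_sub_le_of_norm_deriv_le_segment' (a := -1) (b := 1)
    (f := fun t : ℝ => f ((t : ℂ) * u)) (f' := fun t : ℝ => u * deriv f ((t : ℂ) * u))
    (C := 2 * (A / (w / 2)))
    (fun t ht => (ch_ray_hasDerivAt ((hf.differentiableAt
      ((chs_isOpen w).mem_nhds (hsub (chs_scale hu ht)))).hasDerivAt)).hasDerivWithinAt)
    (fun t ht => by
      rw [norm_mul]
      exact mul_le_mul hn2 (hd _ (chs_scale hu ⟨ht.1, ht.2.le⟩)) (norm_nonneg _) (by norm_num))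
    1 ⟨by norm_num, le_rfl⟩
  have e : 2 * (A / (w / 2)) * (1 - -1) = 8 * A / w := by field_simp; ring
  rw [e] at key
  simpa using key

/-- the constant of the reflection estimate. -/
noncomputable def chsK3 : ℝ := Real.exp (2 * (1 + 1)) * (8 * (2 + chsK0) + 32 * Real.exp 1)

theorem chsK3_pos : 0 < chsK3 := by
  have := chsK0_pos
  unfold chsK3; positivity

/-- (ii) the reflected system differs by `O(a²/w)`. -/
theorem chs_refl_diff {w a ρ : ℝ} (hw : 0 < w) (hρ : ρ ≤ 1) (hρw : ρ ≤ w / 4) (ha : 0 ≤ a)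
    (ha' : a ≤ 1 / 2) {F Q θ C C' Dd Dd' : ℂ → ℂ} (h : IsFast (chStadium w) F Q θ C C' Dd Dd')
    (hQ : DifferentiableOn ℂ Q (chStadium w))
    (hb : ∀ u ∈ chStadium w, ‖F u‖ ≤ a ∧ ‖Q u‖ ≤ a ^ 2) :
    ∀ u ∈ chStadium ρ, ‖C u - C (-u)‖ ≤ chsK3 * a ^ 2 / w ∧
      ‖Dd u + Dd (-u)‖ ≤ chsK3 * a ^ 2 / w := by
  have hρw' : ρ ≤ w := by linarith
  have hray : ∀ u ∈ chStadium ρ, ∀ r ∈ Icc (0 : ℝ) 1, (r : ℂ) * u ∈ chStadium ρ :=
    fun u hu r hr => chs_scale hu ⟨by linarith [hr.1], hr.2⟩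
  have hsub := chs_mono hρw'
  have hn2 : ∀ u ∈ chStadium ρ, ‖u‖ ≤ 2 := fun u hu => by linarith [chs_norm_lt hu]
  have ap := chs_apriori hρ hρw' ha ha' h hb
  have hK0 := chsK0_pos
  have hE : 0 < Real.exp 1 := Real.exp_pos _
  have ha2 : a ^ 2 ≤ 1 := by nlinarith
  -- `F` is holomorphic
  have hF : DifferentiableOn ℂ F (chStadium w) := by
    have hθd : DifferentiableOn ℂ θ (chStadium w) := fun u hu =>
      (h.θ_deriv u hu).differentiableAt.differentiableWithinAt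
    exact (hθd.deriv (chs_isOpen w)).congr (fun u hu => (h.θ_deriv u hu).deriv.symm)
  have dQ := chs_odd_diff hw hρ hρw hQ (fun u hu => (hb u hu).2)
  have dF := chs_odd_diff hw hρ hρw hF (fun u hu => (hb u hu).1)
  have hneg : ∀ v : ℂ, HasDerivAt (fun v : ℂ => -v) (-1) v := fun v => (hasDerivAt_id v).neg
  have dθ : ∀ u ∈ chStadium ρ, ‖θ u + θ (-u)‖ ≤ 16 * a / w := by
    intro u hu
    have h1 := ch_ray_bound (h := fun v => θ v + θ (-v)) (h' := fun v => F v - F (-v)) (u := u)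
      (C := 8 * a / w)
      (fun r hr => by
        have hv := hray u hu r hr
        refine ((h.θ_deriv _ (hsub hv)).add
          ((h.θ_deriv _ (hsub (chs_neg hv))).comp _ (hneg _))).congr_deriv ?_
        ring)
      (fun r hr => dF _ (hray u hu r hr))
    simp only [neg_zero, h.θ_zero, add_zero, sub_zero] at h1
    refine h1.trans ?_
    have : ‖u‖ * (8 * a / w) ≤ 2 * (8 * a / w) := by
      gcongr
      exact hn2 u hu
    refine this.trans (le_of_eq ?_)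
    ring
  have bC : ∀ v ∈ chStadium ρ, ‖C v‖ ≤ 2 + chsK0 := by
    intro v hv
    have h1 := (ap v hv).2.1
    have h2 : ‖C v‖ ≤ ‖C v - v ^ 2 / 2‖ + ‖v ^ 2 / 2‖ := by
      have := norm_add_le (C v - v ^ 2 / 2) (v ^ 2 / 2)
      rwa [sub_add_cancel] at this
    have h3 : ‖v ^ 2 / 2‖ ≤ 2 := by
      rw [norm_div, norm_pow]
      simp only [Complex.norm_ofNat]
      nlinarith [hn2 v hv, norm_nonneg v]
    nlinarith
  have bD : ∀ v ∈ chStadium ρ, ‖Dd v‖ ≤ 2 + chsK0 := by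
    intro v hv
    have h1 := (ap v hv).2.2.2.1
    have h2 : ‖Dd v‖ ≤ ‖Dd v - v‖ + ‖v‖ := by simpa using norm_add_le (Dd v - v) v
    nlinarith [hn2 v hv]
  intro u hu
  have h0V : (0 : ℂ) ∈ chStadium w := by simpa using hsub (hray u hu 0 ⟨le_rfl, zero_le_one⟩)
  have hG0 : 0 ≤ (8 * (2 + chsK0) + 32 * Real.exp 1) * (a ^ 2 / w) := by positivity
  have h1 := ch_gronwall2 (ϱ := 2) (B := 1) (δ := 0)
    (G := (8 * (2 + chsK0) + 32 * Real.exp 1) * (a ^ 2 / w)) (by norm_num)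
    (by norm_num) hG0 (hn2 u hu) (y := fun v => C v - C (-v)) (y' := fun v => C' v + C' (-v))
    (Q := Q) (g := fun v => (Q v - Q (-v)) * C (-v)
      + (Complex.cos (θ v) - Complex.cos (-θ (-v))))
    (fun r hr => by
      have hv := hray u hu r hr
      refine ((h.C_deriv _ (hsub hv)).sub
        ((h.C_deriv _ (hsub (chs_neg hv))).comp _ (hneg _))).congr_deriv ?_
      ring)
    (fun r hr => by
      have hv := hray u hu r hr
      refine ((h.C'_deriv _ (hsub hv)).add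
        ((h.C'_deriv _ (hsub (chs_neg hv))).comp _ (hneg _))).congr_deriv ?_
      rw [Complex.cos_neg]; ring)
    (fun r hr => ((hb _ (hsub (hray u hu r hr))).2).trans ha2)
    (fun r hr => by
      have hv := hray u hu r hr
      set v := (r : ℂ) * u
      have e1 : ‖(Q v - Q (-v)) * C (-v)‖ ≤ 8 * a ^ 2 / w * (2 + chsK0) := by
        rw [norm_mul]
        exact mul_le_mul (dQ v hv) (bC _ (chs_neg hv)) (norm_nonneg _) (by positivity)
      have e2 : ‖Complex.cos (θ v) - Complex.cos (-θ (-v))‖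
          ≤ Real.exp 1 * (2 * a) * (16 * a / w) := by
        refine (chs_cos_lip (R := 2 * a) (by linarith) (ap v hv).1
          (by rw [norm_neg]; exact (ap _ (chs_neg hv)).1)).trans ?_
        have : θ v - -θ (-v) = θ v + θ (-v) := by ring
        rw [this]
        exact mul_le_mul_of_nonneg_left (dθ v hv) (by positivity)
      refine (norm_add_le _ _).trans ((add_le_add e1 e2).trans (le_of_eq ?_))
      ring)
    (by simp) (by simp [h.C'_zero])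
  have h2 := ch_gronwall2 (ϱ := 2) (B := 1) (δ := 0)
    (G := (8 * (2 + chsK0) + 32 * Real.exp 1) * (a ^ 2 / w)) (by norm_num)
    (by norm_num) hG0 (hn2 u hu) (y := fun v => Dd v + Dd (-v)) (y' := fun v => Dd' v - Dd' (-v))
    (Q := Q) (g := fun v => -((Q v - Q (-v)) * Dd (-v))
      - F 0 * (Complex.sin (θ v) - Complex.sin (-θ (-v))))
    (fun r hr => by
      have hv := hray u hu r hr
      refine ((h.Dd_deriv _ (hsub hv)).add
        ((h.Dd_deriv _ (hsub (chs_neg hv))).comp _ (hneg _))).congr_deriv ?_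
      ring)
    (fun r hr => by
      have hv := hray u hu r hr
      refine ((h.Dd'_deriv _ (hsub hv)).sub
        ((h.Dd'_deriv _ (hsub (chs_neg hv))).comp _ (hneg _))).congr_deriv ?_
      rw [Complex.sin_neg]; ring)
    (fun r hr => ((hb _ (hsub (hray u hu r hr))).2).trans ha2)
    (fun r hr => by
      have hv := hray u hu r hr
      set v := (r : ℂ) * u
      have e1 : ‖-((Q v - Q (-v)) * Dd (-v))‖ ≤ 8 * a ^ 2 / w * (2 + chsK0) := by
        rw [norm_neg, norm_mul]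
        exact mul_le_mul (dQ v hv) (bD _ (chs_neg hv)) (norm_nonneg _) (by positivity)
      have e2 : ‖F 0 * (Complex.sin (θ v) - Complex.sin (-θ (-v)))‖
          ≤ a * (Real.exp 1 * (16 * a / w)) := by
        rw [norm_mul]
        refine mul_le_mul (hb 0 h0V).1 ?_ (norm_nonneg _) ha
        refine (ch_sin_lip (R := 1) ((ap v hv).1.trans (by linarith))
          (by rw [norm_neg]; exact (ap _ (chs_neg hv)).1.trans (by linarith))).trans ?_
        have : θ v - -θ (-v) = θ v + θ (-v) := by ring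
        rw [this]
        exact mul_le_mul_of_nonneg_left (dθ v hv) hE.le
      refine (norm_sub_le _ _).trans ((add_le_add e1 e2).trans ?_)
      have e3 : 0 ≤ Real.exp 1 * (a ^ 2 / w) := by positivity
      have e4 : 8 * a ^ 2 / w * (2 + chsK0) + a * (Real.exp 1 * (16 * a / w))
          = (8 * (2 + chsK0) + 16 * Real.exp 1) * (a ^ 2 / w) := by ring
      rw [e4]
      nlinarith)
    (by simp [h.Dd_zero]) (by simp)
  have hK : Real.exp (2 * (1 + 1)) * (0 + (8 * (2 + chsK0) + 32 * Real.exp 1) * (a ^ 2 / w))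
      = chsK3 * a ^ 2 / w := by
    unfold chsK3; ring
  rw [hK] at h1 h2
  exact ⟨h1.1, h2.1⟩

theorem chs_bdd {w a ρ : ℝ} (hρ : ρ ≤ 1) (hρw : ρ ≤ w) (ha : 0 ≤ a) (ha' : a ≤ 1 / 2)
    {F Q θ C C' Dd Dd' : ℂ → ℂ} (h : IsFast (chStadium w) F Q θ C C' Dd Dd')
    (hb : ∀ u ∈ chStadium w, ‖F u‖ ≤ a ∧ ‖Q u‖ ≤ a ^ 2) :
    ∀ v ∈ chStadium ρ, ‖C v‖ ≤ 2 + chsK0 ∧ ‖Dd v‖ ≤ 2 + chsK0 := by
  have ap := chs_apriori hρ hρw ha ha' h hb
  have hK0 := chsK0_pos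
  have ha2 : a ^ 2 ≤ 1 := by nlinarith
  intro v hv
  have hn2 : ‖v‖ ≤ 2 := by linarith [chs_norm_lt hv]
  constructor
  · have h1 := (ap v hv).2.1
    have h2 : ‖C v‖ ≤ ‖C v - v ^ 2 / 2‖ + ‖v ^ 2 / 2‖ := by
      have := norm_add_le (C v - v ^ 2 / 2) (v ^ 2 / 2)
      rwa [sub_add_cancel] at this
    have h3 : ‖v ^ 2 / 2‖ ≤ 2 := by
      rw [norm_div, norm_pow]
      simp only [Complex.norm_ofNat]
      nlinarith [norm_nonneg v]
    nlinarith
  · have h1 := (ap v hv).2.2.2.1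
    have h2 : ‖Dd v‖ ≤ ‖Dd v - v‖ + ‖v‖ := by simpa using norm_add_le (Dd v - v) v
    nlinarith

theorem chs_deriv_est {α β ε₁ ε₂ ε₃ ε₄ : ℂ} {e : ℝ} (hα : ‖α‖ ≤ 1 / 8) (hβ : ‖β‖ ≤ 1 / 4)
    (h1 : ‖ε₁‖ ≤ e) (h2 : ‖ε₂‖ ≤ e) (h3 : ‖ε₃‖ ≤ e) (h4 : ‖ε₄‖ ≤ e)
    (he : e * (7 + 2 * e) ≤ 1 / 16) :
    ‖(α ^ 2 / 2 - β - α * β) + (ε₂ + ε₁ * ((1 + α) ^ 2 / 2) + ε₁ * ε₂ - (1 + α) * ε₄
      + ε₃ * (1 + β) + ε₃ * ε₄)‖ ≤ 3 / 8 := by
  have he0 : 0 ≤ e := (norm_nonneg _).trans h1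
  have n1 : ‖1 + α‖ ≤ 9 / 8 := (norm_add_le _ _).trans (by simp only [norm_one]; linarith)
  have n2 : ‖1 + β‖ ≤ 5 / 4 := (norm_add_le _ _).trans (by simp only [norm_one]; linarith)
  have t1 : ‖α ^ 2 / 2‖ ≤ 1 / 128 := by
    rw [norm_div, norm_pow]
    simp only [Complex.norm_ofNat]
    nlinarith [norm_nonneg α]
  have t2 : ‖α * β‖ ≤ 1 / 32 := by
    rw [norm_mul]
    nlinarith [norm_nonneg α, norm_nonneg β]
  have t3 : ‖ε₁ * ((1 + α) ^ 2 / 2)‖ ≤ e * 2 := by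
    rw [norm_mul, norm_div, norm_pow]
    simp only [Complex.norm_ofNat]
    refine mul_le_mul h1 ?_ (by positivity) he0
    nlinarith [norm_nonneg (1 + α)]
  have t4 : ‖ε₁ * ε₂‖ ≤ e * e := by
    rw [norm_mul]; exact mul_le_mul h1 h2 (norm_nonneg _) he0
  have t5 : ‖(1 + α) * ε₄‖ ≤ 2 * e := by
    rw [norm_mul]; exact mul_le_mul (by linarith) h4 (norm_nonneg _) (by norm_num)
  have t6 : ‖ε₃ * (1 + β)‖ ≤ e * 2 := by
    rw [norm_mul]; exact mul_le_mul h3 (by linarith) (norm_nonneg _) he0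
  have t7 : ‖ε₃ * ε₄‖ ≤ e * e := by
    rw [norm_mul]; exact mul_le_mul h3 h4 (norm_nonneg _) he0
  have g1 : ‖α ^ 2 / 2 - β - α * β‖ ≤ ‖α ^ 2 / 2‖ + ‖β‖ + ‖α * β‖ :=
    (norm_sub_le _ _).trans (add_le_add (norm_sub_le _ _) le_rfl)
  have g2 : ‖ε₂ + ε₁ * ((1 + α) ^ 2 / 2) + ε₁ * ε₂ - (1 + α) * ε₄ + ε₃ * (1 + β) + ε₃ * ε₄‖
      ≤ ‖ε₂‖ + ‖ε₁ * ((1 + α) ^ 2 / 2)‖ + ‖ε₁ * ε₂‖ + ‖(1 + α) * ε₄‖ + ‖ε₃ * (1 + β)‖
        + ‖ε₃ * ε₄‖ := by
    refine (norm_add_le _ _).trans (add_le_add ?_ le_rfl)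
    refine (norm_add_le _ _).trans (add_le_add ?_ le_rfl)
    refine (norm_sub_le _ _).trans (add_le_add ?_ le_rfl)
    refine (norm_add_le _ _).trans (add_le_add ?_ le_rfl)
    exact norm_add_le _ _
  refine (norm_add_le _ _).trans ?_
  nlinarith

/-- LEAF LF-Chord-10: **the step lemma for small fields on a stadium**. -/
theorem chord_step (w₀ : ℝ) (hw₀ : 0 < w₀) (hw₀' : w₀ ≤ 1) :
    ∃ e₁ C₁ : ℝ, 0 < e₁ ∧ 0 < C₁ ∧ ∀ (w a : ℝ) (F Q θ C C' Dd Dd' : ℂ → ℂ), w₀ ≤ w → 0 ≤ a → a ≤ e₁ →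
      IsFast (chStadium w) F Q θ C C' Dd Dd' → DifferentiableOn ℂ Q (chStadium w) →
      (∀ u ∈ chStadium w, ‖F u‖ ≤ a ∧ ‖Q u‖ ≤ a ^ 2) →
      ∀ Jm ∈ closedBall (1 : ℂ) (min w 1 / 8),
        ∃ Jp ∈ ball (1 : ℂ) (min w 1 / 4), Dd Jp * C (-Jm) + Dd (-Jm) * C Jp = 0 ∧
          Dd' Jp * C (-Jm) + Dd (-Jm) * C' Jp ≠ 0 ∧ ‖Jp - Jm‖ ≤ C₁ * a ^ 2 / w ∧
          ∀ J ∈ ball (1 : ℂ) (min w 1 / 4), Dd J * C (-Jm) + Dd (-Jm) * C J = 0 → J = Jp := by
  have hK0 := chsK0_pos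
  have hK3 := chsK3_pos
  set K4 : ℝ := 2 * (2 + chsK0) * chsK3 with hK4
  have hK4pos : 0 < K4 := by positivity
  refine ⟨min (1 / 2) (min (1 / (16 * (chsK0 * (7 + 2 * chsK0)))) (w₀ ^ 2 / (128 * K4))), 8 * K4,
    by positivity, by positivity, ?_⟩
  intro w a F Q θ C C' Dd Dd' hw ha hae h hQ hb Jm hJm
  have ha1 : a ≤ 1 / 2 := hae.trans (min_le_left _ _)
  have ha2 : a ≤ 1 / (16 * (chsK0 * (7 + 2 * chsK0))) :=
    hae.trans ((min_le_right _ _).trans (min_le_left _ _))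
  have ha3 : a ≤ w₀ ^ 2 / (128 * K4) := hae.trans ((min_le_right _ _).trans (min_le_right _ _))
  have hwpos : 0 < w := hw₀.trans_le hw
  have hmin : w₀ ≤ min w 1 := le_min hw hw₀'
  set ρ : ℝ := min w 1 / 4 with hρ
  have hρpos : 0 < ρ := by linarith
  have hρ1 : ρ ≤ 1 / 4 := by have := min_le_right w 1; linarith
  have hρw : ρ ≤ w / 4 := by have := min_le_left w 1; linarith
  have hρw0 : w₀ / 4 ≤ ρ := by linarith
  have h8 : min w 1 / 8 = ρ / 2 := by rw [hρ]; ring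
  rw [h8] at hJm
  have hα : ‖Jm - 1‖ ≤ ρ / 2 := by simpa [dist_eq_norm] using hJm
  have hJmV : Jm ∈ chStadium ρ := chs_ball_one (by rw [mem_ball, dist_eq_norm]; linarith)
  have ap := chs_apriori (ρ := ρ) (by linarith) (by linarith) ha ha1 h hb
  have bd := chs_bdd (ρ := ρ) (by linarith) (by linarith) ha ha1 h hb
  have rd := chs_refl_diff (ρ := ρ) hwpos (by linarith) hρw ha ha1 h hQ hb
  have hsub : chStadium ρ ⊆ chStadium w := chs_mono (by linarith)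
  have haa : a ^ 2 ≤ a := by nlinarith
  -- the error of the derivative
  have he16 : chsK0 * a ^ 2 * (7 + 2 * (chsK0 * a ^ 2)) ≤ 1 / 16 := by
    have hX : 0 < 16 * (chsK0 * (7 + 2 * chsK0)) := by positivity
    have h1 : a * (16 * (chsK0 * (7 + 2 * chsK0))) ≤ 1 := (le_div_iff₀ hX).1 ha2
    have h2 : chsK0 * a ^ 2 ≤ chsK0 * a := by gcongr
    have h3 : chsK0 * a ^ 2 ≤ chsK0 := by nlinarith
    have h4 : 0 ≤ chsK0 * a ^ 2 := by positivity
    have h5 : chsK0 * a ^ 2 * (7 + 2 * (chsK0 * a ^ 2)) ≤ chsK0 * a * (7 + 2 * chsK0) := by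
      apply mul_le_mul h2 (by linarith) (by positivity) (by positivity)
    nlinarith
  have hder : ∀ J ∈ ball (1 : ℂ) ρ, ‖(Dd' J * C (-Jm) + Dd (-Jm) * C' J) + 1 / 2‖ ≤ 3 / 8 := by
    intro J hJ
    have hJV : J ∈ chStadium ρ := chs_ball_one hJ
    have hβ : ‖J - 1‖ ≤ 1 / 4 := by
      have : ‖J - 1‖ < ρ := by simpa [dist_eq_norm] using hJ
      linarith
    have key := chs_deriv_est (α := Jm - 1) (β := J - 1) (ε₁ := Dd' J - 1)
      (ε₂ := C (-Jm) - (-Jm) ^ 2 / 2) (ε₃ := Dd (-Jm) - -Jm) (ε₄ := C' J - J)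
      (by linarith) hβ (ap J hJV).2.2.2.2 (ap _ (chs_neg hJmV)).2.1 (ap _ (chs_neg hJmV)).2.2.2.1
      (ap J hJV).2.2.1 he16
    refine le_of_eq_of_le (congrArg _ ?_) key
    ring
  have hGm : ‖Dd Jm * C (-Jm) + Dd (-Jm) * C Jm‖ ≤ K4 * a ^ 2 / w := by
    have e1 : Dd Jm * C (-Jm) + Dd (-Jm) * C Jm
        = (Dd Jm + Dd (-Jm)) * C (-Jm) + Dd (-Jm) * (C Jm - C (-Jm)) := by ring
    rw [e1]
    refine (norm_add_le _ _).trans ?_
    rw [norm_mul, norm_mul]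
    have f1 : ‖Dd Jm + Dd (-Jm)‖ * ‖C (-Jm)‖ ≤ chsK3 * a ^ 2 / w * (2 + chsK0) :=
      mul_le_mul (rd Jm hJmV).2 (bd _ (chs_neg hJmV)).1 (norm_nonneg _) (by positivity)
    have f2 : ‖Dd (-Jm)‖ * ‖C Jm - C (-Jm)‖ ≤ (2 + chsK0) * (chsK3 * a ^ 2 / w) :=
      mul_le_mul (bd _ (chs_neg hJmV)).2 (rd Jm hJmV).1 (norm_nonneg _) (by positivity)
    refine (add_le_add f1 f2).trans (le_of_eq ?_)
    rw [hK4]; ring
  have hsmall : 8 * (K4 * a ^ 2 / w) < ρ / 2 := by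
    have h1 : a * (128 * K4) ≤ w₀ ^ 2 := (le_div_iff₀ (by positivity)).1 ha3
    have h2 : K4 * a ^ 2 ≤ K4 * a := by gcongr
    have h3 : K4 * a ^ 2 / w ≤ K4 * a ^ 2 / w₀ := by gcongr
    have h4 : K4 * a ^ 2 / w₀ ≤ w₀ / 128 := by
      rw [div_le_iff₀ hw₀]
      nlinarith
    linarith
  have hcb : closedBall Jm (8 * ‖Dd Jm * C (-Jm) + Dd (-Jm) * C Jm‖) ⊆ ball (1 : ℂ) ρ := by
    intro z hz
    have h1 : ‖z - Jm‖ ≤ 8 * ‖Dd Jm * C (-Jm) + Dd (-Jm) * C Jm‖ := by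
      simpa [dist_eq_norm] using hz
    have h2 : ‖z - 1‖ ≤ ‖z - Jm‖ + ‖Jm - 1‖ := by simpa using norm_add_le (z - Jm) (Jm - 1)
    rw [mem_ball, dist_eq_norm]
    linarith
  obtain ⟨Jp, hJp, hJp0, hJpd, hJpu⟩ := chs_root_exists
    (G := fun J => Dd J * C (-Jm) + Dd (-Jm) * C J)
    (G' := fun J => Dd' J * C (-Jm) + Dd (-Jm) * C' J) (c := 1) (r := ρ)
    (fun J hJ => ((h.Dd_deriv J (hsub (chs_ball_one hJ))).mul_const _).add
      ((h.C_deriv J (hsub (chs_ball_one hJ))).const_mul _)) hder hcb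
  refine ⟨Jp, hJp, hJp0, fun h0 => ?_, ?_, hJpu⟩
  · have := hder Jp hJp
    rw [h0] at this
    norm_num at this
  · refine hJpd.trans ?_
    have : 8 * K4 * a ^ 2 / w = 8 * (K4 * a ^ 2 / w) := by ring
    rw [this]
    linarith

/-- LEAF LF-Chord-11: **holomorphic dependence of a simple root which is unique in a moving ball**. -/
theorem ch_root_holo {E : Type*} [NormedAddCommGroup E] [NormedSpace ℂ E] [FiniteDimensional ℂ E]
    {O : Set E} (hO : IsOpen O) {𝒰 : Set (E × ℂ)} (h𝒰 : IsOpen 𝒰) {Φ : E × ℂ → ℂ}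
    (hΦ : DifferentiableOn ℂ Φ 𝒰) {J c : E → ℂ} {r : ℝ} (hc : ContinuousOn c O)
    (hmem : ∀ z ∈ O, (z, J z) ∈ 𝒰) (hroot : ∀ z ∈ O, Φ (z, J z) = 0)
    (hin : ∀ z ∈ O, ‖J z - c z‖ < r)
    (huniq : ∀ z ∈ O, ∀ w : ℂ, ‖w - c z‖ < r → (z, w) ∈ 𝒰 → Φ (z, w) = 0 → w = J z)
    (hder : ∀ z ∈ O, deriv (fun w => Φ (z, w)) (J z) ≠ 0) : DifferentiableOn ℂ J O := by
  intro z₀ hz₀
  have : CompleteSpace E := FiniteDimensional.complete ℂ E
  have hA : AnalyticAt ℂ Φ (z₀, J z₀) :=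
    SCV.analyticOnNhd_of_differentiableOn h𝒰 hΦ _ (hmem z₀ hz₀)
  have hS : HasStrictFDerivAt Φ (fderiv ℂ Φ (z₀, J z₀)) (z₀, J z₀) := hA.hasStrictFDerivAt
  have hpart : (fderiv ℂ Φ (z₀, J z₀) ∘L ContinuousLinearMap.inr ℂ E ℂ) 1
      = deriv (fun w => Φ (z₀, w)) (J z₀) := by
    have h1 : HasDerivAt (fun w => Φ (z₀, w)) ((fderiv ℂ Φ (z₀, J z₀)) (0, 1)) (J z₀) :=
      hS.hasFDerivAt.comp_hasDerivAt (J z₀) (f := fun w => (z₀, w))
        ((hasDerivAt_const (J z₀) z₀).prodMk (hasDerivAt_id (J z₀)))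
    simpa using h1.deriv.symm
  have hne : (fderiv ℂ Φ (z₀, J z₀) ∘L ContinuousLinearMap.inr ℂ E ℂ) 1 ≠ 0 := by
    rw [hpart]; exact hder z₀ hz₀
  have hinv : (fderiv ℂ Φ (z₀, J z₀) ∘L ContinuousLinearMap.inr ℂ E ℂ).IsInvertible := by
    refine ⟨ContinuousLinearEquiv.unitsEquivAut ℂ (Units.mk0 _ hne), ?_⟩
    apply ContinuousLinearMap.ext_ring
    simp
  set j := hS.implicitFunctionOfProdDomain hinv with hj
  have hjd : DifferentiableAt ℂ j z₀ :=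
    (hS.hasStrictFDerivAt_implicitFunctionOfProdDomain hinv).hasFDerivAt.differentiableAt
  have hjt : Tendsto j (𝓝 z₀) (𝓝 (J z₀)) := hS.tendsto_implicitFunctionOfProdDomain hinv
  have hjr : ∀ᶠ x in 𝓝 z₀, Φ (x, j x) = Φ (z₀, J z₀) :=
    hS.eventually_apply_implicitFunctionOfProdDomain hinv
  have hO' : ∀ᶠ x in 𝓝 z₀, x ∈ O := hO.mem_nhds hz₀
  have h𝒰' : ∀ᶠ x in 𝓝 z₀, (x, j x) ∈ 𝒰 := by
    have ht : Tendsto (fun x => (x, j x)) (𝓝 z₀) (𝓝 (z₀, J z₀)) := tendsto_id.prodMk_nhds hjt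
    exact ht.eventually (h𝒰.mem_nhds (hmem z₀ hz₀))
  have hball : ∀ᶠ x in 𝓝 z₀, ‖j x - c x‖ < r := by
    have ht : Tendsto (fun x => ‖j x - c x‖) (𝓝 z₀) (𝓝 ‖J z₀ - c z₀‖) :=
      (hjt.sub (hc.continuousAt (hO.mem_nhds hz₀)).tendsto).norm
    exact ht.eventually_lt_const (hin z₀ hz₀)
  have heq : J =ᶠ[𝓝 z₀] j := by
    filter_upwards [hjr, hO', h𝒰', hball] with x hr hx hu hb
    exact (huniq x hx (j x) hb hu (by rw [hr, hroot z₀ hz₀])).symm
  exact (hjd.congr_of_eventuallyEq heq).differentiableWithinAt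

end Claimed.Agent.R269
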