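/-
Row 269, library for P1 Sections 10-11 (owner: helper171).  HOST-FREE: no paper reading needed.

THE DIRICHLET PROBLEM ON A PERIODIC STRIP `|Im z| ≤ b` (a compact cylinder), for continuous `2π`-periodic data on the two boundary rows.
It replaces the Brownian time change (Dambis-Dubins-Schwarz) of P1 Lemma 10.4: a harmonic function of the shape strip is composed
with the holomorphic site maps and evaluated along the walk on circles.  We never need smoothness, only
`HMV u S`: `u` is continuous on `S`, and `u ∘ g` has the mean value property on circles for every holomorphic `g` with values in `S`.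
`HMV` is closed under uniform limits and holds for real parts of holomorphic functions.

CONSTRUCTION.  Data `e^{inx}` on the upper row, `0` on the lower row: `V = e^{inx} sinh(n(η+b))/sinh(2nb)` (`n ≠ 0`), `(η+b)/(2b)` (`n = 0`), which is
a combination of `e^{inz}` and `conj (e^{-inz})`...; trigonometric polynomials are dense in the continuous periodic functions (Mathlib:
`span_fourier_closure_eq_top`, `AddCircle`); the maximum principle `cyl_max` makes the solution operator a sup-norm contraction.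

RULES: the claimer of a package fills its `sorry`s IN PLACE (auxiliary lemmas above the statement, prefix `cyl_`); do not change
a statement without telling helper171; land every compiled state.
-/
import Mathlib

set_option autoImplicit false

namespace Claimed.Agent.R269.Chn

open MeasureTheory Set Filter Topology Metric Real

/-- the closed strip -/
def cstrip (b : ℝ) : Set ℂ := {z | |z.im| ≤ b}

/-- mean value property after holomorphic substitutions -/
structure HMV (u : ℂ → ℝ) (S : Set ℂ) : Prop where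
  cont : ContinuousOn u S
  mean : ∀ (g : ℂ → ℂ) (c : ℂ) (R : ℝ), 0 ≤ R → AnalyticOnNhd ℂ g (closedBall c R) → (∀ z ∈ closedBall c R, g z ∈ S) →
    circleAverage (fun z => u (g z)) c R = u (g c)

/-- sub-mean value property after holomorphic substitutions -/
structure HSub (u : ℂ → ℝ) (S : Set ℂ) : Prop where
  cont : ContinuousOn u S
  mean : ∀ (g : ℂ → ℂ) (c : ℂ) (R : ℝ), 0 ≤ R → AnalyticOnNhd ℂ g (closedBall c R) → (∀ z ∈ closedBall c R, g z ∈ S) →
    u (g c) ≤ circleAverage (fun z => u (g z)) c R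

/-! ### LF-Cyl-1: examples, closure properties, maximum principle -/

theorem cyl_comp_analytic {F g : ℂ → ℂ} {O : Set ℂ} (hO : IsOpen O) (hF : DifferentiableOn ℂ F O) {c : ℂ} {R : ℝ}
    (hg : AnalyticOnNhd ℂ g (closedBall c R)) (hgO : ∀ z ∈ closedBall c R, g z ∈ O) :
    AnalyticOnNhd ℂ (fun z => F (g z)) (closedBall c R) := by
  intro z hz
  have h1 : AnalyticAt ℂ F (g z) := hF.analyticAt (hO.mem_nhds (hgO z hz))
  exact h1.comp (hg z hz)

theorem cyl_avg_analytic {G : ℂ → ℂ} {c : ℂ} {R : ℝ} (hR : 0 ≤ R) (hG : AnalyticOnNhd ℂ G (closedBall c R)) :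
    circleAverage G c R = G c := by
  apply DiffContOnCl.circleAverage
  rw [abs_of_nonneg hR]
  exact hG.differentiableOn.diffContOnCl_ball subset_rfl

theorem cyl_ci_analytic {G : ℂ → ℂ} {c : ℂ} {R : ℝ} (hR : 0 ≤ R) (hG : AnalyticOnNhd ℂ G (closedBall c R)) :
    CircleIntegrable G c R :=
  (hG.continuousOn.mono sphere_subset_closedBall).circleIntegrable hR

theorem cyl_avg_re {G : ℂ → ℂ} {c : ℂ} {R : ℝ} (hR : 0 ≤ R) (hG : AnalyticOnNhd ℂ G (closedBall c R)) :
    circleAverage (fun z => (G z).re) c R = (G c).re := by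
  have h2 := Complex.reCLM.circleAverage_comp_comm (cyl_ci_analytic hR hG)
  rw [cyl_avg_analytic hR hG] at h2
  exact h2

theorem cyl_avg_im {G : ℂ → ℂ} {c : ℂ} {R : ℝ} (hR : 0 ≤ R) (hG : AnalyticOnNhd ℂ G (closedBall c R)) :
    circleAverage (fun z => (G z).im) c R = (G c).im := by
  have h2 := Complex.imCLM.circleAverage_comp_comm (cyl_ci_analytic hR hG)
  rw [cyl_avg_analytic hR hG] at h2
  exact h2

theorem cyl_circleIntegrable {u : ℂ → ℝ} {S : Set ℂ} (hu : ContinuousOn u S) {g : ℂ → ℂ} {c : ℂ} {R : ℝ}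
    (hR : 0 ≤ R) (hg : AnalyticOnNhd ℂ g (closedBall c R)) (hgS : ∀ z ∈ closedBall c R, g z ∈ S) :
    CircleIntegrable (fun z => u (g z)) c R := by
  apply ContinuousOn.circleIntegrable hR
  exact (hu.comp hg.continuousOn fun z hz => hgS z hz).mono sphere_subset_closedBall

theorem hmv_re (F : ℂ → ℂ) (S : Set ℂ) (hF : ∃ O : Set ℂ, IsOpen O ∧ S ⊆ O ∧ DifferentiableOn ℂ F O) :
    HMV (fun z => (F z).re) S := by
  obtain ⟨O, hO, hSO, hF⟩ := hF
  refine ⟨Complex.continuous_re.comp_continuousOn (hF.continuousOn.mono hSO), ?_⟩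
  intro g c R hR hg hgS
  exact cyl_avg_re hR (cyl_comp_analytic hO hF hg fun z hz => hSO (hgS z hz))

theorem hmv_im (F : ℂ → ℂ) (S : Set ℂ) (hF : ∃ O : Set ℂ, IsOpen O ∧ S ⊆ O ∧ DifferentiableOn ℂ F O) :
    HMV (fun z => (F z).im) S := by
  obtain ⟨O, hO, hSO, hF⟩ := hF
  refine ⟨Complex.continuous_im.comp_continuousOn (hF.continuousOn.mono hSO), ?_⟩
  intro g c R hR hg hgS
  exact cyl_avg_im hR (cyl_comp_analytic hO hF hg fun z hz => hSO (hgS z hz))

theorem HMV.add {u v : ℂ → ℝ} {S : Set ℂ} (hu : HMV u S) (hv : HMV v S) : HMV (fun z => u z + v z) S := by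
  refine ⟨hu.cont.add hv.cont, ?_⟩
  intro g c R hR hg hgS
  rw [circleAverage_fun_add (cyl_circleIntegrable hu.cont hR hg hgS) (cyl_circleIntegrable hv.cont hR hg hgS),
    hu.mean g c R hR hg hgS, hv.mean g c R hR hg hgS]

theorem HMV.const_mul {u : ℂ → ℝ} {S : Set ℂ} (hu : HMV u S) (a : ℝ) : HMV (fun z => a * u z) S := by
  refine ⟨continuousOn_const.mul hu.cont, ?_⟩
  intro g c R hR hg hgS
  have h := circleAverage_fun_smul (f := fun z => u (g z)) (c := c) (R := R) (a := a)
  simp only [smul_eq_mul] at h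
  rw [h, hu.mean g c R hR hg hgS]

theorem HMV.mono {u : ℂ → ℝ} {S S' : Set ℂ} (hu : HMV u S) (h : S' ⊆ S) : HMV u S' :=
  ⟨hu.cont.mono h, fun g c R hR hg hgS => hu.mean g c R hR hg fun z hz => h (hgS z hz)⟩

theorem HMV.hsub {u : ℂ → ℝ} {S : Set ℂ} (hu : HMV u S) : HSub u S :=
  ⟨hu.cont, fun g c R hR hg hgS => (hu.mean g c R hR hg hgS).ge⟩

/-- uniform limits -/
theorem hmv_of_tendsto {u : ℂ → ℝ} {un : ℕ → ℂ → ℝ} {S : Set ℂ} (hn : ∀ n, HMV (un n) S)
    (hl : TendstoUniformlyOn un u atTop S) : HMV u S := by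
  have hc : ContinuousOn u S := hl.continuousOn (Frequently.of_forall fun n => (hn n).cont)
  refine ⟨hc, ?_⟩
  intro g c R hR hg hgS
  apply eq_of_abs_sub_le_all
  intro ε hε
  have hε2 : 0 < ε / 2 := by positivity
  obtain ⟨n, hnε⟩ := ((Metric.tendstoUniformlyOn_iff.1 hl) (ε / 2) hε2).exists
  have hd : ∀ z ∈ S, |u z - un n z| ≤ ε / 2 := fun z hz => by
    have := hnε z hz
    rw [Real.dist_eq] at this
    exact this.le
  have hiu := cyl_circleIntegrable hc hR hg hgS
  have hin := cyl_circleIntegrable (hn n).cont hR hg hgS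
  have h1 : circleAverage (fun z => u (g z)) c R - un n (g c) =
      circleAverage (fun z => u (g z) - un n (g z)) c R := by
    rw [circleAverage_fun_sub hiu hin, (hn n).mean g c R hR hg hgS]
  have hsph : ∀ x ∈ sphere c |R|, g x ∈ S := fun x hx => by
    rw [abs_of_nonneg hR] at hx
    exact hgS x (sphere_subset_closedBall hx)
  have h2 : circleAverage (fun z => u (g z) - un n (g z)) c R ≤ ε / 2 :=
    circleAverage_mono_on_of_le_circle (hiu.sub hin) fun x hx => (abs_le.1 (hd _ (hsph x hx))).2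
  have h3 : -(ε / 2) ≤ circleAverage (fun z => u (g z) - un n (g z)) c R := by
    have h4 := circleAverage_mono (circleIntegrable_const (-(ε / 2)) c R) (hiu.sub hin)
      fun x hx => (abs_le.1 (hd _ (hsph x hx))).1
    rwa [circleAverage_const] at h4
  have h5 := abs_le.1 (hd (g c) (hgS c (mem_closedBall_self hR)))
  rw [abs_le]
  constructor <;> linarith [h5.1, h5.2]

theorem cyl_normSq_ge (a w : ℂ) : ((starRingEnd ℂ) a * (2 * w - a)).re ≤ ‖w‖ ^ 2 := by
  rw [Complex.sq_norm, Complex.normSq_apply]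
  simp only [Complex.mul_re, Complex.conj_re, Complex.conj_im, Complex.sub_re, Complex.sub_im, Complex.re_ofNat,
    Complex.im_ofNat, Complex.mul_im]
  nlinarith [sq_nonneg (w.re - a.re), sq_nonneg (w.im - a.im)]

theorem cyl_normSq_eq (a : ℂ) : ((starRingEnd ℂ) a * (2 * a - a)).re = ‖a‖ ^ 2 := by
  rw [Complex.sq_norm, Complex.normSq_apply]
  simp only [Complex.mul_re, Complex.conj_re, Complex.conj_im, Complex.sub_re, Complex.sub_im, Complex.re_ofNat,
    Complex.im_ofNat, Complex.mul_im]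
  ring

/-- `|F|²` is subharmonic -/
theorem hsub_normSq (F : ℂ → ℂ) (S : Set ℂ) (hF : ∃ O : Set ℂ, IsOpen O ∧ S ⊆ O ∧ DifferentiableOn ℂ F O) :
    HSub (fun z => ‖F z‖ ^ 2) S := by
  obtain ⟨O, hO, hSO, hF⟩ := hF
  have hc : ContinuousOn (fun z => ‖F z‖ ^ 2) S := (hF.continuousOn.mono hSO).norm.pow 2
  refine ⟨hc, ?_⟩
  intro g c R hR hg hgS
  have hG := cyl_comp_analytic hO hF hg fun z hz => hSO (hgS z hz)
  have hH : AnalyticOnNhd ℂ (fun z => (starRingEnd ℂ) (F (g c)) * (2 * F (g z) - F (g c))) (closedBall c R) :=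
    analyticOnNhd_const.mul ((analyticOnNhd_const.mul hG).sub analyticOnNhd_const)
  have h1 := cyl_avg_re hR hH
  rw [cyl_normSq_eq] at h1
  rw [← h1]
  refine circleAverage_mono ?_ (cyl_circleIntegrable hc hR hg hgS) fun x _ => cyl_normSq_ge _ _
  exact (Complex.continuous_re.comp_continuousOn
    (hH.continuousOn.mono sphere_subset_closedBall)).circleIntegrable hR

/-- Jensen's inequality: `log |G|` has the sub-mean value property at a point where `G ≠ 0` -/
theorem cyl_jensen {G : ℂ → ℂ} {c : ℂ} {R : ℝ} (hR : 0 < R) (hG : AnalyticOnNhd ℂ G (closedBall c R))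
    (h0 : G c ≠ 0) : Real.log ‖G c‖ ≤ circleAverage (fun z => Real.log ‖G z‖) c R := by
  have hG' : AnalyticOnNhd ℂ G (closedBall c |R|) := by rwa [abs_of_pos hR]
  rw [AnalyticOnNhd.circleAverage_log_norm hR.ne' hG' h0]
  have hnn : 0 ≤ ∑ᶠ u, (MeromorphicOn.divisor G (closedBall c |R|) u : ℝ) * Real.log (R * ‖c - u‖⁻¹) := by
    refine finsum_nonneg fun u => ?_
    by_cases hu : u ∈ closedBall c |R|
    · refine mul_nonneg (by exact_mod_cast MeromorphicOn.AnalyticOnNhd.divisor_nonneg hG' u) ?_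
      by_cases huc : u = c
      · simp [huc]
      · apply Real.log_nonneg
        have h1 : 0 < ‖c - u‖ := norm_pos_iff.2 (sub_ne_zero.2 (Ne.symm huc))
        have h2 : ‖c - u‖ ≤ R := by
          rw [abs_of_pos hR, mem_closedBall, dist_comm, dist_eq_norm] at hu
          exact hu
        rw [← div_eq_mul_inv, le_div_iff₀ h1]
        linarith
    · rw [Function.locallyFinsuppWithin.apply_eq_zero_of_notMem _ hu]
      simp
  linarith

/-- `log max(|F|, e^{-T})` is subharmonic (Jensen: `AnalyticOnNhd.circleAverage_log_norm`, or `MeromorphicOn.circleAverage_log_norm`) -/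
theorem hsub_logmax (F : ℂ → ℂ) (S : Set ℂ) (hF : ∃ O : Set ℂ, IsOpen O ∧ S ⊆ O ∧ DifferentiableOn ℂ F O) (T : ℝ) :
    HSub (fun z => Real.log (max ‖F z‖ (Real.exp (-T)))) S := by
  obtain ⟨O, hO, hSO, hF⟩ := hF
  have hδ : 0 < Real.exp (-T) := Real.exp_pos _
  have hc : ContinuousOn (fun z => Real.log (max ‖F z‖ (Real.exp (-T)))) S :=
    (ContinuousOn.sup (hF.continuousOn.mono hSO).norm continuousOn_const).log
      fun z _ => (lt_max_of_lt_right hδ).ne'
  refine ⟨hc, ?_⟩
  intro g c R hR hg hgS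
  rcases hR.eq_or_lt with rfl | hRpos
  · simp
  have hG := cyl_comp_analytic hO hF hg fun z hz => hSO (hgS z hz)
  have hint := cyl_circleIntegrable hc hR hg hgS
  rcases le_or_gt ‖F (g c)‖ (Real.exp (-T)) with hle | hgt
  · -- the constant is a lower bound
    rw [max_eq_right hle]
    have h4 := circleAverage_mono (circleIntegrable_const (Real.log (Real.exp (-T))) c R) hint
      fun x _ => Real.log_le_log hδ (le_max_right _ _)
    rwa [circleAverage_const] at h4
  · rw [max_eq_left hgt.le]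
    have hGc : F (g c) ≠ 0 := by
      intro h
      rw [h, norm_zero] at hgt
      exact absurd hgt (not_lt.2 hδ.le)
    -- normalise: `G₁ = G / δ`
    set d : ℂ := (((Real.exp (-T))⁻¹ : ℝ) : ℂ) with hd
    have hdn : ‖d‖ = (Real.exp (-T))⁻¹ := by
      rw [hd, Complex.norm_real, Real.norm_eq_abs, abs_of_pos (inv_pos.2 hδ)]
    have hd0 : d ≠ 0 := by
      rw [← norm_pos_iff, hdn]
      exact inv_pos.2 hδ
    have hG1 : AnalyticOnNhd ℂ (fun z => d * F (g z)) (closedBall c R) := analyticOnNhd_const.mul hG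
    have hJ := cyl_jensen hRpos hG1 (mul_ne_zero hd0 hGc)
    have hlog : ∀ w : ℂ, w ≠ 0 → Real.log ‖d * w‖ = Real.log ‖w‖ - Real.log (Real.exp (-T)) := by
      intro w hw
      rw [norm_mul, hdn, Real.log_mul (inv_pos.2 hδ).ne' (norm_ne_zero_iff.2 hw), Real.log_inv]
      ring
    have hi1 : CircleIntegrable (fun z => Real.log ‖d * F (g z)‖) c R := by
      apply MeromorphicOn.circleIntegrable_log_norm
      rw [abs_of_pos hRpos]
      exact (hG1.mono sphere_subset_closedBall).meromorphicOn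
    have hmono := circleAverage_mono hi1 (hint.sub (circleIntegrable_const (Real.log (Real.exp (-T))) c R))
      (fun x _ => by
        show Real.log ‖d * F (g x)‖ ≤ Real.log (max ‖F (g x)‖ (Real.exp (-T))) - Real.log (Real.exp (-T))
        by_cases hx : F (g x) = 0
        · rw [hx, mul_zero, norm_zero, Real.log_zero, max_eq_right hδ.le, sub_self]
        · rw [hlog _ hx]
          have := Real.log_le_log (norm_pos_iff.2 hx) (le_max_left ‖F (g x)‖ (Real.exp (-T)))
          linarith)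
    have hsub := circleAverage_fun_sub hint (circleIntegrable_const (Real.log (Real.exp (-T))) c R)
    rw [circleAverage_const] at hsub
    have hmono' : circleAverage (fun z => Real.log ‖d * F (g z)‖) c R ≤
        circleAverage (fun z => Real.log (max ‖F (g z)‖ (Real.exp (-T)))) c R - Real.log (Real.exp (-T)) := by
      rw [← hsub]
      exact hmono
    rw [hlog _ hGc] at hJ
    linarith

theorem HSub.sub {u v : ℂ → ℝ} {S : Set ℂ} (hu : HSub u S) (hv : HMV v S) : HSub (fun z => u z - v z) S := by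
  refine ⟨hu.cont.sub hv.cont, ?_⟩
  intro g c R hR hg hgS
  rw [circleAverage_fun_sub (cyl_circleIntegrable hu.cont hR hg hgS) (cyl_circleIntegrable hv.cont hR hg hgS),
    hv.mean g c R hR hg hgS]
  linarith [hu.mean g c R hR hg hgS]

theorem cyl_shift_mem {b : ℝ} {z : ℂ} (hz : z ∈ cstrip b) (t : ℝ) : z + (t : ℂ) ∈ cstrip b := by
  show |(z + (t : ℂ)).im| ≤ b
  rw [Complex.add_im, Complex.ofReal_im, add_zero]
  exact hz

/-- periodicity under all integer multiples of the period -/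
theorem cyl_per_int (b : ℝ) (u : ℂ → ℝ) (hper : ∀ z ∈ cstrip b, u (z + 2 * π) = u z) (k : ℤ) :
    ∀ z ∈ cstrip b, u (z + ((k • (2 * π) : ℝ) : ℂ)) = u z := by
  induction k using Int.induction_on with
  | zero => intro z _; simp
  | succ k ih =>
    intro z hz
    have h1 := hper _ (cyl_shift_mem hz ((k : ℤ) • (2 * π)))
    rw [ih z hz] at h1
    rw [← h1]
    congr 1
    simp only [zsmul_eq_mul]
    push_cast
    ring
  | pred k ih =>
    intro z hz
    have h1 := hper _ (cyl_shift_mem hz ((-(k : ℤ) - 1) • (2 * π)))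
    rw [← h1, ← ih z hz]
    congr 1
    simp only [zsmul_eq_mul]
    push_cast
    ring

theorem cyl_circleMap (c : ℂ) (R θ : ℝ) :
    circleMap c R θ = ⟨c.re + R * Real.cos θ, c.im + R * Real.sin θ⟩ := by
  apply Complex.ext <;> simp [circleMap, Complex.exp_re, Complex.exp_im]

/-- **Maximum principle on the cylinder.** -/
theorem cyl_max (b : ℝ) (hb : 0 < b) (u : ℂ → ℝ) (hu : HSub u (cstrip b)) (hper : ∀ z ∈ cstrip b, u (z + 2 * π) = u z)
    (h1 : ∀ x : ℝ, u (⟨x, b⟩ : ℂ) ≤ 0) (h2 : ∀ x : ℝ, u (⟨x, -b⟩ : ℂ) ≤ 0) : ∀ z ∈ cstrip b, u z ≤ 0 := by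
  by_contra hcon
  obtain ⟨z1, hz1, hpos⟩ : ∃ z ∈ cstrip b, 0 < u z := by
    by_contra h
    exact hcon fun z hz => not_lt.1 fun hlt => h ⟨z, hz, hlt⟩
  set K : Set ℂ := Icc 0 (2 * π) ×ℂ Icc (-b) b with hKdef
  have hK : IsCompact K := isCompact_Icc.reProdIm isCompact_Icc
  have hKs : K ⊆ cstrip b := fun z hz => abs_le.2 (Complex.mem_reProdIm.1 hz).2
  have hne : K.Nonempty :=
    ⟨0, Complex.mem_reProdIm.2 ⟨⟨le_rfl, by simpa using two_pi_pos.le⟩, ⟨by simpa using hb.le, by simpa using hb.le⟩⟩⟩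
  obtain ⟨z0, hz0K, hmax⟩ := hK.exists_isMaxOn hne (hu.cont.mono hKs)
  have hglob : ∀ z ∈ cstrip b, u z ≤ u z0 := by
    intro z hz
    obtain ⟨k, hk, -⟩ := existsUnique_add_zsmul_mem_Ico two_pi_pos z.re 0
    rw [← cyl_per_int b u hper k z hz]
    apply hmax
    refine Complex.mem_reProdIm.2 ⟨?_, ?_⟩
    · rw [Complex.add_re, Complex.ofReal_re]
      rw [zero_add] at hk
      exact ⟨hk.1, hk.2.le⟩
    · exact abs_le.1 (cyl_shift_mem hz _)
  have hM : 0 < u z0 := lt_of_lt_of_le hpos (hglob z1 hz1)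
  have hz0 : |z0.im| ≤ b := hKs hz0K
  have hlt : |z0.im| < b := by
    rcases lt_or_eq_of_le hz0 with h | h
    · exact h
    · exfalso
      rcases abs_eq hb.le |>.1 h with h' | h'
      · have := h1 z0.re
        rw [← h', Complex.eta] at this
        linarith
      · have := h2 z0.re
        rw [← h', Complex.eta] at this
        linarith
  set R : ℝ := b - |z0.im| with hRdef
  have hR : 0 < R := sub_pos.2 hlt
  have hball : ∀ z ∈ closedBall z0 R, z ∈ cstrip b := by
    intro z hz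
    have h3 : |z.im - z0.im| ≤ R := by
      have := Complex.abs_im_le_norm (z - z0)
      rw [Complex.sub_im] at this
      rw [mem_closedBall, dist_eq_norm] at hz
      exact this.trans hz
    show |z.im| ≤ b
    have h4 : |z.im| ≤ |z.im - z0.im| + |z0.im| := by
      have := abs_add_le (z.im - z0.im) z0.im
      rwa [sub_add_cancel] at this
    linarith
  have hsub := hu.mean id z0 R hR.le analyticOnNhd_id hball
  simp only [id] at hsub
  have hcont : ContinuousOn (fun θ : ℝ => u (circleMap z0 R θ)) (Icc 0 (2 * π)) :=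
    hu.cont.comp (continuous_circleMap z0 R).continuousOn fun θ _ => hball _ (circleMap_mem_closedBall z0 hR.le θ)
  have hex : ∃ θ ∈ Icc 0 (2 * π), u (circleMap z0 R θ) < u z0 := by
    rcases le_total 0 z0.im with h | h
    · refine ⟨π / 2, ⟨by positivity, by linarith [pi_pos]⟩, ?_⟩
      rw [cyl_circleMap, Real.cos_pi_div_two, Real.sin_pi_div_two, hRdef, abs_of_nonneg h]
      have := h1 (z0.re + (b - z0.im) * 0)
      have e : z0.im + (b - z0.im) * 1 = b := by ring
      rw [e]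
      linarith
    · refine ⟨π + π / 2, ⟨by positivity, by linarith [pi_pos]⟩, ?_⟩
      rw [cyl_circleMap, Real.cos_add_pi_div_two, Real.sin_add_pi_div_two, Real.sin_pi, Real.cos_pi, hRdef,
        abs_of_nonpos h]
      have := h2 (z0.re + (b - -z0.im) * -0)
      have e : z0.im + (b - -z0.im) * -1 = -b := by ring
      rw [e]
      linarith
  have hint := intervalIntegral.integral_lt_integral_of_continuousOn_of_le_of_exists_lt two_pi_pos hcont
    (continuousOn_const (c := u z0))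
    (fun θ _ => hglob _ (hball _ (circleMap_mem_closedBall z0 hR.le θ))) hex
  rw [intervalIntegral.integral_const, sub_zero, smul_eq_mul] at hint
  have havg : circleAverage (fun z => u z) z0 R < u z0 := by
    rw [circleAverage_def, smul_eq_mul, inv_mul_lt_iff₀ two_pi_pos]
    exact hint
  linarith

/-- a continuous periodic function on the closed strip is uniformly continuous -/
theorem cyl_unifCont (b : ℝ) (u : ℂ → ℝ) (hu : ContinuousOn u (cstrip b)) (hper : ∀ z ∈ cstrip b, u (z + 2 * π) = u z)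
    (ε : ℝ) (hε : 0 < ε) : ∃ η : ℝ, 0 < η ∧ ∀ z ∈ cstrip b, ∀ w ∈ cstrip b, dist z w < η → |u z - u w| < ε := by
  set K : Set ℂ := Icc (-1) (2 * π + 1) ×ℂ Icc (-b) b with hKdef
  have hK : IsCompact K := isCompact_Icc.reProdIm isCompact_Icc
  have hKs : K ⊆ cstrip b := fun z hz => abs_le.2 (Complex.mem_reProdIm.1 hz).2
  have huc : UniformContinuousOn u K := hK.uniformContinuousOn_of_continuous (hu.mono hKs)
  obtain ⟨δ, hδ, hδ'⟩ := Metric.uniformContinuousOn_iff.1 huc ε hε
  refine ⟨min δ 1, lt_min hδ one_pos, ?_⟩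
  intro z hz w hw hd
  obtain ⟨k, hk, -⟩ := existsUnique_add_zsmul_mem_Ico two_pi_pos z.re 0
  rw [zero_add] at hk
  have hre : |w.re - z.re| < 1 := by
    have := Complex.abs_re_le_norm (w - z)
    rw [Complex.sub_re, ← dist_eq_norm, dist_comm] at this
    exact this.trans_lt (hd.trans_le (min_le_right _ _))
  rw [abs_lt] at hre
  have hz' : z + ((k • (2 * π) : ℝ) : ℂ) ∈ K := by
    refine Complex.mem_reProdIm.2 ⟨?_, abs_le.1 (cyl_shift_mem hz _)⟩
    rw [Complex.add_re, Complex.ofReal_re]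
    exact ⟨by linarith [hk.1], by linarith [hk.2]⟩
  have hw' : w + ((k • (2 * π) : ℝ) : ℂ) ∈ K := by
    refine Complex.mem_reProdIm.2 ⟨?_, abs_le.1 (cyl_shift_mem hw _)⟩
    rw [Complex.add_re, Complex.ofReal_re]
    exact ⟨by linarith [hk.1, hre.1], by linarith [hk.2, hre.2]⟩
  have h := hδ' _ hz' _ hw' (by rw [dist_add_right]; exact hd.trans_le (min_le_left _ _))
  rw [cyl_per_int b u hper k z hz, cyl_per_int b u hper k w hw, Real.dist_eq] at h
  exact h

/-! ### LF-Cyl-2: the Dirichlet problem -/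

theorem hmv_const (a : ℝ) (S : Set ℂ) : HMV (fun _ => a) S :=
  ⟨continuousOn_const, fun _ c R _ _ _ => circleAverage_const a c R⟩

theorem HMV.congr {u v : ℂ → ℝ} {S : Set ℂ} (hu : HMV u S) (h : ∀ z ∈ S, v z = u z) : HMV v S := by
  refine ⟨hu.cont.congr h, ?_⟩
  intro g c R hR hg hgS
  rw [h _ (hgS c (mem_closedBall_self hR)), ← hu.mean g c R hR hg hgS]
  apply circleAverage_congr_sphere
  intro x hx
  rw [abs_of_nonneg hR] at hx
  exact h _ (hgS x (sphere_subset_closedBall hx))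

/-- `V` solves the Dirichlet problem on the cylinder with the data `fp` (upper row), `fm` (lower row) -/
structure CylSol (b : ℝ) (fp fm : ℝ → ℝ) (V : ℂ → ℝ) : Prop where
  hmv : HMV V (cstrip b)
  per : ∀ z ∈ cstrip b, V (z + 2 * π) = V z
  top : ∀ x : ℝ, V (⟨x, b⟩ : ℂ) = fp x
  bot : ∀ x : ℝ, V (⟨x, -b⟩ : ℂ) = fm x
  mean : ∫ x in (0 : ℝ)..(2 * π), V (x : ℂ) = ((∫ x in (0 : ℝ)..(2 * π), fp x) + ∫ x in (0 : ℝ)..(2 * π), fm x) / 2

theorem cyl_cont_mk (y : ℝ) : Continuous fun x : ℝ => (⟨x, y⟩ : ℂ) := by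
  simp only [Complex.mk_eq_add_mul_I]
  fun_prop

theorem cyl_mem_mk {b y : ℝ} (hy : |y| ≤ b) (x : ℝ) : (⟨x, y⟩ : ℂ) ∈ cstrip b := hy

theorem cyl_mem_real {b : ℝ} (hb : 0 ≤ b) (x : ℝ) : (x : ℂ) ∈ cstrip b := by
  show |(x : ℂ).im| ≤ b
  simpa using hb

namespace CylSol

variable {b : ℝ} {fp fm gp gm : ℝ → ℝ} {V W : ℂ → ℝ}

theorem cont_mid (h : CylSol b fp fm V) (hb : 0 ≤ b) : Continuous fun x : ℝ => V (x : ℂ) :=
  h.hmv.cont.comp_continuous Complex.continuous_ofReal (cyl_mem_real hb)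

theorem cont_top (h : CylSol b fp fm V) (hb : 0 ≤ b) : Continuous fp := by
  have : fp = fun x : ℝ => V (⟨x, b⟩ : ℂ) := funext fun x => (h.top x).symm
  rw [this]
  exact h.hmv.cont.comp_continuous (cyl_cont_mk b) (cyl_mem_mk (abs_of_nonneg hb).le)

theorem cont_bot (h : CylSol b fp fm V) (hb : 0 ≤ b) : Continuous fm := by
  have : fm = fun x : ℝ => V (⟨x, -b⟩ : ℂ) := funext fun x => (h.bot x).symm
  rw [this]
  exact h.hmv.cont.comp_continuous (cyl_cont_mk (-b)) (cyl_mem_mk (by rw [abs_neg, abs_of_nonneg hb]))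

theorem congr_data (h : CylSol b fp fm V) (hp : ∀ x, gp x = fp x) (hm : ∀ x, gm x = fm x) : CylSol b gp gm V := by
  obtain rfl : gp = fp := funext hp
  obtain rfl : gm = fm := funext hm
  exact h

theorem add (h : CylSol b fp fm V) (h' : CylSol b gp gm W) (hb : 0 ≤ b) :
    CylSol b (fun x => fp x + gp x) (fun x => fm x + gm x) (fun z => V z + W z) where
  hmv := h.hmv.add h'.hmv
  per := fun z hz => by rw [h.per z hz, h'.per z hz]
  top := fun x => by rw [h.top, h'.top]
  bot := fun x => by rw [h.bot, h'.bot]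
  mean := by
    rw [intervalIntegral.integral_add ((h.cont_mid hb).intervalIntegrable _ _) ((h'.cont_mid hb).intervalIntegrable _ _),
      intervalIntegral.integral_add ((h.cont_top hb).intervalIntegrable _ _) ((h'.cont_top hb).intervalIntegrable _ _),
      intervalIntegral.integral_add ((h.cont_bot hb).intervalIntegrable _ _) ((h'.cont_bot hb).intervalIntegrable _ _),
      h.mean, h'.mean]
    ring

theorem const_mul (h : CylSol b fp fm V) (a : ℝ) :
    CylSol b (fun x => a * fp x) (fun x => a * fm x) (fun z => a * V z) where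
  hmv := h.hmv.const_mul a
  per := fun z hz => by rw [h.per z hz]
  top := fun x => by rw [h.top]
  bot := fun x => by rw [h.bot]
  mean := by
    rw [intervalIntegral.integral_const_mul, intervalIntegral.integral_const_mul,
      intervalIntegral.integral_const_mul, h.mean]
    ring

/-- the solution operator is a contraction for the sup norms -/
theorem bound (h : CylSol b fp fm V) (hb : 0 < b) (ε : ℝ) (hp : ∀ x, |fp x| ≤ ε) (hm : ∀ x, |fm x| ≤ ε) :
    ∀ z ∈ cstrip b, |V z| ≤ ε := by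
  intro z hz
  have h1 := cyl_max b hb (fun z => V z - ε) (h.hmv.hsub.sub (hmv_const ε _))
    (fun z hz => by rw [h.per z hz])
    (fun x => by rw [h.top]; linarith [(abs_le.1 (hp x)).2])
    (fun x => by rw [h.bot]; linarith [(abs_le.1 (hm x)).2]) z hz
  have h2 := cyl_max b hb (fun z => -1 * V z - ε) ((h.hmv.const_mul (-1)).hsub.sub (hmv_const ε _))
    (fun z hz => by rw [h.per z hz])
    (fun x => by rw [h.top]; linarith [(abs_le.1 (hp x)).1])
    (fun x => by rw [h.bot]; linarith [(abs_le.1 (hm x)).1]) z hz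
  rw [abs_le]
  constructor <;> linarith

end CylSol

/-- integrals of uniformly convergent sequences -/
theorem cyl_int_tendsto (f : ℝ → ℝ) (fk : ℕ → ℝ → ℝ) (hf : Continuous f) (hfk : ∀ k, Continuous (fk k)) (ε : ℕ → ℝ)
    (hε : Tendsto ε atTop (𝓝 0)) (h : ∀ k x, |fk k x - f x| ≤ ε k) :
    Tendsto (fun k => ∫ x in (0 : ℝ)..(2 * π), fk k x) atTop (𝓝 (∫ x in (0 : ℝ)..(2 * π), f x)) := by
  rw [tendsto_iff_norm_sub_tendsto_zero]
  have h0 : Tendsto (fun k => ε k * |2 * π - 0|) atTop (𝓝 0) := by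
    simpa using hε.mul_const |2 * π - 0|
  refine squeeze_zero (fun k => norm_nonneg _) (fun k => ?_) h0
  rw [← intervalIntegral.integral_sub ((hfk k).intervalIntegrable _ _) (hf.intervalIntegrable _ _)]
  exact intervalIntegral.norm_integral_le_of_norm_le_const fun x _ => h k x

/-- **uniform limits of solutions** -/
theorem cyl_limit (b : ℝ) (hb : 0 < b) (fp fm : ℝ → ℝ) (fpk fmk : ℕ → ℝ → ℝ) (Vk : ℕ → ℂ → ℝ)
    (hS : ∀ k, CylSol b (fpk k) (fmk k) (Vk k)) (ε : ℕ → ℝ) (hε : Tendsto ε atTop (𝓝 0))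
    (hp : ∀ k x, |fpk k x - fp x| ≤ ε k) (hm : ∀ k x, |fmk k x - fm x| ≤ ε k) : ∃ V, CylSol b fp fm V := by
  have h1 : ∀ k l, ∀ z ∈ cstrip b, |Vk k z - Vk l z| ≤ ε k + ε l := by
    intro k l z hz
    have hd := ((hS k).add ((hS l).const_mul (-1)) hb.le).bound hb (ε k + ε l)
      (fun x => by
        have e : fpk k x + -1 * fpk l x = (fpk k x - fp x) - (fpk l x - fp x) := by ring
        rw [e]
        exact (abs_sub _ _).trans (add_le_add (hp k x) (hp l x)))
      (fun x => by
        have e : fmk k x + -1 * fmk l x = (fmk k x - fm x) - (fmk l x - fm x) := by ring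
        rw [e]
        exact (abs_sub _ _).trans (add_le_add (hm k x) (hm l x))) z hz
    have e : Vk k z - Vk l z = Vk k z + -1 * Vk l z := by ring
    rw [e]
    exact hd
  have hcau : ∀ z ∈ cstrip b, CauchySeq fun k => Vk k z := by
    intro z hz
    rw [Metric.cauchySeq_iff']
    intro δ hδ
    have hev : ∀ᶠ k in atTop, ε k < δ / 2 := hε.eventually (gt_mem_nhds (by positivity))
    obtain ⟨N, hN⟩ := eventually_atTop.1 hev
    refine ⟨N, fun n hn => ?_⟩
    rw [Real.dist_eq]
    have := h1 n N z hz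
    linarith [hN n hn, hN N le_rfl]
  set V : ℂ → ℝ := fun z => limUnder atTop fun k => Vk k z with hV
  have hlim : ∀ z ∈ cstrip b, Tendsto (fun k => Vk k z) atTop (𝓝 (V z)) := fun z hz => (hcau z hz).tendsto_limUnder
  have h2 : ∀ k, ∀ z ∈ cstrip b, |Vk k z - V z| ≤ ε k := by
    intro k z hz
    have ha : Tendsto (fun l => |Vk k z - Vk l z|) atTop (𝓝 |Vk k z - V z|) :=
      ((hlim z hz).const_sub (Vk k z)).abs
    have hb' : Tendsto (fun l => ε k + ε l) atTop (𝓝 (ε k + 0)) := hε.const_add (ε k)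
    rw [add_zero] at hb'
    exact le_of_tendsto_of_tendsto' ha hb' fun l => h1 k l z hz
  have hunif : TendstoUniformlyOn Vk V atTop (cstrip b) := by
    rw [Metric.tendstoUniformlyOn_iff]
    intro δ hδ
    filter_upwards [hε.eventually (gt_mem_nhds hδ)] with k hk z hz
    rw [Real.dist_eq, abs_sub_comm]
    exact (h2 k z hz).trans_lt hk
  have hhmv : HMV V (cstrip b) := hmv_of_tendsto (fun k => (hS k).hmv) hunif
  have htop : ∀ x : ℝ, V (⟨x, b⟩ : ℂ) = fp x := by
    intro x
    have ha := hlim _ (cyl_mem_mk (abs_of_nonneg hb.le).le x)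
    simp only [(hS _).top] at ha
    refine tendsto_nhds_unique ha ?_
    rw [tendsto_iff_norm_sub_tendsto_zero]
    exact squeeze_zero (fun k => norm_nonneg _) (fun k => hp k x) hε
  have hbot : ∀ x : ℝ, V (⟨x, -b⟩ : ℂ) = fm x := by
    intro x
    have ha := hlim _ (cyl_mem_mk (b := b) (by rw [abs_neg, abs_of_nonneg hb.le]) x)
    simp only [(hS _).bot] at ha
    refine tendsto_nhds_unique ha ?_
    rw [tendsto_iff_norm_sub_tendsto_zero]
    exact squeeze_zero (fun k => norm_nonneg _) (fun k => hm k x) hε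
  have hcp : Continuous fp := by
    have : fp = fun x : ℝ => V (⟨x, b⟩ : ℂ) := funext fun x => (htop x).symm
    rw [this]
    exact hhmv.cont.comp_continuous (cyl_cont_mk b) (cyl_mem_mk (abs_of_nonneg hb.le).le)
  have hcm : Continuous fm := by
    have : fm = fun x : ℝ => V (⟨x, -b⟩ : ℂ) := funext fun x => (hbot x).symm
    rw [this]
    exact hhmv.cont.comp_continuous (cyl_cont_mk (-b)) (cyl_mem_mk (by rw [abs_neg, abs_of_nonneg hb.le]))
  have hcV : Continuous fun x : ℝ => V (x : ℂ) :=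
    hhmv.cont.comp_continuous Complex.continuous_ofReal (cyl_mem_real hb.le)
  refine ⟨V, hhmv, ?_, htop, hbot, ?_⟩
  · intro z hz
    show limUnder atTop (fun k => Vk k (z + 2 * π)) = limUnder atTop fun k => Vk k z
    congr 1
    funext k
    exact (hS k).per z hz
  · have t1 := cyl_int_tendsto (fun x : ℝ => V (x : ℂ)) (fun k (x : ℝ) => Vk k (x : ℂ)) hcV
      (fun k => (hS k).cont_mid hb.le) ε hε fun k x => h2 k _ (cyl_mem_real hb.le x)
    have t2 := cyl_int_tendsto fp fpk hcp (fun k => (hS k).cont_top hb.le) ε hε hp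
    have t3 := cyl_int_tendsto fm fmk hcm (fun k => (hS k).cont_bot hb.le) ε hε hm
    simp only [(hS _).mean] at t1
    exact tendsto_nhds_unique t1 ((t2.add t3).div_const 2)

/-! #### the explicit solutions -/

theorem cyl_arg (N : ℝ) (z : ℂ) : (N : ℂ) * z = ((N * z.re : ℝ) : ℂ) + ((N * z.im : ℝ) : ℂ) * Complex.I := by
  apply Complex.ext <;> simp

theorem cyl_aux_re (A B C D : ℝ) : ((A : ℂ) * B - C * D * Complex.I).re = A * B := by simp

theorem cyl_aux_im (A B C D : ℝ) : ((A : ℂ) * B - C * D * Complex.I).im = -(C * D) := by simp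

theorem cyl_aux_re' (A B C D : ℝ) : ((A : ℂ) * B + C * D * Complex.I).re = A * B := by simp

theorem cyl_aux_im' (A B C D : ℝ) : ((A : ℂ) * B + C * D * Complex.I).im = C * D := by simp

theorem cyl_cos_re (N : ℝ) (z : ℂ) : (Complex.cos (N * z)).re = Real.cos (N * z.re) * Real.cosh (N * z.im) := by
  rw [cyl_arg, Complex.cos_add_mul_I, ← Complex.ofReal_cos, ← Complex.ofReal_cosh, ← Complex.ofReal_sin,
    ← Complex.ofReal_sinh]
  exact cyl_aux_re _ _ _ _

theorem cyl_cos_im (N : ℝ) (z : ℂ) : (Complex.cos (N * z)).im = -(Real.sin (N * z.re) * Real.sinh (N * z.im)) := by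
  rw [cyl_arg, Complex.cos_add_mul_I, ← Complex.ofReal_cos, ← Complex.ofReal_cosh, ← Complex.ofReal_sin,
    ← Complex.ofReal_sinh]
  exact cyl_aux_im _ _ _ _

theorem cyl_sin_re (N : ℝ) (z : ℂ) : (Complex.sin (N * z)).re = Real.sin (N * z.re) * Real.cosh (N * z.im) := by
  rw [cyl_arg, Complex.sin_add_mul_I, ← Complex.ofReal_cos, ← Complex.ofReal_cosh, ← Complex.ofReal_sin,
    ← Complex.ofReal_sinh]
  exact cyl_aux_re' _ _ _ _

theorem cyl_sin_im (N : ℝ) (z : ℂ) : (Complex.sin (N * z)).im = Real.cos (N * z.re) * Real.sinh (N * z.im) := by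
  rw [cyl_arg, Complex.sin_add_mul_I, ← Complex.ofReal_cos, ← Complex.ofReal_cosh, ← Complex.ofReal_sin,
    ← Complex.ofReal_sinh]
  exact cyl_aux_im' _ _ _ _

theorem cyl_re_shift (z : ℂ) : (z + 2 * π).re = z.re + 2 * π := by simp

theorem cyl_im_shift (z : ℂ) : (z + 2 * π).im = z.im := by simp

theorem cyl_cos_shift (n : ℤ) (x : ℝ) : Real.cos (n * (x + 2 * π)) = Real.cos (n * x) := by
  rw [mul_add, Real.cos_add_int_mul_two_pi]

theorem cyl_sin_shift (n : ℤ) (x : ℝ) : Real.sin (n * (x + 2 * π)) = Real.sin (n * x) := by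
  rw [mul_add, Real.sin_add_int_mul_two_pi]

theorem cyl_int_cos (n : ℤ) (hn : n ≠ 0) : ∫ x in (0 : ℝ)..(2 * π), Real.cos (n * x) = 0 := by
  have hn' : (n : ℝ) ≠ 0 := by exact_mod_cast hn
  rw [intervalIntegral.integral_comp_mul_left (fun x => Real.cos x) hn', integral_cos, mul_zero, Real.sin_zero]
  have : Real.sin ((n : ℝ) * (2 * π)) = 0 := by
    have := Real.sin_int_mul_pi (2 * n)
    push_cast at this
    rw [← this]
    congr 1
    ring
  rw [this]
  simp

theorem cyl_int_sin (n : ℤ) : ∫ x in (0 : ℝ)..(2 * π), Real.sin (n * x) = 0 := by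
  by_cases hn : n = 0
  · simp [hn]
  have hn' : (n : ℝ) ≠ 0 := by exact_mod_cast hn
  rw [intervalIntegral.integral_comp_mul_left (fun x => Real.sin x) hn', integral_sin, mul_zero, Real.cos_zero,
    Real.cos_int_mul_two_pi]
  simp

theorem cyl_entire (F : ℂ → ℂ) (hF : Differentiable ℂ F) (S : Set ℂ) :
    ∃ O : Set ℂ, IsOpen O ∧ S ⊆ O ∧ DifferentiableOn ℂ F O :=
  ⟨univ, isOpen_univ, subset_univ _, hF.differentiableOn⟩

/-- data `(cos nx, cos nx)` -/
theorem cyl_basis_cc (b : ℝ) (n : ℤ) :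
    ∃ V, CylSol b (fun x => Real.cos (n * x)) (fun x => Real.cos (n * x)) V := by
  have hch : Real.cosh (n * b) ≠ 0 := (Real.cosh_pos _).ne'
  refine ⟨fun z => (Real.cosh (n * b))⁻¹ * (Complex.cos ((n : ℝ) * z)).re,
    (hmv_re _ _ (cyl_entire _ (by fun_prop) _)).const_mul _, ?_, ?_, ?_, ?_⟩
  · intro z _
    simp only [cyl_cos_re, cyl_re_shift, cyl_im_shift, cyl_cos_shift]
  · intro x
    simp only [cyl_cos_re]
    field_simp
  · intro x
    simp only [cyl_cos_re, mul_neg, Real.cosh_neg]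
    field_simp
  · simp only [cyl_cos_re, Complex.ofReal_re, Complex.ofReal_im, mul_zero, Real.cosh_zero, mul_one]
    rw [intervalIntegral.integral_const_mul]
    by_cases hn : n = 0
    · simp [hn]
    · rw [cyl_int_cos n hn]
      simp

/-- data `(sin nx, sin nx)` -/
theorem cyl_basis_ss (b : ℝ) (n : ℤ) :
    ∃ V, CylSol b (fun x => Real.sin (n * x)) (fun x => Real.sin (n * x)) V := by
  have hch : Real.cosh (n * b) ≠ 0 := (Real.cosh_pos _).ne'
  refine ⟨fun z => (Real.cosh (n * b))⁻¹ * (Complex.sin ((n : ℝ) * z)).re,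
    (hmv_re _ _ (cyl_entire _ (by fun_prop) _)).const_mul _, ?_, ?_, ?_, ?_⟩
  · intro z _
    simp only [cyl_sin_re, cyl_re_shift, cyl_im_shift, cyl_sin_shift]
  · intro x
    simp only [cyl_sin_re]
    field_simp
  · intro x
    simp only [cyl_sin_re, mul_neg, Real.cosh_neg]
    field_simp
  · simp only [cyl_sin_re, Complex.ofReal_re, Complex.ofReal_im, mul_zero, Real.cosh_zero, mul_one]
    rw [intervalIntegral.integral_const_mul, cyl_int_sin]
    simp

/-- data `(cos nx, - cos nx)` -/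
theorem cyl_basis_ca (b : ℝ) (hb : 0 < b) (n : ℤ) :
    ∃ V, CylSol b (fun x => Real.cos (n * x)) (fun x => -Real.cos (n * x)) V := by
  by_cases hn : n = 0
  · subst hn
    refine ⟨fun z => b⁻¹ * z.im, (hmv_im (fun z => z) _ (cyl_entire _ differentiable_id _)).const_mul _,
      ?_, ?_, ?_, ?_⟩
    · intro z _
      simp only [cyl_im_shift]
    · intro x
      simp [hb.ne']
    · intro x
      simp [hb.ne']
    · simp
  have hn' : (n : ℝ) ≠ 0 := by exact_mod_cast hn
  have hsh : Real.sinh (n * b) ≠ 0 := fun h => (mul_ne_zero hn' hb.ne') (Real.sinh_eq_zero.1 h)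
  refine ⟨fun z => (Real.sinh (n * b))⁻¹ * (Complex.sin ((n : ℝ) * z)).im,
    (hmv_im _ _ (cyl_entire _ (by fun_prop) _)).const_mul _, ?_, ?_, ?_, ?_⟩
  · intro z _
    simp only [cyl_sin_im, cyl_re_shift, cyl_im_shift, cyl_cos_shift]
  · intro x
    simp only [cyl_sin_im]
    field_simp
  · intro x
    simp only [cyl_sin_im, mul_neg, Real.sinh_neg]
    field_simp
  · simp only [cyl_sin_im, Complex.ofReal_re, Complex.ofReal_im, mul_zero, Real.sinh_zero]
    rw [intervalIntegral.integral_neg]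
    simp

/-- data `(sin nx, - sin nx)` -/
theorem cyl_basis_sa (b : ℝ) (hb : 0 < b) (n : ℤ) :
    ∃ V, CylSol b (fun x => Real.sin (n * x)) (fun x => -Real.sin (n * x)) V := by
  by_cases hn : n = 0
  · subst hn
    refine ⟨fun _ => 0, hmv_const 0 _, ?_, ?_, ?_, ?_⟩
    · intro z _
      rfl
    · intro x
      simp
    · intro x
      simp
    · simp
  have hn' : (n : ℝ) ≠ 0 := by exact_mod_cast hn
  have hsh : Real.sinh (n * b) ≠ 0 := fun h => (mul_ne_zero hn' hb.ne') (Real.sinh_eq_zero.1 h)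
  refine ⟨fun z => -(Real.sinh (n * b))⁻¹ * (Complex.cos ((n : ℝ) * z)).im,
    (hmv_im _ _ (cyl_entire _ (by fun_prop) _)).const_mul _, ?_, ?_, ?_, ?_⟩
  · intro z _
    simp only [cyl_cos_im, cyl_re_shift, cyl_im_shift, cyl_sin_shift]
  · intro x
    simp only [cyl_cos_im]
    field_simp
  · intro x
    simp only [cyl_cos_im, mul_neg, Real.sinh_neg]
    field_simp
  · simp only [cyl_cos_im, Complex.ofReal_re, Complex.ofReal_im, mul_zero, Real.sinh_zero]
    rw [intervalIntegral.integral_neg]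
    simp

/-- the symmetric and the antisymmetric problem with the data `f` are solvable -/
def CylGood (b : ℝ) (f : ℝ → ℝ) : Prop :=
  (∃ V, CylSol b f f V) ∧ ∃ V, CylSol b f (fun x => -f x) V

theorem CylGood.add {b : ℝ} (hb : 0 ≤ b) {f g : ℝ → ℝ} (hf : CylGood b f) (hg : CylGood b g) :
    CylGood b fun x => f x + g x := by
  obtain ⟨⟨V1, h1⟩, V2, h2⟩ := hf
  obtain ⟨⟨W1, k1⟩, W2, k2⟩ := hg
  exact ⟨⟨_, h1.add k1 hb⟩, _, (h2.add k2 hb).congr_data (fun _ => rfl) fun x => by ring⟩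

theorem CylGood.const_mul {b : ℝ} {f : ℝ → ℝ} (hf : CylGood b f) (a : ℝ) : CylGood b fun x => a * f x := by
  obtain ⟨⟨V1, h1⟩, V2, h2⟩ := hf
  exact ⟨⟨_, h1.const_mul a⟩, _, (h2.const_mul a).congr_data (fun _ => rfl) fun x => by ring⟩

theorem CylGood.congr {b : ℝ} {f g : ℝ → ℝ} (hf : CylGood b f) (h : ∀ x, g x = f x) : CylGood b g := by
  obtain rfl : g = f := funext h
  exact hf

/-- independent data on the two rows -/
theorem CylGood.pair {b : ℝ} (hb : 0 ≤ b) {f g : ℝ → ℝ} (hf : CylGood b f) (hg : CylGood b g) :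
    ∃ V, CylSol b f g V := by
  obtain ⟨⟨V1, h1⟩, V2, h2⟩ := hf
  obtain ⟨⟨W1, k1⟩, W2, k2⟩ := hg
  exact ⟨_, ((((h1.add h2 hb).const_mul (1 / 2)).add ((k1.add (k2.const_mul (-1)) hb).const_mul (1 / 2)) hb)).congr_data
    (fun x => by ring) fun x => by ring⟩

theorem cyl_fourier_apply (n : ℤ) (x : ℝ) :
    (fourier n : C(AddCircle (2 * π), ℂ)) (x : AddCircle (2 * π)) = Complex.exp (((n * x : ℝ) : ℂ) * Complex.I) := by
  rw [fourier_coe_apply]
  congr 1
  have : (π : ℂ) ≠ 0 := by exact_mod_cast pi_ne_zero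
  push_cast
  field_simp

/-- trigonometric polynomials are good data -/
theorem cyl_good_span (b : ℝ) (hb : 0 < b) (P : C(AddCircle (2 * π), ℂ))
    (hP : P ∈ Submodule.span ℂ (range (fourier : ℤ → C(AddCircle (2 * π), ℂ)))) :
    CylGood b (fun x : ℝ => (P (x : AddCircle (2 * π))).re) ∧ CylGood b fun x : ℝ => (P (x : AddCircle (2 * π))).im := by
  induction hP using Submodule.span_induction with
  | mem P h =>
    obtain ⟨n, rfl⟩ := h
    constructor
    · refine CylGood.congr ⟨cyl_basis_cc b n, cyl_basis_ca b hb n⟩ fun x => ?_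
      rw [cyl_fourier_apply, Complex.exp_ofReal_mul_I_re]
    · refine CylGood.congr ⟨cyl_basis_ss b n, cyl_basis_sa b hb n⟩ fun x => ?_
      rw [cyl_fourier_apply, Complex.exp_ofReal_mul_I_im]
  | zero =>
    have h0 : CylGood b fun _ => 0 := by
      have hg : CylGood b fun x => Real.cos (((0 : ℤ) : ℝ) * x) := ⟨cyl_basis_cc b 0, cyl_basis_ca b hb 0⟩
      refine CylGood.congr (hg.const_mul 0) fun x => ?_
      simp
    exact ⟨h0.congr fun x => by simp, h0.congr fun x => by simp⟩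
  | add P Q _ _ hP hQ =>
    exact ⟨(hP.1.add hb.le hQ.1).congr fun x => by simp, (hP.2.add hb.le hQ.2).congr fun x => by simp⟩
  | smul a P _ hP =>
    constructor
    · refine ((hP.1.const_mul a.re).add hb.le (hP.2.const_mul (-a.im))).congr fun x => ?_
      simp [Complex.mul_re]
      ring
    · refine ((hP.2.const_mul a.re).add hb.le (hP.1.const_mul a.im)).congr fun x => ?_
      simp [Complex.mul_im]

/-- density of the trigonometric polynomials -/
theorem cyl_approx (χ : ℝ → ℝ) (hc : Continuous χ) (hper : Function.Periodic χ (2 * π)) (ε : ℝ) (hε : 0 < ε) :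
    ∃ P ∈ Submodule.span ℂ (range (fourier : ℤ → C(AddCircle (2 * π), ℂ))),
      ∀ x : ℝ, |(P (x : AddCircle (2 * π))).re - χ x| ≤ ε := by
  have : Fact (0 < 2 * π) := ⟨two_pi_pos⟩
  have hl : Continuous hper.lift := hc.quotient_liftOn' _
  set F : C(AddCircle (2 * π), ℂ) := ⟨fun a => (hper.lift a : ℂ), Complex.continuous_ofReal.comp hl⟩ with hF
  have hmem : F ∈ closure ((Submodule.span ℂ (range (fourier : ℤ → C(AddCircle (2 * π), ℂ))) : Submodule ℂ _) : Set _) := by
    rw [← Submodule.topologicalClosure_coe, span_fourier_closure_eq_top]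
    trivial
  obtain ⟨P, hP, hd⟩ := Metric.mem_closure_iff.1 hmem ε hε
  refine ⟨P, hP, fun x => ?_⟩
  have h1 : dist (F (x : AddCircle (2 * π))) (P (x : AddCircle (2 * π))) ≤ dist F P := ContinuousMap.dist_apply_le_dist _
  have h2 : F (x : AddCircle (2 * π)) = (χ x : ℂ) := by
    show ((hper.lift (x : AddCircle (2 * π)) : ℝ) : ℂ) = _
    rw [hper.lift_coe]
  rw [h2, dist_comm, dist_eq_norm] at h1
  have h3 := Complex.abs_re_le_norm (P (x : AddCircle (2 * π)) - (χ x : ℂ))
  rw [Complex.sub_re, Complex.ofReal_re] at h3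
  linarith

/-- the Dirichlet problem, on the closed strip -/
theorem cyl_dirichlet_strip (b : ℝ) (hb : 0 < b) (χp χm : ℝ → ℝ) (hp : Continuous χp) (hm : Continuous χm)
    (hpp : Function.Periodic χp (2 * π)) (hmp : Function.Periodic χm (2 * π)) : ∃ V, CylSol b χp χm V := by
  have hε : ∀ k : ℕ, (0 : ℝ) < 1 / ((k : ℝ) + 1) := fun k => by positivity
  choose P hP hP' using fun k : ℕ => cyl_approx χp hp hpp _ (hε k)
  choose Q hQ hQ' using fun k : ℕ => cyl_approx χm hm hmp _ (hε k)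
  choose Vk hVk using fun k : ℕ => (cyl_good_span b hb (P k) (hP k)).1.pair hb.le (cyl_good_span b hb (Q k) (hQ k)).1
  exact cyl_limit b hb χp χm _ _ Vk hVk (fun k : ℕ => 1 / ((k : ℝ) + 1)) tendsto_one_div_add_atTop_nhds_zero_nat hP' hQ'

/-- **Solution of the Dirichlet problem**, with the value of its mean over the real period (the zero mode is affine in `Im z`).
`V` is extended to a continuous function on `ℂ` by clamping `Im z` to `[-b,b]` (so that `V ∘ g` is always measurable). -/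
theorem dirichlet (b : ℝ) (hb : 0 < b) (χp χm : ℝ → ℝ) (hp : Continuous χp) (hm : Continuous χm)
    (hpp : Function.Periodic χp (2 * π)) (hmp : Function.Periodic χm (2 * π)) :
    ∃ V : ℂ → ℝ, Continuous V ∧ HMV V (cstrip b) ∧ (∀ z ∈ cstrip b, V (z + 2 * π) = V z) ∧
      (∀ x : ℝ, V (⟨x, b⟩ : ℂ) = χp x) ∧ (∀ x : ℝ, V (⟨x, -b⟩ : ℂ) = χm x) ∧
      ∫ x in (0 : ℝ)..(2 * π), V (x : ℂ) = ((∫ x in (0 : ℝ)..(2 * π), χp x) + ∫ x in (0 : ℝ)..(2 * π), χm x) / 2 := by
  obtain ⟨V, hV⟩ := cyl_dirichlet_strip b hb χp χm hp hm hpp hmp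
  set cl : ℂ → ℂ := fun z => ⟨z.re, max (-b) (min b z.im)⟩ with hcl
  have hclc : Continuous cl := by
    simp only [hcl, Complex.mk_eq_add_mul_I]
    fun_prop
  have hclm : ∀ z, cl z ∈ cstrip b := by
    intro z
    show |max (-b) (min b z.im)| ≤ b
    rw [abs_le]
    exact ⟨le_max_left _ _, max_le (by linarith) (min_le_left _ _)⟩
  have hcle : ∀ z ∈ cstrip b, cl z = z := by
    intro z hz
    have hz' := abs_le.1 (show |z.im| ≤ b from hz)
    apply Complex.ext
    · rfl
    · show max (-b) (min b z.im) = z.im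
      rw [min_eq_right hz'.2, max_eq_right hz'.1]
  have hVe : ∀ z ∈ cstrip b, V (cl z) = V z := fun z hz => by rw [hcle z hz]
  refine ⟨fun z => V (cl z), hV.hmv.cont.comp_continuous hclc hclm, hV.hmv.congr hVe, ?_, ?_, ?_, ?_⟩
  · intro z hz
    have hz2 : z + 2 * π ∈ cstrip b := by
      show |(z + 2 * π).im| ≤ b
      rw [cyl_im_shift]
      exact hz
    show V (cl (z + 2 * π)) = V (cl z)
    rw [hVe _ hz2, hVe _ hz, hV.per z hz]
  · intro x
    show V (cl ⟨x, b⟩) = χp x
    rw [hVe _ (cyl_mem_mk (abs_of_nonneg hb.le).le x), hV.top]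
  · intro x
    show V (cl ⟨x, -b⟩) = χm x
    rw [hVe _ (cyl_mem_mk (by rw [abs_neg, abs_of_nonneg hb.le]) x), hV.bot]
  · rw [← hV.mean]
    exact intervalIntegral.integral_congr fun x _ => hVe _ (cyl_mem_real hb.le x)

/-- positivity (from `cyl_max` for `-V`) -/
theorem dirichlet_nonneg (b : ℝ) (hb : 0 < b) (V : ℂ → ℝ) (hV : HMV V (cstrip b)) (hper : ∀ z ∈ cstrip b, V (z + 2 * π) = V z)
    (h1 : ∀ x : ℝ, 0 ≤ V (⟨x, b⟩ : ℂ)) (h2 : ∀ x : ℝ, 0 ≤ V (⟨x, -b⟩ : ℂ)) : ∀ z ∈ cstrip b, 0 ≤ V z := by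
  intro z hz
  have h := cyl_max b hb (fun z => -1 * V z) (hV.const_mul (-1)).hsub (fun z hz => by rw [hper z hz])
    (fun x => by linarith [h1 x]) (fun x => by linarith [h2 x]) z hz
  linarith

/-- **Harmonic majorant** of a periodic subharmonic function, with the mean of the majorant over the real period. -/
theorem majorant (b : ℝ) (hb : 0 < b) (u : ℂ → ℝ) (hu : HSub u (cstrip b)) (hper : ∀ z ∈ cstrip b, u (z + 2 * π) = u z) :
    ∃ V : ℂ → ℝ, Continuous V ∧ HMV V (cstrip b) ∧ (∀ z ∈ cstrip b, V (z + 2 * π) = V z) ∧ (∀ z ∈ cstrip b, u z ≤ V z) ∧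
      ∫ x in (0 : ℝ)..(2 * π), V (x : ℂ) =
        ((∫ x in (0 : ℝ)..(2 * π), u (⟨x, b⟩ : ℂ)) + ∫ x in (0 : ℝ)..(2 * π), u (⟨x, -b⟩ : ℂ)) / 2 := by
  have hmp : ∀ x : ℝ, (⟨x, b⟩ : ℂ) ∈ cstrip b := cyl_mem_mk (abs_of_nonneg hb.le).le
  have hmm : ∀ x : ℝ, (⟨x, -b⟩ : ℂ) ∈ cstrip b := cyl_mem_mk (by rw [abs_neg, abs_of_nonneg hb.le])
  have hsh : ∀ x y : ℝ, (⟨x + 2 * π, y⟩ : ℂ) = (⟨x, y⟩ : ℂ) + 2 * π := by
    intro x y
    apply Complex.ext <;> simp
  obtain ⟨V, hVc, hV, hVper, hVt, hVb, hVm⟩ := dirichlet b hb (fun x => u (⟨x, b⟩ : ℂ)) (fun x => u (⟨x, -b⟩ : ℂ))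
    (hu.cont.comp_continuous (cyl_cont_mk b) hmp) (hu.cont.comp_continuous (cyl_cont_mk (-b)) hmm)
    (fun x => by
      show u (⟨x + 2 * π, b⟩ : ℂ) = u (⟨x, b⟩ : ℂ)
      rw [hsh, hper _ (hmp x)])
    (fun x => by
      show u (⟨x + 2 * π, -b⟩ : ℂ) = u (⟨x, -b⟩ : ℂ)
      rw [hsh, hper _ (hmm x)])
  refine ⟨V, hVc, hV, hVper, ?_, hVm⟩
  intro z hz
  have h := cyl_max b hb (fun z => u z - V z) (hu.sub hV) (fun z hz => by rw [hper z hz, hVper z hz])
    (fun x => by rw [hVt]; simp) (fun x => by rw [hVb]; simp) z hz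
  linarith

end Claimed.Agent.R269.Chn
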