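/-
Row 269, library for P1 Section 4 (units 4E, 4F): derivations of commutative rings / fields, differential
subfields, algebraic elements, conjugate roots.  HOST-FREE (only Mathlib).   Sub-captain sec 4: helper36.

We use our own light structure `Dv A` (additive map + Leibniz rule) instead of `Derivation ℤ A A`
(no module diamonds).

The `sorry`s are replaced IN PLACE by the owner of the package (table subtask, target row269, LF-S4-Dv).
-/
import Mathlib

set_option autoImplicit false

namespace Claimed.Agent.R269

/-- a derivation of the commutative ring `A` into itself. -/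
structure Dv (A : Type*) [CommRing A] where
  toFun : A →+ A
  leibniz' : ∀ a b : A, toFun (a * b) = a * toFun b + b * toFun a

namespace Dv

variable {A : Type*} [CommRing A]

instance instFunLikeDv : FunLike (Dv A) A A where
  coe δ := δ.toFun
  coe_injective := by
    intro δ δ' h
    cases δ
    cases δ'
    congr
    exact DFunLike.coe_injective h

instance instAddMonoidHomClassDv : AddMonoidHomClass (Dv A) A A where
  map_add δ := δ.toFun.map_add
  map_zero δ := δ.toFun.map_zero

theorem leibniz (δ : Dv A) (a b : A) : δ (a * b) = a * δ b + b * δ a := δ.leibniz' a b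

@[ext] theorem ext {δ δ' : Dv A} (h : ∀ a, δ a = δ' a) : δ = δ' := DFunLike.ext _ _ h

theorem map_one (δ : Dv A) : δ 1 = 0 := by
  have h := δ.leibniz 1 1
  simp only [mul_one, one_mul] at h
  exact left_eq_add.mp h

theorem map_natCast (δ : Dv A) (n : ℕ) : δ (n : A) = 0 := by
  induction n with
  | zero => simp
  | succ m ih => rw [Nat.cast_succ, _root_.map_add, ih, δ.map_one, add_zero]

theorem map_intCast (δ : Dv A) (n : ℤ) : δ (n : A) = 0 := by
  cases n with
  | ofNat m => simpa using δ.map_natCast m
  | negSucc m =>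
    rw [Int.cast_negSucc, _root_.map_neg, δ.map_natCast, neg_zero]

theorem map_pow (δ : Dv A) (a : A) (n : ℕ) : δ (a ^ n) = n * a ^ (n - 1) * δ a := by
  induction n with
  | zero => simp [δ.map_one]
  | succ m ih =>
    rw [pow_succ, δ.leibniz, ih]
    cases m with
    | zero => simp
    | succ k => simp only [Nat.add_sub_cancel]; push_cast; ring

theorem map_sum {ι : Type*} (δ : Dv A) (s : Finset ι) (f : ι → A) :
    δ (∑ i ∈ s, f i) = ∑ i ∈ s, δ (f i) := _root_.map_sum δ f s

/-- second order Leibniz rule. -/
theorem leibniz_two (δ : Dv A) (a b : A) :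
    δ (δ (a * b)) = a * δ (δ b) + 2 * δ a * δ b + b * δ (δ a) := by
  rw [δ.leibniz, _root_.map_add, δ.leibniz, δ.leibniz]
  ring

/-! ### twisted derivations `D (a b) = φ a D b + φ b D a` -/

theorem twisted_one {B F : Type*} [CommRing B] [CommRing F] (φ : B →+* F) (D : B →+ F)
    (hD : ∀ a b, D (a * b) = φ a * D b + φ b * D a) : D 1 = 0 := by
  have h := hD 1 1
  simp only [mul_one, _root_.map_one, one_mul] at h
  exact left_eq_add.mp h

theorem twisted_pow {B F : Type*} [CommRing B] [CommRing F] (φ : B →+* F) (D : B →+ F)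
    (hD : ∀ a b, D (a * b) = φ a * D b + φ b * D a) (y : B) (n : ℕ) :
    D (y ^ n) = n * φ y ^ (n - 1) * D y := by
  induction n with
  | zero => simp [twisted_one φ D hD]
  | succ m ih =>
    rw [pow_succ, hD, ih]
    cases m with
    | zero => simp
    | succ k => simp only [Nat.add_sub_cancel, _root_.map_pow]; push_cast; ring

theorem twisted_aeval {K B F : Type*} [CommRing K] [CommRing B] [CommRing F] [Algebra K B]
    (φ : B →+* F) (D : B →+ F) (hD : ∀ a b, D (a * b) = φ a * D b + φ b * D a)
    (p : Polynomial K) (y : B) :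
    D (Polynomial.aeval y p) = (∑ i ∈ p.support, D (algebraMap K B (p.coeff i)) * φ y ^ i)
      + φ (Polynomial.aeval y p.derivative) * D y := by
  have e : ∀ p : Polynomial K, (∑ i ∈ p.support, D (algebraMap K B (p.coeff i)) * φ y ^ i)
      = p.sum (fun i a => D (algebraMap K B a) * φ y ^ i) := fun p => rfl
  rw [e]
  induction p using Polynomial.induction_on' with
  | add p q hp hq =>
    rw [_root_.map_add, _root_.map_add, hp, hq, Polynomial.sum_add_index, Polynomial.derivative_add,
      _root_.map_add, _root_.map_add]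
    · ring
    · intro i; simp
    · intro i a b; simp [add_mul]
  | monomial n a =>
    rw [Polynomial.sum_monomial_index _ _ (by simp), Polynomial.aeval_monomial, hD, twisted_pow φ D hD,
      Polynomial.derivative_monomial, Polynomial.aeval_monomial]
    simp only [_root_.map_mul, _root_.map_pow, _root_.map_natCast]
    ring

/-- a twisted derivation which vanishes on the base ring. -/
theorem twisted_aeval_of_zero {K B F : Type*} [CommRing K] [CommRing B] [CommRing F] [Algebra K B]
    (φ : B →+* F) (D : B →+ F) (hD : ∀ a b, D (a * b) = φ a * D b + φ b * D a)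
    (h0 : ∀ a : K, D (algebraMap K B a) = 0) (p : Polynomial K) (y : B) :
    D (Polynomial.aeval y p) = φ (Polynomial.aeval y p.derivative) * D y := by
  rw [twisted_aeval φ D hD]
  simp [h0]

/-- `δ (p(y)) = p^δ(y) + p'(y) δ y` for a polynomial over a base ring. -/
theorem map_aeval' {K : Type*} [CommRing K] [Algebra K A] (δ : Dv A) (p : Polynomial K) (y : A) :
    δ (Polynomial.aeval y p) = (∑ i ∈ p.support, δ (algebraMap K A (p.coeff i)) * y ^ i)
      + Polynomial.aeval y p.derivative * δ y :=
  twisted_aeval (RingHom.id A) δ.toFun (fun a b => δ.leibniz a b) p y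

/-- `δ` applied to a polynomial expression: `δ (p(x)) = p^δ(x) + p'(x) δ x`. -/
theorem map_aeval (δ : Dv A) (p : Polynomial A) (x : A) :
    δ (p.eval x) = (∑ i ∈ p.support, δ (p.coeff i) * x ^ i) + p.derivative.eval x * δ x := by
  have h := δ.map_aeval' p x
  simpa [Polynomial.coe_aeval_eq_eval] using h

/-- two derivations which agree on a set agree on the subring generated by it. -/
theorem eqOn_closure {δ δ' : Dv A} {s : Set A} (h : Set.EqOn δ δ' s) :
    Set.EqOn δ δ' (Subring.closure s : Set A) := by
  intro x hx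
  induction hx using Subring.closure_induction with
  | mem x hx => exact h hx
  | zero => rw [_root_.map_zero, _root_.map_zero]
  | one => rw [δ.map_one, δ'.map_one]
  | add x y _ _ hx hy => rw [_root_.map_add, _root_.map_add, hx, hy]
  | neg x _ hx => rw [_root_.map_neg, _root_.map_neg, hx]
  | mul x y _ _ hx hy => rw [δ.leibniz, δ'.leibniz, hx, hy]

/-- the Mathlib derivation of a `Dv`. -/
def toDerivation (δ : Dv A) : Derivation ℤ A A :=
  Derivation.mk' δ.toFun.toIntLinearMap (fun a b => by simpa [smul_eq_mul] using δ.leibniz' a b)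

theorem toDerivation_apply (δ : Dv A) (a : A) : δ.toDerivation a = δ a := rfl

/-- the `Dv` of a Mathlib derivation. -/
def ofDerivation (d : Derivation ℤ A A) : Dv A where
  toFun := d.toLinearMap.toAddMonoidHom
  leibniz' a b := by simp

theorem ofDerivation_apply (d : Derivation ℤ A A) (a : A) : ofDerivation d a = d a := rfl

open TensorProduct in
/-- derivations extend (uniquely) along formally étale algebras. -/
theorem exists_ext_of_formallyEtale {T : Type*} [CommRing T] [Algebra A T] [Algebra.FormallyEtale A T]
    (δ : Dv A) : ∃ δ' : Dv T, ∀ a : A, δ' (algebraMap A T a) = algebraMap A T (δ a) := by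
  let D0 : Derivation ℤ A T := (Algebra.linearMap A T).compDer δ.toDerivation
  let g0 : Ω[A⁄ℤ] →ₗ[A] T := D0.liftKaehlerDifferential
  let g1 : T ⊗[A] Ω[A⁄ℤ] →ₗ[T] T := LinearMap.liftBaseChange T g0
  let g2 : Ω[T⁄ℤ] →ₗ[T] T :=
    g1 ∘ₗ (KaehlerDifferential.tensorKaehlerEquivOfFormallyEtale ℤ A T).symm.toLinearMap
  refine ⟨ofDerivation (g2.compDer (KaehlerDifferential.D ℤ T)), fun a => ?_⟩
  have h1 : ofDerivation (g2.compDer (KaehlerDifferential.D ℤ T)) (algebraMap A T a)
      = g1 ((KaehlerDifferential.tensorKaehlerEquivOfFormallyEtale ℤ A T).symm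
          (KaehlerDifferential.D ℤ T (algebraMap A T a))) := rfl
  rw [h1, KaehlerDifferential.tensorKaehlerEquivOfFormallyEtale_symm_D_algebraMap]
  simp only [g1, LinearMap.liftBaseChange_tmul, g0, Derivation.liftKaehlerDifferential_comp_D, one_smul]
  rfl

section Field

variable {F : Type*} [Field F]

theorem map_inv (δ : Dv F) (a : F) : δ a⁻¹ = -δ a / a ^ 2 := by
  by_cases ha : a = 0
  · subst ha; simp
  · have h := δ.leibniz a a⁻¹
    rw [mul_inv_cancel₀ ha, δ.map_one] at h
    rw [eq_div_iff (pow_ne_zero 2 ha)]
    have h2 : a * (a * δ a⁻¹ + a⁻¹ * δ a) = 0 := by rw [← h, mul_zero]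
    have h3 : a * (a * δ a⁻¹ + a⁻¹ * δ a) = δ a⁻¹ * a ^ 2 + (a * a⁻¹) * δ a := by ring
    rw [h3, mul_inv_cancel₀ ha] at h2
    linear_combination h2

theorem map_div (δ : Dv F) (a b : F) (hb : b ≠ 0) : δ (a / b) = (b * δ a - a * δ b) / b ^ 2 := by
  rw [div_eq_mul_inv, δ.leibniz, δ.map_inv]
  field_simp
  ring

theorem map_ratCast [CharZero F] (δ : Dv F) (q : ℚ) : δ (q : F) = 0 := by
  rw [Rat.cast_def, δ.map_div _ _ (by exact_mod_cast q.den_ne_zero), δ.map_intCast, δ.map_natCast]
  simp

/-- two derivations which agree on a set agree on the subfield generated by it. -/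
theorem eqOn_subfield_closure {δ δ' : Dv F} {s : Set F} (h : Set.EqOn δ δ' s) :
    Set.EqOn δ δ' (Subfield.closure s : Set F) := by
  intro x hx
  induction hx using Subfield.closure_induction with
  | mem x hx => exact h hx
  | one => rw [δ.map_one, δ'.map_one]
  | add x y _ _ hx hy => rw [_root_.map_add, _root_.map_add, hx, hy]
  | neg x _ hx => rw [_root_.map_neg, _root_.map_neg, hx]
  | inv x _ hx => rw [δ.map_inv, δ'.map_inv, hx]
  | mul x y _ _ hx hy => rw [δ.leibniz, δ'.leibniz, hx, hy]

/-- a subfield generated by a set `s` with `δ s ⊆ closure s` is stable under `δ`. -/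
theorem closure_stable (δ : Dv F) (s : Set F) (h : ∀ x ∈ s, δ x ∈ Subfield.closure s) :
    ∀ x ∈ Subfield.closure s, δ x ∈ Subfield.closure s := by
  intro x hx
  induction hx using Subfield.closure_induction with
  | mem x hx => exact h x hx
  | one => rw [δ.map_one]; exact zero_mem _
  | add x y _ _ hx hy => rw [_root_.map_add]; exact add_mem hx hy
  | neg x _ hx => rw [_root_.map_neg]; exact neg_mem hx
  | inv x hx' hx => rw [δ.map_inv]; exact div_mem (neg_mem hx) (pow_mem hx' 2)
  | mul x y hx' hy' hx hy => rw [δ.leibniz]; exact add_mem (mul_mem hx' hy) (mul_mem hy' hx)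

/-- `K` is stable under `δ`. -/
def Stable (δ : Dv F) (K : Subfield F) : Prop := ∀ x ∈ K, δ x ∈ K

variable [CharZero F]

/-- If `x` is algebraic over the `δ`-stable subfield `K`, then `δ x ∈ K(x)`. -/
theorem mem_adjoin_of_isAlgebraic (δ : Dv F) (K : Subfield F) (hK : δ.Stable K) (x : F)
    (hx : IsAlgebraic K x) : δ x ∈ IntermediateField.adjoin K {x} := by
  have hint : IsIntegral K x := hx.isIntegral
  have hsep : (minpoly K x).Separable := (minpoly.irreducible hint).separable
  have hne : Polynomial.aeval x (minpoly K x).derivative ≠ 0 :=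
    hsep.aeval_derivative_ne_zero (minpoly.aeval K x)
  have h := δ.map_aeval' (minpoly K x) x
  rw [minpoly.aeval, _root_.map_zero] at h
  have hx' : x ∈ IntermediateField.adjoin K {x} := IntermediateField.mem_adjoin_simple_self K x
  have e : δ x = -(∑ i ∈ (minpoly K x).support, δ (algebraMap K F ((minpoly K x).coeff i)) * x ^ i)
      / Polynomial.aeval x (minpoly K x).derivative := by
    rw [eq_div_iff hne]; linear_combination -h
  rw [e]
  refine div_mem (neg_mem (sum_mem fun i _ => mul_mem ?_ (pow_mem hx' i))) ?_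
  · have h1 : δ (algebraMap K F ((minpoly K x).coeff i)) ∈ K := hK _ ((minpoly K x).coeff i).2
    exact (IntermediateField.adjoin K {x}).algebraMap_mem (⟨_, h1⟩ : K)
  · exact IntermediateField.algebra_adjoin_le_adjoin K {x} (Polynomial.aeval_mem_adjoin_singleton K x)

/-- `K(x)` is `δ`-stable. -/
theorem adjoin_stable (δ : Dv F) (K : Subfield F) (hK : δ.Stable K) (x : F)
    (hx : IsAlgebraic K x) : ∀ u ∈ IntermediateField.adjoin K {x}, δ u ∈ IntermediateField.adjoin K {x} := by
  intro u hu
  induction hu using IntermediateField.adjoin_induction with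
  | mem y hy =>
    rw [Set.mem_singleton_iff] at hy
    subst hy
    exact δ.mem_adjoin_of_isAlgebraic K hK y hx
  | algebraMap a =>
    have h1 : δ (algebraMap K F a) ∈ K := hK _ a.2
    exact (IntermediateField.adjoin K {x}).algebraMap_mem (⟨_, h1⟩ : K)
  | add a b _ _ ha hb => rw [_root_.map_add]; exact add_mem ha hb
  | inv a ha' ha => rw [δ.map_inv]; exact div_mem (neg_mem ha) (pow_mem ha' 2)
  | mul a b ha' hb' ha hb => rw [δ.leibniz]; exact add_mem (mul_mem ha' hb) (mul_mem hb' ha)

/-- derivatives of algebraic elements are algebraic. -/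
theorem isAlgebraic_map (δ : Dv F) (K : Subfield F) (hK : δ.Stable K) (x : F)
    (hx : IsAlgebraic K x) : IsAlgebraic K (δ x) := by
  have h1 := δ.mem_adjoin_of_isAlgebraic K hK x hx
  have h2 : Algebra.IsAlgebraic K (IntermediateField.adjoin K {x}) :=
    IntermediateField.isAlgebraic_adjoin_simple hx.isIntegral
  exact IntermediateField.isAlgebraic_iff.mp
    (h2.isAlgebraic (⟨δ x, h1⟩ : IntermediateField.adjoin K {x}))

/-- CONJUGATION COMMUTES WITH DERIVATIONS.  `x` algebraic over the `δ`-stable subfield `K`, `x'` another root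
of its minimal polynomial.  Every `K`-algebra homomorphism `σ : K(x) → F` with `σ x = x'` satisfies
`σ (δ u) = δ (σ u)`. -/
theorem conj_comm (δ : Dv F) (K : Subfield F) (hK : δ.Stable K) (x : F) (hx : IsAlgebraic K x)
    (σ : IntermediateField.adjoin K {x} →ₐ[K] F) (u : IntermediateField.adjoin K {x})
    (hu : δ (u : F) ∈ IntermediateField.adjoin K {x}) :
    σ ⟨δ (u : F), hu⟩ = δ (σ u) := by
  have hst := δ.adjoin_stable K hK x hx
  -- the twisted derivation `σ ∘ δ - δ ∘ σ`
  let D : IntermediateField.adjoin K {x} →+ F :=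
    { toFun := fun v => σ ⟨δ (v : F), hst v v.2⟩ - δ (σ v)
      map_zero' := by
        have e : (⟨δ ((0 : IntermediateField.adjoin K {x}) : F), hst _ (0 : IntermediateField.adjoin K {x}).2⟩
            : IntermediateField.adjoin K {x}) = 0 := Subtype.ext (by simp)
        rw [e]; simp
      map_add' := by
        intro a b
        have e : (⟨δ ((a + b : IntermediateField.adjoin K {x}) : F), hst _ (a + b).2⟩
            : IntermediateField.adjoin K {x}) = ⟨δ (a : F), hst a a.2⟩ + ⟨δ (b : F), hst b b.2⟩ :=
          Subtype.ext (by simp)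
        rw [e]; simp only [_root_.map_add]; ring }
  have hDdef : ∀ v : IntermediateField.adjoin K {x}, D v = σ ⟨δ (v : F), hst v v.2⟩ - δ (σ v) :=
    fun _ => rfl
  have hD : ∀ a b, D (a * b) = σ.toRingHom a * D b + σ.toRingHom b * D a := by
    intro a b
    have e : (⟨δ ((a * b : IntermediateField.adjoin K {x}) : F), hst _ (a * b).2⟩
        : IntermediateField.adjoin K {x}) = a * ⟨δ (b : F), hst b b.2⟩ + b * ⟨δ (a : F), hst a a.2⟩ :=
      Subtype.ext (by simp [δ.leibniz])
    rw [hDdef, hDdef, hDdef, e]
    simp only [_root_.map_add, _root_.map_mul, δ.leibniz, AlgHom.toRingHom_eq_coe, RingHom.coe_coe]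
    ring
  have h0 : ∀ a : K, D (algebraMap K (IntermediateField.adjoin K {x}) a) = 0 := by
    intro a
    have e : (⟨δ ((algebraMap K (IntermediateField.adjoin K {x}) a : IntermediateField.adjoin K {x}) : F),
        hst _ (algebraMap K (IntermediateField.adjoin K {x}) a).2⟩ : IntermediateField.adjoin K {x})
        = algebraMap K (IntermediateField.adjoin K {x}) ⟨δ (a : F), hK a a.2⟩ := Subtype.ext rfl
    rw [hDdef, e, σ.commutes, σ.commutes]
    exact sub_self _
  have halg : Algebra.IsAlgebraic K (IntermediateField.adjoin K {x}) :=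
    IntermediateField.isAlgebraic_adjoin_simple hx.isIntegral
  have hint : IsIntegral K u := (halg.isAlgebraic u).isIntegral
  have hsep : (minpoly K u).Separable := (minpoly.irreducible hint).separable
  have hne : Polynomial.aeval u (minpoly K u).derivative ≠ 0 :=
    hsep.aeval_derivative_ne_zero (minpoly.aeval K u)
  have h := twisted_aeval_of_zero σ.toRingHom D hD h0 (minpoly K u) u
  rw [minpoly.aeval, _root_.map_zero] at h
  have hne' : σ.toRingHom (Polynomial.aeval u (minpoly K u).derivative) ≠ 0 := by
    intro h1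
    exact hne ((map_eq_zero σ.toRingHom).mp h1)
  have hDu : D u = 0 := (mul_eq_zero.mp h.symm).resolve_left hne'
  rw [hDdef] at hDu
  exact sub_eq_zero.mp hDu

/-- uniqueness: a derivation vanishing on `K` vanishes on every element algebraic over `K`. -/
theorem eq_zero_of_isAlgebraic (δ : Dv F) (K : Subfield F) (hK : ∀ x ∈ K, δ x = 0) (x : F)
    (hx : IsAlgebraic K x) : δ x = 0 := by
  have hint : IsIntegral K x := hx.isIntegral
  have hsep : (minpoly K x).Separable := (minpoly.irreducible hint).separable
  have hne : Polynomial.aeval x (minpoly K x).derivative ≠ 0 :=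
    hsep.aeval_derivative_ne_zero (minpoly.aeval K x)
  have h := twisted_aeval_of_zero (K := K) (RingHom.id F) δ.toFun (fun a b => δ.leibniz a b)
    (fun a => hK _ a.2) (minpoly K x) x
  rw [minpoly.aeval, _root_.map_zero] at h
  exact (mul_eq_zero.mp h.symm).resolve_left hne

/-- EXTENSION to an algebraic extension: `L/F` algebraic, characteristic zero. -/
theorem exists_extension {L : Type*} [Field L] [Algebra F L] [Algebra.IsAlgebraic F L] (δ : Dv F) :
    ∃ δ' : Dv L, ∀ a : F, δ' (algebraMap F L a) = algebraMap F L (δ a) := by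
  have : Algebra.FormallyEtale F L := Algebra.FormallyEtale.of_isSeparable F L
  exact exists_ext_of_formallyEtale δ

open scoped IntermediateField.algebraAdjoinAdjoin in
/-- EXISTENCE OF DERIVATIONS.  If `x ∈ E` is transcendental over the subfield `K ≤ E`, there is a derivation of
the field `E` which vanishes on `K` and not at `x`.
(Transcendence basis of `E/K` containing `x`; `∂/∂x` on the purely transcendental part; unique extension to
the algebraic extension, e.g. by Zorn or through finitely generated subextensions.) -/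
theorem exists_dv_of_transcendental {E : Type*} [Field E] [CharZero E] (K : Subfield E) (x : E)
    (hx : Transcendental K x) : ∃ δ : Dv E, (∀ a ∈ K, δ a = 0) ∧ δ x ≠ 0 := by
  classical
  have hs : AlgebraicIndepOn K id ({x} : Set E) :=
    (algebraicIndependent_singleton_iff (⟨x, rfl⟩ : ({x} : Set E))).mpr hx
  obtain ⟨t, hxt, ht⟩ := exists_isTranscendenceBasis_superset hs
  have hxt' : x ∈ t := hxt rfl
  let e : MvPolynomial t K ≃ₐ[K] Algebra.adjoin K (Set.range ((↑) : t → E)) := ht.1.aevalEquiv
  let δ0 : Dv (Algebra.adjoin K (Set.range ((↑) : t → E))) :=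
    { toFun :=
        { toFun := fun a => e (MvPolynomial.pderiv (⟨x, hxt'⟩ : t) (e.symm a))
          map_zero' := by simp
          map_add' := by intro a b; simp }
      leibniz' := by
        intro a b
        change e (MvPolynomial.pderiv (⟨x, hxt'⟩ : t) (e.symm (a * b)))
          = a * e (MvPolynomial.pderiv (⟨x, hxt'⟩ : t) (e.symm b))
            + b * e (MvPolynomial.pderiv (⟨x, hxt'⟩ : t) (e.symm a))
        rw [_root_.map_mul, Derivation.leibniz]
        simp }
  have hδ0 : ∀ a, δ0 a = e (MvPolynomial.pderiv (⟨x, hxt'⟩ : t) (e.symm a)) := fun _ => rfl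
  have : Algebra.FormallyEtale (Algebra.adjoin K (Set.range ((↑) : t → E)))
      (IntermediateField.adjoin K (Set.range ((↑) : t → E))) :=
    Algebra.FormallyEtale.of_isLocalization (nonZeroDivisors (Algebra.adjoin K (Set.range ((↑) : t → E))))
  obtain ⟨δ1, h1⟩ := exists_ext_of_formallyEtale
    (T := IntermediateField.adjoin K (Set.range ((↑) : t → E))) δ0
  have : Algebra.IsAlgebraic (IntermediateField.adjoin K (Set.range ((↑) : t → E))) E :=
    ht.isAlgebraic_field
  obtain ⟨δ2, h2⟩ := exists_extension (L := E) δ1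
  have key : ∀ p : MvPolynomial t K, δ2 (MvPolynomial.aeval ((↑) : t → E) p)
      = MvPolynomial.aeval ((↑) : t → E) (MvPolynomial.pderiv (⟨x, hxt'⟩ : t) p) := by
    intro p
    have e1 : MvPolynomial.aeval ((↑) : t → E) p
        = algebraMap (IntermediateField.adjoin K (Set.range ((↑) : t → E))) E
          (algebraMap (Algebra.adjoin K (Set.range ((↑) : t → E)))
            (IntermediateField.adjoin K (Set.range ((↑) : t → E))) (e p)) := rfl
    rw [e1, h2, h1, hδ0, AlgEquiv.symm_apply_apply]
    rfl
  refine ⟨δ2, ?_, ?_⟩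
  · intro a ha
    have h3 := key (MvPolynomial.C (⟨a, ha⟩ : K))
    simp only [MvPolynomial.pderiv_C, _root_.map_zero, MvPolynomial.aeval_C] at h3
    exact h3
  · have h3 := key (MvPolynomial.X (⟨x, hxt'⟩ : t))
    simp only [MvPolynomial.aeval_X, MvPolynomial.pderiv_X_self, _root_.map_one] at h3
    rw [h3]
    exact one_ne_zero

end Field

end Dv

end Claimed.Agent.R269
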