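/-
Row 269, library for P1 Sections 10-11 (owner: helper171).  HOST-FREE linear algebra: elimination in `(M₀ - diag V) z = 0`.
RULES: fill the `sorry`s IN PLACE (auxiliary lemmas above the statement, prefix `elm_`); do not change a statement without telling helper171.
-/
import Mathlib

set_option autoImplicit false

namespace Claimed.Agent.R269.Chn

open Matrix Finset

variable {n : Type} [Fintype n] [DecidableEq n]

/-- the modified matrix: sites of `I` keep their diagonal term `V`, sites of `F` are flattened, all other sites are deleted (replaced by the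
identity). -/
def bmat (M₀ : Matrix n n ℂ) (V : n → ℂ) (I F : Finset n) : Matrix n n ℂ := fun i k =>
  if i ∈ I ∪ F ∧ k ∈ I ∪ F then M₀ i k - (if i = k ∧ i ∈ I then V i else 0) else if i = k then 1 else 0

/-- **Elimination.**  `(M₀ - diag V) z = 0`; the inverse of `bmat` has entries `≤ β`, the entries of `M₀` are `≤ μ`, `|V| ≤ εV` on the flattened sites,
`|z| ≤ εD` on the deleted sites, and `N β εV ≤ 1/2`.  Then `|z| ≤ 2 N² β μ εD` on the retained sites.
Proof: `z̃ = z 1_{I ∪ F}` satisfies `(bmat z̃)_i = -∑_{k deleted} M₀ i k z_k + 1_{i ∈ F} V_i z_i` on retained `i`, `0` on deleted `i`.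
(`hεD` is needed: without deleted sites `hD` is vacuous.) -/
theorem elim (M₀ : Matrix n n ℂ) (V z : n → ℂ) (I F : Finset n) (hIF : Disjoint I F)
    (hz : (M₀ - Matrix.diagonal V).mulVec z = 0) (hdet : (bmat M₀ V I F).det ≠ 0) (β μ εV εD : ℝ)
    (hβ : ∀ i k, ‖(bmat M₀ V I F)⁻¹ i k‖ ≤ β) (hμ : ∀ i k, ‖M₀ i k‖ ≤ μ) (hV : ∀ i ∈ F, ‖V i‖ ≤ εV)
    (hD : ∀ i, i ∉ I ∪ F → ‖z i‖ ≤ εD) (hsm : (Fintype.card n : ℝ) * β * εV ≤ 1 / 2) (hεD : 0 ≤ εD) :
    ∀ i ∈ I ∪ F, ‖z i‖ ≤ 2 * (Fintype.card n : ℝ) ^ 2 * β * μ * εD := by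
  intro j hj
  set S := I ∪ F with hS
  set N : ℝ := (Fintype.card n : ℝ) with hN
  set B := bmat M₀ V I F with hB
  have hN0 : 0 ≤ N := Nat.cast_nonneg _
  have hβ0 : 0 ≤ β := (norm_nonneg _).trans (hβ j j)
  have hμ0 : 0 ≤ μ := (norm_nonneg _).trans (hμ j j)
  set e := max εV 0 with he
  have he0 : 0 ≤ e := le_max_right _ _
  have hVe : ∀ i ∈ F, ‖V i‖ ≤ e := fun i hi => (hV i hi).trans (le_max_left _ _)
  have hsme : N * β * e ≤ 1 / 2 := by
    rcases max_choice εV 0 with h | h
    · rw [he, h]; exact hsm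
    · rw [he, h]; norm_num
  set zt : n → ℂ := fun i => if i ∈ S then z i else 0 with hzt
  set w := B.mulVec zt with hw
  have hrow : ∀ i, ∑ k, M₀ i k * z k = V i * z i := by
    intro i
    have h1 := congrFun hz i
    simp only [Matrix.mulVec, dotProduct, Matrix.sub_apply, Matrix.diagonal_apply, sub_mul, Finset.sum_sub_distrib,
      Pi.zero_apply, ite_mul, zero_mul, Finset.sum_ite_eq, Finset.mem_univ, if_true] at h1
    linear_combination h1
  have hwS : ∀ i ∈ S, w i = (V i * z i - (if i ∈ I then V i * z i else 0))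
      - ∑ k, (if k ∈ S then 0 else M₀ i k * z k) := by
    intro i hi
    have hterm : ∀ k, B i k * zt k = M₀ i k * z k - (if k ∈ S then 0 else M₀ i k * z k)
        - (if i = k then (if i ∈ I then V i * z i else 0) else 0) := by
      intro k
      by_cases hk : k ∈ S
      · have e1 : B i k = M₀ i k - (if i = k ∧ i ∈ I then V i else 0) := by
          simp only [hB, bmat]
          rw [if_pos ⟨hi, hk⟩]
        simp only [hzt, if_pos hk, e1]
        by_cases hik : i = k
        · subst hik
          by_cases hiI : i ∈ I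
          · simp [hiI]; ring
          · simp [hiI]
        · simp [hik]
      · have hik : i ≠ k := fun h => hk (h ▸ hi)
        simp only [hzt, if_neg hk, if_neg hik]
        ring
    show ∑ k, B i k * zt k = _
    simp only [hterm, Finset.sum_sub_distrib, Finset.sum_ite_eq, Finset.mem_univ, if_true, hrow i]
    ring
  have hwN : ∀ i, i ∉ S → w i = 0 := by
    intro i hi
    show ∑ k, B i k * zt k = 0
    refine Finset.sum_eq_zero fun k _ => ?_
    have e1 : B i k = if i = k then 1 else 0 := by
      simp only [hB, bmat]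
      rw [if_neg fun h => hi h.1]
    rw [e1]
    by_cases hik : i = k
    · subst hik
      simp [hzt, hi]
    · simp [hik]
  have hinv : zt = B⁻¹.mulVec w := by
    rw [hw, Matrix.mulVec_mulVec, Matrix.nonsing_inv_mul B (isUnit_iff_ne_zero.mpr hdet), Matrix.one_mulVec]
  obtain ⟨i0, hi0, hmax⟩ := Finset.exists_max_image S (fun i => ‖z i‖) ⟨j, hj⟩
  set m := ‖z i0‖ with hm
  have hm0 : 0 ≤ m := norm_nonneg _
  have hdel : ∀ i, ‖∑ k, (if k ∈ S then 0 else M₀ i k * z k)‖ ≤ N * (μ * εD) := by
    intro i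
    calc ‖∑ k, (if k ∈ S then 0 else M₀ i k * z k)‖ ≤ ∑ k, ‖(if k ∈ S then 0 else M₀ i k * z k)‖ := norm_sum_le _ _
      _ ≤ ∑ _k : n, μ * εD := by
          refine Finset.sum_le_sum fun k _ => ?_
          split_ifs with hk
          · rw [norm_zero]; positivity
          · rw [norm_mul]
            exact mul_le_mul (hμ i k) (hD k hk) (norm_nonneg _) hμ0
      _ = N * (μ * εD) := by rw [Finset.sum_const, Finset.card_univ, nsmul_eq_mul]
  have hwb : ∀ k, ‖w k‖ ≤ e * m + N * (μ * εD) := by
    intro k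
    by_cases hk : k ∈ S
    · rw [hwS k hk]
      refine (norm_sub_le _ _).trans (add_le_add ?_ (hdel k))
      by_cases hkI : k ∈ I
      · simp only [if_pos hkI, sub_self, norm_zero]
        positivity
      · have hkF : k ∈ F := by
          rcases Finset.mem_union.mp hk with h | h
          · exact absurd h hkI
          · exact h
        simp only [if_neg hkI, sub_zero, norm_mul]
        exact mul_le_mul (hVe k hkF) (hmax k hk) (norm_nonneg _) he0
    · rw [hwN k hk, norm_zero]
      positivity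
  have hmain : m ≤ N * (β * (e * m + N * (μ * εD))) := by
    have h1 : z i0 = ∑ k, B⁻¹ i0 k * w k := by
      have := congrFun hinv i0
      simp only [hzt, if_pos hi0] at this
      exact this
    calc m = ‖∑ k, B⁻¹ i0 k * w k‖ := by rw [hm, h1]
      _ ≤ ∑ k, ‖B⁻¹ i0 k * w k‖ := norm_sum_le _ _
      _ ≤ ∑ _k : n, β * (e * m + N * (μ * εD)) := by
          refine Finset.sum_le_sum fun k _ => ?_
          rw [norm_mul]
          exact mul_le_mul (hβ i0 k) (hwb k) (norm_nonneg _) hβ0
      _ = N * (β * (e * m + N * (μ * εD))) := by rw [Finset.sum_const, Finset.card_univ, nsmul_eq_mul]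
  have h2 : N * β * e * m ≤ 1 / 2 * m := mul_le_mul_of_nonneg_right hsme hm0
  have h3 : m ≤ 2 * N ^ 2 * β * μ * εD := by nlinarith
  exact (hmax j hj).trans h3

/-- determinant and adjugate of a matrix with entries `≤ μ` -/
theorem det_adj_le (A : Matrix n n ℂ) (μ : ℝ) (hμ1 : 1 ≤ μ) (hμ : ∀ i k, ‖A i k‖ ≤ μ) :
    ‖A.det‖ ≤ (Fintype.card n).factorial * μ ^ Fintype.card n ∧
    ∀ i k, ‖A.adjugate i k‖ ≤ (Fintype.card n).factorial * μ ^ Fintype.card n := by
  have key : ∀ C : Matrix n n ℂ, (∀ i k, ‖C i k‖ ≤ μ) → ‖C.det‖ ≤ (Fintype.card n).factorial * μ ^ Fintype.card n := by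
    intro C hC
    have := Matrix.det_le (A := C) (abv := NormedField.toAbsoluteValue ℂ) (x := μ) hC
    rw [nsmul_eq_mul] at this
    exact this
  refine ⟨key A hμ, fun i k => ?_⟩
  rw [Matrix.adjugate_apply]
  refine key _ fun a b => ?_
  by_cases hak : a = k
  · subst hak
    rw [Matrix.updateRow_self]
    by_cases hib : b = i
    · subst hib
      simp only [Pi.single_eq_same, norm_one]
      exact hμ1
    · rw [Pi.single_eq_of_ne hib, norm_zero]
      linarith
  · rw [Matrix.updateRow_ne hak]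
    exact hμ a b

end Claimed.Agent.R269.Chn
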