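/-
Row 269, library L8 (BP-L8-Ell, owner helper283), HOST-FREE (Mathlib only).
Part `EllPer` = doubly periodic meromorphic functions with centres of symmetry (core of Theorem 5.3 of P1,
05-shapes.tex l.331-380, in the LIOUVILLE-ONLY form of notes269/S5-architecture.md part C, steps 3-5).

File A: toolkit for meromorphic functions on `ℂ` (prefix `ellp_`).
  T1 `ellp_identity`, T2 `ellp_nf_eq`       identity theorem (germ form / normal form)
  T3 `ellp_nf_add/refl/const_mul`           normal form under translation, point reflection, constant multiples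
  T4 `ellp_order_add/refl`                  orders under translation and point reflection
  T5 `ellp_even_order`                      a function even about `c` has even order at `c`
  T6 `ellp_trailing_deriv/logDeriv`         trailing coefficient of `f'`, `f'/f`
  T7 `ellp_order_sub_gt`                    cancellation of the leading terms
  T8 `ellp_liouville`                       doubly periodic, no poles => constant (off a discrete set)
-/
import Mathlib

set_option autoImplicit false

namespace Claimed.Agent.R269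

open Complex Filter Topology Set

/-- T1: identity theorem for meromorphic functions on `ℂ`, germ form. -/
theorem ellp_identity {f g : ℂ → ℂ} (hf : Meromorphic f) (hg : Meromorphic g) {s₀ : ℂ}
    (h : f =ᶠ[𝓝[≠] s₀] g) (s : ℂ) : f =ᶠ[𝓝[≠] s] g := by
  have hfg : Meromorphic (f - g) := hf.sub hg
  have h0 : meromorphicOrderAt (f - g) s₀ = ⊤ := by
    rw [meromorphicOrderAt_eq_top_iff]
    filter_upwards [h] with z hz
    simp [hz]
  have h1 : meromorphicOrderAt (f - g) s = ⊤ := by
    by_contra hne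
    exact (hfg.exists_meromorphicOrderAt_ne_top_iff_forall.1 ⟨s, hne⟩ s₀) h0
  rw [meromorphicOrderAt_eq_top_iff] at h1
  filter_upwards [h1] with z hz
  simpa [sub_eq_zero] using hz

/-- T2: two functions in normal form on `ℂ` which agree near one point are equal. -/
theorem ellp_nf_eq {f g : ℂ → ℂ} (hf : MeromorphicNFOn f univ) (hg : MeromorphicNFOn g univ)
    {s₀ : ℂ} (h : f =ᶠ[𝓝[≠] s₀] g) : f = g := by
  funext s
  have h1 := ellp_identity (meromorphicOn_univ.1 hf.meromorphicOn)
    (meromorphicOn_univ.1 hg.meromorphicOn) h s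
  exact ((hf (mem_univ s)).eventuallyEq_nhdsNE_iff_eventuallyEq_nhds (hg (mem_univ s))).1 h1
    |>.eq_of_nhds

/-- T3a: translation keeps the normal form. -/
theorem ellp_nf_add {A : ℂ → ℂ} (hA : MeromorphicNFOn A univ) (τ : ℂ) :
    MeromorphicNFOn (fun s => A (s + τ)) univ := fun _ _ =>
  meromorphicNFAt_fun_comp_add_const_iff_meromorphicNFAt.2 (hA (mem_univ _))

/-- T3b: point reflection keeps the normal form. -/
theorem ellp_nf_refl {A : ℂ → ℂ} (hA : MeromorphicNFOn A univ) (c : ℂ) :
    MeromorphicNFOn (fun s => A (c - s)) univ := fun s _ => by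
  have hg : AnalyticAt ℂ (fun s : ℂ => c - s) s := by fun_prop
  have hg' : deriv (fun s : ℂ => c - s) s ≠ 0 := by simp
  exact (meromorphicNFAt_comp_iff_of_deriv_ne_zero (f := A) hg hg').2 (hA (mem_univ _))

/-- T3c: a nonzero constant multiple keeps the normal form. -/
theorem ellp_nf_const_mul {A : ℂ → ℂ} (hA : MeromorphicNFOn A univ) {κ : ℂ} (hκ : κ ≠ 0) :
    MeromorphicNFOn (fun s => κ * A s) univ := fun _ _ =>
  (meromorphicNFAt_mul_iff_right (g := fun _ => κ) (f := A) analyticAt_const hκ).2 (hA (mem_univ _))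

/-- T4a. -/
theorem ellp_order_add (A : ℂ → ℂ) (τ x : ℂ) :
    meromorphicOrderAt (fun s => A (s + τ)) x = meromorphicOrderAt A (x + τ) :=
  meromorphicOrderAt_fun_comp_add_const_eq_meromorphicOrderAt

/-- T4b. -/
theorem ellp_order_refl (A : ℂ → ℂ) (c x : ℂ) :
    meromorphicOrderAt (fun s => A (c - s)) x = meromorphicOrderAt A (c - x) := by
  have hg : AnalyticAt ℂ (fun s : ℂ => c - s) x := by fun_prop
  have hg' : deriv (fun s : ℂ => c - s) x ≠ 0 := by simp
  exact meromorphicOrderAt_comp_of_deriv_ne_zero (f := A) hg hg'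

theorem ellp_tendsto_add (s₀ τ : ℂ) : Tendsto (fun s : ℂ => s + τ) (𝓝[≠] s₀) (𝓝[≠] (s₀ + τ)) := by
  refine tendsto_nhdsWithin_iff.2 ⟨?_, ?_⟩
  · exact ((continuous_id.add continuous_const).tendsto s₀).mono_left nhdsWithin_le_nhds
  · filter_upwards [self_mem_nhdsWithin] with s hs h
    exact hs (add_right_cancel h)

theorem ellp_tendsto_refl (c s₀ : ℂ) :
    Tendsto (fun s : ℂ => c - s) (𝓝[≠] s₀) (𝓝[≠] (c - s₀)) := by
  refine tendsto_nhdsWithin_iff.2 ⟨?_, ?_⟩
  · exact ((continuous_const.sub continuous_id).tendsto s₀).mono_left nhdsWithin_le_nhds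
  · filter_upwards [self_mem_nhdsWithin] with s hs h
    exact hs (sub_right_injective h)

/-- T5: a function which is even about `c` has even order at `c`. -/
theorem ellp_even_order {g : ℂ → ℂ} {c : ℂ} {n : ℤ} (hn : meromorphicOrderAt g c = n)
    (heven : ∀ᶠ s in 𝓝[≠] c, g (2 * c - s) = g s) : Even n := by
  by_cases hg : MeromorphicAt g c
  swap
  · rw [meromorphicOrderAt_of_not_meromorphicAt hg] at hn
    have : n = 0 := by exact_mod_cast hn.symm
    simp [this]
  obtain ⟨h, hh, hh0, hgh⟩ := (meromorphicOrderAt_eq_int_iff hg).1 hn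
  have hrefl : Tendsto (fun s : ℂ => 2 * c - s) (𝓝[≠] c) (𝓝[≠] c) := by
    have := ellp_tendsto_refl (2 * c) c
    have h2 : (2 * c - c) = c := by ring
    rwa [h2] at this
  have h1 := hrefl.eventually hgh
  have h2 : ∀ᶠ s in 𝓝[≠] c, (-1 : ℂ) ^ n * h (2 * c - s) = h s := by
    filter_upwards [h1, hgh, heven, self_mem_nhdsWithin] with s hs1 hs2 hs3 hs4
    have hne : s - c ≠ 0 := sub_ne_zero.2 hs4
    rw [hs1, hs2] at hs3
    have e : (2 * c - s - c) = (-1) * (s - c) := by ring
    rw [e, mul_zpow, smul_eq_mul, smul_eq_mul] at hs3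
    have := zpow_ne_zero n hne
    apply mul_left_cancel₀ this
    linear_combination hs3
  have l1 : Tendsto (fun s => (-1 : ℂ) ^ n * h (2 * c - s)) (𝓝[≠] c) (𝓝 ((-1 : ℂ) ^ n * h c)) := by
    have : Tendsto (fun s => h (2 * c - s)) (𝓝[≠] c) (𝓝 (h c)) :=
      (hh.continuousAt.tendsto.mono_left nhdsWithin_le_nhds).comp hrefl
    exact this.const_mul _
  have l2 : Tendsto h (𝓝[≠] c) (𝓝 (h c)) := hh.continuousAt.tendsto.mono_left nhdsWithin_le_nhds
  have := tendsto_nhds_unique (l1.congr' h2) l2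
  have h3 : (-1 : ℂ) ^ n = 1 := by
    apply mul_right_cancel₀ hh0
    rw [this, one_mul]
  by_contra hodd
  rw [Int.not_even_iff_odd] at hodd
  rw [hodd.neg_one_zpow] at h3
  norm_num at h3

theorem ellp_withTop_succ_le {a : WithTop ℤ} {n : ℤ} (h : (n : WithTop ℤ) < a) :
    ((n + 1 : ℤ) : WithTop ℤ) ≤ a := by
  induction a using WithTop.recTopCoe with
  | top => exact le_top
  | coe a =>
    have : n < a := by exact_mod_cast h
    exact_mod_cast this

/-- T6: trailing coefficient of the derivative. -/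
theorem ellp_trailing_deriv {f : ℂ → ℂ} {x : ℂ} {n : ℤ} (hn : n ≠ 0)
    (hf : meromorphicOrderAt f x = n) :
    meromorphicTrailingCoeffAt (deriv f) x = n * meromorphicTrailingCoeffAt f x := by
  have hmero : MeromorphicAt f x := meromorphicAt_of_meromorphicOrderAt_ne_zero (by
    rw [hf]; exact_mod_cast hn)
  obtain ⟨g, hga, hg0, (hg : f =ᶠ[𝓝[≠] x] fun z ↦ (z - x) ^ n • g z)⟩ :=
    (meromorphicOrderAt_eq_int_iff hmero).1 hf
  have h1 : meromorphicTrailingCoeffAt f x = g x :=
    hga.meromorphicTrailingCoeffAt_of_ne_zero_of_eq_nhdsNE hg0 hg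
  have hG : AnalyticAt ℂ (fun z ↦ (n : ℂ) • g z + (z - x) • deriv g z) x := by fun_prop
  have hG0 : (fun z ↦ (n : ℂ) • g z + (z - x) • deriv g z) x ≠ 0 := by
    simpa using ⟨hn, hg0⟩
  have h2 : deriv f =ᶠ[𝓝[≠] x]
      fun z ↦ (z - x) ^ (n - 1) • ((n : ℂ) • g z + (z - x) • deriv g z) := by
    filter_upwards [hga.eventually_analyticAt.filter_mono (nhdsWithin_le_nhds),
      eventually_mem_nhdsWithin, hg.nhdsNE_deriv] with z hgz hmem hz
    have hzx : z - x ≠ 0 := by simpa [sub_eq_zero] using hmem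
    calc
      deriv f z = deriv (fun z ↦ (z - x) ^ n • g z) z :=
        hz
      _ = (z - x) ^ n • deriv g z + deriv ((· ^ n) ∘ (· - x)) z • g z :=
        deriv_fun_smul (by fun_prop (disch := grind)) hgz.differentiableAt
      _ = (z - x) ^ n • deriv g z + (n * (z - x) ^ (n - 1)) • g z := by
        rw [deriv_comp _ (by fun_prop (disch := grind)) (by fun_prop)]
        simp [deriv_zpow]
      _ = (z - x) ^ (n - 1) • ((n : ℂ) • g z + (z - x) • deriv g z) := by
        have e : (z - x) ^ n = (z - x) ^ (n - 1) * (z - x) := by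
          rw [← zpow_add_one₀ hzx]; ring_nf
        simp only [smul_eq_mul]
        rw [e]; ring
  rw [hG.meromorphicTrailingCoeffAt_of_ne_zero_of_eq_nhdsNE hG0 h2, h1]
  simp

/-- T6': trailing coefficient of the logarithmic derivative at a zero or pole. -/
theorem ellp_trailing_logDeriv {f : ℂ → ℂ} {x : ℂ} {n : ℤ} (hn : n ≠ 0)
    (hf : meromorphicOrderAt f x = n) :
    meromorphicTrailingCoeffAt (logDeriv f) x = n := by
  have hmero : MeromorphicAt f x := meromorphicAt_of_meromorphicOrderAt_ne_zero (by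
    rw [hf]; exact_mod_cast hn)
  have hne : meromorphicTrailingCoeffAt f x ≠ 0 :=
    hmero.meromorphicTrailingCoeffAt_ne_zero (by rw [hf]; exact WithTop.coe_ne_top)
  have : logDeriv f = deriv f * f⁻¹ := by
    funext z; simp [logDeriv, div_eq_mul_inv]
  rw [this, hmero.deriv.meromorphicTrailingCoeffAt_mul hmero.inv, meromorphicTrailingCoeffAt_inv,
    ellp_trailing_deriv hn hf]
  field_simp

/-- T7: same order and same trailing coefficient: the difference has larger order. -/
theorem ellp_order_sub_gt {f g : ℂ → ℂ} {x : ℂ} {n : ℤ}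
    (hf : MeromorphicAt f x) (hg : MeromorphicAt g x)
    (hfo : meromorphicOrderAt f x = n) (hgo : meromorphicOrderAt g x = n)
    (htc : meromorphicTrailingCoeffAt f x = meromorphicTrailingCoeffAt g x) :
    ((n + 1 : ℤ) : WithTop ℤ) ≤ meromorphicOrderAt (f - g) x := by
  obtain ⟨F, hFa, hF0, hF⟩ := (meromorphicOrderAt_eq_int_iff hf).1 hfo
  obtain ⟨G, hGa, hG0, hG⟩ := (meromorphicOrderAt_eq_int_iff hg).1 hgo
  have h1 : meromorphicTrailingCoeffAt f x = F x :=
    hFa.meromorphicTrailingCoeffAt_of_ne_zero_of_eq_nhdsNE hF0 hF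
  have h2 : meromorphicTrailingCoeffAt g x = G x :=
    hGa.meromorphicTrailingCoeffAt_of_ne_zero_of_eq_nhdsNE hG0 hG
  have hFG : F x = G x := by rw [← h1, ← h2, htc]
  have e : (f - g) =ᶠ[𝓝[≠] x] ((fun z => (z - x) ^ n) * (F - G)) := by
    filter_upwards [hF, hG] with z hz1 hz2
    simp only [Pi.sub_apply, Pi.mul_apply, hz1, hz2, smul_eq_mul]
    ring
  have hFGa : AnalyticAt ℂ (F - G) x := hFa.sub hGa
  have hpos : (1 : WithTop ℤ) ≤ meromorphicOrderAt (F - G) x := by
    have : 0 < meromorphicOrderAt (F - G) x := by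
      rw [← tendsto_zero_iff_meromorphicOrderAt_pos hFGa.meromorphicAt]
      have := hFGa.continuousAt.tendsto.mono_left (nhdsWithin_le_nhds (s := {x}ᶜ))
      simpa [hFG] using this
    exact ellp_withTop_succ_le (n := 0) this
  rw [meromorphicOrderAt_congr e, meromorphicOrderAt_mul (by fun_prop) hFGa.meromorphicAt]
  have : meromorphicOrderAt (fun z => (z - x) ^ n) x = n :=
    fun_meromorphicOrderAt_zpow_id_sub_const
  rw [this]
  push_cast
  gcongr

/-- a function with period `x` has all periods `a • x`, `a : ℤ`. -/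
theorem ellp_period_zsmul {G : ℂ → ℂ} {x : ℂ} (hx : ∀ z, G (z + x) = G z) (a : ℤ) (z : ℂ) :
    G (z + a • x) = G z := by
  have hnat : ∀ (k : ℕ) z, G (z + (k : ℤ) • x) = G z := by
    intro k
    induction k with
    | zero => intro z; simp
    | succ k ih =>
      intro z
      have : z + ((k + 1 : ℕ) : ℤ) • x = (z + (k : ℤ) • x) + x := by
        push_cast; rw [add_smul, one_smul, add_assoc]
      rw [this, hx, ih]
  have hnat' : ∀ (k : ℕ) z, G (z - (k : ℤ) • x) = G z := by
    intro k z
    have := hnat k (z - (k : ℤ) • x)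
    rw [sub_add_cancel] at this
    exact this.symm
  rcases Int.eq_nat_or_neg a with ⟨k, rfl | rfl⟩
  · exact hnat k z
  · rw [neg_smul, ← sub_eq_add_neg]; exact hnat' k z

/-- a continuous function with two `ℝ`-independent periods is bounded. -/
theorem ellp_bounded {G : ℂ → ℂ} (hG : Continuous G) {ω₁ ω₂ : ℂ}
    (hind : LinearIndependent ℝ ![ω₁, ω₂])
    (h₁ : ∀ s, G (s + ω₁) = G s) (h₂ : ∀ s, G (s + ω₂) = G s) :
    Bornology.IsBounded (range G) := by
  let b : Module.Basis (Fin 2) ℝ ℂ := basisOfLinearIndependentOfCardEqFinrank hind (by simp)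
  have hb : Set.range b = {ω₁, ω₂} := by
    ext z
    simp [b, eq_comm, or_comm]
  have hper : ∀ z w, w ∈ Submodule.span ℤ (Set.range b) → G (z + w) = G z := by
    intro z w hw
    induction hw using Submodule.span_induction generalizing z with
    | mem x hx =>
      rw [hb] at hx
      rcases hx with rfl | rfl
      · exact h₁ z
      · exact h₂ z
    | zero => simp
    | add x y _ _ hx hy => rw [← add_assoc, hy, hx]
    | smul a x _ hx => exact ellp_period_zsmul hx a z
  exact (IsZLattice.isCompact_range_of_periodic (Submodule.span ℤ (Set.range b)) G hG hper).isBounded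

/-- T8: Liouville for doubly periodic meromorphic functions without poles. -/
theorem ellp_liouville {g : ℂ → ℂ} (hg : Meromorphic g) {ω₁ ω₂ : ℂ}
    (hind : LinearIndependent ℝ ![ω₁, ω₂])
    (h₁ : ∀ s, g (s + ω₁) = g s) (h₂ : ∀ s, g (s + ω₂) = g s)
    (hpos : ∀ s, 0 ≤ meromorphicOrderAt g s) :
    ∃ c : ℂ, ∀ s, g =ᶠ[𝓝[≠] s] fun _ => c := by
  set G := toMeromorphicNFOn g univ with hGdef
  have hgo : MeromorphicOn g univ := hg.meromorphicOn
  have hnf : MeromorphicNFOn G univ := meromorphicNFOn_toMeromorphicNFOn g univ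
  have hGg : ∀ s, g =ᶠ[𝓝[≠] s] G := fun s =>
    (hgo.toMeromorphicNFOn_eq_self_on_nhdsNE (mem_univ s)).symm
  have han : ∀ s, AnalyticAt ℂ G s := fun s => by
    rw [← (hnf (mem_univ s)).meromorphicOrderAt_nonneg_iff_analyticAt,
      meromorphicOrderAt_toMeromorphicNFOn hgo (mem_univ s)]
    exact hpos s
  have hdiff : Differentiable ℂ G := fun s => (han s).differentiableAt
  have hper : ∀ ω, (∀ s, g (s + ω) = g s) → ∀ s, G (s + ω) = G s := by
    intro ω hω
    have : (fun s => G (s + ω)) = G := by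
      apply ellp_nf_eq (ellp_nf_add hnf ω) hnf (s₀ := 0)
      filter_upwards [(ellp_tendsto_add 0 ω).eventually (hGg (0 + ω)), hGg 0] with s hs1 hs2
      rw [← hs1, ← hs2, hω]
    exact fun s => congrFun this s
  obtain ⟨c, hc⟩ := hdiff.exists_eq_const_of_bounded
    (ellp_bounded hdiff.continuous hind (hper _ h₁) (hper _ h₂))
  refine ⟨c, fun s => ?_⟩
  filter_upwards [hGg s] with z hz
  rw [hz, hc]
  rfl

/-- T8': a doubly periodic meromorphic function, not identically zero, all of whose orders are `≥ 0`,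
has all orders `= 0`. -/
theorem ellp_order_zero_of_nonneg {g : ℂ → ℂ} (hg : Meromorphic g) {ω₁ ω₂ : ℂ}
    (hind : LinearIndependent ℝ ![ω₁, ω₂])
    (h₁ : ∀ s, g (s + ω₁) = g s) (h₂ : ∀ s, g (s + ω₂) = g s)
    (hpos : ∀ s, 0 ≤ meromorphicOrderAt g s) (s₀ : ℂ) (hnt : meromorphicOrderAt g s₀ ≠ ⊤) (s : ℂ) :
    meromorphicOrderAt g s = 0 := by
  obtain ⟨c, hc⟩ := ellp_liouville hg hind h₁ h₂ hpos
  have hc0 : c ≠ 0 := by
    rintro rfl
    exact hnt (meromorphicOrderAt_eq_top_iff.2 (hc s₀))
  rw [meromorphicOrderAt_congr (hc s), meromorphicOrderAt_const]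
  simp [hc0]

/-- T8'': the same with all orders `≤ 0`. -/
theorem ellp_order_zero_of_nonpos {g : ℂ → ℂ} (hg : Meromorphic g) {ω₁ ω₂ : ℂ}
    (hind : LinearIndependent ℝ ![ω₁, ω₂])
    (h₁ : ∀ s, g (s + ω₁) = g s) (h₂ : ∀ s, g (s + ω₂) = g s)
    (hneg : ∀ s, meromorphicOrderAt g s ≤ 0) (s : ℂ) :
    meromorphicOrderAt g s = 0 := by
  have key : ∀ s, meromorphicOrderAt g⁻¹ s = - meromorphicOrderAt g s := fun s =>
    meromorphicOrderAt_inv
  have hlift : ∀ s, ∃ n : ℤ, meromorphicOrderAt g s = n ∧ n ≤ 0 := by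
    intro s
    have h := hneg s
    induction hx : meromorphicOrderAt g s using WithTop.recTopCoe with
    | top => rw [hx] at h; simp at h
    | coe a => rw [hx] at h; exact ⟨a, rfl, by exact_mod_cast h⟩
  have h0 : meromorphicOrderAt g⁻¹ s = 0 := by
    apply ellp_order_zero_of_nonneg hg.inv hind (fun s => by simp [h₁]) (fun s => by simp [h₂])
      (fun s => ?_) s ?_
    · obtain ⟨n, hn, -⟩ := hlift s
      rw [key, hn]
      exact_mod_cast (WithTop.coe_ne_top (a := -n))
    · obtain ⟨n, hn, hn0⟩ := hlift s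
      rw [key, hn]
      have : (0 : ℤ) ≤ -n := by omega
      exact_mod_cast this
  obtain ⟨n, hn, -⟩ := hlift s
  rw [key, hn] at h0
  rw [hn]
  have : -n = 0 := by exact_mod_cast h0
  have : n = 0 := by omega
  simp [this]

end Claimed.Agent.R269
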