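/-
Row 269, library L8 (BP-L8-Ell, owner helper283), HOST-FREE.  Part `EllPer`, file B.
  L3 `ellp_parity`, L4 `ellp_four_classes`   a lattice `L` in `ℂ` has exactly four classes of `½L/L` (Mathlib `ZLattice`)
  `EllCtx`                                    a centred elliptic function in normal form
  `EllCtx.Λ`                                  its full period lattice (discrete, `IsZLattice`)
  `EllCtx.e`                                  its order as an integer (`0, 1, -1`)
  C2 `two_sub_mem`, C3 `center_of_half`       the centres are exactly one class of `½Λ`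
  C6 `e_add_of_eq`                            the translation between two centres of the same type preserves all orders
      (if not, `A(s+h)A(s)` or its inverse would be doubly periodic without poles and with a zero).
-/
import Claimed.Agent.R269.Lib.EllPerA

set_option autoImplicit false

namespace Claimed.Agent.R269

open Complex Filter Topology Set

/-- L3: the parity map of a lattice in `ℂ`. -/
theorem ellp_parity (L : Submodule ℤ ℂ) [DiscreteTopology L] [IsZLattice ℝ L] :
    ∃ π : L →+ (ZMod 2 × ZMod 2), ∀ l : L, π l = 0 → ∃ μ : L, l = (2 : ℤ) • μ := by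
  have hfree := ZLattice.module_free ℝ L
  have hfin := ZLattice.module_finite ℝ L
  have hrank : Module.finrank ℤ L = 2 := by
    rw [ZLattice.rank ℝ L, Complex.finrank_real_complex]
  let b : Module.Basis (Fin 2) ℤ L := Module.finBasisOfFinrankEq ℤ L hrank
  let c0 : L →+ ZMod 2 := (Int.castAddHom (ZMod 2)).comp (b.coord 0).toAddMonoidHom
  let c1 : L →+ ZMod 2 := (Int.castAddHom (ZMod 2)).comp (b.coord 1).toAddMonoidHom
  refine ⟨c0.prod c1, fun l hl => ?_⟩
  have h0 : ((b.repr l 0 : ℤ) : ZMod 2) = 0 := by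
    have := congrArg Prod.fst hl
    simpa [c0] using this
  have h1 : ((b.repr l 1 : ℤ) : ZMod 2) = 0 := by
    have := congrArg Prod.snd hl
    simpa [c1] using this
  rw [ZMod.intCast_zmod_eq_zero_iff_dvd] at h0 h1
  obtain ⟨k0, hk0⟩ := h0
  obtain ⟨k1, hk1⟩ := h1
  refine ⟨k0 • b 0 + k1 • b 1, ?_⟩
  conv_lhs => rw [← b.sum_repr l]
  rw [Fin.sum_univ_two, hk0, hk1, smul_add, smul_smul, smul_smul]
  push_cast
  rfl

theorem ellp_fin4 : ∀ a b c : ZMod 2 × ZMod 2, a ≠ 0 → b ≠ 0 → a + b ≠ 0 →
    c = 0 ∨ c - a = 0 ∨ c - b = 0 ∨ c - (a + b) = 0 := by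
  let _i : Fintype (ZMod 2 × ZMod 2) := inferInstance
  decide

/-- L4: four classes of `½L / L`. -/
theorem ellp_four_classes (L : Submodule ℤ ℂ) [DiscreteTopology L] [IsZLattice ℝ L]
    {τ h y : ℂ} (hτ : 2 * τ ∈ L) (hh : 2 * h ∈ L) (hy : 2 * y ∈ L)
    (hτ' : τ ∉ L) (hh' : h ∉ L) (hτh : τ + h ∉ L) :
    y ∈ L ∨ y - τ ∈ L ∨ y - h ∈ L ∨ y - (τ + h) ∈ L := by
  obtain ⟨π, hπ⟩ := ellp_parity L
  have key : ∀ x : ℂ, ∀ hx : 2 * x ∈ L, π ⟨2 * x, hx⟩ = 0 → x ∈ L := by
    intro x hx h0
    obtain ⟨μ, hμ⟩ := hπ _ h0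
    have : 2 * x = 2 * (μ : ℂ) := by
      have := congrArg (Subtype.val) hμ
      simpa using this
    have : x = μ := by linear_combination this / 2
    rw [this]; exact μ.2
  have e1 : 2 * (τ + h) ∈ L := by rw [mul_add]; exact L.add_mem hτ hh
  have a1 : π ⟨2 * τ, hτ⟩ ≠ 0 := fun h0 => hτ' (key _ _ h0)
  have a2 : π ⟨2 * h, hh⟩ ≠ 0 := fun h0 => hh' (key _ _ h0)
  have a3 : π ⟨2 * τ, hτ⟩ + π ⟨2 * h, hh⟩ ≠ 0 := fun h0 => hτh (key _ e1 (by
    rw [← h0, ← map_add]; congr 1; ext; simp [mul_add]))
  rcases ellp_fin4 _ _ (π ⟨2 * y, hy⟩) a1 a2 a3 with h0 | h0 | h0 | h0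
  · exact Or.inl (key _ _ h0)
  · refine Or.inr (Or.inl (key _ (by rw [mul_sub]; exact L.sub_mem hy hτ) ?_))
    rw [← h0, ← map_sub]; congr 1; ext; simp [mul_sub]
  · refine Or.inr (Or.inr (Or.inl (key _ (by rw [mul_sub]; exact L.sub_mem hy hh) ?_)))
    rw [← h0, ← map_sub]; congr 1; ext; simp [mul_sub]
  · refine Or.inr (Or.inr (Or.inr (key _ (by rw [mul_sub]; exact L.sub_mem hy e1) ?_)))
    rw [← h0, ← map_add, ← map_sub]; congr 1; ext; simp [mul_sub, mul_add]

/-- A *centred elliptic function* in normal form: two independent periods; every zero or pole is simple and is a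
centre of odd symmetry; there is at least one zero or pole. -/
structure EllCtx where
  A : ℂ → ℂ
  nf : MeromorphicNFOn A univ
  ω₁ : ℂ
  ω₂ : ℂ
  ind : LinearIndependent ℝ ![ω₁, ω₂]
  per₁ : ∀ s, A (s + ω₁) = A s
  per₂ : ∀ s, A (s + ω₂) = A s
  simple : ∀ p, meromorphicOrderAt A p ≠ 0 →
    meromorphicOrderAt A p = 1 ∨ meromorphicOrderAt A p = -1
  odd : ∀ p, meromorphicOrderAt A p ≠ 0 → ∀ s, A (2 * p - s) = - A s
  p₀ : ℂ
  hp₀ : meromorphicOrderAt A p₀ ≠ 0

namespace EllCtx

variable (E : EllCtx)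

theorem mero : Meromorphic E.A := meromorphicOn_univ.1 E.nf.meromorphicOn

theorem order_ne_top (s : ℂ) : meromorphicOrderAt E.A s ≠ ⊤ := by
  refine E.mero.exists_meromorphicOrderAt_ne_top_iff_forall.1 ⟨E.p₀, ?_⟩ s
  rcases E.simple _ E.hp₀ with h | h <;> rw [h] <;> decide

/-- the group of all periods, as a `ℤ`-submodule of `ℂ`. -/
def Λ : Submodule ℤ ℂ := AddSubgroup.toIntSubmodule
  { carrier := {l | ∀ s, E.A (s + l) = E.A s}
    add_mem' := fun {a b} ha hb s => by rw [← add_assoc, hb, ha]
    zero_mem' := fun s => by rw [add_zero]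
    neg_mem' := fun {a} ha s => by
      have := ha (s + -a)
      rw [neg_add_cancel_right] at this
      exact this.symm }

theorem Λ_eqns_cite : True := by
  have := @EllCtx.Λ.eq_1
  trivial

theorem mem_Λ {l : ℂ} : l ∈ E.Λ ↔ ∀ s, E.A (s + l) = E.A s := Iff.rfl

theorem ω₁_mem : E.ω₁ ∈ E.Λ := E.per₁
theorem ω₂_mem : E.ω₂ ∈ E.Λ := E.per₂

/-- `A` is not constant. -/
theorem not_const (c : ℂ) : E.A ≠ fun _ => c := by
  intro h
  have h1 := E.hp₀
  have h2 := E.order_ne_top E.p₀
  rw [h, meromorphicOrderAt_const] at h1 h2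
  by_cases hc : c = 0 <;> simp [hc] at h1 h2

theorem exists_isolated : ∃ s₁ : ℂ, ∃ ε : ℝ, 0 < ε ∧ ∀ z, z ≠ s₁ → dist z s₁ < ε → E.A z ≠ E.A s₁ := by
  obtain ⟨s₁, hs₁⟩ := (E.mero E.p₀).eventually_analyticAt.exists
  rcases hs₁.eventually_eq_or_eventually_ne (analyticAt_const (v := E.A s₁)) with h | h
  · exfalso
    apply E.not_const (E.A s₁)
    exact ellp_nf_eq E.nf (fun s _ => analyticAt_const.meromorphicNFAt)
      (h.filter_mono nhdsWithin_le_nhds)
  · rw [eventually_nhdsWithin_iff, Metric.eventually_nhds_iff] at h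
    obtain ⟨ε, hε, h⟩ := h
    exact ⟨s₁, ε, hε, fun z hz hd => h hd hz⟩

instance discrete : DiscreteTopology E.Λ := by
  apply discreteTopology_of_isOpen_singleton_zero
  rw [Metric.isOpen_singleton_iff]
  obtain ⟨s₁, ε, hε, h⟩ := E.exists_isolated
  refine ⟨ε, hε, fun y hy => ?_⟩
  by_contra hne
  have hy0 : (y : ℂ) ≠ 0 := fun h0 => hne (Subtype.ext h0)
  refine h (s₁ + y) (by simpa using hy0) ?_ (y.2 s₁)
  have : dist (y : ℂ) 0 < ε := hy
  simpa [dist_eq_norm] using this

instance isZLattice : IsZLattice ℝ E.Λ where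
  span_top := by
    have h1 : Submodule.span ℝ (Set.range ![E.ω₁, E.ω₂]) = ⊤ :=
      E.ind.span_eq_top_of_card_eq_finrank (by simp)
    rw [eq_top_iff, ← h1]
    apply Submodule.span_mono
    rintro _ ⟨i, rfl⟩
    fin_cases i
    · exact E.ω₁_mem
    · exact E.ω₂_mem

/-- the order of `A` as an integer. -/
noncomputable def e (s : ℂ) : ℤ := (meromorphicOrderAt E.A s).untop₀

theorem e_eqns_cite : True := by
  have := @EllCtx.e.eq_1
  trivial

theorem order_eq (s : ℂ) : meromorphicOrderAt E.A s = (E.e s : WithTop ℤ) :=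
  (WithTop.coe_untop₀_of_ne_top (E.order_ne_top s)).symm

theorem e_ne_zero_iff (s : ℂ) : E.e s ≠ 0 ↔ meromorphicOrderAt E.A s ≠ 0 := by
  rw [E.order_eq]
  norm_cast

theorem e_cases (s : ℂ) : E.e s = 0 ∨ E.e s = 1 ∨ E.e s = -1 := by
  by_cases h : E.e s = 0
  · exact Or.inl h
  · rcases E.simple s ((E.e_ne_zero_iff s).1 h) with h1 | h1
    · rw [E.order_eq] at h1
      exact Or.inr (Or.inl (by exact_mod_cast h1))
    · rw [E.order_eq] at h1
      have h2 : ((E.e s : ℤ) : WithTop ℤ) = ((-1 : ℤ) : WithTop ℤ) := h1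
      exact Or.inr (Or.inr (WithTop.coe_eq_coe.1 h2))

theorem odd' {p : ℂ} (hp : E.e p ≠ 0) (s : ℂ) : E.A (2 * p - s) = - E.A s :=
  E.odd p ((E.e_ne_zero_iff p).1 hp) s

theorem e_add_period {l : ℂ} (hl : l ∈ E.Λ) (s : ℂ) : E.e (s + l) = E.e s := by
  unfold e
  rw [← ellp_order_add]
  have : (fun s => E.A (s + l)) = E.A := funext hl
  rw [this]

theorem e_congr {s s' : ℂ} (h : s' - s ∈ E.Λ) : E.e s' = E.e s := by
  have := E.e_add_period h s
  rwa [add_sub_cancel] at this

/-- C2 -/
theorem two_sub_mem {c c' : ℂ} (hc : E.e c ≠ 0) (hc' : E.e c' ≠ 0) : 2 * (c' - c) ∈ E.Λ := by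
  intro s
  have h1 := E.odd' hc' (2 * c - s)
  have h2 := E.odd' hc s
  have e1 : s + 2 * (c' - c) = 2 * c' - (2 * c - s) := by ring
  rw [e1, h1, h2, neg_neg]

/-- C3 -/
theorem center_of_half {c h : ℂ} (hc : E.e c ≠ 0) (hh : 2 * h ∈ E.Λ) : E.e (c + h) ≠ 0 := by
  intro h0
  have h0' : meromorphicOrderAt E.A (c + h) = 0 := by rw [E.order_eq, h0]; rfl
  have hne : E.A (c + h) ≠ 0 := ((E.nf (mem_univ _)).meromorphicOrderAt_eq_zero_iff).1 h0'
  have h1 := E.odd' hc (c + h)
  have h2 := hh (2 * c - (c + h))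
  have e1 : 2 * c - (c + h) + 2 * h = c + h := by ring
  rw [e1, h1] at h2
  apply hne
  linear_combination h2 / 2

theorem center_of_half' {c h : ℂ} (hc : E.e (c + h) ≠ 0) (hh : 2 * h ∈ E.Λ) : E.e c ≠ 0 := by
  have := E.center_of_half (c := c + h) (h := -h) hc (by rw [mul_neg]; exact E.Λ.neg_mem hh)
  rwa [add_neg_cancel_right] at this

/-- the product `A(s+h) A(s)`: order. -/
theorem order_mul_shift (h s : ℂ) :
    meromorphicOrderAt (fun s => E.A (s + h) * E.A s) s = ((E.e (s + h) + E.e s : ℤ) : WithTop ℤ) := by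
  have h1 : MeromorphicAt (fun s => E.A (s + h)) s :=
    ((ellp_nf_add E.nf h) (mem_univ s)).meromorphicAt
  rw [fun_meromorphicOrderAt_mul h1 (E.mero s), ellp_order_add, E.order_eq, E.order_eq]
  norm_cast

theorem mero_shift (h : ℂ) : Meromorphic (fun s => E.A (s + h)) :=
  meromorphicOn_univ.1 (ellp_nf_add E.nf h).meromorphicOn

/-- C6: a translation between two centres of the same type preserves all orders. -/
theorem e_add_of_eq {c c' : ℂ} (hc : E.e c ≠ 0) (hcc : E.e c' = E.e c) (x : ℂ) :
    E.e (x + (c' - c)) = E.e x := by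
  set τ := c' - c with hτdef
  have hτ : 2 * τ ∈ E.Λ := E.two_sub_mem hc (by rw [hcc]; exact hc)
  by_contra hne
  have hx : E.e x ≠ 0 := by
    intro h0
    apply hne
    rw [h0]
    by_contra h1
    exact E.center_of_half' h1 hτ h0
  have hxτ : E.e (x + τ) ≠ 0 := E.center_of_half hx hτ
  set h := x - c with hhdef
  have hh : 2 * h ∈ E.Λ := E.two_sub_mem hc hx
  have hτ' : τ ∉ E.Λ := fun hm => hne (E.e_add_period hm x)
  have hh' : h ∉ E.Λ := fun hm => hne (by
    have e1 : E.e (x + τ) = E.e c' := E.e_congr (by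
      have : x + τ - c' = h := by simp only [hτdef, hhdef]; ring
      rwa [this])
    have e2 : E.e x = E.e c := E.e_congr hm
    rw [e1, e2, hcc])
  have hτh : τ + h ∉ E.Λ := fun hm => hne (by
    have e1 : E.e (x + τ) = E.e c := E.e_congr (by
      have : x + τ - c = τ + h := by simp only [hhdef]; ring
      rwa [this])
    have e2 : E.e x = E.e c' := E.e_congr (by
      have : x - c' = (τ + h) - 2 * τ := by simp only [hτdef, hhdef]; ring
      rw [this]; exact E.Λ.sub_mem hm hτ)
    rw [e1, e2, hcc])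
  -- the values of the order of `g = A(·+h) A`
  have hsum : ∀ s, E.e (s + h) + E.e s = 0 ∨ E.e (s + h) + E.e s = E.e c + E.e x ∨
      E.e (s + h) + E.e s = E.e c + E.e (x + τ) := by
    intro s
    by_cases hs : E.e s = 0
    · left
      have : E.e (s + h) = 0 := by
        by_contra h1
        exact E.center_of_half' h1 hh hs
      rw [this, hs]; rfl
    · right
      have hy : 2 * (s - c) ∈ E.Λ := E.two_sub_mem hc hs
      rcases ellp_four_classes E.Λ hτ hh hy hτ' hh' hτh with hm | hm | hm | hm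
      · left
        have e1 : E.e s = E.e c := E.e_congr hm
        have e2 : E.e (s + h) = E.e x := E.e_congr (by
          have : s + h - x = s - c := by simp only [hhdef]; ring
          rwa [this])
        rw [e1, e2]; ring
      · right
        have e1 : E.e s = E.e c' := E.e_congr (by
          have : s - c' = s - c - τ := by simp only [hτdef]; ring
          rwa [this])
        have e2 : E.e (s + h) = E.e (x + τ) := E.e_congr (by
          have : s + h - (x + τ) = s - c - τ := by simp only [hhdef]; ring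
          rwa [this])
        rw [e1, e2, hcc]; ring
      · left
        have e1 : E.e s = E.e x := E.e_congr (by
          have : s - x = s - c - h := by simp only [hhdef]; ring
          rwa [this])
        have e2 : E.e (s + h) = E.e c := E.e_congr (by
          have : s + h - c = (s - c - h) + 2 * h := by ring
          rw [this]; exact E.Λ.add_mem hm hh)
        rw [e1, e2]
      · right
        have e1 : E.e s = E.e (x + τ) := E.e_congr (by
          have : s - (x + τ) = s - c - (τ + h) := by simp only [hhdef]; ring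
          rwa [this])
        have e2 : E.e (s + h) = E.e c' := E.e_congr (by
          have : s + h - c' = (s - c - (τ + h)) + 2 * h := by simp only [hτdef]; ring
          rw [this]; exact E.Λ.add_mem hm hh)
        rw [e1, e2, hcc]
  have hg : Meromorphic (fun s => E.A (s + h) * E.A s) := (E.mero_shift h).mul E.mero
  have hp1 : ∀ s, (fun s => E.A (s + h) * E.A s) (s + E.ω₁) = (fun s => E.A (s + h) * E.A s) s := by
    intro s
    have : s + E.ω₁ + h = (s + h) + E.ω₁ := by ring
    simp only [this, E.per₁]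
  have hp2 : ∀ s, (fun s => E.A (s + h) * E.A s) (s + E.ω₂) = (fun s => E.A (s + h) * E.A s) s := by
    intro s
    have : s + E.ω₂ + h = (s + h) + E.ω₂ := by ring
    simp only [this, E.per₂]
  have hat_c : E.e (c + h) + E.e c = E.e c + E.e x := by
    have : c + h = x := by simp only [hhdef]; ring
    rw [this]; ring
  have hat_c' : E.e (c' + h) + E.e c' = E.e c + E.e (x + τ) := by
    have : c' + h = x + τ := by simp only [hhdef, hτdef]; ring
    rw [this, hcc]; ring
  have hzero : ∀ s, E.e (s + h) + E.e s = 0 := by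
    rcases E.e_cases c with h0 | h1 | h1
    · exact absurd h0 hc
    · intro s
      have := ellp_order_zero_of_nonneg hg E.ind hp1 hp2 (fun s => by
        rw [E.order_mul_shift]
        have : 0 ≤ E.e (s + h) + E.e s := by
          rcases E.e_cases x with a | a | a <;> rcases E.e_cases (x + τ) with b | b | b <;>
            rcases hsum s with d | d | d <;> omega
        exact_mod_cast this) s (by rw [E.order_mul_shift]; exact WithTop.coe_ne_top) s
      rw [E.order_mul_shift] at this
      exact_mod_cast this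
    · intro s
      have := ellp_order_zero_of_nonpos hg E.ind hp1 hp2 (fun s => by
        rw [E.order_mul_shift]
        have : E.e (s + h) + E.e s ≤ 0 := by
          rcases E.e_cases x with a | a | a <;> rcases E.e_cases (x + τ) with b | b | b <;>
            rcases hsum s with d | d | d <;> omega
        exact_mod_cast this) s
      rw [E.order_mul_shift] at this
      exact_mod_cast this
  have z1 := hzero c
  have z2 := hzero c'
  rw [hat_c] at z1
  rw [hat_c'] at z2
  omega

end EllCtx

end Claimed.Agent.R269
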