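/-
Row 269, library L8 (BP-L8-Ell, owner helper283), HOST-FREE.  Part `EllPer`, file C: the quartic equation; EXPORTS.
  C7 `EllCtx.exists_kappa`   translation between two centres of the same type: `A(s+τ) = ± A(s)`
  C8 `EllCtx.tc_sq_eq`       so the squares of the leading coefficients agree at all zeros (resp. at all poles)
  C9 `EllCtx.F_order_nonneg` `F = (A'/A)² - c₄ A² - c₀ A⁻²` has no poles (leading terms cancel; `F` is even about each centre)
  C10 `EllCtx.quartic`       Liouville: `F = c₂`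
  EXPORTS for an arbitrary meromorphic `a` (junk values allowed; periods and symmetries known only as germs):
    `ellper_quartic`             two `ℝ`-independent periods
    `ellper_quartic_of_centres`  one period `ω` and two centres `p, p'` with `ω, p'-p` independent
    `ellper_quartic_real`        a real period `T ≠ 0` and two centres with different imaginary parts (Theorem 5.3: `T = 2π`, `p' = conj p`)
  The hypothesis `hc` is literally the conclusion of `Sec4.center_symm` (for all centres).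
-/
import Claimed.Agent.R269.Lib.EllPerB

set_option autoImplicit false

namespace Claimed.Agent.R269

open Complex Filter Topology Set

namespace EllCtx

variable (E : EllCtx)

theorem eventually_ne_zero (s : ℂ) : ∀ᶠ z in 𝓝[≠] s, E.A z ≠ 0 :=
  (meromorphicOrderAt_ne_top_iff_eventually_ne_zero (E.mero s)).1 (E.order_ne_top s)

/-- C7: the translation between two centres of the same type multiplies `A` by `±1`. -/
theorem exists_kappa {c c' : ℂ} (hc : E.e c ≠ 0) (hcc : E.e c' = E.e c) :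
    ∃ κ : ℂ, κ ^ 2 = 1 ∧ ∀ s, E.A (s + (c' - c)) = κ * E.A s := by
  set τ := c' - c with hτdef
  have hτ : 2 * τ ∈ E.Λ := E.two_sub_mem hc (by rw [hcc]; exact hc)
  have hg : Meromorphic (fun s => E.A (s + τ) / E.A s) := (E.mero_shift τ).div E.mero
  have hord : ∀ s, meromorphicOrderAt (fun s => E.A (s + τ) / E.A s) s = 0 := by
    intro s
    rw [fun_meromorphicOrderAt_div (E.mero_shift τ s) (E.mero s), ellp_order_add, E.order_eq,
      E.order_eq, E.e_add_of_eq hc hcc]
    norm_cast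
    simp
  have hp1 : ∀ s, (fun s => E.A (s + τ) / E.A s) (s + E.ω₁) = (fun s => E.A (s + τ) / E.A s) s := by
    intro s
    have : s + E.ω₁ + τ = (s + τ) + E.ω₁ := by ring
    simp only [this, E.per₁]
  have hp2 : ∀ s, (fun s => E.A (s + τ) / E.A s) (s + E.ω₂) = (fun s => E.A (s + τ) / E.A s) s := by
    intro s
    have : s + E.ω₂ + τ = (s + τ) + E.ω₂ := by ring
    simp only [this, E.per₂]
  obtain ⟨κ, hκ⟩ := ellp_liouville hg E.ind hp1 hp2 (fun s => by rw [hord])
  have hκ0 : κ ≠ 0 := by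
    rintro rfl
    have := hord 0
    rw [meromorphicOrderAt_eq_top_iff.2 (hκ 0)] at this
    exact absurd this (by decide)
  have hfun : (fun s => E.A (s + τ)) = fun s => κ * E.A s := by
    apply ellp_nf_eq (ellp_nf_add E.nf τ) (ellp_nf_const_mul E.nf hκ0) (s₀ := 0)
    filter_upwards [hκ 0, E.eventually_ne_zero 0] with z hz hz0
    field_simp at hz
    linear_combination hz
  have hfun' : ∀ s, E.A (s + τ) = κ * E.A s := fun s => congrFun hfun s
  refine ⟨κ, ?_, hfun'⟩
  obtain ⟨z, hz⟩ := (E.eventually_ne_zero 0).exists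
  have h1 := hτ z
  have e1 : z + 2 * τ = (z + τ) + τ := by ring
  rw [e1, hfun', hfun'] at h1
  apply mul_right_cancel₀ hz
  linear_combination h1

/-- C8 -/
theorem tc_sq_eq {c c' : ℂ} (hc : E.e c ≠ 0) (hcc : E.e c' = E.e c) :
    meromorphicTrailingCoeffAt E.A c' ^ 2 = meromorphicTrailingCoeffAt E.A c ^ 2 := by
  obtain ⟨κ, hκ, h⟩ := E.exists_kappa hc hcc
  have h1 : meromorphicTrailingCoeffAt (fun s => E.A (s + (c' - c))) c =
      meromorphicTrailingCoeffAt E.A (c + (c' - c)) :=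
    meromorphicTrailingCoeffAt_fun_comp_add_const_eq_meromorphicTrailingCoeffAt
  have h2 : (fun s => E.A (s + (c' - c))) = fun s => κ * E.A s := funext h
  rw [h2, (MeromorphicAt.const κ c).meromorphicTrailingCoeffAt_fun_mul (E.mero c),
    meromorphicTrailingCoeffAt_const, add_sub_cancel] at h1
  rw [← h1, mul_pow, hκ, one_mul]

theorem tc_ne_zero (s : ℂ) : meromorphicTrailingCoeffAt E.A s ≠ 0 :=
  (E.mero s).meromorphicTrailingCoeffAt_ne_zero (E.order_ne_top s)

open Classical in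
/-- the coefficient of `a⁴`. -/
noncomputable def c₄ : ℂ :=
  if h : ∃ q, E.e q = -1 then (meromorphicTrailingCoeffAt E.A h.choose ^ 2)⁻¹ else 0

open Classical in
/-- the constant coefficient. -/
noncomputable def c₀ : ℂ :=
  if h : ∃ z, E.e z = 1 then meromorphicTrailingCoeffAt E.A h.choose ^ 2 else 0

theorem c_eqns_cite : True := by
  have := @EllCtx.c₄.eq_1
  have := @EllCtx.c₀.eq_1
  trivial

theorem c₄_spec {q : ℂ} (hq : E.e q = -1) : E.c₄ * meromorphicTrailingCoeffAt E.A q ^ 2 = 1 := by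
  have h : ∃ q, E.e q = -1 := ⟨q, hq⟩
  have h1 : E.c₄ = (meromorphicTrailingCoeffAt E.A h.choose ^ 2)⁻¹ := by
    unfold c₄; rw [dif_pos h]
  have h2 := E.tc_sq_eq (c := q) (c' := h.choose) (by rw [hq]; decide) (by rw [h.choose_spec, hq])
  rw [h1, h2]
  exact inv_mul_cancel₀ (pow_ne_zero 2 (E.tc_ne_zero q))

theorem c₀_spec {z : ℂ} (hz : E.e z = 1) : E.c₀ = meromorphicTrailingCoeffAt E.A z ^ 2 := by
  have h : ∃ z, E.e z = 1 := ⟨z, hz⟩
  have h1 : E.c₀ = meromorphicTrailingCoeffAt E.A h.choose ^ 2 := by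
    unfold c₀; rw [dif_pos h]
  have h2 := E.tc_sq_eq (c := z) (c' := h.choose) (by rw [hz]; decide) (by rw [h.choose_spec, hz])
  rw [h1, h2]

/-- generic step: cancellation of two double poles with equal leading coefficients for an even function. -/
theorem _root_.Claimed.Agent.R269.ellp_even_cancel {f₁ f₂ f₃ : ℂ → ℂ} {x : ℂ}
    (h₁ : MeromorphicAt f₁ x) (h₂ : MeromorphicAt f₂ x) (h₃ : MeromorphicAt f₃ x)
    (o₁ : meromorphicOrderAt f₁ x = ((-2 : ℤ) : WithTop ℤ))
    (o₂ : meromorphicOrderAt f₂ x = ((-2 : ℤ) : WithTop ℤ))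
    (tc : meromorphicTrailingCoeffAt f₁ x = meromorphicTrailingCoeffAt f₂ x)
    (o₃ : 0 ≤ meromorphicOrderAt f₃ x)
    (heven : ∀ᶠ s in 𝓝[≠] x, (f₁ - f₂ - f₃) (2 * x - s) = (f₁ - f₂ - f₃) s) :
    0 ≤ meromorphicOrderAt (f₁ - f₂ - f₃) x := by
  have a1 : (((-2 : ℤ) + 1 : ℤ) : WithTop ℤ) ≤ meromorphicOrderAt (f₁ - f₂) x :=
    ellp_order_sub_gt h₁ h₂ o₁ o₂ tc
  have a2 : ((-1 : ℤ) : WithTop ℤ) ≤ meromorphicOrderAt (f₁ - f₂ - f₃) x := by
    rw [sub_eq_add_neg (f₁ - f₂) f₃]
    refine le_trans (le_min a1 ?_) (meromorphicOrderAt_add (h₁.sub h₂) h₃.neg)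
    rw [← meromorphicOrderAt_neg]
    exact le_trans (by decide) o₃
  induction hn : meromorphicOrderAt (f₁ - f₂ - f₃) x using WithTop.recTopCoe with
  | top => exact le_top
  | coe n =>
    have hev := ellp_even_order hn heven
    rw [hn] at a2
    have : (-1 : ℤ) ≤ n := by exact_mod_cast a2
    have : 0 ≤ n := by
      obtain ⟨k, hk⟩ := hev
      omega
    exact_mod_cast this

theorem deriv_refl {p : ℂ} (hp : E.e p ≠ 0) (s : ℂ) : deriv E.A (2 * p - s) = deriv E.A s := by
  have h1 : (fun s => E.A (2 * p - s)) = fun s => - E.A s := funext (E.odd' hp)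
  have h2 : deriv (fun s => E.A (2 * p - s)) s = - deriv E.A (2 * p - s) :=
    deriv_comp_const_sub (f := E.A) (2 * p) s
  rw [h1, deriv.fun_neg] at h2
  exact (neg_injective h2).symm

theorem deriv_add_period {l : ℂ} (hl : l ∈ E.Λ) (s : ℂ) : deriv E.A (s + l) = deriv E.A s := by
  have h1 : (fun s => E.A (s + l)) = E.A := funext hl
  have h2 : deriv (fun s => E.A (s + l)) s = deriv E.A (s + l) := deriv_comp_add_const (f := E.A) l s
  rw [h1] at h2
  exact h2.symm

/-- the doubly periodic function which will be constant. -/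
noncomputable def F : ℂ → ℂ :=
  (logDeriv E.A) ^ 2 - (fun s => E.c₄ * E.A s ^ 2) - (fun s => E.c₀ * (E.A s)⁻¹ ^ 2)

theorem F_eqns_cite : True := by
  have := @EllCtx.F.eq_1
  trivial

theorem F_apply (s : ℂ) :
    E.F s = (deriv E.A s / E.A s) ^ 2 - E.c₄ * E.A s ^ 2 - E.c₀ * (E.A s)⁻¹ ^ 2 := by
  simp [F, logDeriv]

theorem F_refl {p : ℂ} (hp : E.e p ≠ 0) (s : ℂ) : E.F (2 * p - s) = E.F s := by
  rw [F_apply, F_apply, E.deriv_refl hp, E.odd' hp]
  simp only [div_neg, inv_neg, even_two, Even.neg_pow]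

theorem F_add_period {l : ℂ} (hl : l ∈ E.Λ) (s : ℂ) : E.F (s + l) = E.F s := by
  rw [F_apply, F_apply, E.deriv_add_period hl, hl]

theorem F_mero : Meromorphic E.F := by
  unfold F
  have h1 : Meromorphic (logDeriv E.A) := E.mero.logDeriv
  have h2 : Meromorphic (fun s => E.c₄ * E.A s ^ 2) := (Meromorphic.const _).mul (E.mero.pow)
  have h3 : Meromorphic (fun s => E.c₀ * (E.A s)⁻¹ ^ 2) := (Meromorphic.const _).mul (E.mero.inv.pow)
  exact (h1.pow.sub h2).sub h3

theorem _root_.Claimed.Agent.R269.ellp_order_const_mul_sq {g : ℂ → ℂ} {x : ℂ} {n : ℤ} {κ : ℂ}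
    (hg : MeromorphicAt g x) (ho : meromorphicOrderAt g x = n) (hκ : κ ≠ 0) :
    meromorphicOrderAt (fun s => κ * g s ^ 2) x = ((2 * n : ℤ) : WithTop ℤ) := by
  rw [fun_meromorphicOrderAt_mul (MeromorphicAt.const κ x) (hg.fun_pow 2),
    fun_meromorphicOrderAt_pow hg, ho, meromorphicOrderAt_const]
  simp only [hκ, if_false, zero_add]
  norm_cast

theorem _root_.Claimed.Agent.R269.ellp_order_const_mul_sq_nonneg {g : ℂ → ℂ} {x : ℂ} {n : ℤ} (κ : ℂ)
    (hg : MeromorphicAt g x) (ho : meromorphicOrderAt g x = n) (hn : 0 ≤ n) :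
    0 ≤ meromorphicOrderAt (fun s => κ * g s ^ 2) x := by
  by_cases hκ : κ = 0
  · have : meromorphicOrderAt (fun s => κ * g s ^ 2) x = ⊤ := by
      rw [meromorphicOrderAt_eq_top_iff]
      exact Eventually.of_forall (fun z => by simp [hκ])
    rw [this]; exact le_top
  · rw [ellp_order_const_mul_sq hg ho hκ]
    have : 0 ≤ 2 * n := by omega
    exact_mod_cast this

theorem _root_.Claimed.Agent.R269.ellp_tc_const_mul_sq {g : ℂ → ℂ} {x : ℂ} (κ : ℂ)
    (hg : MeromorphicAt g x) :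
    meromorphicTrailingCoeffAt (fun s => κ * g s ^ 2) x = κ * meromorphicTrailingCoeffAt g x ^ 2 := by
  rw [(MeromorphicAt.const κ x).meromorphicTrailingCoeffAt_fun_mul (hg.fun_pow 2),
    hg.meromorphicTrailingCoeffAt_fun_pow, meromorphicTrailingCoeffAt_const]

theorem order_logDeriv_sq {s : ℂ} (hs : E.e s ≠ 0) :
    meromorphicOrderAt (logDeriv E.A ^ 2) s = ((-2 : ℤ) : WithTop ℤ) := by
  rw [meromorphicOrderAt_pow (E.mero s).logDeriv,
    meromorphicOrderAt_logDeriv_eq_neg_one (E.mero s) ((E.e_ne_zero_iff s).1 hs) (E.order_ne_top s)]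
  rfl

theorem tc_logDeriv_sq {s : ℂ} (hs : E.e s ≠ 0) :
    meromorphicTrailingCoeffAt (logDeriv E.A ^ 2) s = 1 := by
  rw [(E.mero s).logDeriv.meromorphicTrailingCoeffAt_pow, ellp_trailing_logDeriv hs (E.order_eq s)]
  rcases E.e_cases s with h | h | h
  · exact absurd h hs
  · rw [h]; norm_num
  · rw [h]; norm_num

theorem order_inv (s : ℂ) : meromorphicOrderAt (fun s => (E.A s)⁻¹) s = ((- E.e s : ℤ) : WithTop ℤ) := by
  rw [fun_meromorphicOrderAt_inv, E.order_eq]
  norm_cast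

/-- C9: `F` has no poles. -/
theorem F_order_nonneg (s : ℂ) : 0 ≤ meromorphicOrderAt E.F s := by
  have hinv : MeromorphicAt (fun s => (E.A s)⁻¹) s := (E.mero s).fun_inv
  rcases E.e_cases s with h | h | h
  · have h0 : meromorphicOrderAt E.A s = 0 := by rw [E.order_eq, h]; rfl
    have hA : AnalyticAt ℂ E.A s :=
      (E.nf (mem_univ s)).meromorphicOrderAt_nonneg_iff_analyticAt.1 (by rw [h0])
    have hne : E.A s ≠ 0 := ((E.nf (mem_univ _)).meromorphicOrderAt_eq_zero_iff).1 h0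
    have hF : AnalyticAt ℂ E.F s := by
      unfold F
      have h1 : AnalyticAt ℂ (logDeriv E.A) s := hA.deriv.div hA hne
      have h2 : AnalyticAt ℂ (fun s => E.c₄ * E.A s ^ 2) s := analyticAt_const.mul (hA.pow 2)
      have h3 : AnalyticAt ℂ (fun s => E.c₀ * (E.A s)⁻¹ ^ 2) s :=
        analyticAt_const.mul ((hA.inv hne).pow 2)
      exact ((h1.pow 2).sub h2).sub h3
    exact hF.meromorphicOrderAt_nonneg
  · -- a zero of `A`
    have hs : E.e s ≠ 0 := by rw [h]; decide
    have hc0 : E.c₀ ≠ 0 := by rw [E.c₀_spec h]; exact pow_ne_zero 2 (E.tc_ne_zero s)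
    have hFeq : E.F = (logDeriv E.A) ^ 2 - (fun s => E.c₀ * (E.A s)⁻¹ ^ 2) -
        (fun s => E.c₄ * E.A s ^ 2) := by
      unfold F; rw [sub_right_comm]
    have key := ellp_even_cancel (f₁ := (logDeriv E.A) ^ 2) (f₂ := fun s => E.c₀ * (E.A s)⁻¹ ^ 2)
      (f₃ := fun s => E.c₄ * E.A s ^ 2) (x := s) ((E.mero s).logDeriv.pow 2)
      ((MeromorphicAt.const _ s).fun_mul (hinv.fun_pow 2))
      ((MeromorphicAt.const _ s).fun_mul ((E.mero s).fun_pow 2))
      (E.order_logDeriv_sq hs)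
      (by rw [ellp_order_const_mul_sq hinv (E.order_inv s) hc0, h]; rfl)
      (by
        rw [E.tc_logDeriv_sq hs, ellp_tc_const_mul_sq _ hinv, meromorphicTrailingCoeffAt_fun_inv,
          E.c₀_spec h]
        have := E.tc_ne_zero s
        field_simp)
      (ellp_order_const_mul_sq_nonneg _ (E.mero s) (E.order_eq s) (by rw [h]; decide))
      (by
        rw [← hFeq]
        exact Eventually.of_forall (fun z => E.F_refl hs z))
    rwa [← hFeq] at key
  · -- a pole of `A`
    have hs : E.e s ≠ 0 := by rw [h]; decide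
    have hc4 : E.c₄ ≠ 0 := by
      intro h0
      have := E.c₄_spec h
      rw [h0, zero_mul] at this
      exact zero_ne_one this
    exact ellp_even_cancel (f₁ := (logDeriv E.A) ^ 2) (f₂ := fun s => E.c₄ * E.A s ^ 2)
      (f₃ := fun s => E.c₀ * (E.A s)⁻¹ ^ 2) (x := s) ((E.mero s).logDeriv.pow 2)
      ((MeromorphicAt.const _ s).fun_mul ((E.mero s).fun_pow 2))
      ((MeromorphicAt.const _ s).fun_mul (hinv.fun_pow 2))
      (E.order_logDeriv_sq hs)
      (by rw [ellp_order_const_mul_sq (E.mero s) (E.order_eq s) hc4, h]; rfl)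
      (by rw [E.tc_logDeriv_sq hs, ellp_tc_const_mul_sq _ (E.mero s), E.c₄_spec h])
      (ellp_order_const_mul_sq_nonneg _ hinv (E.order_inv s) (by rw [h]; decide))
      (Eventually.of_forall (fun z => E.F_refl hs z))

/-- C10: the quartic differential equation. -/
theorem quartic : ∃ c₂ : ℂ, ∀ s, AnalyticAt ℂ E.A s →
    deriv E.A s ^ 2 = E.c₄ * E.A s ^ 4 + c₂ * E.A s ^ 2 + E.c₀ := by
  obtain ⟨c₂, hc₂⟩ := ellp_liouville E.F_mero E.ind (E.F_add_period E.ω₁_mem)
    (E.F_add_period E.ω₂_mem) E.F_order_nonneg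
  refine ⟨c₂, fun s hs => ?_⟩
  have h1 : ∀ᶠ z in 𝓝[≠] s, deriv E.A z ^ 2 = E.c₄ * E.A z ^ 4 + c₂ * E.A z ^ 2 + E.c₀ := by
    filter_upwards [hc₂ s, E.eventually_ne_zero s] with z hz hz0
    rw [F_apply] at hz
    field_simp at hz
    linear_combination hz
  have l1 : Tendsto (fun z => deriv E.A z ^ 2) (𝓝[≠] s) (𝓝 (deriv E.A s ^ 2)) :=
    ((hs.deriv.continuousAt.pow 2).tendsto).mono_left nhdsWithin_le_nhds
  have l2 : Tendsto (fun z => E.c₄ * E.A z ^ 4 + c₂ * E.A z ^ 2 + E.c₀) (𝓝[≠] s)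
      (𝓝 (E.c₄ * E.A s ^ 4 + c₂ * E.A s ^ 2 + E.c₀)) := by
    have hc := hs.continuousAt
    have : ContinuousAt (fun z => E.c₄ * E.A z ^ 4 + c₂ * E.A z ^ 2 + E.c₀) s := by fun_prop
    exact this.tendsto.mono_left nhdsWithin_le_nhds
  exact tendsto_nhds_unique (l1.congr' h1) l2

end EllCtx

/-! ## Reduction of an arbitrary meromorphic function to its normal form; exports -/

section reduction

variable {a : ℂ → ℂ}

theorem ellp_nf_eventuallyEq (ha : Meromorphic a) (s : ℂ) :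
    toMeromorphicNFOn a univ =ᶠ[𝓝[≠] s] a :=
  ha.meromorphicOn.toMeromorphicNFOn_eq_self_on_nhdsNE (mem_univ s)

theorem ellp_nf_period (ha : Meromorphic a) {ω s₁ : ℂ}
    (hper : ∀ᶠ s in 𝓝[≠] s₁, a (s + ω) = a s) (s : ℂ) :
    toMeromorphicNFOn a univ (s + ω) = toMeromorphicNFOn a univ s := by
  have hnf : MeromorphicNFOn (toMeromorphicNFOn a univ) univ := meromorphicNFOn_toMeromorphicNFOn a univ
  have : (fun s => toMeromorphicNFOn a univ (s + ω)) = toMeromorphicNFOn a univ := by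
    apply ellp_nf_eq (ellp_nf_add hnf ω) hnf (s₀ := s₁)
    filter_upwards [(ellp_tendsto_add s₁ ω).eventually (ellp_nf_eventuallyEq ha (s₁ + ω)),
      ellp_nf_eventuallyEq ha s₁, hper] with z hz1 hz2 hz3
    rw [hz1, hz2, hz3]
  exact congrFun this s

theorem ellp_period_of_nf (ha : Meromorphic a) {ω : ℂ}
    (hper : ∀ s, toMeromorphicNFOn a univ (s + ω) = toMeromorphicNFOn a univ s) (s₁ : ℂ) :
    ∀ᶠ s in 𝓝[≠] s₁, a (s + ω) = a s := by
  filter_upwards [(ellp_tendsto_add s₁ ω).eventually (ellp_nf_eventuallyEq ha (s₁ + ω)),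
    ellp_nf_eventuallyEq ha s₁] with z hz1 hz2
  rw [← hz1, ← hz2, hper]

theorem ellp_nf_odd (ha : Meromorphic a) {p : ℂ}
    (hodd : ∀ᶠ z in 𝓝[≠] (0 : ℂ), a (p - z) = - a (p + z)) (s : ℂ) :
    toMeromorphicNFOn a univ (2 * p - s) = - toMeromorphicNFOn a univ s := by
  have hnf : MeromorphicNFOn (toMeromorphicNFOn a univ) univ := meromorphicNFOn_toMeromorphicNFOn a univ
  have : (fun s => toMeromorphicNFOn a univ (2 * p - s)) =
      fun s => (-1 : ℂ) * toMeromorphicNFOn a univ s := by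
    apply ellp_nf_eq (ellp_nf_refl hnf (2 * p)) (ellp_nf_const_mul hnf (by norm_num)) (s₀ := p)
    have t1 := ellp_tendsto_refl (2 * p) p
    have e1 : 2 * p - p = p := by ring
    rw [e1] at t1
    have t2 := ellp_tendsto_add p (-p)
    rw [add_neg_cancel] at t2
    filter_upwards [t1.eventually (ellp_nf_eventuallyEq ha p), ellp_nf_eventuallyEq ha p,
      t2.eventually hodd] with z hz1 hz2 hz3
    have e2 : p - (z + -p) = 2 * p - z := by ring
    have e3 : p + (z + -p) = z := by ring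
    rw [e2, e3] at hz3
    rw [hz1, hz2, hz3]; ring
  have h := congrFun this s
  simpa using h

/-- **EXPORT (two periods).**  Let `a` be meromorphic on `ℂ` with two `ℝ`-independent periods (each known near one
point only).  Suppose that every zero or pole of `a` is simple and is a centre of odd symmetry, and that there is at
least one.  Then `a'² = c₄ a⁴ + c₂ a² + c₀`. -/
theorem ellper_quartic (ha : Meromorphic a) {ω₁ ω₂ : ℂ}
    (hind : LinearIndependent ℝ ![ω₁, ω₂]) {s₁ s₂ : ℂ}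
    (hper₁ : ∀ᶠ s in 𝓝[≠] s₁, a (s + ω₁) = a s) (hper₂ : ∀ᶠ s in 𝓝[≠] s₂, a (s + ω₂) = a s)
    (hc : ∀ p, meromorphicOrderAt a p ≠ 0 →
      (meromorphicOrderAt a p = 1 ∨ meromorphicOrderAt a p = -1) ∧
        ∀ᶠ z in 𝓝[≠] (0 : ℂ), a (p - z) = - a (p + z))
    {p₀ : ℂ} (hp₀ : meromorphicOrderAt a p₀ ≠ 0) :
    ∃ c₀ c₂ c₄ : ℂ, ∀ s, AnalyticAt ℂ a s →
      deriv a s ^ 2 = c₄ * a s ^ 4 + c₂ * a s ^ 2 + c₀ := by
  have hord : ∀ s, meromorphicOrderAt (toMeromorphicNFOn a univ) s = meromorphicOrderAt a s :=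
    fun s => meromorphicOrderAt_toMeromorphicNFOn ha.meromorphicOn (mem_univ s)
  let E : EllCtx :=
    { A := toMeromorphicNFOn a univ
      nf := meromorphicNFOn_toMeromorphicNFOn a univ
      ω₁ := ω₁
      ω₂ := ω₂
      ind := hind
      per₁ := ellp_nf_period ha hper₁
      per₂ := ellp_nf_period ha hper₂
      simple := fun p hp => by
        rw [hord] at hp ⊢
        exact (hc p hp).1
      odd := fun p hp => by
        rw [hord] at hp
        exact ellp_nf_odd ha (hc p hp).2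
      p₀ := p₀
      hp₀ := by rw [hord]; exact hp₀ }
  obtain ⟨c₂, h⟩ := E.quartic
  refine ⟨E.c₀, c₂, E.c₄, fun s hs => ?_⟩
  have heq : a =ᶠ[𝓝 s] E.A :=
    (hs.meromorphicNFAt.eventuallyEq_nhdsNE_iff_eventuallyEq_nhds (E.nf (mem_univ s))).1
      (ellp_nf_eventuallyEq ha s).symm
  have hA : AnalyticAt ℂ E.A s := hs.congr heq
  rw [heq.deriv_eq, heq.eq_of_nhds]
  exact h s hA

/-- **EXPORT (one period, two centres).** -/
theorem ellper_quartic_of_centres (ha : Meromorphic a) {ω s₁ : ℂ}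
    (hper : ∀ᶠ s in 𝓝[≠] s₁, a (s + ω) = a s)
    (hc : ∀ p, meromorphicOrderAt a p ≠ 0 →
      (meromorphicOrderAt a p = 1 ∨ meromorphicOrderAt a p = -1) ∧
        ∀ᶠ z in 𝓝[≠] (0 : ℂ), a (p - z) = - a (p + z))
    {p p' : ℂ} (hp : meromorphicOrderAt a p ≠ 0) (hp' : meromorphicOrderAt a p' ≠ 0)
    (hind : LinearIndependent ℝ ![ω, p' - p]) :
    ∃ c₀ c₂ c₄ : ℂ, ∀ s, AnalyticAt ℂ a s →
      deriv a s ^ 2 = c₄ * a s ^ 4 + c₂ * a s ^ 2 + c₀ := by
  have hper₂ : ∀ s, toMeromorphicNFOn a univ (s + 2 * (p' - p)) = toMeromorphicNFOn a univ s := by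
    intro s
    have h1 := ellp_nf_odd ha (hc p' hp').2 (2 * p - s)
    have h2 := ellp_nf_odd ha (hc p hp).2 s
    have e1 : s + 2 * (p' - p) = 2 * p' - (2 * p - s) := by ring
    rw [e1, h1, h2, neg_neg]
  have hind' : LinearIndependent ℝ ![ω, 2 * (p' - p)] := by
    rw [LinearIndependent.pair_iff] at hind ⊢
    intro x y hxy
    have := hind x (2 * y) (by
      rw [← hxy]
      simp only [real_smul]
      push_cast
      ring)
    exact ⟨this.1, by linarith [this.2]⟩
  exact ellper_quartic ha hind' hper (ellp_period_of_nf ha hper₂ 0) hc hp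

/-- **EXPORT (a real period, two centres at different heights)**: the form used for Theorem 5.3. -/
theorem ellper_quartic_real (ha : Meromorphic a) {T : ℝ} (hT : T ≠ 0) {s₁ : ℂ}
    (hper : ∀ᶠ s in 𝓝[≠] s₁, a (s + T) = a s)
    (hc : ∀ p, meromorphicOrderAt a p ≠ 0 →
      (meromorphicOrderAt a p = 1 ∨ meromorphicOrderAt a p = -1) ∧
        ∀ᶠ z in 𝓝[≠] (0 : ℂ), a (p - z) = - a (p + z))
    {p p' : ℂ} (hp : meromorphicOrderAt a p ≠ 0) (hp' : meromorphicOrderAt a p' ≠ 0)
    (him : p.im ≠ p'.im) :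
    ∃ c₀ c₂ c₄ : ℂ, ∀ s, AnalyticAt ℂ a s →
      deriv a s ^ 2 = c₄ * a s ^ 4 + c₂ * a s ^ 2 + c₀ := by
  refine ellper_quartic_of_centres ha hper hc hp hp' ?_
  rw [LinearIndependent.pair_iff]
  intro x y hxy
  have him' := congrArg Complex.im hxy
  have hre' := congrArg Complex.re hxy
  simp at him' hre'
  have hy : y = 0 := by
    rcases him' with h | h
    · exact h
    · exact absurd (by linarith) him
  subst hy
  simp at hre'
  exact ⟨by tauto, rfl⟩

end reduction

end Claimed.Agent.R269
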