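/-
Row 269, library HolDyn (HOST-FREE: Mathlib + R269/Lib only).   Statements: helper34 (BP-S10b-contact).

Tools for P1 Theorem 10.3 (boundary contact):
* `hd_lipschitz`, `hd_ode_exists`, `hd_ode_unique` : the nonlinear holomorphic ODE `u' = g(u)` on a disc of EXPLICIT radius   [LEAF LF-HD-ode]
* `hd_ift`, `hd_chain`                              : implicit functions with a uniqueness neighbourhood, chains of them     [LEAF LF-HD-chain]
* `hdF`, `hd_iter`                                  : crude bounds for the iterates of `(u,v) ↦ (u + v a, v + v² c)`           [LEAF LF-HD-iter]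
* `hdTz`, `hdSteep`, `hdW`, `hd_glue`               : gluing of the iterates over a trapezoid                                   [LEAF LF-HD-glue]

PLANS.
(ode)  `hd_lipschitz`: for `x ∈ ball x₀ (ρ/2)` and a vector `v ≠ 0` the function `ζ ↦ g (x + ζ v)` is holomorphic and bounded by `M` on `|ζ| < ρ/(2‖v‖)`;
       Cauchy (`Complex.norm_deriv_le_of_forall_mem_sphere_norm_le` on radii `R' < ρ/(2‖v‖)`, then `R' → `) gives `‖fderiv ℂ g x v‖ ≤ (2M/ρ)‖v‖`;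
       mean value inequality on the convex ball (`Convex.norm_image_sub_le_of_norm_fderiv_le`).
       `hd_ode_exists`: `r = ρ/(4M)`, `u₀ = const x₀`, `u_{k+1} = x₀ +` the primitive of `g ∘ u_k` vanishing at `y₀` (`ca_exists_primitive_E`, Lib/CAOde.lean; the ball is convex).
       Induction: `u_k` holomorphic on `ball y₀ r`, `‖u_k - x₀‖ ≤ M‖y - y₀‖ < ρ/4`, `‖u_{k+1} - u_k‖ ≤ 2^{-k} ρ/4` (primitive of a function bounded by `c` is bounded by `c r`: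
       mean value inequality along the segment; Lipschitz constant `2M/ρ`, `r · 2M/ρ = 1/2`).  Uniform Cauchy ⇒ uniform limit `u`;
       `TendstoLocallyUniformlyOn.differentiableOn` and `TendstoLocallyUniformlyOn.deriv`: `u' = lim u_{k+1}' = lim g ∘ u_k = g ∘ u`.
       `hd_ode_unique`: along the segment `τ ↦ y₀ + τ (y - y₀)` the difference `d` satisfies `‖d'‖ ≤ ‖y - y₀‖ (2M/ρ) ‖d‖`, `d 0 = 0`: Gronwall
       (`norm_le_gronwallBound_of_norm_deriv_right_le`) or `ODE_solution_unique_of_mem_Icc_right`.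
(chain) `hd_ift`: `Φ (p,c) = (p, F (p,c))` has an invertible derivative at `(p₀,c₀)`; `ContDiffAt.toOpenPartialHomeomorph` / `HasStrictFDerivAt.toOpenPartialHomeomorph`: `Φ` is injective on a neighbourhood `N`;
       `τ p := (Φ⁻¹ (p,0)).2` is analytic (pattern: proof of `SCV.exists_eq_mul_of_vanishing` in Lib/SCVa.lean: `ContDiffAt ℂ ⊤ … .to_localInverse … .analyticAt`);
       for `(p,c)` and `(p, τ p)` both in `N` with `F = 0`: same image under `Φ`.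
       `hd_chain`: induction on `n`; `R₀ = id`, `R_{n+1} z = ((R_n z).2, τ_n (R_n z))`; `R_n (a 0, a 1) = (a n, a (n+1))` (take `σ = a`), so the composition is analytic; `δ` = minimum.
(iter) induction on `k`: `‖v_k‖ ≤ ‖v₀‖ (1 + 2C‖v₀‖)^k ≤ ‖v₀‖ exp (2 C k ‖v₀‖) ≤ ‖v₀‖ exp (1/2) ≤ 2‖v₀‖`, `‖u_{k+1} - u_k‖ ≤ A ‖v_k‖`.
(glue) `β = κ (t - t₀)`, `L = {y ∈ hdTz : y.im < y₂.im - 2η}` (convex).  `W_k = {z ∈ hdW : z.1 - k β ∈ L}` is open, `G_k z = (hdF a c)^[k] (G (z.1 - k β, z.2))` is holomorphic on `W_k` (induction, `hstay`).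
       `|Re β| ≤ ‖β‖ < 3 Im β`, so `y ↦ y - β` preserves `|Re y - Re y₂| + 3 (Im y - Im y₂) < 8η`; `0 < Im β < η`.  Cover: `k` = least with `Im (y - kβ) < Im y₂ - 2η`; then `k Im β < 5η`, `k ‖β‖ < 15η`.
       Coherence on `W_j ∩ W_k`, `j < k`: the points `y - iβ`, `j ≤ i ≤ k`, lie in `L` (convexity), `hret` gives `(hdF a c)^[k-j] (G (y - kβ,t)) = G (y - jβ,t)`.
       `Gt z := G_k z` for a chosen `k` (`Classical.choose` or `Nat.find`).
-/
import Claimed.Agent.R269.Lib.SCVb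
import Claimed.Agent.R269.Lib.CA1
import Claimed.Agent.R269.Lib.CAOde
import Claimed.Agent.R269.Lib.CAOdeNL

set_option autoImplicit false

namespace Claimed.Agent.R269

open Complex Filter Topology Set Metric

/-! ## LEAF LF-HD-ode -/

section Ode

variable {E : Type*} [NormedAddCommGroup E] [NormedSpace ℂ E]

/-- a bounded holomorphic map on a ball is Lipschitz on the ball of half the radius. -/
theorem hd_lipschitz {g : E → E} {x₀ : E} {ρ M : ℝ} (hρ : 0 < ρ)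
    (hg : DifferentiableOn ℂ g (ball x₀ ρ)) (hb : ∀ x ∈ ball x₀ ρ, ‖g x‖ ≤ M) :
    ∀ x ∈ ball x₀ (ρ / 2), ∀ x' ∈ ball x₀ (ρ / 2), ‖g x - g x'‖ ≤ 2 * M / ρ * ‖x - x'‖ :=
  ca_lipschitz_half hρ hg hb

/-- **holomorphic Picard-Lindelöf** with an explicit radius. -/
theorem hd_ode_exists [CompleteSpace E] {g : E → E} {x₀ : E} {ρ M : ℝ} (hρ : 0 < ρ) (hM : 0 < M)
    (hg : DifferentiableOn ℂ g (ball x₀ ρ)) (hb : ∀ x ∈ ball x₀ ρ, ‖g x‖ ≤ M) (y₀ : ℂ) :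
    ∃ u : ℂ → E, u y₀ = x₀ ∧
      ∀ y ∈ ball y₀ (ρ / (4 * M)), u y ∈ ball x₀ (ρ / 2) ∧ HasDerivAt u (g (u y)) y :=
  ca_odenl_exists hρ hM hg hb y₀

/-- uniqueness on convex sets. -/
theorem hd_ode_unique {g : E → E} {x₀ : E} {ρ M : ℝ} (hρ : 0 < ρ)
    (hg : DifferentiableOn ℂ g (ball x₀ ρ)) (hb : ∀ x ∈ ball x₀ ρ, ‖g x‖ ≤ M) {U : Set ℂ}
    (hc : Convex ℝ U) {y₀ : ℂ} (hy₀ : y₀ ∈ U) {u v : ℂ → E}
    (hu : ∀ y ∈ U, u y ∈ ball x₀ (ρ / 2) ∧ HasDerivAt u (g (u y)) y)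
    (hv : ∀ y ∈ U, v y ∈ ball x₀ (ρ / 2) ∧ HasDerivAt v (g (v y)) y) (h0 : u y₀ = v y₀) :
    EqOn u v U :=
  ca_odenl_unique hρ hg hb hc hy₀ hu hv h0

end Ode

/-! ## LEAF LF-HD-chain -/

/-- implicit function with a uniqueness neighbourhood. -/
theorem hd_ift {F : (ℂ × ℂ) × ℂ → ℂ} {p₀ : ℂ × ℂ} {c₀ : ℂ} (hF : AnalyticAt ℂ F (p₀, c₀))
    (h0 : F (p₀, c₀) = 0) (hd : deriv (fun c => F (p₀, c)) c₀ ≠ 0) :
    ∃ (τ : ℂ × ℂ → ℂ) (δ : ℝ), 0 < δ ∧ AnalyticAt ℂ τ p₀ ∧ τ p₀ = c₀ ∧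
      ∀ p ∈ ball p₀ δ, ∀ c ∈ ball c₀ δ, F (p, c) = 0 → c = τ p := by
  have hcd : ContDiffAt ℂ ⊤ F (p₀, c₀) := hF.contDiffAt
  have hn : (⊤ : WithTop ℕ∞) ≠ 0 := by simp
  set d : ℂ := deriv (fun c => F (p₀, c)) c₀ with hdd
  have hA1 : (fderiv ℂ F (p₀, c₀) ∘L ContinuousLinearMap.inr ℂ (ℂ × ℂ) ℂ) 1 = d := by
    have h1 : HasFDerivAt F (fderiv ℂ F (p₀, c₀)) (p₀, c₀) := hF.differentiableAt.hasFDerivAt
    have h2 : HasDerivAt (fun c : ℂ => (p₀, c)) ((0 : ℂ × ℂ), (1 : ℂ)) c₀ :=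
      (hasDerivAt_const c₀ p₀).prodMk (hasDerivAt_id c₀)
    have h3 : HasDerivAt (fun c : ℂ => F (p₀, c)) (fderiv ℂ F (p₀, c₀) ((0 : ℂ × ℂ), (1 : ℂ))) c₀ :=
      h1.comp_hasDerivAt c₀ h2
    rw [hdd, h3.deriv]
    simp
  have hA : ∀ x : ℂ, (fderiv ℂ F (p₀, c₀) ∘L ContinuousLinearMap.inr ℂ (ℂ × ℂ) ℂ) x = x * d := by
    intro x
    have : x = x • (1 : ℂ) := by simp
    conv_lhs => rw [this]
    rw [map_smul, hA1, smul_eq_mul]
  have hinv : (fderiv ℂ F (p₀, c₀) ∘L ContinuousLinearMap.inr ℂ (ℂ × ℂ) ℂ).IsInvertible := by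
    refine ⟨ContinuousLinearEquiv.equivOfInverse
      (fderiv ℂ F (p₀, c₀) ∘L ContinuousLinearMap.inr ℂ (ℂ × ℂ) ℂ)
      (d⁻¹ • ContinuousLinearMap.id ℂ ℂ) ?_ ?_, ?_⟩
    · intro x
      rw [hA]
      simp only [smul_apply, ContinuousLinearMap.id_apply, smul_eq_mul]
      field_simp
    · intro x
      rw [hA]
      simp only [smul_apply, ContinuousLinearMap.id_apply, smul_eq_mul]
      field_simp
    · ext
      rfl
  have hev := hcd.eventually_apply_eq_iff_implicitFunction hn hinv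
  obtain ⟨δ, hδ, hball⟩ := Metric.eventually_nhds_iff_ball.mp hev
  refine ⟨hcd.implicitFunction hn hinv, δ, hδ, (hcd.contDiffAt_implicitFunction hn hinv).analyticAt,
    hcd.implicitFunction_apply_self hn hinv, ?_⟩
  intro p hp c hc' hz
  have hm : (p, c) ∈ ball (p₀, c₀) δ := by
    rw [← ball_prod_same]
    exact ⟨hp, hc'⟩
  exact ((hball (p, c) hm).mp (by rw [hz, h0])).symm

/-- a chain of `n` three-term relations, solved for the last two terms as a function of the first two. -/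
theorem hd_chain (rel : ℂ → ℂ → ℂ → ℂ) (n : ℕ) (a : ℕ → ℂ)
    (han : ∀ j < n, AnalyticAt ℂ (fun p : (ℂ × ℂ) × ℂ => rel p.1.1 p.1.2 p.2)
      ((a j, a (j + 1)), a (j + 2)))
    (h0 : ∀ j < n, rel (a j) (a (j + 1)) (a (j + 2)) = 0)
    (hd : ∀ j < n, deriv (fun c => rel (a j) (a (j + 1)) c) (a (j + 2)) ≠ 0) :
    ∃ (Rn : ℂ × ℂ → ℂ × ℂ) (δ : ℝ), 0 < δ ∧ AnalyticAt ℂ Rn (a 0, a 1) ∧
      ∀ σ : ℕ → ℂ, (∀ j ≤ n + 1, σ j ∈ ball (a j) δ) →
        (∀ j < n, rel (σ j) (σ (j + 1)) (σ (j + 2)) = 0) → Rn (σ 0, σ 1) = (σ n, σ (n + 1)) := by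
  induction n with
  | zero =>
    refine ⟨id, 1, one_pos, analyticAt_id, ?_⟩
    intro σ _ _
    rfl
  | succ n ih =>
    obtain ⟨Rn, δ, hδ, hRn, hprop⟩ := ih (fun j hj => han j (by omega)) (fun j hj => h0 j (by omega))
      (fun j hj => hd j (by omega))
    obtain ⟨τ, δ', hδ', hτ, hτ0, huniq⟩ := hd_ift (F := fun p : (ℂ × ℂ) × ℂ => rel p.1.1 p.1.2 p.2)
      (p₀ := (a n, a (n + 1))) (c₀ := a (n + 2)) (han n (by omega)) (h0 n (by omega)) (hd n (by omega))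
    have hbase : Rn (a 0, a 1) = (a n, a (n + 1)) :=
      hprop a (fun j _ => mem_ball_self hδ) (fun j hj => h0 j (by omega))
    refine ⟨fun z => ((Rn z).2, τ (Rn z)), min δ δ', lt_min hδ hδ', ?_, ?_⟩
    · refine AnalyticAt.prod (analyticAt_snd.comp hRn) ?_
      refine AnalyticAt.comp (g := τ) (f := Rn) ?_ hRn
      rw [hbase]
      exact hτ
    · intro σ hσ hrel
      have h1 : Rn (σ 0, σ 1) = (σ n, σ (n + 1)) :=
        hprop σ (fun j hj => ball_subset_ball (min_le_left _ _) (hσ j (by omega)))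
          (fun j hj => hrel j (by omega))
      have h2 : σ (n + 2) = τ (σ n, σ (n + 1)) := by
        refine huniq (σ n, σ (n + 1)) ?_ (σ (n + 2)) ?_ (hrel n (by omega))
        · rw [← ball_prod_same]
          exact ⟨ball_subset_ball (min_le_right _ _) (hσ n (by omega)),
            ball_subset_ball (min_le_right _ _) (hσ (n + 1) (by omega))⟩
        · exact ball_subset_ball (min_le_right _ _) (hσ (n + 2) (by omega))
      show ((Rn (σ 0, σ 1)).2, τ (Rn (σ 0, σ 1))) = (σ (n + 1), σ (n + 1 + 1))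
      rw [h1, ← h2]

/-! ## LEAF LF-HD-iter -/

/-- the normal form of a map fixing the curve `v = 0` with unipotent linearisation. -/
def hdF (a c : ℂ × ℂ → ℂ) (w : ℂ × ℂ) : ℂ × ℂ := (w.1 + w.2 * a w, w.2 + w.2 ^ 2 * c w)

/-- crude control of `K ≲ 1/‖v₀‖` iterates. -/
theorem hd_iter {a c : ℂ × ℂ → ℂ} {u₂ : ℂ} {ε₂ A C : ℝ} (hA : 0 ≤ A) (hC : 0 ≤ C)
    (ha : ∀ w ∈ ball u₂ ε₂ ×ˢ ball (0 : ℂ) ε₂, ‖a w‖ ≤ A)
    (hc : ∀ w ∈ ball u₂ ε₂ ×ˢ ball (0 : ℂ) ε₂, ‖c w‖ ≤ C) (w₀ : ℂ × ℂ) (K : ℕ)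
    (h1 : ‖w₀.1 - u₂‖ + 2 * A * K * ‖w₀.2‖ < ε₂) (h2 : 2 * ‖w₀.2‖ < ε₂)
    (h3 : 2 * C * K * ‖w₀.2‖ ≤ 1 / 2) :
    ∀ k ≤ K, (hdF a c)^[k] w₀ ∈ ball u₂ ε₂ ×ˢ ball (0 : ℂ) ε₂ ∧
      ‖((hdF a c)^[k] w₀).2‖ ≤ 2 * ‖w₀.2‖ ∧ ‖((hdF a c)^[k] w₀).1 - w₀.1‖ ≤ 2 * A * k * ‖w₀.2‖ := by
  set v0 : ℝ := ‖w₀.2‖ with hv0
  have hv0n : 0 ≤ v0 := norm_nonneg _
  have hexp : Real.exp (1 / 2) ≤ 2 := by
    have h4 : Real.exp (1 / 2) * Real.exp (1 / 2) < 4 := by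
      rw [← Real.exp_add]
      norm_num
      linarith [Real.exp_one_lt_d9]
    nlinarith [Real.exp_pos (1 / 2 : ℝ)]
  have hpow : ∀ k ≤ K, v0 * (1 + 2 * C * v0) ^ k ≤ 2 * v0 := by
    intro k hk
    have h5 : (1 + 2 * C * v0) ^ k ≤ 2 := by
      have h6 : (1 + 2 * C * v0) ≤ Real.exp (2 * C * v0) := by
        linarith [Real.add_one_le_exp (2 * C * v0)]
      have h7 : (1 + 2 * C * v0) ^ k ≤ Real.exp (2 * C * v0) ^ k :=
        pow_le_pow_left₀ (by positivity) h6 k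
      have h8 : Real.exp (2 * C * v0) ^ k = Real.exp (k * (2 * C * v0)) := by
        rw [← Real.exp_nat_mul]
      have h9 : (k : ℝ) * (2 * C * v0) ≤ 1 / 2 := by
        have hkK : (k : ℝ) ≤ K := by exact_mod_cast hk
        have : (k : ℝ) * (2 * C * v0) ≤ K * (2 * C * v0) :=
          mul_le_mul_of_nonneg_right hkK (by positivity)
        nlinarith
      calc (1 + 2 * C * v0) ^ k ≤ Real.exp (k * (2 * C * v0)) := by rw [← h8]; exact h7
        _ ≤ Real.exp (1 / 2) := Real.exp_le_exp.mpr h9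
        _ ≤ 2 := hexp
    nlinarith
  have key : ∀ k ≤ K, (hdF a c)^[k] w₀ ∈ ball u₂ ε₂ ×ˢ ball (0 : ℂ) ε₂ ∧
      ‖((hdF a c)^[k] w₀).2‖ ≤ v0 * (1 + 2 * C * v0) ^ k ∧
      ‖((hdF a c)^[k] w₀).1 - w₀.1‖ ≤ 2 * A * k * v0 := by
    intro k
    induction k with
    | zero =>
      intro _
      refine ⟨⟨?_, ?_⟩, ?_, ?_⟩
      · rw [Function.iterate_zero, id, mem_ball, dist_eq_norm]
        have : 0 ≤ 2 * A * K * v0 := by positivity
        linarith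
      · rw [Function.iterate_zero, id, mem_ball, dist_eq_norm, sub_zero]
        linarith
      · simp [hv0]
      · simp
    | succ k ih =>
      intro hk
      obtain ⟨hmem, hv, hu⟩ := ih (by omega)
      have hv2 : ‖((hdF a c)^[k] w₀).2‖ ≤ 2 * v0 := hv.trans (hpow k (by omega))
      have hak := ha _ hmem
      have hck := hc _ hmem
      set w := (hdF a c)^[k] w₀ with hw
      have hS : (hdF a c)^[k + 1] w₀ = (w.1 + w.2 * a w, w.2 + w.2 ^ 2 * c w) := by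
        rw [Function.iterate_succ_apply']
        rfl
      have hvS : ‖w.2 + w.2 ^ 2 * c w‖ ≤ v0 * (1 + 2 * C * v0) ^ (k + 1) := by
        have h10 : ‖w.2 + w.2 ^ 2 * c w‖ ≤ ‖w.2‖ * (1 + ‖w.2‖ * ‖c w‖) := by
          calc ‖w.2 + w.2 ^ 2 * c w‖ ≤ ‖w.2‖ + ‖w.2 ^ 2 * c w‖ := norm_add_le _ _
            _ = ‖w.2‖ * (1 + ‖w.2‖ * ‖c w‖) := by rw [norm_mul, norm_pow]; ring
        have h11 : ‖w.2‖ * ‖c w‖ ≤ 2 * v0 * C :=
          mul_le_mul hv2 hck (norm_nonneg _) (by positivity)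
        calc ‖w.2 + w.2 ^ 2 * c w‖ ≤ ‖w.2‖ * (1 + ‖w.2‖ * ‖c w‖) := h10
          _ ≤ (v0 * (1 + 2 * C * v0) ^ k) * (1 + 2 * C * v0) :=
            mul_le_mul hv (by linarith) (by positivity) (by positivity)
          _ = v0 * (1 + 2 * C * v0) ^ (k + 1) := by ring
      have huS : ‖w.1 + w.2 * a w - w₀.1‖ ≤ 2 * A * ((k + 1 : ℕ) : ℝ) * v0 := by
        have h12 : ‖w.2 * a w‖ ≤ 2 * v0 * A := by
          rw [norm_mul]
          exact mul_le_mul hv2 hak (norm_nonneg _) (by positivity)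
        calc ‖w.1 + w.2 * a w - w₀.1‖ = ‖(w.1 - w₀.1) + w.2 * a w‖ := by congr 1; ring
          _ ≤ ‖w.1 - w₀.1‖ + ‖w.2 * a w‖ := norm_add_le _ _
          _ ≤ 2 * A * k * v0 + 2 * v0 * A := add_le_add hu h12
          _ = 2 * A * ((k + 1 : ℕ) : ℝ) * v0 := by push_cast; ring
      rw [hS]
      refine ⟨⟨?_, ?_⟩, hvS, huS⟩
      · show w.1 + w.2 * a w ∈ ball u₂ ε₂
        rw [mem_ball, dist_eq_norm]
        have h13 : ‖w.1 + w.2 * a w - u₂‖ ≤ ‖w.1 + w.2 * a w - w₀.1‖ + ‖w₀.1 - u₂‖ := by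
          have : w.1 + w.2 * a w - u₂ = (w.1 + w.2 * a w - w₀.1) + (w₀.1 - u₂) := by ring
          rw [this]
          exact norm_add_le _ _
        have h14 : 2 * A * ((k + 1 : ℕ) : ℝ) * v0 ≤ 2 * A * K * v0 := by
          have hkK : ((k + 1 : ℕ) : ℝ) ≤ K := by exact_mod_cast hk
          have : 2 * A * ((k + 1 : ℕ) : ℝ) ≤ 2 * A * K := mul_le_mul_of_nonneg_left hkK (by positivity)
          exact mul_le_mul_of_nonneg_right this hv0n
        linarith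
      · show w.2 + w.2 ^ 2 * c w ∈ ball (0 : ℂ) ε₂
        rw [mem_ball, dist_eq_norm, sub_zero]
        have := hpow (k + 1) hk
        linarith
  intro k hk
  obtain ⟨h1', h2', h3'⟩ := key k hk
  exact ⟨h1', h2'.trans (hpow k hk), h3'⟩

/-! ## LEAF LF-HD-glue -/

/-- the trapezoid about the wall point `y₂`: heights `(-3η, 2η)`, narrowing upwards with slope `3`. -/
def hdTz (y₂ : ℂ) (η : ℝ) : Set ℂ :=
  {y | y₂.im - 3 * η < y.im ∧ y.im < y₂.im + 2 * η ∧ |y.re - y₂.re| + 3 * (y.im - y₂.im) < 8 * η}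

/-- the upper steep sector at `t₀`. -/
def hdSteep (t₀ : ℂ) (r : ℝ) : Set ℂ := {t | ‖t - t₀‖ < r ∧ ‖t - t₀‖ < 3 * (t - t₀).im}

/-- trapezoid times steep sector. -/
def hdW (y₂ t₀ : ℂ) (η r : ℝ) : Set (ℂ × ℂ) := {z | z.1 ∈ hdTz y₂ η ∧ z.2 ∈ hdSteep t₀ r}

theorem hd_glue {a c : ℂ × ℂ → ℂ} {Δ : Set (ℂ × ℂ)} (hΔ : IsOpen Δ) (ha : DifferentiableOn ℂ a Δ)
    (hc : DifferentiableOn ℂ c Δ) {y₂ t₀ : ℂ} {κ η r : ℝ} (hκ : 0 < κ) (hη : 0 < η) (hr : κ * r < η)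
    {O₁ : Set (ℂ × ℂ)} (hO₁ : IsOpen O₁) {G : ℂ × ℂ → ℂ × ℂ} (hG : DifferentiableOn ℂ G O₁)
    (hlow : ∀ z ∈ hdW y₂ t₀ η r, z.1.im < y₂.im - 2 * η → z ∈ O₁)
    (hret : ∀ z ∈ O₁, (z.1 + κ * (z.2 - t₀), z.2) ∈ O₁ → G z ∈ Δ →
      hdF a c (G z) = G (z.1 + κ * (z.2 - t₀), z.2))
    (hstay : ∀ z ∈ hdW y₂ t₀ η r, z.1.im < y₂.im - 2 * η → ∀ k : ℕ,
      (k : ℝ) * (κ * ‖z.2 - t₀‖) < 15 * η → (hdF a c)^[k] (G z) ∈ Δ) :
    ∃ Gt : ℂ × ℂ → ℂ × ℂ, DifferentiableOn ℂ Gt (hdW y₂ t₀ η r) ∧ (∀ z ∈ hdW y₂ t₀ η r, Gt z ∈ Δ) ∧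
      ∀ z ∈ hdW y₂ t₀ η r, z.1.im < y₂.im - 2 * η → Gt z = G z := by
  classical
  -- the shifted point and the pieces
  let S : ℕ → ℂ × ℂ → ℂ × ℂ := fun k z => (z.1 - k * (κ * (z.2 - t₀)), z.2)
  let W : ℕ → Set (ℂ × ℂ) := fun k =>
    {z | z ∈ hdW y₂ t₀ η r ∧ y₂.im - 3 * η < (S k z).1.im ∧ (S k z).1.im < y₂.im - 2 * η}
  let Gk : ℕ → ℂ × ℂ → ℂ × ℂ := fun k z => (hdF a c)^[k] (G (S k z))
  have hSim : ∀ k z, (S k z).1.im = z.1.im - k * (κ * (z.2 - t₀).im) := by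
    intro k z
    simp [S]
  have hSre : ∀ k z, (S k z).1.re = z.1.re - k * (κ * (z.2 - t₀).re) := by
    intro k z
    simp [S]
  have hS2 : ∀ k z, (S k z).2 = z.2 := fun _ _ => rfl
  -- elementary facts on the step
  have hstep : ∀ z ∈ hdW y₂ t₀ η r, 0 < κ * (z.2 - t₀).im ∧ κ * (z.2 - t₀).im < η ∧
      κ * |(z.2 - t₀).re| ≤ 3 * (κ * (z.2 - t₀).im) ∧ κ * ‖z.2 - t₀‖ ≤ 3 * (κ * (z.2 - t₀).im) := by
    intro z hz
    obtain ⟨h1, h2⟩ := hz.2
    have h3 : 0 < (z.2 - t₀).im := by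
      have := norm_nonneg (z.2 - t₀)
      linarith
    have h4 : (z.2 - t₀).im ≤ ‖z.2 - t₀‖ := (le_abs_self _).trans (Complex.abs_im_le_norm _)
    have h5 : |(z.2 - t₀).re| ≤ ‖z.2 - t₀‖ := Complex.abs_re_le_norm _
    refine ⟨mul_pos hκ h3, ?_, ?_, ?_⟩
    · have : κ * (z.2 - t₀).im ≤ κ * r := mul_le_mul_of_nonneg_left (by linarith) hκ.le
      linarith
    · have : κ * |(z.2 - t₀).re| ≤ κ * (3 * (z.2 - t₀).im) :=
        mul_le_mul_of_nonneg_left (by linarith) hκ.le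
      linarith
    · have : κ * ‖z.2 - t₀‖ ≤ κ * (3 * (z.2 - t₀).im) :=
        mul_le_mul_of_nonneg_left (by linarith) hκ.le
      linarith
  -- the shifted point of a point of `W k` is a low point of `hdW`
  have hSW : ∀ k, ∀ z ∈ W k, S k z ∈ hdW y₂ t₀ η r := by
    intro k z hz
    obtain ⟨hzW, hlo, hup⟩ := hz
    obtain ⟨s1, s2, s3, s4⟩ := hstep z hzW
    obtain ⟨t1, t2, t3⟩ := hzW.1
    have hk0 : (0 : ℝ) ≤ k := Nat.cast_nonneg k
    refine ⟨⟨hlo, by linarith, ?_⟩, hzW.2⟩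
    rw [hSim, hSre]
    have e1 : |z.1.re - k * (κ * (z.2 - t₀).re) - y₂.re| ≤ |z.1.re - y₂.re| + k * (κ * |(z.2 - t₀).re|) := by
      have : z.1.re - k * (κ * (z.2 - t₀).re) - y₂.re = (z.1.re - y₂.re) - k * (κ * (z.2 - t₀).re) := by ring
      rw [this]
      refine (abs_sub _ _).trans ?_
      rw [abs_mul, abs_mul, abs_of_nonneg hk0, abs_of_pos hκ]
    have e2 : (k : ℝ) * (κ * |(z.2 - t₀).re|) ≤ k * (3 * (κ * (z.2 - t₀).im)) :=
      mul_le_mul_of_nonneg_left s3 hk0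
    linarith
  have hk15 : ∀ k, ∀ z ∈ W k, ∀ i ≤ k, (i : ℝ) * (κ * ‖(S k z).2 - t₀‖) < 15 * η := by
    intro k z hz i hi
    obtain ⟨hzW, hlo, hup⟩ := hz
    obtain ⟨s1, s2, s3, s4⟩ := hstep z hzW
    obtain ⟨t1, t2, t3⟩ := hzW.1
    rw [hSim] at hlo
    rw [hS2]
    have hik : (i : ℝ) ≤ k := by exact_mod_cast hi
    have hk0 : (0 : ℝ) ≤ k := Nat.cast_nonneg k
    have e1 : (i : ℝ) * (κ * ‖z.2 - t₀‖) ≤ k * (κ * ‖z.2 - t₀‖) :=
      mul_le_mul_of_nonneg_right hik (by positivity)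
    have e2 : (k : ℝ) * (κ * ‖z.2 - t₀‖) ≤ k * (3 * (κ * (z.2 - t₀).im)) :=
      mul_le_mul_of_nonneg_left s4 hk0
    linarith
  have hSO : ∀ k, ∀ z ∈ W k, S k z ∈ O₁ := fun k z hz => hlow _ (hSW k z hz) hz.2.2
  have hΔk : ∀ k, ∀ z ∈ W k, ∀ i ≤ k, (hdF a c)^[i] (G (S k z)) ∈ Δ := fun k z hz i hi =>
    hstay _ (hSW k z hz) hz.2.2 i (hk15 k z hz i hi)
  -- openness
  have hWopen : ∀ k, IsOpen (W k) := by
    intro k
    have hSc : Continuous (S k) := by fun_prop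
    have o1 : IsOpen {z : ℂ × ℂ | y₂.im - 3 * η < z.1.im} := isOpen_lt (by fun_prop) (by fun_prop)
    have o2 : IsOpen {z : ℂ × ℂ | z.1.im < y₂.im + 2 * η} := isOpen_lt (by fun_prop) (by fun_prop)
    have o3 : IsOpen {z : ℂ × ℂ | |z.1.re - y₂.re| + 3 * (z.1.im - y₂.im) < 8 * η} :=
      isOpen_lt (by fun_prop) (by fun_prop)
    have o4 : IsOpen {z : ℂ × ℂ | ‖z.2 - t₀‖ < r} := isOpen_lt (by fun_prop) (by fun_prop)
    have o5 : IsOpen {z : ℂ × ℂ | ‖z.2 - t₀‖ < 3 * (z.2 - t₀).im} := isOpen_lt (by fun_prop) (by fun_prop)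
    have o6 : IsOpen {z : ℂ × ℂ | y₂.im - 3 * η < (S k z).1.im} := isOpen_lt (by fun_prop) (by fun_prop)
    have o7 : IsOpen {z : ℂ × ℂ | (S k z).1.im < y₂.im - 2 * η} := isOpen_lt (by fun_prop) (by fun_prop)
    have : W k = (({z : ℂ × ℂ | y₂.im - 3 * η < z.1.im} ∩ ({z : ℂ × ℂ | z.1.im < y₂.im + 2 * η} ∩
        {z : ℂ × ℂ | |z.1.re - y₂.re| + 3 * (z.1.im - y₂.im) < 8 * η})) ∩
        ({z : ℂ × ℂ | ‖z.2 - t₀‖ < r} ∩ {z : ℂ × ℂ | ‖z.2 - t₀‖ < 3 * (z.2 - t₀).im})) ∩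
        ({z : ℂ × ℂ | y₂.im - 3 * η < (S k z).1.im} ∩ {z : ℂ × ℂ | (S k z).1.im < y₂.im - 2 * η}) := rfl
    rw [this]
    exact ((o1.inter (o2.inter o3)).inter (o4.inter o5)).inter (o6.inter o7)
  -- holomorphy of the pieces
  have hFd : DifferentiableOn ℂ (hdF a c) Δ :=
    (differentiableOn_fst.add (differentiableOn_snd.mul ha)).prodMk
      (differentiableOn_snd.add ((differentiableOn_snd.pow 2).mul hc))
  have hGkd : ∀ k, ∀ i ≤ k, DifferentiableOn ℂ (fun z => (hdF a c)^[i] (G (S k z))) (W k) := by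
    intro k i
    induction i with
    | zero =>
      intro _
      have hSd : Differentiable ℂ (S k) := by fun_prop
      exact hG.comp hSd.differentiableOn (fun z hz => hSO k z hz)
    | succ i ih =>
      intro hi
      have := hFd.comp (ih (by omega)) (fun z hz => hΔk k z hz i (by omega))
      refine this.congr fun z _ => ?_
      rw [Function.iterate_succ_apply']
      rfl
  -- coherence
  have hcoh1 : ∀ k, ∀ z ∈ W k, z ∈ W (k + 1) → Gk (k + 1) z = Gk k z := by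
    intro k z hz hz'
    have e : ((S (k + 1) z).1 + κ * ((S (k + 1) z).2 - t₀), (S (k + 1) z).2) = S k z := by
      ext
      · simp only [S]
        push_cast
        ring
      · rfl
    have := hret (S (k + 1) z) (hSO _ z hz') (by rw [e]; exact hSO k z hz) (hΔk _ z hz' 0 (Nat.zero_le _))
    show (hdF a c)^[k + 1] (G (S (k + 1) z)) = (hdF a c)^[k] (G (S k z))
    rw [Function.iterate_succ_apply, this, e]
  have hcoh2 : ∀ d j, ∀ z ∈ W j, z ∈ W (j + d) → Gk (j + d) z = Gk j z := by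
    intro d
    induction d with
    | zero => intro j z _ _; rfl
    | succ d ih =>
      intro j z hz hz'
      have hmid : z ∈ W (j + d) := by
        obtain ⟨s1, s2, s3, s4⟩ := hstep z hz.1
        refine ⟨hz.1, ?_, ?_⟩
        · have := hz'.2.1
          rw [hSim] at this ⊢
          have e : ((j + (d + 1) : ℕ) : ℝ) = ((j + d : ℕ) : ℝ) + 1 := by push_cast; ring
          rw [e] at this
          nlinarith
        · have := hz.2.2
          rw [hSim] at this ⊢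
          have e : ((j + d : ℕ) : ℝ) = (j : ℝ) + d := by push_cast; ring
          rw [e]
          have hd0 : (0 : ℝ) ≤ d := Nat.cast_nonneg d
          nlinarith
      rw [← ih j z hz hmid]
      exact hcoh1 (j + d) z hmid hz'
  have hcoh : ∀ j k, ∀ z ∈ W j, z ∈ W k → Gk j z = Gk k z := by
    intro j k z hj hk
    rcases le_total j k with h | h
    · obtain ⟨d, rfl⟩ := Nat.exists_eq_add_of_le h
      exact (hcoh2 d j z hj hk).symm
    · obtain ⟨d, rfl⟩ := Nat.exists_eq_add_of_le h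
      exact hcoh2 d k z hk hj
  -- cover
  have hcover : ∀ z ∈ hdW y₂ t₀ η r, ∃ k, z ∈ W k := by
    intro z hz
    obtain ⟨s1, s2, s3, s4⟩ := hstep z hz
    obtain ⟨t1, t2, t3⟩ := hz.1
    have hex : ∃ k : ℕ, z.1.im - k * (κ * (z.2 - t₀).im) < y₂.im - 2 * η := by
      obtain ⟨k, hk⟩ := exists_nat_gt ((z.1.im - y₂.im + 2 * η) / (κ * (z.2 - t₀).im))
      refine ⟨k, ?_⟩
      rw [div_lt_iff₀ s1] at hk
      linarith
    refine ⟨Nat.find hex, hz, ?_, ?_⟩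
    · rw [hSim]
      rcases Nat.eq_zero_or_pos (Nat.find hex) with h0 | hpos
      · rw [h0]
        simpa using t1
      · have hmin := Nat.find_min hex (m := Nat.find hex - 1) (by omega)
        have e : ((Nat.find hex : ℕ) : ℝ) = ((Nat.find hex - 1 : ℕ) : ℝ) + 1 := by
          have : Nat.find hex = (Nat.find hex - 1) + 1 := by omega
          conv_lhs => rw [this]
          push_cast
          ring
        rw [e]
        push Not at hmin
        nlinarith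
    · rw [hSim]
      exact Nat.find_spec hex
  -- the glued map
  let Gt : ℂ × ℂ → ℂ × ℂ := fun z => if h : ∃ k, z ∈ W k then Gk (Classical.choose h) z else 0
  have hGt : ∀ k, ∀ z ∈ W k, Gt z = Gk k z := by
    intro k z hz
    have h : ∃ k, z ∈ W k := ⟨k, hz⟩
    show (if h : ∃ k, z ∈ W k then Gk (Classical.choose h) z else 0) = Gk k z
    rw [dif_pos h]
    exact hcoh _ _ z (Classical.choose_spec h) hz
  refine ⟨Gt, ?_, ?_, ?_⟩
  · intro z hz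
    obtain ⟨k, hk⟩ := hcover z hz
    have h1 : DifferentiableAt ℂ (Gk k) z := (hGkd k k le_rfl z hk).differentiableAt ((hWopen k).mem_nhds hk)
    have h2 : Gt =ᶠ[𝓝 z] Gk k := by
      filter_upwards [(hWopen k).mem_nhds hk] with w hw
      exact hGt k w hw
    exact (h2.differentiableAt_iff.mpr h1).differentiableWithinAt
  · intro z hz
    obtain ⟨k, hk⟩ := hcover z hz
    rw [hGt k z hk]
    exact hΔk k z hk k le_rfl
  · intro z hz hlowz
    have h0 : z ∈ W 0 := by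
      refine ⟨hz, ?_, ?_⟩
      · rw [hSim]
        simpa using hz.1.1
      · rw [hSim]
        simpa using hlowz
    rw [hGt 0 z h0]
    show G (S 0 z) = G z
    congr 1
    ext <;> simp [S]

end Claimed.Agent.R269
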