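/-
Row 269, library HolClimb (HOST-FREE).   Statements: helper34 (BP-S10b-contact).

**Climbing over a wall with a return map.**   Abstract form of the second half of the proof of P1 Theorem 10.3.

DATA (`HdClimb`).  `y₁` a point of the wall `Im y = Im y₁`; `(p,q)` a holomorphic arc on `ball y₁ ε`, `p' (y₁) ≠ 0`; `R` analytic at `(p y₁, q y₁)` and fixing the arc;
joint data `Z` holomorphic on an open set `O ⊆ ℂ²` which contains the part of the slice `t = t₀` below the wall, where `Z (y,t₀) = (p y, q y)`;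
the return identity `R (Z (y,t)) = Z (y + κ (t - t₀), t)`.
CONCLUSION (`hd_climb`).  There is a wall point `y₂` near `y₁` such that for all small `η` there is `r > 0` with: `Z` extends holomorphically from the low part of
`hdW y₂ t₀ η r = trapezoid × upper steep sector` to all of it, with values near `(p y₁, q y₁)`.

PROOF.
(1) [LEAF LF-HD-chart = `hd_chart`]  CHART `χ (u,v) = (p u, q u + v)`, inverse `Ψ (z₁,z₂) = (λ z₁, z₂ - q (λ z₁))`, `λ` = local inverse of `p` (`exists_local_inverse`, Lib/CA1Prim.lean).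
    `F₀ := Ψ ∘ R ∘ χ` is analytic at `(y₁,0)` and `F₀ (u,0) = (u,0)`.  Division (`SCV.exists_eq_mul_of_vanishing_linear`, Lib/SCVa.lean, `ℓ = snd`, `v = (0,1)`):
    `F₀ (u,v) = (u + v a (u,v), v + v c₀ (u,v))`, `a`, `c₀` analytic at `(y₁,0)`.
    `G := Ψ ∘ Z` on `O₁ := {z ∈ O | Z z ∈ N}` (`N` a small open neighbourhood of `(p y₁,q y₁)` on which `Ψ` is analytic, `χ ∘ Ψ = id`, `Ψ N ⊆` the domain where `Ψ ∘ χ = id`).
    `G (y,t₀) = (y,0)`; `F₀ (G z) = Ψ (R (χ (G z))) = Ψ (R (Z z)) = Ψ (Z (shift z)) = G (shift z)`.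
    Fix `y` below the wall, write `G = (U,V)`, `V_t := ∂_t V (y,t₀)`, and differentiate `t ↦ F₀ (G (y,t)) = G (y + κ (t - t₀), t)` at `t = t₀`, using `U (·,t₀) = id`, `V (·,t₀) = 0`:
       first component:  `U_t + V_t a (y,0) = κ + U_t`,      second component:  `V_t (1 + c₀ (y,0)) = V_t`.
    So `a (y,0) V_t = κ` (field `slope`), `V_t ≠ 0`, `c₀ (y,0) = 0` for all `y` below the wall; identity theorem in one variable on `ball y₁ ε₁`: `c₀ (u,0) = 0` for all `u`; division again: `c₀ = v c`.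
(2) [LEAF LF-HD-small = `hd_pick`, `hd_small`]   `u ↦ a (u,0)` is not identically zero, so it is nonzero at some wall point `y₂` arbitrarily close to `y₁`
    (otherwise it vanishes on a segment: `AnalyticOnNhd.eqOn_zero_of_preconnected_of_frequently_eq_zero`).
    `hd_small`: `V` vanishes on `t = t₀` near `(y,t₀)`: `V = (t - t₀) P`, `P` analytic, `P (y,t₀) = V_t = κ / a (y,0)`; continuity of `P`, `U`.
(3) [`hd_climb_of_chart`, glue]  constants: `ε₂` with `‖a (u,0)‖ ≥ m > 0` on `ball y₂ ε₂`, bounds `A`, `C` of `a`, `c` on the bidisc; `η₀`; compactness of the closed low trapezoid gives `r`; `hd_iter`; `hd_glue`; `Zt = χ ∘ Gt`.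
-/
import Claimed.Agent.R269.Lib.HolDyn

set_option autoImplicit false

namespace Claimed.Agent.R269

open Complex Filter Topology Set Metric

/-- the data of the climbing theorem. -/
structure HdClimb (y₁ t₀ : ℂ) (κ ε : ℝ) (p q : ℂ → ℂ) (R : ℂ × ℂ → ℂ × ℂ) (O : Set (ℂ × ℂ))
    (Z : ℂ × ℂ → ℂ × ℂ) : Prop where
  κ_pos : 0 < κ
  ε_pos : 0 < ε
  p_diff : DifferentiableOn ℂ p (ball y₁ ε)
  q_diff : DifferentiableOn ℂ q (ball y₁ ε)
  p_ne : deriv p y₁ ≠ 0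
  R_an : AnalyticAt ℂ R (p y₁, q y₁)
  R_fix : ∀ y ∈ ball y₁ ε, R (p y, q y) = (p y, q y)
  O_open : IsOpen O
  Z_diff : DifferentiableOn ℂ Z O
  low : ∀ y ∈ ball y₁ ε, y.im < y₁.im → (y, t₀) ∈ O ∧ Z (y, t₀) = (p y, q y)
  ret : ∀ z ∈ O, (z.1 + κ * (z.2 - t₀), z.2) ∈ O → R (Z z) = Z (z.1 + κ * (z.2 - t₀), z.2)

/-- the same data in the chart `(u,v) ↦ (p u, q u + v)`. -/
structure HdChart (y₁ t₀ : ℂ) (κ ε₁ : ℝ) (p q : ℂ → ℂ) (O : Set (ℂ × ℂ)) (Z : ℂ × ℂ → ℂ × ℂ)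
    (a c : ℂ × ℂ → ℂ) (O₁ : Set (ℂ × ℂ)) (G : ℂ × ℂ → ℂ × ℂ) : Prop where
  ε₁_pos : 0 < ε₁
  a_diff : DifferentiableOn ℂ a (ball y₁ ε₁ ×ˢ ball (0 : ℂ) ε₁)
  c_diff : DifferentiableOn ℂ c (ball y₁ ε₁ ×ˢ ball (0 : ℂ) ε₁)
  O₁_open : IsOpen O₁
  O₁_sub : O₁ ⊆ O
  G_diff : DifferentiableOn ℂ G O₁
  G_chart : ∀ z ∈ O₁, (p (G z).1, q (G z).1 + (G z).2) = Z z
  low : ∀ y ∈ ball y₁ ε₁, y.im < y₁.im → (y, t₀) ∈ O₁ ∧ G (y, t₀) = (y, 0)
  ret : ∀ z ∈ O₁, (z.1 + κ * (z.2 - t₀), z.2) ∈ O₁ → G z ∈ ball y₁ ε₁ ×ˢ ball (0 : ℂ) ε₁ →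
    hdF a c (G z) = G (z.1 + κ * (z.2 - t₀), z.2)
  slope : ∀ y ∈ ball y₁ ε₁, y.im < y₁.im →
    a (y, 0) * fderiv ℂ (fun z => (G z).2) (y, t₀) (0, 1) = κ

/-- differentiate the return identity in `t` at `t₀` (helper of `hd_chart`). -/
theorem hdc_slope {O₁ : Set (ℂ × ℂ)} (hO : IsOpen O₁) {G : ℂ × ℂ → ℂ × ℂ} (hG : DifferentiableOn ℂ G O₁)
    {y t₀ : ℂ} {κ : ℝ} (hy : (y, t₀) ∈ O₁) (hlow : ∀ᶠ y' in 𝓝 y, G (y', t₀) = (y', 0))
    {a b : ℂ × ℂ → ℂ} (ha : DifferentiableAt ℂ a (y, 0)) (hb : DifferentiableAt ℂ b (y, 0))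
    (hret : ∀ᶠ t in 𝓝 t₀, ((G (y, t)).1 + (G (y, t)).2 * a (G (y, t)),
      (G (y, t)).2 + (G (y, t)).2 * b (G (y, t))) = G (y + κ * (t - t₀), t)) :
    a (y, 0) * fderiv ℂ (fun z => (G z).2) (y, t₀) (0, 1) = κ ∧
      fderiv ℂ (fun z => (G z).2) (y, t₀) (0, 1) * b (y, 0) = 0 := by
  have hGd : HasFDerivAt G (fderiv ℂ G (y, t₀)) (y, t₀) :=
    (hG.differentiableAt (hO.mem_nhds hy)).hasFDerivAt
  set G' := fderiv ℂ G (y, t₀) with hG'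
  have G0 : G (y, t₀) = (y, 0) := hlow.self_of_nhds
  -- the three curves
  have hγ₁ : HasDerivAt (fun t : ℂ => (y, t)) ((0 : ℂ), (1 : ℂ)) t₀ :=
    (hasDerivAt_const t₀ y).prodMk (hasDerivAt_id t₀)
  have hγ₂ : HasDerivAt (fun t : ℂ => (y + κ * (t - t₀), t)) ((κ : ℂ), (1 : ℂ)) t₀ := by
    have e1 : HasDerivAt (fun t : ℂ => y + κ * (t - t₀)) (κ : ℂ) t₀ := by
      have := (((hasDerivAt_id t₀).sub_const t₀).const_mul (κ : ℂ)).const_add y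
      simpa using this
    exact e1.prodMk (hasDerivAt_id t₀)
  have hγ₃ : HasDerivAt (fun s : ℂ => (s, t₀)) ((1 : ℂ), (0 : ℂ)) y :=
    (hasDerivAt_id y).prodMk (hasDerivAt_const y t₀)
  have d1 : HasDerivAt (fun t : ℂ => G (y, t)) (G' (0, 1)) t₀ := hGd.comp_hasDerivAt t₀ hγ₁
  have d2 : HasDerivAt (fun t : ℂ => G (y + κ * (t - t₀), t)) (G' (κ, 1)) t₀ := by
    have hGd' : HasFDerivAt G G' ((fun t : ℂ => (y + κ * (t - t₀), t)) t₀) := by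
      simpa using hGd
    exact HasFDerivAt.comp_hasDerivAt (f := fun t : ℂ => (y + κ * (t - t₀), t)) t₀ hGd' hγ₂
  have d3 : HasDerivAt (fun s : ℂ => G (s, t₀)) (G' (1, 0)) y := hGd.comp_hasDerivAt y hγ₃
  have d3' : HasDerivAt (fun s : ℂ => G (s, t₀)) ((1 : ℂ), (0 : ℂ)) y := by
    have : HasDerivAt (fun s : ℂ => (s, (0 : ℂ))) ((1 : ℂ), (0 : ℂ)) y :=
      (hasDerivAt_id y).prodMk (hasDerivAt_const y 0)
    exact this.congr_of_eventuallyEq hlow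
  have e10 : G' (1, 0) = ((1 : ℂ), (0 : ℂ)) := d3.unique d3'
  have eκ1 : G' (κ, 1) = ((κ : ℂ), (0 : ℂ)) + G' (0, 1) := by
    have : (((κ : ℂ), (1 : ℂ)) : ℂ × ℂ) = (κ : ℂ) • ((1 : ℂ), (0 : ℂ)) + ((0 : ℂ), (1 : ℂ)) := by
      ext <;> simp
    rw [this, map_add, map_smul, e10]
    congr 1
    ext <;> simp
  -- the left side of the return identity
  have dU : HasDerivAt (fun t : ℂ => (G (y, t)).1) (G' (0, 1)).1 t₀ := d1.fst
  have dV : HasDerivAt (fun t : ℂ => (G (y, t)).2) (G' (0, 1)).2 t₀ := d1.snd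
  have da : HasDerivAt (fun t : ℂ => a (G (y, t))) (fderiv ℂ a (y, 0) (G' (0, 1))) t₀ := by
    have ha' : HasFDerivAt a (fderiv ℂ a (y, 0)) ((fun t : ℂ => G (y, t)) t₀) := by
      show HasFDerivAt a (fderiv ℂ a (y, 0)) (G (y, t₀))
      rw [G0]
      exact ha.hasFDerivAt
    exact ha'.comp_hasDerivAt t₀ d1
  have db : HasDerivAt (fun t : ℂ => b (G (y, t))) (fderiv ℂ b (y, 0) (G' (0, 1))) t₀ := by
    have hb' : HasFDerivAt b (fderiv ℂ b (y, 0)) ((fun t : ℂ => G (y, t)) t₀) := by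
      show HasFDerivAt b (fderiv ℂ b (y, 0)) (G (y, t₀))
      rw [G0]
      exact hb.hasFDerivAt
    exact hb'.comp_hasDerivAt t₀ d1
  have dL : HasDerivAt (fun t : ℂ => ((G (y, t)).1 + (G (y, t)).2 * a (G (y, t)),
      (G (y, t)).2 + (G (y, t)).2 * b (G (y, t))))
      ((G' (0, 1)).1 + (G' (0, 1)).2 * a (y, 0), (G' (0, 1)).2 + (G' (0, 1)).2 * b (y, 0)) t₀ := by
    have l1 := dU.fun_add (dV.fun_mul da)
    have l2 := dV.fun_add (dV.fun_mul db)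
    refine (l1.prodMk l2).congr_deriv ?_
    simp [G0]
  have huniq := (d2.congr_of_eventuallyEq hret).unique dL
  rw [eκ1] at huniq
  have h1 := congrArg Prod.fst huniq
  have h2 := congrArg Prod.snd huniq
  simp only [Prod.fst_add, Prod.snd_add] at h1 h2
  have hV : fderiv ℂ (fun z => (G z).2) (y, t₀) (0, 1) = (G' (0, 1)).2 := by
    rw [hGd.snd.fderiv]
    rfl
  rw [hV]
  constructor
  · linear_combination -h1
  · linear_combination -h2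

/-- LEAF LF-HD-chart. -/
theorem hd_chart {y₁ t₀ : ℂ} {κ ε : ℝ} {p q : ℂ → ℂ} {R : ℂ × ℂ → ℂ × ℂ} {O : Set (ℂ × ℂ)}
    {Z : ℂ × ℂ → ℂ × ℂ} (h : HdClimb y₁ t₀ κ ε p q R O Z) :
    ∃ (ε₁ : ℝ) (a c : ℂ × ℂ → ℂ) (O₁ : Set (ℂ × ℂ)) (G : ℂ × ℂ → ℂ × ℂ), ε₁ ≤ ε ∧
      HdChart y₁ t₀ κ ε₁ p q O Z a c O₁ G := by
  have hκ := h.κ_pos
  have hε := h.ε_pos
  have hbn : ball y₁ ε ∈ 𝓝 y₁ := ball_mem_nhds y₁ hε
  have hp : AnalyticAt ℂ p y₁ := h.p_diff.analyticAt hbn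
  have hq : AnalyticAt ℂ q y₁ := h.q_diff.analyticAt hbn
  obtain ⟨lam, hlam, hlam0, hlamL, hlamR⟩ := exists_local_inverse hp h.p_ne
  -- the chart and its inverse
  set χ : ℂ × ℂ → ℂ × ℂ := fun w => (p w.1, q w.1 + w.2) with hχ
  set Ψ : ℂ × ℂ → ℂ × ℂ := fun z => (lam z.1, z.2 - q (lam z.1)) with hΨ
  set P₀ : ℂ × ℂ := (p y₁, q y₁) with hP₀
  have hχ0 : χ (y₁, 0) = P₀ := by simp [hχ, hP₀]
  have hχa : AnalyticAt ℂ χ (y₁, 0) := by
    have h1 : AnalyticAt ℂ (fun w : ℂ × ℂ => p w.1) (y₁, 0) :=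
      AnalyticAt.comp (g := p) (f := fun w : ℂ × ℂ => w.1) hp analyticAt_fst
    have h2 : AnalyticAt ℂ (fun w : ℂ × ℂ => q w.1) (y₁, 0) :=
      AnalyticAt.comp (g := q) (f := fun w : ℂ × ℂ => w.1) hq analyticAt_fst
    exact h1.prod (h2.add analyticAt_snd)
  have hΨa : AnalyticAt ℂ Ψ P₀ := by
    have h1 : AnalyticAt ℂ (fun z : ℂ × ℂ => lam z.1) P₀ :=
      AnalyticAt.comp (g := lam) (f := fun w : ℂ × ℂ => w.1) hlam analyticAt_fst
    have h2 : AnalyticAt ℂ (fun z : ℂ × ℂ => q (lam z.1)) P₀ :=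
      AnalyticAt.comp (g := q) (f := fun z : ℂ × ℂ => lam z.1)
        (by show AnalyticAt ℂ q (lam (p y₁)); rw [hlam0]; exact hq) h1
    exact h1.prod (analyticAt_snd.sub h2)
  have hR0 : R P₀ = P₀ := h.R_fix y₁ (mem_ball_self hε)
  set F₀ : ℂ × ℂ → ℂ × ℂ := fun w => Ψ (R (χ w)) with hF₀
  have hF₀a : AnalyticAt ℂ F₀ (y₁, 0) := by
    have h1 : AnalyticAt ℂ (fun w => R (χ w)) (y₁, 0) :=
      AnalyticAt.comp (g := R) (f := χ) (by rw [hχ0]; exact h.R_an) hχa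
    exact AnalyticAt.comp (g := Ψ) (f := fun w => R (χ w))
      (by show AnalyticAt ℂ Ψ (R (χ (y₁, 0))); rw [hχ0, hR0]; exact hΨa) h1
  -- `F₀` fixes the slice `v = 0`
  have hfix : ∀ᶠ w : ℂ × ℂ in 𝓝 (y₁, 0), w.2 = 0 → F₀ w = w := by
    have h1 : ∀ᶠ w : ℂ × ℂ in 𝓝 (y₁, 0), w.1 ∈ ball y₁ ε := continuousAt_fst.eventually hbn
    have h2 : ∀ᶠ w : ℂ × ℂ in 𝓝 (y₁, 0), lam (p w.1) = w.1 :=
      (continuousAt_fst (p := ((y₁, 0) : ℂ × ℂ))).eventually (p := fun u : ℂ => lam (p u) = u) hlamL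
    filter_upwards [h1, h2] with w hw1 hw2 hw3
    show Ψ (R (p w.1, q w.1 + w.2)) = w
    rw [hw3, add_zero, h.R_fix w.1 hw1]
    show (lam (p w.1), q w.1 - q (lam (p w.1))) = w
    rw [hw2, sub_self]
    ext
    · rfl
    · exact hw3.symm
  -- first division
  have hsnd : ∀ w : ℂ × ℂ, (ContinuousLinearMap.snd ℂ ℂ ℂ) (w - (y₁, 0)) = w.2 := by
    intro w
    simp
  have hF₁a : AnalyticAt ℂ (fun w => (F₀ w).1 - w.1) (y₁, 0) :=
    (AnalyticAt.comp (g := fun w : ℂ × ℂ => w.1) (f := F₀) analyticAt_fst hF₀a).sub analyticAt_fst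
  have hF₂a : AnalyticAt ℂ (fun w => (F₀ w).2 - w.2) (y₁, 0) :=
    (AnalyticAt.comp (g := fun w : ℂ × ℂ => w.2) (f := F₀) analyticAt_snd hF₀a).sub analyticAt_snd
  obtain ⟨a, haa, hae⟩ := SCV.exists_eq_mul_of_vanishing_linear (v := ((0 : ℂ), (1 : ℂ)))
    (ContinuousLinearMap.snd ℂ ℂ ℂ) (by simp) hF₁a (by
      filter_upwards [hfix] with w hw hw0
      rw [hsnd] at hw0
      rw [hw hw0, sub_self])
  obtain ⟨c₀, hc₀a, hc₀e⟩ := SCV.exists_eq_mul_of_vanishing_linear (v := ((0 : ℂ), (1 : ℂ)))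
    (ContinuousLinearMap.snd ℂ ℂ ℂ) (by simp) hF₂a (by
      filter_upwards [hfix] with w hw hw0
      rw [hsnd] at hw0
      rw [hw hw0, sub_self])
  have hform : ∀ᶠ w in 𝓝 ((y₁, 0) : ℂ × ℂ), F₀ w = (w.1 + w.2 * a w, w.2 + w.2 * c₀ w) := by
    filter_upwards [hae, hc₀e] with w h1 h2
    rw [hsnd] at h1 h2
    ext
    · show (F₀ w).1 = w.1 + w.2 * a w
      linear_combination h1
    · show (F₀ w).2 = w.2 + w.2 * c₀ w
      linear_combination h2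
  -- the joint data in the chart
  have hN : ∀ᶠ z in 𝓝 P₀, AnalyticAt ℂ Ψ z ∧ χ (Ψ z) = z := by
    have h1 : ∀ᶠ z : ℂ × ℂ in 𝓝 P₀, p (lam z.1) = z.1 :=
      (continuousAt_fst (p := P₀)).eventually (p := fun u : ℂ => p (lam u) = u) hlamR
    filter_upwards [hΨa.eventually_analyticAt, h1] with z hz1 hz2
    refine ⟨hz1, ?_⟩
    show (p (lam z.1), q (lam z.1) + (z.2 - q (lam z.1))) = z
    rw [hz2]
    ext <;> simp
  obtain ⟨N, hNsub, hNo, hNP⟩ := _root_.mem_nhds_iff.mp hN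
  set O₁ : Set (ℂ × ℂ) := O ∩ Z ⁻¹' N with hO₁
  have hO₁o : IsOpen O₁ := h.Z_diff.continuousOn.isOpen_inter_preimage h.O_open hNo
  set G : ℂ × ℂ → ℂ × ℂ := fun z => Ψ (Z z) with hG
  have hGd : DifferentiableOn ℂ G O₁ := by
    intro z hz
    have h1 : DifferentiableAt ℂ Ψ (Z z) := (hNsub hz.2).1.differentiableAt
    have h2 : DifferentiableAt ℂ Z z := h.Z_diff.differentiableAt (h.O_open.mem_nhds hz.1)
    exact (DifferentiableAt.comp (g := Ψ) (f := Z) z h1 h2).differentiableWithinAt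
  have hGχ : ∀ z ∈ O₁, χ (G z) = Z z := fun z hz => (hNsub hz.2).2
  have hlow : ∀ᶠ y in 𝓝 y₁, y.im < y₁.im → (y, t₀) ∈ O₁ ∧ G (y, t₀) = (y, 0) := by
    have hc : ContinuousAt (fun y => (p y, q y)) y₁ := hp.continuousAt.prodMk hq.continuousAt
    have h1 : ∀ᶠ y in 𝓝 y₁, (p y, q y) ∈ N := hc.eventually (hNo.mem_nhds hNP)
    filter_upwards [hbn, h1, hlamL] with y hy1 hy2 hy3 hy4
    obtain ⟨hyO, hyZ⟩ := h.low y hy1 hy4
    refine ⟨⟨hyO, by show Z (y, t₀) ∈ N; rw [hyZ]; exact hy2⟩, ?_⟩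
    show Ψ (Z (y, t₀)) = (y, 0)
    rw [hyZ]
    show (lam (p y), q y - q (lam (p y))) = (y, 0)
    rw [hy3, sub_self]
  have hretF : ∀ z ∈ O₁, (z.1 + κ * (z.2 - t₀), z.2) ∈ O₁ →
      F₀ (G z) = G (z.1 + κ * (z.2 - t₀), z.2) := by
    intro z hz hz'
    show Ψ (R (χ (G z))) = Ψ (Z _)
    rw [hGχ z hz, h.ret z hz.1 hz'.1]
  -- the derivative of the return identity
  have hev0 : ∀ᶠ w in 𝓝 ((y₁, 0) : ℂ × ℂ), AnalyticAt ℂ a w ∧ AnalyticAt ℂ c₀ w ∧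
      F₀ w = (w.1 + w.2 * a w, w.2 + w.2 * c₀ w) := by
    filter_upwards [haa.eventually_analyticAt, hc₀a.eventually_analyticAt, hform] with w h1 h2 h3
    exact ⟨h1, h2, h3⟩
  obtain ⟨ρ₀, hρ₀, hρ₀b⟩ := Metric.eventually_nhds_iff_ball.mp hev0
  obtain ⟨ρ₂, hρ₂, hρ₂b⟩ := Metric.eventually_nhds_iff_ball.mp hlow
  set ρ : ℝ := min ρ₀ ρ₂ with hρdef
  have hρ : 0 < ρ := lt_min hρ₀ hρ₂
  have hslice : ∀ u ∈ ball y₁ ρ, ((u, 0) : ℂ × ℂ) ∈ ball ((y₁, 0) : ℂ × ℂ) ρ₀ := by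
    intro u hu
    rw [← ball_prod_same]
    exact ⟨ball_subset_ball (min_le_left _ _) hu, mem_ball_self hρ₀⟩
  have key : ∀ y ∈ ball y₁ ρ, y.im < y₁.im →
      a (y, 0) * fderiv ℂ (fun z => (G z).2) (y, t₀) (0, 1) = κ ∧
      fderiv ℂ (fun z => (G z).2) (y, t₀) (0, 1) * c₀ (y, 0) = 0 := by
    intro y hy hy'
    have hy0 := hslice y hy
    obtain ⟨hyO, hyG⟩ := hρ₂b y (ball_subset_ball (min_le_right _ _) hy) hy'
    refine hdc_slope hO₁o hGd hyO ?_ (hρ₀b _ hy0).1.differentiableAt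
      (hρ₀b _ hy0).2.1.differentiableAt ?_
    · have h1 : ∀ᶠ y' in 𝓝 y, y' ∈ ball y₁ ρ₂ :=
        isOpen_ball.mem_nhds (ball_subset_ball (min_le_right _ _) hy)
      have h2 : ∀ᶠ y' : ℂ in 𝓝 y, y'.im < y₁.im :=
        Complex.continuous_im.continuousAt.eventually (gt_mem_nhds hy')
      filter_upwards [h1, h2] with y' h3 h4
      exact (hρ₂b y' h3 h4).2
    · have hc1 : ContinuousAt (fun t : ℂ => ((y, t) : ℂ × ℂ)) t₀ := by fun_prop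
      have hc2 : ContinuousAt (fun t : ℂ => ((y + κ * (t - t₀), t) : ℂ × ℂ)) t₀ := by fun_prop
      have e1 : ∀ᶠ t in 𝓝 t₀, ((y, t) : ℂ × ℂ) ∈ O₁ := hc1.eventually (hO₁o.mem_nhds hyO)
      have e2 : ∀ᶠ t in 𝓝 t₀, ((y + κ * (t - t₀), t) : ℂ × ℂ) ∈ O₁ :=
        hc2.eventually (hO₁o.mem_nhds (by simpa using hyO))
      have hc3 : ContinuousAt (fun t : ℂ => G (y, t)) t₀ :=
        ContinuousAt.comp (g := G) (f := fun t : ℂ => ((y, t) : ℂ × ℂ))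
          (hGd.differentiableAt (hO₁o.mem_nhds hyO)).continuousAt hc1
      have e3 : ∀ᶠ t in 𝓝 t₀, G (y, t) ∈ ball ((y₁, 0) : ℂ × ℂ) ρ₀ :=
        hc3.eventually (isOpen_ball.mem_nhds (by show G (y, t₀) ∈ _; rw [hyG]; exact hy0))
      filter_upwards [e1, e2, e3] with t h1 h2 h3
      rw [← (hρ₀b _ h3).2.2]
      exact hretF (y, t) h1 h2
  -- `c₀` vanishes on the slice
  have hκc : (κ : ℂ) ≠ 0 := by exact_mod_cast hκ.ne'
  have hc₀low : ∀ y ∈ ball y₁ ρ, y.im < y₁.im → c₀ (y, 0) = 0 := by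
    intro y hy hy'
    obtain ⟨k1, k2⟩ := key y hy hy'
    have hV : fderiv ℂ (fun z => (G z).2) (y, t₀) (0, 1) ≠ 0 := by
      intro h0
      rw [h0, mul_zero] at k1
      exact hκc k1.symm
    exact (mul_eq_zero.mp k2).resolve_left hV
  have hc₀s : AnalyticOnNhd ℂ (fun u : ℂ => c₀ (u, 0)) (ball y₁ ρ) := by
    intro u hu
    exact AnalyticAt.comp (g := c₀) (f := fun u : ℂ => ((u, 0) : ℂ × ℂ)) (hρ₀b _ (hslice u hu)).2.1
      (analyticAt_id.prod analyticAt_const)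
  have hc₀z : ∀ u ∈ ball y₁ ρ, c₀ (u, 0) = 0 := by
    have hys : y₁ - (ρ / 2 : ℝ) * Complex.I ∈ ball y₁ ρ := by
      rw [mem_ball, dist_eq_norm]
      have : y₁ - (ρ / 2 : ℝ) * Complex.I - y₁ = -((ρ / 2 : ℝ) * Complex.I) := by ring
      rw [this, norm_neg, norm_mul, Complex.norm_I, mul_one, Complex.norm_real, Real.norm_eq_abs,
        abs_of_pos (by positivity)]
      linarith
    have hys' : (y₁ - (ρ / 2 : ℝ) * Complex.I).im < y₁.im := by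
      simp
      positivity
    have hev : (fun u : ℂ => c₀ (u, 0)) =ᶠ[𝓝 (y₁ - (ρ / 2 : ℝ) * Complex.I)] 0 := by
      filter_upwards [isOpen_ball.mem_nhds hys,
        Complex.continuous_im.continuousAt.eventually (gt_mem_nhds hys')] with u h1 h2
      exact hc₀low u h1 h2
    exact fun u hu => hc₀s.eqOn_zero_of_preconnected_of_eventuallyEq_zero
      (convex_ball y₁ ρ).isPreconnected hys hev hu
  -- second division
  obtain ⟨c, hca, hce⟩ := SCV.exists_eq_mul_of_vanishing_linear (v := ((0 : ℂ), (1 : ℂ)))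
    (ContinuousLinearMap.snd ℂ ℂ ℂ) (by simp) hc₀a (by
      have h1 : ∀ᶠ w : ℂ × ℂ in 𝓝 (y₁, 0), w.1 ∈ ball y₁ ρ :=
        continuousAt_fst.eventually (ball_mem_nhds y₁ hρ)
      filter_upwards [h1] with w hw hw0
      rw [hsnd] at hw0
      have : w = (w.1, 0) := by rw [← hw0]
      rw [this]
      exact hc₀z w.1 hw)
  have hev1 : ∀ᶠ w in 𝓝 ((y₁, 0) : ℂ × ℂ), AnalyticAt ℂ c w ∧ c₀ w = w.2 * c w := by
    filter_upwards [hca.eventually_analyticAt, hce] with w h1 h2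
    rw [hsnd] at h2
    exact ⟨h1, h2⟩
  obtain ⟨ρ₁, hρ₁, hρ₁b⟩ := Metric.eventually_nhds_iff_ball.mp hev1
  set ε₁ : ℝ := min (min ρ ρ₁) ε with hε₁def
  have hε₁ : 0 < ε₁ := lt_min (lt_min hρ hρ₁) hε
  have hε₁ρ : ε₁ ≤ ρ := (min_le_left _ _).trans (min_le_left _ _)
  have hε₁ρ₁ : ε₁ ≤ ρ₁ := (min_le_left _ _).trans (min_le_right _ _)
  have sub0 : ball y₁ ε₁ ×ˢ ball (0 : ℂ) ε₁ ⊆ ball ((y₁, 0) : ℂ × ℂ) ρ₀ := by
    rw [← ball_prod_same]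
    exact prod_mono (ball_subset_ball (hε₁ρ.trans (min_le_left _ _)))
      (ball_subset_ball (hε₁ρ.trans (min_le_left _ _)))
  have sub1 : ball y₁ ε₁ ×ˢ ball (0 : ℂ) ε₁ ⊆ ball ((y₁, 0) : ℂ × ℂ) ρ₁ := by
    rw [← ball_prod_same]
    exact prod_mono (ball_subset_ball hε₁ρ₁) (ball_subset_ball hε₁ρ₁)
  refine ⟨ε₁, a, c, O₁, G, min_le_right _ _,
    ⟨hε₁, ?_, ?_, hO₁o, inter_subset_left, hGd, hGχ, ?_, ?_, ?_⟩⟩
  · exact fun w hw => (hρ₀b w (sub0 hw)).1.differentiableAt.differentiableWithinAt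
  · exact fun w hw => (hρ₁b w (sub1 hw)).1.differentiableAt.differentiableWithinAt
  · intro y hy hy'
    exact hρ₂b y (ball_subset_ball (hε₁ρ.trans (min_le_right _ _)) hy) hy'
  · intro z hz hz' hw
    rw [← hretF z hz hz', (hρ₀b _ (sub0 hw)).2.2, (hρ₁b _ (sub1 hw)).2]
    simp only [hdF]
    ext
    · rfl
    · show (G z).2 + (G z).2 ^ 2 * c (G z) = (G z).2 + (G z).2 * ((G z).2 * c (G z))
      ring
  · exact fun y hy hy' => (key y (ball_subset_ball hε₁ρ hy) hy').1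

section Chart

variable {y₁ t₀ : ℂ} {κ ε₁ : ℝ} {p q : ℂ → ℂ} {O : Set (ℂ × ℂ)} {Z : ℂ × ℂ → ℂ × ℂ}
  {a c : ℂ × ℂ → ℂ} {O₁ : Set (ℂ × ℂ)} {G : ℂ × ℂ → ℂ × ℂ}

/-- LEAF LF-HD-small (1): a wall point with nonzero twist. -/
theorem hd_pick (hκ : 0 < κ) (h : HdChart y₁ t₀ κ ε₁ p q O Z a c O₁ G) (ε₃ : ℝ) (hε₃ : 0 < ε₃) :
    ∃ y₂ : ℂ, y₂.im = y₁.im ∧ ‖y₂ - y₁‖ < ε₃ ∧ a (y₂, 0) ≠ 0 := by
  by_contra hcon
  push Not at hcon
  have hε₁ := h.ε₁_pos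
  have hopen : IsOpen (ball y₁ ε₁ ×ˢ ball (0 : ℂ) ε₁) := isOpen_ball.prod isOpen_ball
  -- the twist on the slice `v = 0`
  have hσd : DifferentiableOn ℂ (fun u : ℂ => a (u, 0)) (ball y₁ ε₁) := by
    refine DifferentiableOn.comp (g := a) (f := fun u : ℂ => (u, (0 : ℂ))) h.a_diff ?_ ?_
    · exact (differentiable_id.prodMk (differentiable_const 0)).differentiableOn
    · intro u hu
      exact ⟨hu, mem_ball_self hε₁⟩
  have hσa : AnalyticOnNhd ℂ (fun u : ℂ => a (u, 0)) (ball y₁ ε₁) := hσd.analyticOnNhd isOpen_ball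
  have hfreq : ∃ᶠ z in 𝓝[≠] y₁, (fun u : ℂ => a (u, 0)) z = 0 := by
    have ht : Tendsto (fun t : ℝ => y₁ + (t : ℂ)) (𝓝[≠] (0 : ℝ)) (𝓝[≠] y₁) := by
      apply tendsto_nhdsWithin_of_tendsto_nhds_of_eventually_within
      · have : Tendsto (fun t : ℝ => y₁ + (t : ℂ)) (𝓝 (0 : ℝ)) (𝓝 (y₁ + ((0 : ℝ) : ℂ))) := by
          have hc : Continuous (fun t : ℝ => y₁ + (t : ℂ)) := by fun_prop
          exact hc.tendsto 0
        simp only [Complex.ofReal_zero, add_zero] at this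
        exact this.mono_left nhdsWithin_le_nhds
      · filter_upwards [self_mem_nhdsWithin] with t ht
        have ht' : t ≠ 0 := ht
        simpa using ht'
    refine ht.frequently (Eventually.frequently ?_)
    have hsmall : ∀ᶠ t : ℝ in 𝓝 (0 : ℝ), |t| < ε₃ := by
      have : Tendsto (fun t : ℝ => |t|) (𝓝 (0 : ℝ)) (𝓝 |(0 : ℝ)|) := (continuous_abs.tendsto 0)
      rw [abs_zero] at this
      exact this.eventually (gt_mem_nhds hε₃)
    filter_upwards [hsmall.filter_mono nhdsWithin_le_nhds] with t ht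
    refine hcon (y₁ + (t : ℂ)) (by simp) ?_
    simpa using ht
  have hzero := hσa.eqOn_zero_of_preconnected_of_frequently_eq_zero (convex_ball y₁ ε₁).isPreconnected
    (mem_ball_self hε₁) hfreq
  -- a point below the wall
  have hy : y₁ - (ε₁ / 2 : ℝ) * Complex.I ∈ ball y₁ ε₁ := by
    rw [mem_ball, dist_eq_norm]
    have : y₁ - (ε₁ / 2 : ℝ) * Complex.I - y₁ = -((ε₁ / 2 : ℝ) * Complex.I) := by ring
    rw [this, norm_neg, norm_mul, Complex.norm_I, mul_one, Complex.norm_real, Real.norm_eq_abs,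
      abs_of_pos (by positivity)]
    linarith
  have hy' : (y₁ - (ε₁ / 2 : ℝ) * Complex.I).im < y₁.im := by
    simp
    positivity
  have h1 := h.slope _ hy hy'
  have h2 : a (y₁ - (ε₁ / 2 : ℝ) * Complex.I, 0) = 0 := hzero hy
  rw [h2, zero_mul] at h1
  have : (κ : ℂ) ≠ 0 := by exact_mod_cast hκ.ne'
  exact this h1.symm

/-- LEAF LF-HD-small (2): size of the joint data in the chart, near a point of the slice below the wall. -/
theorem hd_small (hκ : 0 < κ) (h : HdChart y₁ t₀ κ ε₁ p q O Z a c O₁ G) (y : ℂ) (hy : y ∈ ball y₁ ε₁)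
    (hy' : y.im < y₁.im) (δ : ℝ) (hδ : 0 < δ) :
    ∀ᶠ z in 𝓝 (y, t₀), z ∈ O₁ ∧ ‖(G z).2‖ ≤ (κ / ‖a (y, 0)‖ + 1) * ‖z.2 - t₀‖ ∧
      ‖(G z).1 - z.1‖ ≤ δ := by
  have hε₁ := h.ε₁_pos
  obtain ⟨hyO, hyG⟩ := h.low y hy hy'
  have hO₁n : O₁ ∈ 𝓝 (y, t₀) := h.O₁_open.mem_nhds hyO
  have hGd : DifferentiableAt ℂ G (y, t₀) := h.G_diff.differentiableAt hO₁n
  -- the first component
  have hU : ∀ᶠ z in 𝓝 (y, t₀), ‖(G z).1 - z.1‖ ≤ δ := by
    have hc : ContinuousAt (fun z : ℂ × ℂ => ‖(G z).1 - z.1‖) (y, t₀) :=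
      ((continuousAt_fst.comp hGd.continuousAt).sub continuousAt_fst).norm
    have h0 : (fun z : ℂ × ℂ => ‖(G z).1 - z.1‖) (y, t₀) = 0 := by simp [hyG]
    have := hc.eventually (gt_mem_nhds (by rw [h0]; exact hδ))
    filter_upwards [this] with z hz
    exact hz.le
  -- the second component
  have hVd : DifferentiableOn ℂ (fun z => (G z).2) O₁ := h.G_diff.snd
  have hVa : AnalyticAt ℂ (fun z => (G z).2) (y, t₀) := SCV.analyticAt_of_differentiableOn hVd hO₁n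
  have hvan : ∀ᶠ u in 𝓝 (y, t₀), (ContinuousLinearMap.snd ℂ ℂ ℂ) (u - (y, t₀)) = 0 → (G u).2 = 0 := by
    have h1 : ∀ᶠ u : ℂ × ℂ in 𝓝 (y, t₀), u.1 ∈ ball y₁ ε₁ :=
      continuousAt_fst.eventually (isOpen_ball.mem_nhds hy)
    have h2 : ∀ᶠ u : ℂ × ℂ in 𝓝 (y, t₀), u.1.im < y₁.im := by
      have hc : ContinuousAt (fun u : ℂ × ℂ => u.1.im) (y, t₀) := by fun_prop
      exact hc.eventually (gt_mem_nhds hy')
    filter_upwards [h1, h2] with u hu1 hu2 hu3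
    have hu4 : u.2 = t₀ := by
      have : u.2 - t₀ = 0 := by simpa using hu3
      exact sub_eq_zero.mp this
    have hu5 : u = (u.1, t₀) := by rw [← hu4]
    rw [hu5, (h.low u.1 hu1 hu2).2]
  obtain ⟨P, hP, hPe⟩ := SCV.exists_eq_mul_of_vanishing_linear (v := ((0 : ℂ), (1 : ℂ)))
    (ContinuousLinearMap.snd ℂ ℂ ℂ) (by simp) hVa hvan
  -- value of `P`
  have hγ : HasDerivAt (fun t : ℂ => (y, t)) ((0 : ℂ), (1 : ℂ)) t₀ :=
    (hasDerivAt_const t₀ y).prodMk (hasDerivAt_id t₀)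
  have hγc : ContinuousAt (fun t : ℂ => (y, t)) t₀ := hγ.continuousAt
  have hd1 : HasDerivAt (fun t : ℂ => (G (y, t)).2) (fderiv ℂ (fun z => (G z).2) (y, t₀) (0, 1)) t₀ :=
    hVa.differentiableAt.hasFDerivAt.comp_hasDerivAt t₀ hγ
  have hd2 : HasDerivAt (fun t : ℂ => (t - t₀) * P (y, t)) (P (y, t₀)) t₀ := by
    have e1 : HasDerivAt (fun t : ℂ => t - t₀) 1 t₀ := (hasDerivAt_id t₀).sub_const t₀
    have e2 : HasDerivAt (fun t : ℂ => P (y, t)) (fderiv ℂ P (y, t₀) (0, 1)) t₀ :=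
      hP.differentiableAt.hasFDerivAt.comp_hasDerivAt t₀ hγ
    refine (e1.fun_mul e2).congr_deriv ?_
    simp
  have heq : (fun t : ℂ => (G (y, t)).2) =ᶠ[𝓝 t₀] fun t : ℂ => (t - t₀) * P (y, t) := by
    have := hγc.eventually hPe
    filter_upwards [this] with t ht
    simpa using ht
  have hPval : P (y, t₀) = fderiv ℂ (fun z => (G z).2) (y, t₀) (0, 1) :=
    (hd2.congr_of_eventuallyEq heq).unique hd1
  have hsl := h.slope y hy hy'
  rw [← hPval] at hsl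
  have hκc : (κ : ℂ) ≠ 0 := by exact_mod_cast hκ.ne'
  have ha0 : a (y, 0) ≠ 0 := by
    intro h0
    rw [h0, zero_mul] at hsl
    exact hκc hsl.symm
  have hPn : ‖P (y, t₀)‖ = κ / ‖a (y, 0)‖ := by
    have := congrArg norm hsl
    rw [norm_mul, Complex.norm_real, Real.norm_eq_abs, abs_of_pos hκ] at this
    rw [eq_div_iff (norm_ne_zero_iff.mpr ha0), mul_comm]
    exact this
  have hPb : ∀ᶠ z in 𝓝 (y, t₀), ‖P z‖ < κ / ‖a (y, 0)‖ + 1 :=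
    hP.continuousAt.norm.eventually (gt_mem_nhds (by show ‖P (y, t₀)‖ < _; rw [hPn]; linarith))
  filter_upwards [hO₁n, hU, hPe, hPb] with z hz1 hz2 hz3 hz4
  refine ⟨hz1, ?_, hz2⟩
  rw [hz3, norm_mul, mul_comm]
  have : (ContinuousLinearMap.snd ℂ ℂ ℂ) (z - (y, t₀)) = z.2 - t₀ := by simp
  rw [this]
  exact mul_le_mul_of_nonneg_right hz4.le (norm_nonneg _)

end Chart

/-! ## the climbing theorem (glue, proved) -/

theorem hd_mem_Tz_norm {y₂ y : ℂ} {η : ℝ} (h : y ∈ hdTz y₂ η) : ‖y - y₂‖ < 20 * η := by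
  obtain ⟨h1, h2, h3⟩ := h
  have h4 : ‖y - y₂‖ ≤ |(y - y₂).re| + |(y - y₂).im| := Complex.norm_le_abs_re_add_abs_im _
  have h5 : |(y - y₂).im| < 3 * η := by
    rw [Complex.sub_im, abs_lt]; constructor <;> linarith
  have h6 : |(y - y₂).re| < 17 * η := by
    rw [Complex.sub_re]; linarith
  linarith

theorem hd_climb {y₁ t₀ : ℂ} {κ ε : ℝ} {p q : ℂ → ℂ} {R : ℂ × ℂ → ℂ × ℂ} {O : Set (ℂ × ℂ)}
    {Z : ℂ × ℂ → ℂ × ℂ} (h : HdClimb y₁ t₀ κ ε p q R O Z) (ε' : ℝ) (hε' : 0 < ε') :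
    ∃ y₂ : ℂ, y₂.im = y₁.im ∧ ‖y₂ - y₁‖ < ε' ∧ ∃ η₀ : ℝ, 0 < η₀ ∧ ∀ η, 0 < η → η < η₀ →
      ∃ r : ℝ, 0 < r ∧ ∃ Zt : ℂ × ℂ → ℂ × ℂ, DifferentiableOn ℂ Zt (hdW y₂ t₀ η r) ∧
        (∀ z ∈ hdW y₂ t₀ η r, ‖Zt z - (p y₁, q y₁)‖ < ε') ∧
        ∀ z ∈ hdW y₂ t₀ η r, z.1.im < y₂.im - 2 * η → z ∈ O ∧ Zt z = Z z := by
  obtain ⟨ε₁, a, c, O₁, G, hε₁ε, hC⟩ := hd_chart h
  have hκ := h.κ_pos
  have hε₁ := hC.ε₁_pos
  -- the chart
  set χ : ℂ × ℂ → ℂ × ℂ := fun w => (p w.1, q w.1 + w.2) with hχ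
  have hχd : DifferentiableOn ℂ χ (ball y₁ ε ×ˢ (univ : Set ℂ)) := by
    intro w hw
    have hw1 : w.1 ∈ ball y₁ ε := hw.1
    have hp : DifferentiableAt ℂ p w.1 := h.p_diff.differentiableAt (isOpen_ball.mem_nhds hw1)
    have hq : DifferentiableAt ℂ q w.1 := h.q_diff.differentiableAt (isOpen_ball.mem_nhds hw1)
    have h1 : DifferentiableAt ℂ (fun w : ℂ × ℂ => p w.1) w :=
      DifferentiableAt.comp (f := fun w : ℂ × ℂ => w.1) (g := p) w hp differentiableAt_fst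
    have h2 : DifferentiableAt ℂ (fun w : ℂ × ℂ => q w.1) w :=
      DifferentiableAt.comp (f := fun w : ℂ × ℂ => w.1) (g := q) w hq differentiableAt_fst
    exact (h1.prodMk (h2.add differentiableAt_snd)).differentiableWithinAt
  have hχo : IsOpen (ball y₁ ε ×ˢ (univ : Set ℂ)) := isOpen_ball.prod isOpen_univ
  have hχc : ContinuousAt χ (y₁, 0) :=
    (hχd.differentiableAt (hχo.mem_nhds ⟨mem_ball_self h.ε_pos, mem_univ _⟩)).continuousAt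
  have hχ0 : χ (y₁, 0) = (p y₁, q y₁) := by simp [hχ]
  obtain ⟨ε₃', hε₃', hχ3⟩ := Metric.continuousAt_iff.1 hχc ε' hε'
  set ε₃ : ℝ := min ε₃' (min ε₁ ε') with hε₃def
  have hε₃ : 0 < ε₃ := lt_min hε₃' (lt_min hε₁ hε')
  have hε₃1 : ε₃ ≤ ε₁ := (min_le_right _ _).trans (min_le_left _ _)
  have hε₃2 : ε₃ ≤ ε' := (min_le_right _ _).trans (min_le_right _ _)
  have hχ3' : ∀ w ∈ ball y₁ ε₃ ×ˢ ball (0 : ℂ) ε₃, ‖χ w - (p y₁, q y₁)‖ < ε' := by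
    intro w hw
    rw [← hχ0, ← dist_eq_norm]
    apply hχ3
    rw [Prod.dist_eq, max_lt_iff]
    exact ⟨lt_of_lt_of_le (mem_ball.1 hw.1) (min_le_left _ _),
      lt_of_lt_of_le (mem_ball.1 hw.2) (min_le_left _ _)⟩
  -- the wall point
  obtain ⟨y₂, hy₂im, hy₂n, hy₂a⟩ := hd_pick hκ hC (ε₃ / 2) (by positivity)
  refine ⟨y₂, hy₂im, by linarith, ?_⟩
  have hΔ₁o : IsOpen (ball y₁ ε₁ ×ˢ ball (0 : ℂ) ε₁) := isOpen_ball.prod isOpen_ball
  have hy₂mem : (y₂, (0 : ℂ)) ∈ ball y₁ ε₁ ×ˢ ball (0 : ℂ) ε₁ := by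
    refine ⟨?_, mem_ball_self hε₁⟩
    rw [mem_ball, dist_eq_norm]; linarith
  -- lower bound for the twist near `y₂`
  have hσc : ContinuousAt (fun u : ℂ => a (u, 0)) y₂ := by
    have h1 : ContinuousAt a (y₂, 0) :=
      (hC.a_diff.differentiableAt (hΔ₁o.mem_nhds hy₂mem)).continuousAt
    exact ContinuousAt.comp (f := fun u : ℂ => (u, (0 : ℂ))) (g := a) h1 (by fun_prop)
  set m : ℝ := ‖a (y₂, 0)‖ / 2 with hm
  have hm0 : 0 < m := by have := norm_pos_iff.2 hy₂a; positivity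
  have hev : ∀ᶠ u in 𝓝 y₂, m < ‖a (u, 0)‖ :=
    hσc.norm.eventually (lt_mem_nhds (by rw [hm]; have := norm_pos_iff.2 hy₂a; linarith))
  obtain ⟨ε₂', hε₂', hm2⟩ := Metric.eventually_nhds_iff_ball.1 hev
  set ε₂ : ℝ := min ε₂' (ε₃ / 4) with hε₂def
  have hε₂ : 0 < ε₂ := lt_min hε₂' (by positivity)
  have hε₂3 : ε₂ ≤ ε₃ / 4 := min_le_right _ _
  -- the closed bidisc about `(y₂,0)` lies in the bidisc about `(y₁,0)` of radius `ε₃`
  have hsub : closedBall y₂ ε₂ ×ˢ closedBall (0 : ℂ) ε₂ ⊆ ball y₁ ε₃ ×ˢ ball (0 : ℂ) ε₃ := by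
    rintro w ⟨hw1, hw2⟩
    constructor
    · rw [mem_ball]
      have := mem_closedBall.1 hw1
      have h3 : dist w.1 y₁ ≤ dist w.1 y₂ + dist y₂ y₁ := dist_triangle _ _ _
      rw [dist_eq_norm y₂ y₁] at h3
      linarith
    · rw [mem_ball]
      have := mem_closedBall.1 hw2
      linarith
  have hsub1 : ball y₁ ε₃ ×ˢ ball (0 : ℂ) ε₃ ⊆ ball y₁ ε₁ ×ˢ ball (0 : ℂ) ε₁ :=
    prod_mono (ball_subset_ball hε₃1) (ball_subset_ball hε₃1)
  have hcomp : IsCompact (closedBall y₂ ε₂ ×ˢ closedBall (0 : ℂ) ε₂) :=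
    (isCompact_closedBall _ _).prod (isCompact_closedBall _ _)
  obtain ⟨A, hA⟩ := hcomp.exists_bound_of_continuousOn
    (hC.a_diff.continuousOn.mono (hsub.trans hsub1))
  obtain ⟨C, hCb⟩ := hcomp.exists_bound_of_continuousOn
    (hC.c_diff.continuousOn.mono (hsub.trans hsub1))
  have hmemc : (y₂, (0 : ℂ)) ∈ closedBall y₂ ε₂ ×ˢ closedBall (0 : ℂ) ε₂ :=
    ⟨mem_closedBall_self hε₂.le, mem_closedBall_self hε₂.le⟩
  have hA0 : 0 ≤ A := (norm_nonneg _).trans (hA _ hmemc)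
  have hC0 : 0 ≤ C := (norm_nonneg _).trans (hCb _ hmemc)
  set Δ : Set (ℂ × ℂ) := ball y₂ ε₂ ×ˢ ball (0 : ℂ) ε₂ with hΔ
  have hΔc : Δ ⊆ closedBall y₂ ε₂ ×ˢ closedBall (0 : ℂ) ε₂ :=
    prod_mono ball_subset_closedBall ball_subset_closedBall
  have hΔo : IsOpen Δ := isOpen_ball.prod isOpen_ball
  set P : ℝ := κ / m + 1 with hP
  have hP0 : 0 < P := by positivity
  set Q : ℝ := P / κ with hQ
  have hQ0 : 0 < Q := by positivity
  have hPQ : P = Q * κ := by rw [hQ]; field_simp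
  set η₀ : ℝ := min (ε₂ / (22 + 30 * A * Q)) (1 / (60 * C * Q + 1)) with hη₀
  have hD1 : 0 < 22 + 30 * A * Q := by positivity
  have hD2 : 0 < 60 * C * Q + 1 := by positivity
  refine ⟨η₀, lt_min (by positivity) (by positivity), ?_⟩
  intro η hη hηη₀
  have hη1 : (22 + 30 * A * Q) * η < ε₂ := by
    have := lt_of_lt_of_le hηη₀ (min_le_left _ _)
    rw [lt_div_iff₀ hD1] at this
    linarith
  have hη2 : (60 * C * Q + 1) * η < 1 := by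
    have := lt_of_lt_of_le hηη₀ (min_le_right _ _)
    rw [lt_div_iff₀ hD2] at this
    linarith
  -- the compact low rectangle
  set Lc : Set ℂ := {y | y.re ∈ Icc (y₂.re - 17 * η) (y₂.re + 17 * η) ∧
    y.im ∈ Icc (y₂.im - 3 * η) (y₂.im - 2 * η)} with hLc
  have hLcc : IsCompact Lc := by
    have : Lc = Icc (y₂.re - 17 * η) (y₂.re + 17 * η) ×ℂ Icc (y₂.im - 3 * η) (y₂.im - 2 * η) := by
      ext y; simp [hLc, Complex.mem_reProdIm]
    rw [this]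
    exact isCompact_Icc.reProdIm isCompact_Icc
  have hAQ : 0 ≤ 30 * A * Q * η := by positivity
  have hLcb : ∀ y ∈ Lc, ‖y - y₂‖ ≤ 20 * η := by
    rintro y ⟨⟨h1, h2⟩, h3, h4⟩
    have h5 : ‖y - y₂‖ ≤ |(y - y₂).re| + |(y - y₂).im| := Complex.norm_le_abs_re_add_abs_im _
    have h6 : |(y - y₂).re| ≤ 17 * η := by rw [Complex.sub_re, abs_le]; constructor <;> linarith
    have h7 : |(y - y₂).im| ≤ 3 * η := by rw [Complex.sub_im, abs_le]; constructor <;> linarith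
    linarith
  have hLc2 : ∀ y ∈ Lc, y ∈ ball y₂ ε₂ := by
    intro y hy
    rw [mem_ball, dist_eq_norm]
    have := hLcb y hy
    nlinarith
  have hLc1 : ∀ y ∈ Lc, y ∈ ball y₁ ε₁ := fun y hy =>
    (hsub1 (hsub (hΔc (show (y, (0 : ℂ)) ∈ Δ from ⟨hLc2 y hy, mem_ball_self hε₂⟩)))).1
  have hLclow : ∀ y ∈ Lc, y.im < y₁.im := by
    rintro y ⟨-, -, h4⟩
    rw [← hy₂im]; linarith
  have hloc : ∀ y ∈ Lc, ∀ᶠ z : ℂ × ℂ in 𝓝 (t₀, y), (z.2, z.1) ∈ O₁ ∧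
      ‖(G (z.2, z.1)).2‖ ≤ P * ‖z.1 - t₀‖ ∧ ‖(G (z.2, z.1)).1 - z.2‖ ≤ η := by
    intro y hy
    have h1 := hd_small hκ hC y (hLc1 y hy) (hLclow y hy) η hη
    have h2 : Tendsto (fun z : ℂ × ℂ => (z.2, z.1)) (𝓝 (t₀, y)) (𝓝 (y, t₀)) :=
      (continuous_swap.tendsto (t₀, y))
    filter_upwards [h2.eventually h1] with z hz
    refine ⟨hz.1, hz.2.1.trans ?_, hz.2.2⟩
    have h3 : m < ‖a (y, 0)‖ := hm2 y (ball_subset_ball (min_le_left _ _) (hLc2 y hy))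
    have h4 : κ / ‖a (y, 0)‖ ≤ κ / m := div_le_div_of_nonneg_left hκ.le hm0 h3.le
    exact mul_le_mul_of_nonneg_right (by rw [hP]; linarith) (norm_nonneg _)
  have hunif := hLcc.eventually_forall_of_forall_eventually (x₀ := t₀)
    (P := fun t y => (y, t) ∈ O₁ ∧ ‖(G (y, t)).2‖ ≤ P * ‖t - t₀‖ ∧ ‖(G (y, t)).1 - y‖ ≤ η) hloc
  obtain ⟨r₁, hr₁, hr₁b⟩ := Metric.eventually_nhds_iff_ball.1 hunif
  set r : ℝ := min r₁ (min (η / (2 * κ)) (ε₂ / (4 * P))) with hr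
  have hr0 : 0 < r := lt_min hr₁ (lt_min (by positivity) (by positivity))
  have hrr₁ : r ≤ r₁ := min_le_left _ _
  have hrη : κ * r < η := by
    have h1 : r ≤ η / (2 * κ) := (min_le_right _ _).trans (min_le_left _ _)
    have h2 : κ * r ≤ κ * (η / (2 * κ)) := mul_le_mul_of_nonneg_left h1 hκ.le
    have h3 : κ * (η / (2 * κ)) = η / 2 := by field_simp
    linarith
  have hrP : 2 * (P * r) < ε₂ := by
    have h1 : r ≤ ε₂ / (4 * P) := (min_le_right _ _).trans (min_le_right _ _)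
    have h2 : P * r ≤ P * (ε₂ / (4 * P)) := mul_le_mul_of_nonneg_left h1 hP0.le
    have h3 : P * (ε₂ / (4 * P)) = ε₂ / 4 := by field_simp
    linarith
  refine ⟨r, hr0, ?_⟩
  -- low points of `hdW`
  have hlowLc : ∀ z ∈ hdW y₂ t₀ η r, z.1.im < y₂.im - 2 * η → z.1 ∈ Lc ∧ z.2 ∈ ball t₀ r₁ := by
    rintro z ⟨⟨h1, h2, h3⟩, h4, h5⟩ h6
    refine ⟨⟨?_, ⟨h1.le, h6.le⟩⟩, ?_⟩
    · have h7 : |z.1.re - y₂.re| < 17 * η := by linarith
      rw [abs_lt] at h7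
      constructor <;> linarith [h7.1, h7.2]
    · rw [mem_ball, dist_eq_norm]; linarith
  have hprop : ∀ z ∈ hdW y₂ t₀ η r, z.1.im < y₂.im - 2 * η → z ∈ O₁ ∧
      ‖(G z).2‖ ≤ P * ‖z.2 - t₀‖ ∧ ‖(G z).1 - z.1‖ ≤ η := by
    intro z hz hz'
    obtain ⟨h1, h2⟩ := hlowLc z hz hz'
    exact hr₁b z.2 h2 z.1 h1
  obtain ⟨Gt, hGtd, hGtΔ, hGtlow⟩ := hd_glue (a := a) (c := c) (Δ := Δ) hΔo
    (hC.a_diff.mono ((hΔc.trans hsub).trans hsub1)) (hC.c_diff.mono ((hΔc.trans hsub).trans hsub1))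
    (y₂ := y₂) (t₀ := t₀) hκ hη hrη hC.O₁_open hC.G_diff (fun z hz hz' => (hprop z hz hz').1)
    (fun z hz hz' hzΔ => hC.ret z hz hz' (hsub1 (hsub (hΔc hzΔ))))
    (by
      intro z hz hz' k hk
      obtain ⟨-, hV, hU⟩ := hprop z hz hz'
      have hkV : (k : ℝ) * ‖(G z).2‖ ≤ Q * (15 * η) := by
        have h1 : (k : ℝ) * ‖(G z).2‖ ≤ k * (P * ‖z.2 - t₀‖) :=
          mul_le_mul_of_nonneg_left hV (Nat.cast_nonneg _)
        have h2 : (k : ℝ) * (P * ‖z.2 - t₀‖) = Q * (k * (κ * ‖z.2 - t₀‖)) := by rw [hPQ]; ring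
        have h3 : Q * (k * (κ * ‖z.2 - t₀‖)) ≤ Q * (15 * η) :=
          mul_le_mul_of_nonneg_left hk.le hQ0.le
        linarith
      have hzt : ‖z.2 - t₀‖ < r := hz.2.1
      refine (hd_iter (u₂ := y₂) (ε₂ := ε₂) hA0 hC0 (fun w hw => hA w (hΔc hw))
        (fun w hw => hCb w (hΔc hw)) (G z) k ?_ ?_ ?_ k le_rfl).1
      · have h1 : ‖(G z).1 - y₂‖ ≤ ‖(G z).1 - z.1‖ + ‖z.1 - y₂‖ := by
          have := norm_add_le ((G z).1 - z.1) (z.1 - y₂)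
          simpa using this
        have h2 := hd_mem_Tz_norm hz.1
        have h3 : 2 * A * k * ‖(G z).2‖ ≤ 2 * A * (Q * (15 * η)) := by
          have := mul_le_mul_of_nonneg_left hkV (by positivity : 0 ≤ 2 * A)
          linarith
        nlinarith
      · have h1 : P * ‖z.2 - t₀‖ ≤ P * r := mul_le_mul_of_nonneg_left hzt.le hP0.le
        linarith
      · have h3 : 2 * C * k * ‖(G z).2‖ ≤ 2 * C * (Q * (15 * η)) := by
          have := mul_le_mul_of_nonneg_left hkV (by positivity : 0 ≤ 2 * C)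
          linarith
        nlinarith)
  refine ⟨fun z => χ (Gt z), ?_, ?_, ?_⟩
  · intro z hz
    have h1 : Gt z ∈ ball y₁ ε ×ˢ (univ : Set ℂ) :=
      ⟨ball_subset_ball hε₁ε (hsub1 (hsub (hΔc (hGtΔ z hz)))).1, mem_univ _⟩
    exact DifferentiableAt.comp_differentiableWithinAt (f := Gt) (g := χ) z
      (hχd.differentiableAt (hχo.mem_nhds h1)) (hGtd z hz)
  · intro z hz
    exact hχ3' _ (hsub (hΔc (hGtΔ z hz)))
  · intro z hz hz'
    have h1 := (hprop z hz hz').1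
    refine ⟨hC.O₁_sub h1, ?_⟩
    show χ (Gt z) = Z z
    rw [hGtlow z hz hz']
    exact hC.G_chart z h1

end Claimed.Agent.R269
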