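/-
Row 269, library for P1 Section 4 (unit 4E/4D): the differential field `k((τ))` of formal Laurent series
over a differential field `k` of characteristic zero.   Sub-captain sec 4: helper36.

  `pw e`      the substitution `t ↦ τ^e`                       (ring hom `k((t)) → k((τ))`)
  `dy d`      the derivation `∂_y` (coefficientwise `d`)
  `dt`        the derivation `∂_τ`
  `rot ζ`     the substitution `τ ↦ ζ τ`
  `shear d q` the substitution `y ↦ y + q τ`, i.e. `exp (q τ ∂_y)`

The `sorry`s are replaced IN PLACE by the owner of the package (table subtask, target row269, LF-S4-Lau).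
-/
import Claimed.Agent.R269.Lib.Dv

set_option autoImplicit false

namespace Claimed.Agent.R269.Lau

open HahnSeries

variable {k : Type*} [Field k]

/-- the substitution `t ↦ τ^e`. -/
noncomputable def pw (e : ℕ) (he : 0 < e) : LaurentSeries k →+* LaurentSeries k :=
  HahnSeries.embDomainRingHom ((e : ℤ) • AddMonoidHom.id ℤ)
    (fun a b h => by
      have he' : (e : ℤ) ≠ 0 := by exact_mod_cast he.ne'
      have h' : (e : ℤ) * a = (e : ℤ) * b := by simpa using h
      exact mul_left_cancel₀ he' h')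
    (fun a b => by
      have he' : (0 : ℤ) < e := by exact_mod_cast he
      simp [mul_le_mul_iff_right₀ he'])

/-- the order embedding `n ↦ e n` behind `pw`. -/
noncomputable def lauEmb (e : ℕ) (he : 0 < e) : ℤ ↪o ℤ :=
  ⟨⟨((e : ℤ) • AddMonoidHom.id ℤ : ℤ →+ ℤ), fun a b h => by
      have he' : (e : ℤ) ≠ 0 := by exact_mod_cast he.ne'
      have h' : (e : ℤ) * a = (e : ℤ) * b := by simpa using h
      exact mul_left_cancel₀ he' h'⟩, fun {a b} => by
      have he' : (0 : ℤ) < e := by exact_mod_cast he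
      simp [mul_le_mul_iff_right₀ he']⟩

theorem lauEmb_apply (e : ℕ) (he : 0 < e) (n : ℤ) : lauEmb e he n = (e : ℤ) * n := by
  simp [lauEmb]

theorem pw_eq_embDomain (e : ℕ) (he : 0 < e) (F : LaurentSeries k) :
    pw e he F = HahnSeries.embDomain (lauEmb e he) F := rfl

theorem pw_coeff_mul (e : ℕ) (he : 0 < e) (F : LaurentSeries k) (n : ℤ) :
    (pw e he F).coeff ((e : ℤ) * n) = F.coeff n := by
  rw [pw_eq_embDomain, ← lauEmb_apply e he, HahnSeries.embDomain_coeff]

theorem pw_coeff_of_not_dvd (e : ℕ) (he : 0 < e) (F : LaurentSeries k) (n : ℤ) (hn : ¬ (e : ℤ) ∣ n) :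
    (pw e he F).coeff n = 0 := by
  rw [pw_eq_embDomain]
  apply HahnSeries.embDomain_of_notMem_range
  rintro ⟨m, hm⟩
  rw [lauEmb_apply] at hm
  exact hn ⟨m, hm.symm⟩

theorem pw_single (e : ℕ) (he : 0 < e) (n : ℤ) (a : k) :
    pw e he (single n a) = single ((e : ℤ) * n) a := by
  rw [pw_eq_embDomain, HahnSeries.embDomain_single, lauEmb_apply]

theorem pw_pw (e e' : ℕ) (he : 0 < e) (he' : 0 < e') (F : LaurentSeries k) :
    pw e' he' (pw e he F) = pw (e * e') (Nat.mul_pos he he') F := by
  ext n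
  by_cases h' : (e' : ℤ) ∣ n
  · obtain ⟨m, rfl⟩ := h'
    rw [pw_coeff_mul]
    by_cases h : (e : ℤ) ∣ m
    · obtain ⟨l, rfl⟩ := h
      rw [pw_coeff_mul]
      have : (e' : ℤ) * ((e : ℤ) * l) = ((e * e' : ℕ) : ℤ) * l := by
        push_cast
        ring
      rw [this, pw_coeff_mul]
    · rw [pw_coeff_of_not_dvd _ _ _ _ h, pw_coeff_of_not_dvd]
      rintro ⟨l, hl⟩
      apply h
      refine ⟨l, ?_⟩
      have he0 : (e' : ℤ) ≠ 0 := by exact_mod_cast he'.ne'
      apply mul_left_cancel₀ he0
      rw [hl]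
      push_cast
      ring
  · rw [pw_coeff_of_not_dvd _ _ _ _ h', pw_coeff_of_not_dvd]
    rintro ⟨l, hl⟩
    apply h'
    refine ⟨(e : ℤ) * l, ?_⟩
    rw [hl]
    push_cast
    ring

theorem pw_orderTop (e : ℕ) (he : 0 < e) (F : LaurentSeries k) :
    (pw e he F).orderTop = WithTop.map (fun n : ℤ => (e : ℤ) * n) F.orderTop := by
  rw [pw_eq_embDomain, HahnSeries.orderTop_embDomain]
  congr 1

/-- a series all of whose exponents are divisible by `e` is in the range of `pw e`. -/
theorem mem_range_pw (e : ℕ) (he : 0 < e) (F : LaurentSeries k)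
    (h : ∀ n : ℤ, ¬ (e : ℤ) ∣ n → F.coeff n = 0) : ∃ G, pw e he G = F := by
  have he1 : (1 : ℤ) ≤ e := by exact_mod_cast he
  refine ⟨HahnSeries.ofSuppBddBelow (fun n : ℤ => F.coeff ((e : ℤ) * n)) ⟨min F.order 0, ?_⟩, ?_⟩
  · intro m hm
    by_contra hlt
    rw [not_le, lt_min_iff] at hlt
    apply hm
    apply HahnSeries.coeff_eq_zero_of_lt_order
    nlinarith [hlt.1, hlt.2]
  · ext n
    by_cases hn : (e : ℤ) ∣ n
    · obtain ⟨m, rfl⟩ := hn
      rw [pw_coeff_mul]
      rfl
    · rw [pw_coeff_of_not_dvd _ _ _ _ hn, h n hn]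

/-- the coefficients of a product as a sum over an interval; `a`, `b` are any lower bounds of the supports. -/
theorem lau_coeff_mul (F G : LaurentSeries k) (a b : ℤ) (ha : ∀ i < a, F.coeff i = 0)
    (hb : ∀ j < b, G.coeff j = 0) (n : ℤ) :
    (F * G).coeff n = ∑ i ∈ Finset.Icc a (n - b), F.coeff i * G.coeff (n - i) := by
  rw [HahnSeries.coeff_mul]
  refine Finset.sum_of_injOn Prod.fst ?_ ?_ ?_ ?_
  · rintro ⟨i, j⟩ hij ⟨i', j'⟩ hij' (h : i = i')
    have h1 := (Finset.mem_antidiagonal.1 hij).2.2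
    have h2 := (Finset.mem_antidiagonal.1 hij').2.2
    simp only at h1 h2
    ext
    · exact h
    · simp only
      omega
  · rintro ⟨i, j⟩ hij
    obtain ⟨h1, h2, h3⟩ := Finset.mem_antidiagonal.1 hij
    simp only at h1 h2 h3
    rw [Finset.coe_Icc, Set.mem_Icc]
    constructor
    · by_contra hlt
      exact h1 (ha i (not_le.1 hlt))
    · by_contra hlt
      exact h2 (hb j (by omega))
  · intro i _ hi
    by_contra hne
    apply hi
    refine ⟨(i, n - i), Finset.mem_antidiagonal.2 ⟨?_, ?_, by simp⟩, rfl⟩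
    · exact left_ne_zero_of_mul hne
    · exact right_ne_zero_of_mul hne
  · rintro ⟨i, j⟩ hij
    have h3 := (Finset.mem_antidiagonal.1 hij).2.2
    simp only at h3 ⊢
    rw [show n - i = j by omega]

theorem lau_coeff_lt_order (F : LaurentSeries k) : ∀ i < F.order, F.coeff i = 0 :=
  fun _ hi => HahnSeries.coeff_eq_zero_of_lt_order hi

/-- `∂_y`: the derivation `d` of `k` applied to every coefficient. -/
noncomputable def dy (d : Dv k) : Dv (LaurentSeries k) where
  toFun :=
    { toFun := fun F => F.map d.toFun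
      map_zero' := by
        ext n
        simp
      map_add' := by
        intro F G
        ext n
        simp }
  leibniz' := by
    intro F G
    have hm : ∀ (H : LaurentSeries k) (i : ℤ), (H.map d.toFun).coeff i = d (H.coeff i) :=
      fun _ _ => rfl
    have h0 : ∀ (H : LaurentSeries k), ∀ i < H.order, (H.map d.toFun).coeff i = 0 := by
      intro H i hi
      rw [hm, lau_coeff_lt_order H i hi, map_zero]
    ext n
    change ((F * G).map d.toFun).coeff n =
      (F * G.map d.toFun + G * F.map d.toFun).coeff n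
    rw [hm, HahnSeries.coeff_add, mul_comm G,
      lau_coeff_mul F G _ _ (lau_coeff_lt_order F) (lau_coeff_lt_order G),
      lau_coeff_mul F (G.map d.toFun) _ _ (lau_coeff_lt_order F) (h0 G),
      lau_coeff_mul (F.map d.toFun) G _ _ (h0 F) (lau_coeff_lt_order G),
      Dv.map_sum, ← Finset.sum_add_distrib]
    refine Finset.sum_congr rfl fun i _ => ?_
    rw [d.leibniz, hm, hm]
    ring

@[simp] theorem dy_coeff (d : Dv k) (F : LaurentSeries k) (n : ℤ) :
    (dy d F).coeff n = d (F.coeff n) := by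
  rfl

theorem lau_derivative_coeff (F : LaurentSeries k) (n : ℤ) :
    (LaurentSeries.derivative k (V := k) F).coeff n = ((n : k) + 1) * F.coeff (n + 1) := by
  rw [LaurentSeries.derivative_apply, LaurentSeries.hasseDeriv_coeff, Ring.choose_one_right,
    zsmul_eq_mul]
  push_cast
  rfl

/-- `∂_τ`. -/
noncomputable def dt : Dv (LaurentSeries k) where
  toFun := (LaurentSeries.derivative k (V := k)).toAddMonoidHom
  leibniz' := by
    intro F G
    have h0 : ∀ (H : LaurentSeries k), ∀ i < H.order - 1,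
        (LaurentSeries.derivative k (V := k) H).coeff i = 0 := by
      intro H i hi
      rw [lau_derivative_coeff, lau_coeff_lt_order H (i + 1) (by omega), mul_zero]
    ext n
    change (LaurentSeries.derivative k (V := k) (F * G)).coeff n =
      (F * LaurentSeries.derivative k (V := k) G +
        G * LaurentSeries.derivative k (V := k) F).coeff n
    rw [lau_derivative_coeff, HahnSeries.coeff_add, mul_comm G,
      lau_coeff_mul F G _ _ (lau_coeff_lt_order F) (lau_coeff_lt_order G),
      lau_coeff_mul F (LaurentSeries.derivative k (V := k) G) _ _ (lau_coeff_lt_order F) (h0 G),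
      lau_coeff_mul (LaurentSeries.derivative k (V := k) F) G _ _ (h0 F) (lau_coeff_lt_order G)]
    have e1 : Finset.Icc F.order (n + 1 - G.order) =
        Finset.map (addRightEmbedding 1) (Finset.Icc (F.order - 1) (n - G.order)) := by
      rw [Finset.map_add_right_Icc]
      congr 1 <;> ring
    have e2 : n - (G.order - 1) = n + 1 - G.order := by ring
    rw [e2, Finset.mul_sum]
    conv_rhs => rw [e1, Finset.sum_map]
    conv_lhs => rw [e1, Finset.sum_map]
    rw [← Finset.sum_add_distrib]
    refine Finset.sum_congr rfl fun i _ => ?_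
    simp only [addRightEmbedding_apply]
    rw [lau_derivative_coeff, lau_derivative_coeff,
      show n - (i + 1) + 1 = n - i by ring, show n + 1 - (i + 1) = n - i by ring]
    push_cast
    ring

theorem dt_coeff (F : LaurentSeries k) (n : ℤ) :
    (dt F).coeff n = ((n : k) + 1) * F.coeff (n + 1) :=
  lau_derivative_coeff F n

theorem dy_dt_comm (d : Dv k) (F : LaurentSeries k) : dy d (dt F) = dt (dy d F) := by
  ext n
  rw [dy_coeff, dt_coeff, dt_coeff, dy_coeff, d.leibniz]
  have : d ((n : k) + 1) = 0 := by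
    rw [map_add, d.map_intCast, d.map_one, add_zero]
  rw [this, mul_zero, add_zero]

/-- the underlying function of `rot`. -/
noncomputable def rotFun (ζ : kˣ) (F : LaurentSeries k) : LaurentSeries k :=
  HahnSeries.ofSuppBddBelow (fun n : ℤ => ((ζ ^ n : kˣ) : k) * F.coeff n)
    (by
      refine ⟨F.order, ?_⟩
      intro m hm
      by_contra hlt
      exact hm (by
        show ((ζ ^ m : kˣ) : k) * F.coeff m = 0
        rw [HahnSeries.coeff_eq_zero_of_lt_order (not_le.mp hlt), mul_zero]))

theorem rotFun_coeff (ζ : kˣ) (F : LaurentSeries k) (n : ℤ) :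
    (rotFun ζ F).coeff n = ((ζ ^ n : kˣ) : k) * F.coeff n := rfl

/-- the substitution `τ ↦ ζ τ`. -/
noncomputable def rot (ζ : kˣ) : LaurentSeries k →+* LaurentSeries k where
  toFun F := HahnSeries.ofSuppBddBelow (fun n : ℤ => ((ζ ^ n : kˣ) : k) * F.coeff n)
    (by
      refine ⟨F.order, ?_⟩
      intro m hm
      by_contra hlt
      exact hm (by
        show ((ζ ^ m : kˣ) : k) * F.coeff m = 0
        rw [HahnSeries.coeff_eq_zero_of_lt_order (not_le.mp hlt), mul_zero]))
  map_one' := by
    ext n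
    change ((ζ ^ n : kˣ) : k) * (1 : LaurentSeries k).coeff n = (1 : LaurentSeries k).coeff n
    rw [HahnSeries.coeff_one]
    split_ifs with h
    · rw [h, zpow_zero, Units.val_one, mul_one]
    · rw [mul_zero]
  map_mul' := by
    intro F G
    ext n
    change ((ζ ^ n : kˣ) : k) * (F * G).coeff n = (rotFun ζ F * rotFun ζ G).coeff n
    have h0 : ∀ (H : LaurentSeries k), ∀ i < H.order, (rotFun ζ H).coeff i = 0 := by
      intro H i hi
      rw [rotFun_coeff, lau_coeff_lt_order H i hi, mul_zero]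
    rw [lau_coeff_mul F G _ _ (lau_coeff_lt_order F) (lau_coeff_lt_order G),
      lau_coeff_mul (rotFun ζ F) (rotFun ζ G) _ _ (h0 F) (h0 G), Finset.mul_sum]
    refine Finset.sum_congr rfl fun i _ => ?_
    rw [rotFun_coeff, rotFun_coeff]
    have : ((ζ ^ n : kˣ) : k) = ((ζ ^ i : kˣ) : k) * ((ζ ^ (n - i) : kˣ) : k) := by
      rw [← Units.val_mul, ← zpow_add]
      congr 2
      ring
    rw [this]
    ring
  map_zero' := by
    ext n
    change ((ζ ^ n : kˣ) : k) * (0 : LaurentSeries k).coeff n = (0 : LaurentSeries k).coeff n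
    rw [HahnSeries.coeff_zero, mul_zero]
  map_add' := by
    intro F G
    ext n
    change ((ζ ^ n : kˣ) : k) * (F + G).coeff n =
      ((ζ ^ n : kˣ) : k) * F.coeff n + ((ζ ^ n : kˣ) : k) * G.coeff n
    rw [HahnSeries.coeff_add, mul_add]

@[simp] theorem rot_coeff (ζ : kˣ) (F : LaurentSeries k) (n : ℤ) :
    (rot ζ F).coeff n = ((ζ ^ n : kˣ) : k) * F.coeff n := by
  rfl

theorem rot_rot (ζ ξ : kˣ) (F : LaurentSeries k) : rot ζ (rot ξ F) = rot (ζ * ξ) F := by
  ext n
  rw [rot_coeff, rot_coeff, rot_coeff, mul_zpow, Units.val_mul, mul_assoc]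

theorem rot_one (F : LaurentSeries k) : rot (1 : kˣ) F = F := by
  ext n
  rw [rot_coeff, one_zpow, Units.val_one, one_mul]

theorem lau_dv_zpow (d : Dv k) (ζ : kˣ) (hζ : d (ζ : k) = 0) (n : ℤ) :
    d ((ζ ^ n : kˣ) : k) = 0 := by
  have hnat : ∀ m : ℕ, d ((ζ ^ m : kˣ) : k) = 0 := by
    intro m
    induction m with
    | zero => rw [pow_zero, Units.val_one, d.map_one]
    | succ m ih => rw [pow_succ, Units.val_mul, d.leibniz, hζ, ih, mul_zero, mul_zero, add_zero]
  have hinv : ∀ u : kˣ, d (u : k) = 0 → d ((u⁻¹ : kˣ) : k) = 0 := by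
    intro u hu
    have h1 : d ((u : k) * ((u⁻¹ : kˣ) : k)) = 0 := by
      rw [← Units.val_mul, mul_inv_cancel, Units.val_one, d.map_one]
    rw [d.leibniz, hu, mul_zero, add_zero] at h1
    exact (mul_eq_zero.1 h1).resolve_left u.ne_zero
  cases n with
  | ofNat m => simpa using hnat m
  | negSucc m =>
    rw [zpow_negSucc]
    exact hinv _ (hnat _)

theorem rot_dy (d : Dv k) (ζ : kˣ) (hζ : d (ζ : k) = 0) (F : LaurentSeries k) :
    rot ζ (dy d F) = dy d (rot ζ F) := by
  ext n
  rw [rot_coeff, dy_coeff, dy_coeff, rot_coeff, d.leibniz, lau_dv_zpow d ζ hζ, mul_zero, add_zero]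

/-- `∂_τ (F(ζ τ)) = ζ (∂_τ F)(ζ τ)`. -/
theorem dt_rot (ζ : kˣ) (F : LaurentSeries k) :
    dt (rot ζ F) = HahnSeries.C (ζ : k) * rot ζ (dt F) := by
  ext n
  rw [dt_coeff, rot_coeff, HahnSeries.C_mul_eq_smul, HahnSeries.coeff_smul, rot_coeff, dt_coeff,
    zpow_add_one, Units.val_mul, smul_eq_mul]
  ring

theorem rot_pw (e : ℕ) (he : 0 < e) (ζ : kˣ) (F : LaurentSeries k) :
    rot ζ (pw e he F) = pw e he (rot (ζ ^ e) F) := by
  ext n
  rw [rot_coeff]
  by_cases hn : (e : ℤ) ∣ n
  · obtain ⟨m, rfl⟩ := hn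
    rw [pw_coeff_mul, pw_coeff_mul, rot_coeff, zpow_mul, zpow_natCast]
  · rw [pw_coeff_of_not_dvd _ _ _ _ hn, pw_coeff_of_not_dvd _ _ _ _ hn, mul_zero]

/-- a series fixed by `τ ↦ ζ τ`, `ζ` a primitive `e`-th root of unity, is a series in `τ^e`. -/
theorem rot_fixed_iff (e : ℕ) (he : 0 < e) (ζ : kˣ) (hζ : IsPrimitiveRoot ζ e) (F : LaurentSeries k) :
    rot ζ F = F ↔ ∃ G, pw e he G = F := by
  constructor
  · intro h
    refine mem_range_pw e he F fun n hn => ?_
    have h1 : (rot ζ F).coeff n = F.coeff n := by rw [h]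
    rw [rot_coeff] at h1
    have h2 : (((ζ ^ n : kˣ) : k) - 1) * F.coeff n = 0 := by
      rw [sub_mul, h1, one_mul, sub_self]
    refine (mul_eq_zero.1 h2).resolve_left fun h3 => hn ?_
    rw [← hζ.zpow_eq_one_iff_dvd]
    exact Units.ext (by rw [Units.val_one]; exact sub_eq_zero.1 h3)
  · rintro ⟨G, rfl⟩
    rw [rot_pw, hζ.pow_eq_one, rot_one]

/-- chain rule for `t = τ^e`:  `∂_τ (F(τ^e)) = e τ^{e-1} (∂_t F)(τ^e)`. -/
theorem dt_pw (e : ℕ) (he : 0 < e) (F : LaurentSeries k) :
    dt (pw e he F) = single ((e : ℤ) - 1) (e : k) * pw e he (dt F) := by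
  ext n
  have h1 := HahnSeries.coeff_single_mul_add (r := (e : k)) (x := pw e he (dt F))
    (a := n - ((e : ℤ) - 1)) (b := (e : ℤ) - 1)
  rw [sub_add_cancel] at h1
  rw [h1, dt_coeff]
  by_cases hn : (e : ℤ) ∣ n + 1
  · obtain ⟨m, hm⟩ := hn
    have e1 : n - ((e : ℤ) - 1) = (e : ℤ) * (m - 1) := by
      rw [mul_sub, ← hm]
      ring
    rw [hm, e1, pw_coeff_mul, pw_coeff_mul, dt_coeff, sub_add_cancel]
    have e2 : (n : k) + 1 = (e : k) * (m : k) := by
      have : ((n + 1 : ℤ) : k) = (((e : ℤ) * m : ℤ) : k) := by rw [hm]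
      push_cast at this
      exact this
    rw [e2]
    push_cast
    ring
  · rw [pw_coeff_of_not_dvd _ _ _ _ hn, pw_coeff_of_not_dvd, mul_zero, mul_zero]
    rintro ⟨m, hm⟩
    exact hn ⟨m + 1, by rw [mul_add, ← hm]; ring⟩

theorem dy_pw (d : Dv k) (e : ℕ) (he : 0 < e) (F : LaurentSeries k) :
    dy d (pw e he F) = pw e he (dy d F) := by
  ext n
  rw [dy_coeff]
  by_cases hn : (e : ℤ) ∣ n
  · obtain ⟨m, rfl⟩ := hn
    rw [pw_coeff_mul, pw_coeff_mul, dy_coeff]
  · rw [pw_coeff_of_not_dvd _ _ _ _ hn, pw_coeff_of_not_dvd _ _ _ _ hn, map_zero]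

/-! ### orders and leading coefficients -/

theorem orderTop_dy_ge (d : Dv k) (F : LaurentSeries k) :
    F.orderTop ≤ (dy d F).orderTop := by
  rw [HahnSeries.le_orderTop_iff_forall]
  intro j hj
  rw [dy_coeff, HahnSeries.coeff_eq_zero_of_lt_orderTop hj, map_zero]

/-- `∂_τ` lowers a nonzero order by exactly one (characteristic zero). -/
theorem order_dt [CharZero k] (F : LaurentSeries k) (hF : F ≠ 0) (h0 : F.order ≠ 0) :
    dt F ≠ 0 ∧ (dt F).order = F.order - 1 ∧ (dt F).leadingCoeff = (F.order : k) * F.leadingCoeff := by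
  have hc : (dt F).coeff (F.order - 1) = (F.order : k) * F.coeff F.order := by
    rw [dt_coeff, sub_add_cancel]
    push_cast
    ring
  have hne : (dt F).coeff (F.order - 1) ≠ 0 := by
    rw [hc]
    exact mul_ne_zero (by exact_mod_cast h0) (fun h => hF (HahnSeries.coeff_order_eq_zero.1 h))
  have hdt : dt F ≠ 0 := fun h => hne (by rw [h, HahnSeries.coeff_zero])
  have hord : (dt F).order = F.order - 1 := by
    apply le_antisymm (HahnSeries.order_le_of_coeff_ne_zero hne)
    by_contra hlt
    rw [not_le] at hlt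
    apply hdt
    apply HahnSeries.coeff_order_eq_zero.1
    rw [dt_coeff, lau_coeff_lt_order F _ (by omega), mul_zero]
  refine ⟨hdt, hord, ?_⟩
  rw [HahnSeries.leadingCoeff_eq, HahnSeries.leadingCoeff_eq, hord, hc]

theorem orderTop_dt_ge (F : LaurentSeries k) : F.orderTop ≤ (dt F).orderTop + 1 := by
  by_cases h : dt F = 0
  · rw [h, HahnSeries.orderTop_zero]
    simp
  · have h1 : (dt F).coeff (dt F).order ≠ 0 := fun h' => h (HahnSeries.coeff_order_eq_zero.1 h')
    rw [dt_coeff] at h1
    have h2 := HahnSeries.orderTop_le_of_coeff_ne_zero (right_ne_zero_of_mul h1)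
    rw [← HahnSeries.order_eq_orderTop_of_ne_zero h]
    exact_mod_cast h2

/-- if `0 ≤ ord F` then `0 ≤ ord ∂_τ F`. -/
theorem orderTop_dt_nonneg (F : LaurentSeries k) (hF : 0 ≤ F.orderTop) : 0 ≤ (dt F).orderTop := by
  rw [HahnSeries.le_orderTop_iff_forall]
  intro j hj
  have hj' : j < 0 := by exact_mod_cast hj
  rw [dt_coeff]
  by_cases h : j = -1
  · subst h
    simp
  · have h1 : j + 1 < 0 := by omega
    rw [HahnSeries.coeff_eq_zero_of_lt_orderTop (lt_of_lt_of_le (by exact_mod_cast h1) hF),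
      mul_zero]

/-- The basic tool of all "leading term" arguments: a finite sum which vanishes cannot have exactly one
term of strictly smallest order. -/
theorem ne_zero_of_orderTop_lt {ι : Type*} (s : Finset ι) (f : ι → LaurentSeries k) (i₀ : ι)
    (hi₀ : i₀ ∈ s) (h0 : f i₀ ≠ 0) (h : ∀ i ∈ s, i ≠ i₀ → (f i₀).orderTop < (f i).orderTop) :
    ∑ i ∈ s, f i ≠ 0 := by
  intro hsum
  have hc : (∑ i ∈ s, f i).coeff (f i₀).order = (f i₀).coeff (f i₀).order := by
    rw [HahnSeries.coeff_sum, Finset.sum_eq_single i₀]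
    · intro i hi hne
      apply HahnSeries.coeff_eq_zero_of_lt_orderTop
      rw [HahnSeries.order_eq_orderTop_of_ne_zero h0]
      exact h i hi hne
    · intro hn
      exact absurd hi₀ hn
  rw [hsum, HahnSeries.coeff_zero] at hc
  exact h0 (HahnSeries.coeff_order_eq_zero.1 hc.symm)

/-! ### the shear `y ↦ y + q τ` -/

/-- `S_q F = Σ_i (q τ)^i ∂_y^i F / i!`. -/
noncomputable def shearFun (d : Dv k) (q : ℤ) (F : LaurentSeries k) : LaurentSeries k :=
  HahnSeries.ofSuppBddBelow
    (fun n : ℤ => ∑ i ∈ Finset.range (n - F.order).toNat.succ,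
      ((q : k) ^ i / (i.factorial : k)) * (d^[i]) (F.coeff (n - i)))
    (by
      refine ⟨F.order, ?_⟩
      intro m hm
      by_contra hlt
      refine hm (Finset.sum_eq_zero ?_)
      intro i _
      have hlt' : m - (i : ℤ) < F.order := by
        have := not_le.mp hlt
        omega
      rw [HahnSeries.coeff_eq_zero_of_lt_order hlt']
      have h0 : ∀ j : ℕ, (d^[j]) (0 : k) = 0 := by
        intro j
        induction j with
        | zero => rfl
        | succ j ih => rw [Function.iterate_succ_apply', ih, map_zero]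
      rw [h0, mul_zero])

/-- coefficient formula with an arbitrary lower bound `a` of the support and an arbitrary sufficiently long range. -/
theorem shearFun_coeff' (d : Dv k) (q : ℤ) (F : LaurentSeries k) (a : ℤ)
    (ha : ∀ i < a, F.coeff i = 0) (n : ℤ) (N : ℕ) (hN : n - a < N) :
    (shearFun d q F).coeff n =
      ∑ i ∈ Finset.range N, ((q : k) ^ i / (i.factorial : k)) * (d^[i]) (F.coeff (n - i)) := by
  change ∑ i ∈ Finset.range (n - F.order).toNat.succ,
      ((q : k) ^ i / (i.factorial : k)) * (d^[i]) (F.coeff (n - i)) = _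
  have h1 : ∀ i ≥ (n - F.order).toNat.succ,
      ((q : k) ^ i / (i.factorial : k)) * (d^[i]) (F.coeff (n - i)) = 0 := by
    intro i hi
    rw [lau_coeff_lt_order F _ (by omega), iterate_map_zero, mul_zero]
  have h2 : ∀ i ≥ N, ((q : k) ^ i / (i.factorial : k)) * (d^[i]) (F.coeff (n - i)) = 0 := by
    intro i hi
    rw [ha _ (by omega), iterate_map_zero, mul_zero]
  rcases le_total (n - F.order).toNat.succ N with h | h
  · exact (Finset.eventually_constant_sum h1 h).symm
  · exact Finset.eventually_constant_sum h2 h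

/-- coefficient formula with an arbitrary sufficiently long range. -/
theorem shearFun_coeff (d : Dv k) (q : ℤ) (F : LaurentSeries k) (n : ℤ) (N : ℕ)
    (hN : n - F.order < N) :
    (shearFun d q F).coeff n =
      ∑ i ∈ Finset.range N, ((q : k) ^ i / (i.factorial : k)) * (d^[i]) (F.coeff (n - i)) :=
  shearFun_coeff' d q F F.order (lau_coeff_lt_order F) n N hN

/-- a range which is long enough. -/
theorem lau_toNat_lt (n a : ℤ) : n - a < ((n - a).toNat + 1 : ℕ) := by
  push_cast
  have := Int.self_le_toNat (n - a)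
  omega

theorem lau_iter_const_mul (d : Dv k) (c : k) (hc : d c = 0) (i : ℕ) (x : k) :
    (d^[i]) (c * x) = c * (d^[i]) x := by
  induction i with
  | zero => rfl
  | succ i ih => rw [Function.iterate_succ_apply', ih, d.leibniz, hc, mul_zero, add_zero,
      Function.iterate_succ_apply']

theorem lau_iter_sum (d : Dv k) (i : ℕ) {ι : Type*} (s : Finset ι) (f : ι → k) :
    (d^[i]) (∑ j ∈ s, f j) = ∑ j ∈ s, (d^[i]) (f j) := by
  induction i with
  | zero => rfl
  | succ i ih =>
    rw [Function.iterate_succ_apply', ih, Dv.map_sum]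
    refine Finset.sum_congr rfl fun j _ => ?_
    rw [Function.iterate_succ_apply']

/-- the coefficients `q^i / i!` are constants. -/
theorem lau_dv_sc [CharZero k] (d : Dv k) (q : ℤ) (i : ℕ) :
    d ((q : k) ^ i / (i.factorial : k)) = 0 := by
  have hf : (i.factorial : k) ≠ 0 := by exact_mod_cast i.factorial_ne_zero
  have h1 : d ((q : k) ^ i) = 0 := by
    have : ((q : k) ^ i) = ((q ^ i : ℤ) : k) := by push_cast; rfl
    rw [this, d.map_intCast]
  have h2 : d ((i.factorial : k) * ((q : k) ^ i / (i.factorial : k))) = 0 := by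
    rw [mul_div_cancel₀ _ hf, h1]
  rw [d.leibniz, d.map_natCast, mul_zero, add_zero] at h2
  exact (mul_eq_zero.1 h2).resolve_left hf

/-- `S_q` preserves lower bounds of the support. -/
theorem shearFun_coeff_of_lt (d : Dv k) (q : ℤ) (F : LaurentSeries k) (a : ℤ)
    (ha : ∀ i < a, F.coeff i = 0) : ∀ i < a, (shearFun d q F).coeff i = 0 := by
  intro n hn
  rw [shearFun_coeff' d q F a ha n 0 (by push_cast; omega), Finset.sum_range_zero]

/-- the first coefficient. -/
theorem shearFun_coeff_first (d : Dv k) (q : ℤ) (F : LaurentSeries k) (a : ℤ)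
    (ha : ∀ i < a, F.coeff i = 0) : (shearFun d q F).coeff a = F.coeff a := by
  rw [shearFun_coeff' d q F a ha a 1 (by push_cast; omega), Finset.sum_range_one]
  simp

theorem shearFun_add (d : Dv k) (q : ℤ) (F G : LaurentSeries k) :
    shearFun d q (F + G) = shearFun d q F + shearFun d q G := by
  ext n
  have hF : ∀ i < min F.order G.order, F.coeff i = 0 := fun i hi =>
    lau_coeff_lt_order F i (lt_of_lt_of_le hi (min_le_left _ _))
  have hG : ∀ i < min F.order G.order, G.coeff i = 0 := fun i hi =>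
    lau_coeff_lt_order G i (lt_of_lt_of_le hi (min_le_right _ _))
  have hFG : ∀ i < min F.order G.order, (F + G).coeff i = 0 := fun i hi => by
    rw [HahnSeries.coeff_add, hF i hi, hG i hi, add_zero]
  rw [HahnSeries.coeff_add, shearFun_coeff' d q _ _ hFG n _ (lau_toNat_lt _ _),
    shearFun_coeff' d q _ _ hF n _ (lau_toNat_lt _ _),
    shearFun_coeff' d q _ _ hG n _ (lau_toNat_lt _ _), ← Finset.sum_add_distrib]
  refine Finset.sum_congr rfl fun i _ => ?_
  rw [HahnSeries.coeff_add, iterate_map_add, mul_add]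

theorem shearFun_zero (d : Dv k) (q : ℤ) : shearFun d q (0 : LaurentSeries k) = 0 := by
  ext n
  rw [shearFun_coeff' d q 0 (n + 1) (fun _ _ => HahnSeries.coeff_zero) n 0 (by push_cast; omega),
    Finset.sum_range_zero, HahnSeries.coeff_zero]

/-- `S_q` commutes with the multiplication by `τ^a`. -/
theorem shearFun_single_mul (d : Dv k) (q : ℤ) (a : ℤ) (H : LaurentSeries k) :
    shearFun d q (single a (1 : k) * H) = single a (1 : k) * shearFun d q H := by
  have hc : ∀ (G : LaurentSeries k) (m : ℤ), (single a (1 : k) * G).coeff m = G.coeff (m - a) := by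
    intro G m
    have h := HahnSeries.coeff_single_mul_add (r := (1 : k)) (x := G) (a := m - a) (b := a)
    rwa [sub_add_cancel, one_mul] at h
  ext n
  have h1 : ∀ i < H.order + a, (single a (1 : k) * H).coeff i = 0 := fun i hi => by
    rw [hc, lau_coeff_lt_order H _ (by omega)]
  rw [hc, shearFun_coeff' d q _ _ h1 n _ (lau_toNat_lt _ _),
    shearFun_coeff d q H (n - a) ((n - (H.order + a)).toNat + 1) (by
      have := lau_toNat_lt n (H.order + a)
      omega)]
  refine Finset.sum_congr rfl fun i _ => ?_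
  rw [hc, show n - (i : ℤ) - a = n - a - i by ring]

theorem dy_shearFun [CharZero k] (d : Dv k) (q : ℤ) (F : LaurentSeries k) :
    dy d (shearFun d q F) = shearFun d q (dy d F) := by
  ext n
  have h1 : ∀ i < F.order, (dy d F).coeff i = 0 := fun i hi => by
    rw [dy_coeff, lau_coeff_lt_order F i hi, map_zero]
  rw [dy_coeff, shearFun_coeff d q F n _ (lau_toNat_lt _ _),
    shearFun_coeff' d q _ _ h1 n _ (lau_toNat_lt _ _), Dv.map_sum]
  refine Finset.sum_congr rfl fun i _ => ?_
  rw [d.leibniz, lau_dv_sc, mul_zero, add_zero, dy_coeff,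
    ← Function.iterate_succ_apply' (f := ⇑d), Function.iterate_succ_apply]

theorem lau_intCast_mul_coeff (q : ℤ) (H : LaurentSeries k) (m : ℤ) :
    ((q : LaurentSeries k) * H).coeff m = (q : k) * H.coeff m := by
  rw [← map_intCast (HahnSeries.C : k →+* LaurentSeries k) q, HahnSeries.C_mul_eq_smul,
    HahnSeries.coeff_smul, smul_eq_mul]

theorem dt_shearFun [CharZero k] (d : Dv k) (q : ℤ) (F : LaurentSeries k) :
    dt (shearFun d q F) = shearFun d q (dt F + (q : LaurentSeries k) * dy d F) := by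
  ext n
  have hG : ∀ m : ℤ, (dt F + (q : LaurentSeries k) * dy d F).coeff m =
      ((m : k) + 1) * F.coeff (m + 1) + (q : k) * d (F.coeff m) := by
    intro m
    rw [HahnSeries.coeff_add, dt_coeff, lau_intCast_mul_coeff, dy_coeff]
  have h1 : ∀ i < F.order - 1, (dt F + (q : LaurentSeries k) * dy d F).coeff i = 0 := by
    intro i hi
    rw [hG, lau_coeff_lt_order F _ (by omega), lau_coeff_lt_order F i (by omega), map_zero,
      mul_zero, mul_zero, add_zero]
  obtain ⟨N, hN⟩ : ∃ N : ℕ, N = (n - (F.order - 1)).toNat + 1 := ⟨_, rfl⟩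
  have hN1 : n - (F.order - 1) < N := by
    rw [hN]
    exact lau_toNat_lt _ _
  rw [dt_coeff, shearFun_coeff d q F (n + 1) (N + 1) (by push_cast; omega),
    shearFun_coeff' d q _ _ h1 n N hN1]
  have hT : ∀ i : ℕ, ((q : k) ^ i / (i.factorial : k)) *
      (d^[i]) ((dt F + (q : LaurentSeries k) * dy d F).coeff (n - i)) =
      ((n : k) + 1 - i) * (((q : k) ^ i / (i.factorial : k)) * (d^[i]) (F.coeff (n + 1 - i))) +
      ((i : k) + 1) * (((q : k) ^ (i + 1) / ((i + 1).factorial : k)) *
        (d^[i + 1]) (F.coeff (n + 1 - (i + 1 : ℕ)))) := by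
    intro i
    have hc1 : d (((n - i : ℤ) : k) + 1) = 0 := by
      rw [map_add, d.map_intCast, d.map_one, add_zero]
    have hc2 : d (q : k) = 0 := d.map_intCast q
    rw [hG, iterate_map_add, lau_iter_const_mul d _ hc1, lau_iter_const_mul d _ hc2,
      ← Function.iterate_succ_apply, show n - (i : ℤ) + 1 = n + 1 - i by ring,
      show n + 1 - ((i + 1 : ℕ) : ℤ) = n - i by push_cast; ring]
    have hf : (i.factorial : k) ≠ 0 := by exact_mod_cast i.factorial_ne_zero
    have hi1 : ((i : k) + 1) ≠ 0 := by exact_mod_cast (Nat.succ_ne_zero i)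
    rw [Nat.factorial_succ]
    push_cast
    field_simp
    ring
  rw [Finset.sum_congr rfl fun i _ => hT i, Finset.sum_add_distrib]
  have e1 : ∑ i ∈ Finset.range N, ((i : k) + 1) * (((q : k) ^ (i + 1) / ((i + 1).factorial : k)) *
        (d^[i + 1]) (F.coeff (n + 1 - (i + 1 : ℕ)))) =
      ∑ i ∈ Finset.range (N + 1), (i : k) * (((q : k) ^ i / (i.factorial : k)) *
        (d^[i]) (F.coeff (n + 1 - i))) := by
    rw [Finset.sum_range_succ']
    simp
  have e2 : ∑ i ∈ Finset.range N, ((n : k) + 1 - i) * (((q : k) ^ i / (i.factorial : k)) *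
        (d^[i]) (F.coeff (n + 1 - i))) =
      ∑ i ∈ Finset.range (N + 1), ((n : k) + 1 - i) * (((q : k) ^ i / (i.factorial : k)) *
        (d^[i]) (F.coeff (n + 1 - i))) := by
    rw [Finset.sum_range_succ, lau_coeff_lt_order F (n + 1 - N) (by omega), iterate_map_zero,
      mul_zero, mul_zero, add_zero]
  rw [e1, e2, ← Finset.sum_add_distrib, Finset.mul_sum]
  refine Finset.sum_congr rfl fun i _ => ?_
  ring

theorem lau_mul_nonneg (F G : LaurentSeries k) (hF : ∀ i < 0, F.coeff i = 0)
    (hG : ∀ i < 0, G.coeff i = 0) : ∀ i < 0, (F * G).coeff i = 0 := by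
  intro i hi
  rw [lau_coeff_mul F G 0 0 hF hG, Finset.Icc_eq_empty (by omega), Finset.sum_empty]

theorem lau_mul_coeff_zero (F G : LaurentSeries k) (hF : ∀ i < 0, F.coeff i = 0)
    (hG : ∀ i < 0, G.coeff i = 0) : (F * G).coeff 0 = F.coeff 0 * G.coeff 0 := by
  rw [lau_coeff_mul F G 0 0 hF hG]
  simp

theorem shearFun_mul_of_nonneg [CharZero k] (d : Dv k) (q : ℤ) (n : ℕ) :
    ∀ F G : LaurentSeries k, (∀ i < 0, F.coeff i = 0) → (∀ i < 0, G.coeff i = 0) →
      (shearFun d q (F * G)).coeff n = (shearFun d q F * shearFun d q G).coeff n := by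
  induction n with
  | zero =>
    intro F G hF hG
    rw [Nat.cast_zero, shearFun_coeff_first d q _ 0 (lau_mul_nonneg F G hF hG),
      lau_mul_coeff_zero F G hF hG,
      lau_mul_coeff_zero _ _ (shearFun_coeff_of_lt d q F 0 hF) (shearFun_coeff_of_lt d q G 0 hG),
      shearFun_coeff_first d q F 0 hF, shearFun_coeff_first d q G 0 hG]
  | succ n ih =>
    intro F G hF hG
    have hD : ∀ H : LaurentSeries k, (∀ i < 0, H.coeff i = 0) →
        ∀ i < 0, (dt H + (q : LaurentSeries k) * dy d H).coeff i = 0 := by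
      intro H hH i hi
      rw [HahnSeries.coeff_add, dt_coeff, lau_intCast_mul_coeff, dy_coeff, hH i hi, map_zero,
        mul_zero, add_zero]
      by_cases h : i = -1
      · subst h
        simp
      · rw [hH _ (by omega), mul_zero]
    have hn : ((n : ℤ) : k) + 1 ≠ 0 := by
      have : ((n : ℤ) : k) + 1 = ((n + 1 : ℕ) : k) := by push_cast; rfl
      rw [this]
      exact_mod_cast Nat.succ_ne_zero n
    have key : (dt (shearFun d q (F * G))).coeff n =
        (dt (shearFun d q F * shearFun d q G)).coeff n := by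
      rw [dt_shearFun, dt.leibniz, (dy d).leibniz, dt.leibniz, dt_shearFun, dt_shearFun]
      have e : F * dt G + G * dt F + (q : LaurentSeries k) * (F * dy d G + G * dy d F) =
          F * (dt G + (q : LaurentSeries k) * dy d G) +
            G * (dt F + (q : LaurentSeries k) * dy d F) := by ring
      rw [e, shearFun_add, HahnSeries.coeff_add, HahnSeries.coeff_add, ih F _ hF (hD G hG),
        ih G _ hG (hD F hF)]
    rw [dt_coeff, dt_coeff] at key
    have := mul_left_cancel₀ hn key
    push_cast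
    exact this

theorem shearFun_mul [CharZero k] (d : Dv k) (q : ℤ) (F G : LaurentSeries k) :
    shearFun d q (F * G) = shearFun d q F * shearFun d q G := by
  have hc : ∀ (a : ℤ) (H : LaurentSeries k) (m : ℤ),
      (single a (1 : k) * H).coeff m = H.coeff (m - a) := by
    intro a H m
    have h := HahnSeries.coeff_single_mul_add (r := (1 : k)) (x := H) (a := m - a) (b := a)
    rwa [sub_add_cancel, one_mul] at h
  have hdec : ∀ H : LaurentSeries k, H = single H.order (1 : k) * (single (-H.order) (1 : k) * H) := by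
    intro H
    rw [← mul_assoc, HahnSeries.single_mul_single, add_neg_cancel, mul_one]
    exact (one_mul H).symm
  have hnn : ∀ H : LaurentSeries k, ∀ i < 0, (single (-H.order) (1 : k) * H).coeff i = 0 := by
    intro H i hi
    rw [hc, lau_coeff_lt_order H _ (by omega)]
  have hmul : ∀ F₀ G₀ : LaurentSeries k, (∀ i < 0, F₀.coeff i = 0) → (∀ i < 0, G₀.coeff i = 0) →
      shearFun d q (F₀ * G₀) = shearFun d q F₀ * shearFun d q G₀ := by
    intro F₀ G₀ hF hG
    ext n
    by_cases hn : n < 0
    · rw [shearFun_coeff_of_lt d q _ 0 (lau_mul_nonneg F₀ G₀ hF hG) n hn,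
        lau_mul_nonneg _ _ (shearFun_coeff_of_lt d q F₀ 0 hF) (shearFun_coeff_of_lt d q G₀ 0 hG) n hn]
    · obtain ⟨m, rfl⟩ := Int.eq_ofNat_of_zero_le (not_lt.1 hn)
      exact shearFun_mul_of_nonneg d q m F₀ G₀ hF hG
  obtain ⟨F₀, hF₀⟩ : ∃ F₀, F₀ = single (-F.order) (1 : k) * F := ⟨_, rfl⟩
  obtain ⟨G₀, hG₀⟩ : ∃ G₀, G₀ = single (-G.order) (1 : k) * G := ⟨_, rfl⟩
  have hF := hdec F
  have hG := hdec G
  rw [← hF₀] at hF
  rw [← hG₀] at hG
  have e : F * G = single (F.order + G.order) (1 : k) * (F₀ * G₀) := by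
    conv_lhs => rw [hF, hG]
    rw [← mul_one (1 : k), ← HahnSeries.single_mul_single, mul_one]
    ring
  rw [e, shearFun_single_mul, hmul F₀ G₀ (hF₀ ▸ hnn F) (hG₀ ▸ hnn G)]
  conv_rhs => rw [hF, hG, shearFun_single_mul, shearFun_single_mul]
  rw [← mul_one (1 : k), ← HahnSeries.single_mul_single, mul_one]
  ring

theorem shearFun_one [CharZero k] (d : Dv k) (q : ℤ) : shearFun d q (1 : LaurentSeries k) = 1 := by
  have h0 : ∀ i < 0, (1 : LaurentSeries k).coeff i = 0 := fun i hi => by
    rw [HahnSeries.coeff_one, if_neg hi.ne]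
  have h1 : (shearFun d q (1 : LaurentSeries k)).coeff 0 = 1 := by
    rw [shearFun_coeff_first d q 1 0 h0, HahnSeries.coeff_one, if_pos rfl]
  have h2 : shearFun d q (1 : LaurentSeries k) * (shearFun d q (1 : LaurentSeries k) - 1) = 0 := by
    rw [mul_sub, ← shearFun_mul, mul_one, mul_one, sub_self]
  rcases mul_eq_zero.1 h2 with h | h
  · rw [h, HahnSeries.coeff_zero] at h1
    exact absurd h1 zero_ne_one
  · exact sub_eq_zero.1 h

/-- the shear as a ring homomorphism (characteristic zero). -/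
noncomputable def shear [CharZero k] (d : Dv k) (q : ℤ) :
    LaurentSeries k →+* LaurentSeries k where
  toFun := shearFun d q
  map_one' := shearFun_one d q
  map_mul' := shearFun_mul d q
  map_zero' := shearFun_zero d q
  map_add' := shearFun_add d q

theorem shear_apply [CharZero k] (d : Dv k) (q : ℤ) (F : LaurentSeries k) :
    shear d q F = shearFun d q F := rfl

theorem shear_zero [CharZero k] (d : Dv k) (F : LaurentSeries k) : shear d 0 F = F := by
  ext n
  rw [shear_apply, shearFun_coeff d 0 F n _ (lau_toNat_lt _ _), Finset.sum_range_succ']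
  simp

theorem dy_shear [CharZero k] (d : Dv k) (q : ℤ) (F : LaurentSeries k) :
    dy d (shear d q F) = shear d q (dy d F) :=
  dy_shearFun d q F

/-- `∂_t (F(y+qt,t)) = (∂_t F + q ∂_y F)(y+qt,t)`. -/
theorem dt_shear [CharZero k] (d : Dv k) (q : ℤ) (F : LaurentSeries k) :
    dt (shear d q F) = shear d q (dt F + (q : LaurentSeries k) * dy d F) :=
  dt_shearFun d q F

theorem shear_shear_of_nonneg [CharZero k] (d : Dv k) (q q' : ℤ) (n : ℕ) :
    ∀ F : LaurentSeries k, (∀ i < 0, F.coeff i = 0) →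
      (shear d q (shear d q' F)).coeff n = (shear d (q + q') F).coeff n := by
  induction n with
  | zero =>
    intro F hF
    rw [Nat.cast_zero, shear_apply, shear_apply, shear_apply,
      shearFun_coeff_first d q _ 0 (shearFun_coeff_of_lt d q' F 0 hF),
      shearFun_coeff_first d q' F 0 hF, shearFun_coeff_first d (q + q') F 0 hF]
  | succ n ih =>
    intro F hF
    have hD : ∀ i < 0, (dt F + ((q + q' : ℤ) : LaurentSeries k) * dy d F).coeff i = 0 := by
      intro i hi
      rw [HahnSeries.coeff_add, dt_coeff, lau_intCast_mul_coeff, dy_coeff, hF i hi, map_zero,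
        mul_zero, add_zero]
      by_cases h : i = -1
      · subst h
        simp
      · rw [hF _ (by omega), mul_zero]
    have hn : ((n : ℤ) : k) + 1 ≠ 0 := by
      have : ((n : ℤ) : k) + 1 = ((n + 1 : ℕ) : k) := by push_cast; rfl
      rw [this]
      exact_mod_cast Nat.succ_ne_zero n
    have key : (dt (shear d q (shear d q' F))).coeff n = (dt (shear d (q + q') F)).coeff n := by
      rw [dt_shear, dt_shear, dt_shear, dy_shear]
      have e : shear d q' (dt F + (q' : LaurentSeries k) * dy d F) +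
          (q : LaurentSeries k) * shear d q' (dy d F) =
          shear d q' (dt F + ((q + q' : ℤ) : LaurentSeries k) * dy d F) := by
        rw [map_add, map_add, map_mul, map_mul, map_intCast, map_intCast]
        push_cast
        ring
      rw [e, ih _ hD]
    rw [dt_coeff, dt_coeff] at key
    have := mul_left_cancel₀ hn key
    push_cast
    exact this

theorem shear_shear [CharZero k] (d : Dv k) (q q' : ℤ) (F : LaurentSeries k) :
    shear d q (shear d q' F) = shear d (q + q') F := by
  have hc : ∀ (a : ℤ) (H : LaurentSeries k) (m : ℤ),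
      (single a (1 : k) * H).coeff m = H.coeff (m - a) := by
    intro a H m
    have h := HahnSeries.coeff_single_mul_add (r := (1 : k)) (x := H) (a := m - a) (b := a)
    rwa [sub_add_cancel, one_mul] at h
  have hdec : F = single F.order (1 : k) * (single (-F.order) (1 : k) * F) := by
    rw [← mul_assoc, HahnSeries.single_mul_single, add_neg_cancel, mul_one]
    exact (one_mul F).symm
  have hnn : ∀ i < 0, (single (-F.order) (1 : k) * F).coeff i = 0 := by
    intro i hi
    rw [hc, lau_coeff_lt_order F _ (by omega)]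
  obtain ⟨F₀, hF₀⟩ : ∃ F₀, F₀ = single (-F.order) (1 : k) * F := ⟨_, rfl⟩
  rw [← hF₀] at hdec hnn
  have h0 : shear d q (shear d q' F₀) = shear d (q + q') F₀ := by
    ext n
    by_cases hn : n < 0
    · rw [shear_apply, shear_apply, shear_apply,
        shearFun_coeff_of_lt d q _ 0 (shearFun_coeff_of_lt d q' F₀ 0 hnn) n hn,
        shearFun_coeff_of_lt d (q + q') F₀ 0 hnn n hn]
    · obtain ⟨m, rfl⟩ := Int.eq_ofNat_of_zero_le (not_lt.1 hn)
      exact shear_shear_of_nonneg d q q' m F₀ hnn
  rw [hdec]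
  simp only [shear_apply, shearFun_single_mul]
  simp only [shear_apply] at h0
  rw [h0]

/-- `I S_q = S_{-q} I`, `I = rot (-1)`. -/
theorem rot_neg_one_shear [CharZero k] (d : Dv k) (q : ℤ) (F : LaurentSeries k) :
    rot (-1 : kˣ) (shear d q F) = shear d (-q) (rot (-1 : kˣ) F) := by
  ext n
  have h1 : ∀ i < F.order, (rot (-1 : kˣ) F).coeff i = 0 := fun i hi => by
    rw [rot_coeff, lau_coeff_lt_order F i hi, mul_zero]
  have hd : d (((-1 : kˣ) : kˣ) : k) = 0 := by
    rw [Units.val_neg, Units.val_one, map_neg, d.map_one, neg_zero]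
  rw [rot_coeff, shear_apply, shear_apply, shearFun_coeff d q F n _ (lau_toNat_lt _ _),
    shearFun_coeff' d (-q) _ _ h1 n _ (lau_toNat_lt _ _), Finset.mul_sum]
  refine Finset.sum_congr rfl fun i _ => ?_
  rw [rot_coeff, lau_iter_const_mul d _ (lau_dv_zpow d (-1) hd _)]
  have e1 : (((-1 : kˣ) ^ n : kˣ) : k) = (-1 : k) ^ i * (((-1 : kˣ) ^ (n - i) : kˣ) : k) := by
    have : (-1 : k) ^ i = (((-1 : kˣ) ^ (i : ℤ) : kˣ) : k) := by
      rw [zpow_natCast, Units.val_pow_eq_pow_val, Units.val_neg, Units.val_one]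
    rw [this, ← Units.val_mul, ← zpow_add]
    congr 2
    ring
  have e2 : (((-q : ℤ) : k)) ^ i = (-1 : k) ^ i * (q : k) ^ i := by
    rw [← mul_pow]
    push_cast
    ring
  rw [e1, e2]
  ring

theorem shear_orderTop [CharZero k] (d : Dv k) (q : ℤ) (F : LaurentSeries k) :
    (shear d q F).orderTop = F.orderTop := by
  by_cases hF : F = 0
  · rw [hF, map_zero]
  · rw [← HahnSeries.order_eq_orderTop_of_ne_zero hF]
    apply le_antisymm
    · apply HahnSeries.orderTop_le_of_coeff_ne_zero
      rw [shear_apply, shearFun_coeff_first d q F _ (lau_coeff_lt_order F)]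
      exact fun h => hF (HahnSeries.coeff_order_eq_zero.1 h)
    · rw [HahnSeries.le_orderTop_iff_forall]
      intro j hj
      exact shearFun_coeff_of_lt d q F _ (lau_coeff_lt_order F) j (by exact_mod_cast hj)

theorem lau_coeff_of_orderTop_nonneg (F : LaurentSeries k) (hF : 0 ≤ F.orderTop) :
    ∀ i < 0, F.coeff i = 0 := fun _ hi =>
  HahnSeries.coeff_eq_zero_of_lt_orderTop (lt_of_lt_of_le (by exact_mod_cast hi) hF)

/-- the first two coefficients of a sheared power series. -/
theorem shear_coeff_zero [CharZero k] (d : Dv k) (q : ℤ) (F : LaurentSeries k)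
    (hF : 0 ≤ F.orderTop) : (shear d q F).coeff 0 = F.coeff 0 :=
  shearFun_coeff_first d q F 0 (lau_coeff_of_orderTop_nonneg F hF)

theorem shear_coeff_one [CharZero k] (d : Dv k) (q : ℤ) (F : LaurentSeries k)
    (hF : 0 ≤ F.orderTop) : (shear d q F).coeff 1 = F.coeff 1 + (q : k) * d (F.coeff 0) := by
  rw [shear_apply, shearFun_coeff' d q F 0 (lau_coeff_of_orderTop_nonneg F hF) 1 2 (by norm_num)]
  simp [Finset.sum_range_succ]

theorem shear_coeff_two [CharZero k] (d : Dv k) (q : ℤ) (F : LaurentSeries k)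
    (hF : 0 ≤ F.orderTop) :
    (shear d q F).coeff 2 = F.coeff 2 + (q : k) * d (F.coeff 1) + (q : k) ^ 2 / 2 * d (d (F.coeff 0)) := by
  rw [shear_apply, shearFun_coeff' d q F 0 (lau_coeff_of_orderTop_nonneg F hF) 2 3 (by norm_num)]
  simp [Finset.sum_range_succ, Nat.factorial]

end Claimed.Agent.R269.Lau
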