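/-
Row 269, library L1-SCV, unit 4B (Levi / product continuation = P1 Lemma 4.5), part A: one-variable tools.
Owner: helper270.

* `annulus c ρ R`                            the open annulus, open, preconnected;
* `exists_polynomial_mul_analyticOnNhd`      a polynomial clears the poles of a meromorphic function on a compact set;
* `cauchy_annulus`, `cauchy_of_moments`      vanishing moments on a circle => the Cauchy integral reproduces the function
                                             on an inner collar;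
* `exists_analytic_recurrence`               Kronecker/Hankel: a sequence of analytic functions which satisfies a linear
                                             recurrence with constant coefficients at uncountably many points satisfies one
                                             with analytic coefficients.
-/
import Claimed.Agent.R269.Lib.Mero2b

set_option autoImplicit false

namespace Claimed.Agent.R269

open Complex Filter Topology Set Metric
open scoped Real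

/-- the open annulus `ρ < |ζ - c| < R`. -/
def annulus (c : ℂ) (ρ R : ℝ) : Set ℂ := {ζ | ρ < ‖ζ - c‖ ∧ ‖ζ - c‖ < R}

theorem isOpen_annulus (c : ℂ) (ρ R : ℝ) : IsOpen (annulus c ρ R) := by
  have h : Continuous fun ζ : ℂ => ‖ζ - c‖ := by fun_prop
  exact (isOpen_lt continuous_const h).inter (isOpen_lt h continuous_const)

/-- image of `(ρ,R) × ℝ` under `(s,θ) ↦ c + s e^{iθ}`. -/
theorem isPreconnected_annulus (c : ℂ) {ρ : ℝ} (hρ : 0 ≤ ρ) (R : ℝ) :
    IsPreconnected (annulus c ρ R) := by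
  have h1 : annulus c ρ R =
      (fun p : ℝ × ℝ => c + (p.1 : ℂ) * Complex.exp ((p.2 : ℂ) * I)) '' (Ioo ρ R ×ˢ univ) := by
    ext ζ
    constructor
    · rintro ⟨h1, h2⟩
      refine ⟨(‖ζ - c‖, Complex.arg (ζ - c)), ⟨⟨h1, h2⟩, mem_univ _⟩, ?_⟩
      simp only
      rw [Complex.norm_mul_exp_arg_mul_I]
      ring
    · rintro ⟨⟨s, θ⟩, ⟨⟨h1, h2⟩, -⟩, rfl⟩
      have h3 : ‖c + (s : ℂ) * Complex.exp ((θ : ℂ) * I) - c‖ = s := by
        rw [add_sub_cancel_left, norm_mul, Complex.norm_exp_ofReal_mul_I, mul_one,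
          Complex.norm_real, Real.norm_of_nonneg (hρ.trans h1.le)]
      exact ⟨by rw [h3]; exact h1, by rw [h3]; exact h2⟩
  rw [h1]
  exact (isPreconnected_Ioo.prod isPreconnected_univ).image _ (by fun_prop)

theorem annulus_nonempty (c : ℂ) {ρ R : ℝ} (hρ : 0 ≤ ρ) (h : ρ < R) : (annulus c ρ R).Nonempty := by
  refine ⟨c + (((ρ + R) / 2 : ℝ) : ℂ), ?_⟩
  have h3 : ‖c + (((ρ + R) / 2 : ℝ) : ℂ) - c‖ = (ρ + R) / 2 := by
    rw [add_sub_cancel_left, Complex.norm_real, Real.norm_of_nonneg (by linarith)]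
  exact ⟨by rw [h3]; linarith, by rw [h3]; linarith⟩

theorem annulus_subset_ball (c : ℂ) (ρ R : ℝ) : annulus c ρ R ⊆ ball c R := fun _ hζ =>
  mem_ball_iff_norm.2 hζ.2

theorem annulus_union_ball (c : ℂ) {ρ r R : ℝ} (h1 : ρ < r) (h2 : r ≤ R) :
    annulus c ρ R ∪ ball c r = ball c R := by
  ext ζ
  simp only [mem_union, mem_ball_iff_norm, annulus, mem_ofPred_eq]
  constructor
  · rintro (h | h)
    · exact h.2
    · exact h.trans_le h2
  · intro h
    by_cases h3 : ρ < ‖ζ - c‖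
    · exact Or.inl ⟨h3, h⟩
    · exact Or.inr ((not_lt.1 h3).trans_lt h1)

theorem annulus_mono (c : ℂ) {ρ ρ' R R' : ℝ} (h1 : ρ ≤ ρ') (h2 : R' ≤ R) :
    annulus c ρ' R' ⊆ annulus c ρ R := fun _ hζ => ⟨h1.trans_lt hζ.1, hζ.2.trans_le h2⟩

theorem exists_polynomial_mul_analyticOnNhd {e : ℂ → ℂ} {K : Set ℂ} (hK : IsCompact K)
    (he : MeromorphicOn e K) :
    ∃ p : Polynomial ℂ, p ≠ 0 ∧ AnalyticOnNhd ℂ (fun ζ => p.eval ζ * e ζ) K := by
  classical
  choose! n hn using he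
  obtain ⟨t, htK, hcov⟩ := hK.elim_nhds_subcover
    (fun x => {z | AnalyticAt ℂ (fun z => (z - x) ^ n x • e z) z})
    (fun x hx => (isOpen_analyticAt ℂ _).mem_nhds (hn x hx))
  refine ⟨∏ x ∈ t, (Polynomial.X - Polynomial.C x) ^ n x, ?_, ?_⟩
  · exact Finset.prod_ne_zero_iff.2 fun x _ => pow_ne_zero _ (Polynomial.X_sub_C_ne_zero x)
  · intro ζ hζ
    obtain ⟨x, hx, hζx⟩ := mem_iUnion₂.1 (hcov hζ)
    have h1 : (fun ζ => (∏ x ∈ t, (Polynomial.X - Polynomial.C x) ^ n x).eval ζ * e ζ) =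
        fun ζ => (∏ x' ∈ t.erase x, (ζ - x') ^ n x') * ((ζ - x) ^ n x • e ζ) := by
      funext ζ
      rw [Polynomial.eval_prod, ← Finset.mul_prod_erase t _ hx]
      simp only [Polynomial.eval_pow, Polynomial.eval_sub, Polynomial.eval_X, Polynomial.eval_C,
        smul_eq_mul]
      ring
    rw [h1]
    refine AnalyticAt.mul ?_ hζx
    exact Finset.analyticAt_fun_prod _ fun x' _ => by fun_prop

/-! ### Cauchy's formula on an annulus, moments -/

theorem lva_mem_sphere_ne {c ζ η : ℂ} {s : ℝ} (hη : η ∈ sphere c s) (hζ : ‖ζ - c‖ ≠ s) : η ≠ ζ := by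
  rintro rfl
  exact hζ (mem_sphere_iff_norm.1 hη)

theorem lva_continuousOn_inv {c ζ : ℂ} {s : ℝ} (hζ : ‖ζ - c‖ ≠ s) :
    ContinuousOn (fun η : ℂ => (η - ζ)⁻¹) (sphere c s) :=
  ContinuousOn.inv₀ (by fun_prop) fun _ hη => sub_ne_zero.2 (lva_mem_sphere_ne hη hζ)

/-- deformation of circles inside an annulus of analyticity. -/
theorem lva_circleIntegral_eq {h : ℂ → ℂ} {c : ℂ} {r' r : ℝ} (hr' : 0 < r') (hr : r' ≤ r)
    (hh : ∀ ζ, r' ≤ ‖ζ - c‖ → ‖ζ - c‖ ≤ r → DifferentiableAt ℂ h ζ) :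
    (∮ η in C(c, r), h η) = ∮ η in C(c, r'), h η := by
  refine Complex.circleIntegral_eq_of_differentiable_on_annulus_off_countable hr' hr
    (s := ∅) countable_empty ?_ ?_
  · intro η hη
    refine (hh η ?_ ?_).continuousAt.continuousWithinAt
    · have := hη.2
      rw [mem_ball_iff_norm, not_lt] at this
      exact this
    · exact mem_closedBall_iff_norm.1 hη.1
  · intro η hη
    refine hh η ?_ ?_
    · have := hη.1.2
      rw [mem_closedBall_iff_norm, not_le] at this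
      exact this.le
    · exact (mem_ball_iff_norm.1 hη.1.1).le

theorem cauchy_annulus {g : ℂ → ℂ} {c : ℂ} {r' r : ℝ} (hr' : 0 < r') (hr : r' < r)
    (hg : ∀ ζ, r' ≤ ‖ζ - c‖ → ‖ζ - c‖ ≤ r → AnalyticAt ℂ g ζ) {ζ : ℂ} (h1 : r' < ‖ζ - c‖)
    (h2 : ‖ζ - c‖ < r) :
    (∮ η in C(c, r), (η - ζ)⁻¹ * g η) - (∮ η in C(c, r'), (η - ζ)⁻¹ * g η) = 2 * π * I * g ζ := by
  have hs : IsOpen {η | AnalyticAt ℂ g η} := isOpen_analyticAt ℂ g
  have hζs : {η | AnalyticAt ℂ g η} ∈ 𝓝 ζ := hs.mem_nhds (hg ζ h1.le h2.le)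
  have hgd : DifferentiableOn ℂ g {η | AnalyticAt ℂ g η} := fun η hη =>
    (AnalyticAt.differentiableAt hη).differentiableWithinAt
  have hd : DifferentiableOn ℂ (dslope g ζ) {η | AnalyticAt ℂ g η} :=
    (Complex.differentiableOn_dslope hζs).2 hgd
  have e1 := lva_circleIntegral_eq (h := dslope g ζ) hr' hr.le fun η a b =>
    hd.differentiableAt (hs.mem_nhds (hg η a b))
  -- the integrals of `dslope`
  have key : ∀ s : ℝ, 0 < s → r' ≤ s → s ≤ r → ‖ζ - c‖ ≠ s →
      (∮ η in C(c, s), dslope g ζ η) =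
        (∮ η in C(c, s), (η - ζ)⁻¹ * g η) - (∮ η in C(c, s), (η - ζ)⁻¹) * g ζ := by
    intro s hs0 hs1 hs2 hne
    have hgc : ContinuousOn g (sphere c s) := fun η hη =>
      (hg η (by rw [mem_sphere_iff_norm.1 hη]; exact hs1)
        (by rw [mem_sphere_iff_norm.1 hη]; exact hs2)).continuousAt.continuousWithinAt
    have i1 : CircleIntegrable (fun η => (η - ζ)⁻¹ * g η) c s :=
      ((lva_continuousOn_inv hne).mul hgc).circleIntegrable hs0.le
    have i2 : CircleIntegrable (fun η => (η - ζ)⁻¹ * g ζ) c s :=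
      ((lva_continuousOn_inv hne).mul continuousOn_const).circleIntegrable hs0.le
    have e2 : (∮ η in C(c, s), (η - ζ)⁻¹) * g ζ = ∮ η in C(c, s), (η - ζ)⁻¹ * g ζ := by
      have := circleIntegral.integral_smul_const (fun η => (η - ζ)⁻¹) (g ζ) c s
      simpa only [smul_eq_mul] using this.symm
    rw [e2, ← circleIntegral.integral_sub i1 i2]
    refine circleIntegral.integral_congr hs0.le fun η hη => ?_
    rw [dslope_of_ne _ (lva_mem_sphere_ne hη hne), slope_def_field]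
    field_simp
  rw [key r (hr'.trans hr) hr.le le_rfl h2.ne, key r' hr' le_rfl hr.le h1.ne'] at e1
  have e3 : (∮ η in C(c, r), (η - ζ)⁻¹) = 2 * π * I :=
    circleIntegral.integral_sub_inv_of_mem_ball (mem_ball_iff_norm.2 h2)
  have e4 : (∮ η in C(c, r'), (η - ζ)⁻¹) = 0 := by
    refine Complex.circleIntegral_eq_zero_of_differentiable_on_off_countable hr'.le
      (s := ∅) countable_empty ?_ ?_
    · refine ContinuousOn.inv₀ (by fun_prop) fun η hη => sub_ne_zero.2 ?_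
      rintro rfl
      exact absurd (mem_closedBall_iff_norm.1 hη) (not_le.2 h1)
    · intro η hη
      have : η - ζ ≠ 0 := by
        refine sub_ne_zero.2 ?_
        rintro rfl
        exact absurd (mem_ball_iff_norm.1 hη.1) (not_lt.2 h1.le)
      fun_prop (disch := assumption)
  rw [e3, e4] at e1
  linear_combination e1

theorem cauchy_of_moments {g : ℂ → ℂ} {c : ℂ} {r' r : ℝ} (hr' : 0 < r') (hr : r' < r)
    (hg : ∀ ζ, r' ≤ ‖ζ - c‖ → ‖ζ - c‖ ≤ r → AnalyticAt ℂ g ζ)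
    (hm : ∀ j : ℕ, (∮ η in C(c, r), (η - c) ^ j * g η) = 0) {ζ : ℂ} (h1 : r' < ‖ζ - c‖)
    (h2 : ‖ζ - c‖ < r) :
    (2 * π * I : ℂ)⁻¹ * (∮ η in C(c, r), (η - ζ)⁻¹ * g η) = g ζ := by
  have hζc : ζ - c ≠ 0 := by
    intro h
    rw [h, norm_zero] at h1
    exact absurd h1 (not_lt.2 hr'.le)
  have hgc : ContinuousOn g (sphere c r') := fun η hη =>
    (hg η (by rw [mem_sphere_iff_norm.1 hη])
      (by rw [mem_sphere_iff_norm.1 hη]; exact hr.le)).continuousAt.continuousWithinAt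
  have hm' : ∀ j : ℕ, (∮ η in C(c, r'), (η - c) ^ j * g η) = 0 := by
    intro j
    rw [← hm j]
    refine (lva_circleIntegral_eq hr' hr.le fun η a b => ?_).symm
    exact ((by fun_prop : DifferentiableAt ℂ (fun η : ℂ => (η - c) ^ j) η)).mul
      (hg η a b).differentiableAt
  let B : ℕ → ℂ := fun N => ∮ η in C(c, r'), ((η - c) / (ζ - c)) ^ N * ((η - ζ)⁻¹ * g η)
  have hBi : ∀ N, CircleIntegrable (fun η => ((η - c) / (ζ - c)) ^ N * ((η - ζ)⁻¹ * g η)) c r' := by
    intro N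
    refine ContinuousOn.circleIntegrable hr'.le ?_
    exact (by fun_prop : ContinuousOn (fun η : ℂ => ((η - c) / (ζ - c)) ^ N) (sphere c r')).mul
      ((lva_continuousOn_inv h1.ne').mul hgc)
  have hstep : ∀ N, B N = B (N + 1) := by
    intro N
    rw [← sub_eq_zero]
    show (∮ η in C(c, r'), ((η - c) / (ζ - c)) ^ N * ((η - ζ)⁻¹ * g η)) -
      (∮ η in C(c, r'), ((η - c) / (ζ - c)) ^ (N + 1) * ((η - ζ)⁻¹ * g η)) = 0
    rw [← circleIntegral.integral_sub (hBi N) (hBi (N + 1))]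
    have e1 : (∮ η in C(c, r'), (((η - c) / (ζ - c)) ^ N * ((η - ζ)⁻¹ * g η) -
        ((η - c) / (ζ - c)) ^ (N + 1) * ((η - ζ)⁻¹ * g η))) =
        ∮ η in C(c, r'), (-((ζ - c)⁻¹) ^ (N + 1)) * ((η - c) ^ N * g η) := by
      refine circleIntegral.integral_congr hr'.le fun η hη => ?_
      have hne : η - ζ ≠ 0 := sub_ne_zero.2 (lva_mem_sphere_ne hη h1.ne')
      have hq : (1 - (η - c) / (ζ - c)) * (η - ζ)⁻¹ = -(ζ - c)⁻¹ := by
        field_simp
        ring
      calc ((η - c) / (ζ - c)) ^ N * ((η - ζ)⁻¹ * g η) -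
            ((η - c) / (ζ - c)) ^ (N + 1) * ((η - ζ)⁻¹ * g η)
          = ((η - c) / (ζ - c)) ^ N * ((1 - (η - c) / (ζ - c)) * (η - ζ)⁻¹) * g η := by ring
        _ = ((η - c) / (ζ - c)) ^ N * (-(ζ - c)⁻¹) * g η := by rw [hq]
        _ = _ := by
          rw [div_eq_mul_inv, mul_pow]
          ring
    rw [e1, circleIntegral.integral_const_mul, hm' N, mul_zero]
  have hB0 : ∀ N, B 0 = B N := by
    intro N
    induction N with
    | zero => rfl
    | succ N ih => rw [ih, hstep N]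
  -- bound
  obtain ⟨M, hM⟩ := (isCompact_sphere c r').exists_bound_of_continuousOn hgc
  set θ : ℝ := r' / ‖ζ - c‖ with hθ
  have hθ0 : 0 ≤ θ := by positivity
  have hθ1 : θ < 1 := (div_lt_one (hr'.trans h1)).2 h1
  have hbound : ∀ N, ‖B N‖ ≤ 2 * π * r' * (θ ^ N * ((‖ζ - c‖ - r')⁻¹ * M)) := by
    intro N
    refine circleIntegral.norm_integral_le_of_norm_le_const hr'.le fun η hη => ?_
    have hηn : ‖η - c‖ = r' := mem_sphere_iff_norm.1 hη
    rw [norm_mul, norm_mul, norm_pow, norm_div, hηn, norm_inv]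
    have h3 : ‖ζ - c‖ - r' ≤ ‖η - ζ‖ := by
      have : ‖ζ - c‖ ≤ ‖η - ζ‖ + ‖η - c‖ := by
        have h4 : ζ - c = -(η - ζ) + (η - c) := by ring
        rw [h4]
        exact (norm_add_le _ _).trans (by rw [norm_neg])
      linarith
    have h4 : 0 < ‖ζ - c‖ - r' := by linarith
    gcongr
    exact hM η hη
  have hlim : Tendsto (fun N : ℕ => 2 * π * r' * (θ ^ N * ((‖ζ - c‖ - r')⁻¹ * M))) atTop (𝓝 0) := by
    have := ((tendsto_pow_atTop_nhds_zero_of_lt_one hθ0 hθ1).mul_const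
      ((‖ζ - c‖ - r')⁻¹ * M)).const_mul (2 * π * r')
    simpa using this
  have hB00 : B 0 = 0 := by
    have h3 : ‖B 0‖ ≤ 0 := ge_of_tendsto' hlim fun N => by rw [hB0 N]; exact hbound N
    exact norm_le_zero_iff.1 h3
  have hA : (∮ η in C(c, r'), (η - ζ)⁻¹ * g η) = 0 := by
    rw [← hB00]
    show _ = ∮ η in C(c, r'), ((η - c) / (ζ - c)) ^ 0 * ((η - ζ)⁻¹ * g η)
    simp
  have e := cauchy_annulus hr' hr hg h1 h2
  rw [hA, sub_zero] at e
  rw [e]
  have : (2 * π * I : ℂ) ≠ 0 := by simp [Real.pi_ne_zero, I_ne_zero]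
  field_simp

/-! ### Kronecker's criterion with parameters -/

/-- a linear recurrence of order `≤ n` with constant coefficients for the sequence `c_j(w)`. -/
def lvaRec (c : ℕ → ℂ → ℂ) (n : ℕ) (w : ℂ) : Prop :=
  ∃ v : Fin (n + 1) → ℂ, v ≠ 0 ∧ ∀ j : ℕ, ∑ l : Fin (n + 1), v l * c ((l : ℕ) + j) w = 0

theorem lvaRec_of_polynomial {c : ℕ → ℂ → ℂ} {w : ℂ} {p : Polynomial ℂ} (hp : p ≠ 0)
    (h : ∀ j : ℕ, ∑ l ∈ Finset.range (p.natDegree + 1), p.coeff l * c (l + j) w = 0) :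
    lvaRec c p.natDegree w := by
  refine ⟨fun l => p.coeff l, fun h0 => ?_, fun j => ?_⟩
  · have h1 := congrFun h0 (Fin.last _)
    simp only [Fin.val_last, Pi.zero_apply] at h1
    exact hp (Polynomial.leadingCoeff_eq_zero.1 h1)
  · rw [← Finset.sum_range (fun l => p.coeff l * c (l + j) w)]
    exact h j

theorem lvaRec_lower {c : ℕ → ℂ → ℂ} {m : ℕ} {w : ℂ} (h : lvaRec c (m + 1) w)
    (hdet : (Matrix.of fun (i l : Fin (m + 1)) => c ((i : ℕ) + (l : ℕ)) w).det = 0) :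
    lvaRec c m w := by
  obtain ⟨v, hv, hrec⟩ := h
  by_cases hlast : v (Fin.last (m + 1)) = 0
  · refine ⟨fun l => v l.castSucc, fun h0 => hv ?_, fun j => ?_⟩
    · funext l
      exact Fin.lastCases hlast (fun i => congrFun h0 i) l
    · have h1 := hrec j
      rw [Fin.sum_univ_castSucc, hlast, zero_mul, add_zero] at h1
      simpa using h1
  · obtain ⟨q, hq, hq0⟩ := Matrix.exists_mulVec_eq_zero_iff.2 hdet
    refine ⟨q, hq, ?_⟩
    set d : ℕ → ℂ := fun i => ∑ l : Fin (m + 1), q l * c ((l : ℕ) + i) w with hd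
    have hd0 : ∀ i < m + 1, d i = 0 := by
      intro i hi
      have h1 := congrFun hq0 ⟨i, hi⟩
      simp only [Matrix.mulVec, dotProduct, Matrix.of_apply, Pi.zero_apply] at h1
      rw [← h1]
      refine Finset.sum_congr rfl fun l _ => ?_
      rw [add_comm, mul_comm]
    have hdrec : ∀ j, ∑ k : Fin (m + 1 + 1), v k * d ((k : ℕ) + j) = 0 := by
      intro j
      simp only [hd, Finset.mul_sum]
      rw [Finset.sum_comm]
      refine Finset.sum_eq_zero fun l _ => ?_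
      have h1 := hrec ((l : ℕ) + j)
      calc ∑ k : Fin (m + 1 + 1), v k * (q l * c ((l : ℕ) + ((k : ℕ) + j)) w)
          = q l * ∑ k : Fin (m + 1 + 1), v k * c ((k : ℕ) + ((l : ℕ) + j)) w := by
            rw [Finset.mul_sum]
            refine Finset.sum_congr rfl fun k _ => ?_
            rw [show (l : ℕ) + ((k : ℕ) + j) = (k : ℕ) + ((l : ℕ) + j) by omega]
            ring
        _ = 0 := by rw [h1, mul_zero]
    intro i
    induction i using Nat.strong_induction_on with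
    | _ i ih =>
      by_cases hi : i < m + 1
      · exact hd0 i hi
      · obtain ⟨j, rfl⟩ : ∃ j, i = (m + 1) + j := ⟨i - (m + 1), by omega⟩
        have h1 := hdrec j
        rw [Fin.sum_univ_castSucc] at h1
        have h0 : ∑ k : Fin (m + 1), v k.castSucc * d ((k.castSucc : ℕ) + j) = 0 :=
          Finset.sum_eq_zero fun k _ => by
            have : d ((k.castSucc : ℕ) + j) = 0 := ih _ (by simp only [Fin.val_castSucc]; omega)
            rw [this, mul_zero]
        rw [h0, zero_add, Fin.val_last] at h1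
        exact (mul_eq_zero.1 h1).resolve_left hlast

theorem lva_analyticAt_det {n : ℕ} {A : ℂ → Matrix (Fin n) (Fin n) ℂ} {z : ℂ}
    (hA : ∀ i k, AnalyticAt ℂ (fun w => A w i k) z) : AnalyticAt ℂ (fun w => (A w).det) z := by
  simp only [Matrix.det_apply']
  exact Finset.analyticAt_fun_sum _ fun σ _ => analyticAt_const.mul
    (Finset.analyticAt_fun_prod _ fun i _ => hA _ _)

theorem exists_analytic_recurrence {c : ℕ → ℂ → ℂ} {U : Set ℂ}
    (hUc : IsPreconnected U) (hc : ∀ j, AnalyticOnNhd ℂ (c j) U) {S : Set ℂ} (hSU : S ⊆ U)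
    (hS : ¬ S.Countable)
    (hrec : ∀ w ∈ S, ∃ p : Polynomial ℂ, p ≠ 0 ∧
      ∀ j : ℕ, ∑ l ∈ Finset.range (p.natDegree + 1), p.coeff l * c (l + j) w = 0) :
    ∃ (n : ℕ) (Q : ℕ → ℂ → ℂ), (∀ l, AnalyticOnNhd ℂ (Q l) U) ∧ (∃ w ∈ U, Q n w ≠ 0) ∧
      ∀ w ∈ U, ∀ j : ℕ, ∑ l ∈ Finset.range (n + 1), Q l w * c (l + j) w = 0 := by
  classical
  let Sn : ℕ → Set ℂ := fun n => {w | w ∈ U ∧ lvaRec c n w}
  have hex : ∃ n, ∃ x ∈ U, ∃ᶠ y in 𝓝[≠] x, y ∈ Sn n := by
    by_contra hcon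
    apply hS
    have h1 : ∀ n, (Sn n ∩ U).Countable := fun n =>
      countable_inter_of_eventually_notMem fun x hx =>
        Filter.not_frequently.1 fun h => hcon ⟨n, x, hx, h⟩
    refine (countable_iUnion h1).mono fun w hw => ?_
    obtain ⟨p, hp, hpr⟩ := hrec w hw
    exact mem_iUnion.2 ⟨p.natDegree, ⟨hSU hw, lvaRec_of_polynomial hp hpr⟩, hSU hw⟩
  obtain ⟨n, ⟨x, hxU, hfreq⟩, hmin⟩ : ∃ n, (∃ x ∈ U, ∃ᶠ y in 𝓝[≠] x, y ∈ Sn n) ∧
      ∀ m < n, ¬ ∃ x ∈ U, ∃ᶠ y in 𝓝[≠] x, y ∈ Sn m :=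
    ⟨Nat.find hex, Nat.find_spec hex, fun m hm => Nat.find_min hex hm⟩
  have hΔ : ∃ w ∈ U, (Matrix.of fun (i l : Fin n) => c ((i : ℕ) + (l : ℕ)) w).det ≠ 0 := by
    by_contra hcon
    have hcon' : ∀ w ∈ U, (Matrix.of fun (i l : Fin n) => c ((i : ℕ) + (l : ℕ)) w).det = 0 :=
      fun w hw => by_contra fun h => hcon ⟨w, hw, h⟩
    cases n with
    | zero =>
      have := hcon' x hxU
      simp at this
    | succ m =>
      exact hmin m (Nat.lt_succ_self m) ⟨x, hxU,
        hfreq.mono fun y hy => ⟨hy.1, lvaRec_lower hy.2 (hcon' y hy.1)⟩⟩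
  let ρ : ℕ → Fin (n + 1) → ℕ := fun j i => if (i : ℕ) < n then (i : ℕ) else j
  let M : ℕ → ℂ → Matrix (Fin (n + 1)) (Fin (n + 1)) ℂ := fun j w =>
    Matrix.of fun i l => c (ρ j i + (l : ℕ)) w
  have hMan : ∀ j, AnalyticOnNhd ℂ (fun w => (M j w).det) U := fun j w hw =>
    lva_analyticAt_det fun i l => hc _ w hw
  have hM0 : ∀ j, ∀ w ∈ Sn n, (M j w).det = 0 := by
    rintro j w ⟨-, v, hv, hvrec⟩
    refine Matrix.exists_mulVec_eq_zero_iff.1 ⟨v, hv, ?_⟩
    funext i
    simp only [Matrix.mulVec, dotProduct, M, Matrix.of_apply, Pi.zero_apply]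
    rw [← hvrec (ρ j i)]
    refine Finset.sum_congr rfl fun l _ => ?_
    rw [add_comm, mul_comm]
  have hMdet : ∀ j, ∀ w ∈ U, (M j w).det = 0 := fun j =>
    (hMan j).eqOn_zero_of_preconnected_of_frequently_eq_zero hUc hxU
      (hfreq.mono fun y hy => hM0 j y hy)
  let Q' : Fin (n + 1) → ℂ → ℂ := fun l w => (-1) ^ (n + (l : ℕ)) *
    (Matrix.of fun (i l' : Fin n) => c ((i : ℕ) + ((l.succAbove l' : Fin (n + 1)) : ℕ)) w).det
  let Q : ℕ → ℂ → ℂ := fun l w => if h : l < n + 1 then Q' ⟨l, h⟩ w else 0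
  have hQ' : ∀ l : Fin (n + 1), Q (l : ℕ) = Q' l := by
    intro l
    funext w
    simp only [Q, dif_pos l.2]
  refine ⟨n, Q, ?_, ?_, ?_⟩
  · intro l
    by_cases h : l < n + 1
    · have : Q l = Q' ⟨l, h⟩ := hQ' ⟨l, h⟩
      rw [this]
      intro w hw
      exact analyticAt_const.mul (lva_analyticAt_det fun i l' => hc _ w hw)
    · have : Q l = fun _ => 0 := by
        funext w
        simp only [Q, dif_neg h]
      rw [this]
      exact analyticOnNhd_const
  · obtain ⟨w, hw, hne⟩ := hΔ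
    refine ⟨w, hw, ?_⟩
    have h1 : Q n = Q' (Fin.last n) := hQ' (Fin.last n)
    rw [h1]
    simp only [Q', Fin.val_last, Fin.succAbove_last, Fin.val_castSucc]
    rw [← two_mul, pow_mul]
    simpa using hne
  · intro w hw j
    rw [Finset.sum_range (fun l => Q l w * c (l + j) w), ← hMdet j w hw,
      Matrix.det_succ_row (M j w) (Fin.last n)]
    refine Finset.sum_congr rfl fun l _ => ?_
    rw [hQ' l]
    have h1 : M j w (Fin.last n) l = c ((l : ℕ) + j) w := by
      simp only [M, Matrix.of_apply, ρ, Fin.val_last, lt_irrefl, if_false]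
      rw [add_comm]
    have h2 : (M j w).submatrix (Fin.last n).succAbove l.succAbove =
        Matrix.of fun (i l' : Fin n) => c ((i : ℕ) + ((l.succAbove l' : Fin (n + 1)) : ℕ)) w := by
      ext i l'
      simp only [M, Matrix.submatrix_apply, Matrix.of_apply, ρ, Fin.succAbove_last,
        Fin.val_castSucc, i.2, if_true]
    rw [h1, h2]
    simp only [Q', Fin.val_last]
    ring

end Claimed.Agent.R269
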