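/-
Row 269, library L1-SCV, unit 4B (Levi / product continuation = P1 Lemma 4.5), part B: the local step.
Owner: helper270.

  `exists_good_circle`             a circle near which `(w - w₀)^m F` is analytic
  `mom`, `analyticAt_mom`          the moments `∮ (ζ - c)^j H(w,ζ) dζ`
  `exists_countable_recurrence`    the slices of a meromorphic function on `disc × disc` are meromorphic for all `w` outside a
                                   countable set, so their moments satisfy a linear recurrence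
  `exists_extension_of_recurrence` a recurrence with analytic coefficients gives an analytic extension of `Q H`
  `levi_local`                     the local step
-/
import Claimed.Agent.R269.Lib.Mero2b
import Claimed.Agent.R269.Lib.LeviA

set_option autoImplicit false

namespace Claimed.Agent.R269

open Complex Filter Topology Set Metric
open scoped Real

/-- the set of points where the germ is analytic. -/
def anaSet (G : ℂ × ℂ → ℂ) : Set (ℂ × ℂ) := {z | ∃ H : ℂ × ℂ → ℂ, AnalyticAt ℂ H z ∧ G =ᶠ[genF z] H}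

theorem isOpen_anaSet (G : ℂ × ℂ → ℂ) : IsOpen (anaSet G) := by
  rw [isOpen_iff_mem_nhds]
  rintro z ⟨H, hH, hGH⟩
  filter_upwards [hH.eventually_analyticAt, eventually_nhds_genF hGH] with z' a b
  exact ⟨H, a, b⟩

theorem anaSet_mnf {G : ℂ × ℂ → ℂ} {z : ℂ × ℂ} (hz : z ∈ anaSet G) :
    AnalyticAt ℂ (mnf G) z ∧ G =ᶠ[genF z] mnf G := by
  obtain ⟨H, hH, hGH⟩ := hz
  have h1 : mnf G =ᶠ[genF z] H := (mnf_eventuallyEq_of_analyticAt hH hGH).genF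
  exact ⟨analyticAt_mnf hH hGH, hGH.trans h1.symm⟩

theorem exists_good_circle {F : ℂ × ℂ → ℂ} {w₀ c : ℂ} {ρ R : ℝ} (hρ : 0 ≤ ρ) (hρR : ρ < R)
    (hF : ∀ ζ ∈ annulus c ρ R, Mero2At F (w₀, ζ)) :
    ∃ (m : ℕ) (r₁ r r₂ δ : ℝ) (H : ℂ × ℂ → ℂ), ρ < r₁ ∧ r₁ < r ∧ r < r₂ ∧ r₂ < R ∧ 0 < δ ∧
      ∀ w ∈ ball w₀ δ, ∀ ζ, r₁ ≤ ‖ζ - c‖ → ‖ζ - c‖ ≤ r₂ →
        AnalyticAt ℂ H (w, ζ) ∧ (fun z : ℂ × ℂ => (z.1 - w₀) ^ m * F z) =ᶠ[genF (w, ζ)] H := by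
  let G : ℕ → ℂ × ℂ → ℂ := fun m z => (z.1 - w₀) ^ m * F z
  -- the good points are cofinite locally
  have h1 : ∀ ζ ∈ annulus c ρ R, ∀ᶠ ζ' in 𝓝[≠] ζ, ζ' ∉ {ζ' | ∀ m, (w₀, ζ') ∉ anaSet (G m)} := by
    intro ζ hζ
    obtain ⟨g, k, hg, hk, hk0, hFg⟩ := mero2At_iff_genF.1 (hF ζ hζ)
    obtain ⟨e, k₁, hk₁, hk₁0, hke⟩ := exists_eq_pow_mul_fst hk hk0
    simp only at hk₁0 hke
    have e1 : ∀ᶠ ζ' in 𝓝[≠] ζ, k₁ (w₀, ζ') ≠ 0 :=
      (analyticAt_slice_snd (z := (w₀, ζ))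
        hk₁).eventually_eq_zero_or_eventually_ne_zero.resolve_left hk₁0
    have e2 : ∀ᶠ z in 𝓝 (w₀, ζ), AnalyticAt ℂ g z ∧ AnalyticAt ℂ k₁ z ∧
        (F =ᶠ[genF z] fun w => g w / k w) ∧ ∀ᶠ w in 𝓝 z, k w = (w.1 - w₀) ^ e * k₁ w := by
      filter_upwards [hg.eventually_analyticAt, hk₁.eventually_analyticAt,
        eventually_nhds_genF hFg, hke.eventually_nhds] with z a b c d using ⟨a, b, c, d⟩
    have e3 := ((tendsto_mk_snd (w₀, ζ)).eventually e2).filter_mono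
      (nhdsWithin_le_nhds (s := ({ζ}ᶜ : Set ℂ)))
    filter_upwards [e1, e3] with ζ' a b hbad
    obtain ⟨b1, b2, b3, b4⟩ := b
    refine hbad e ⟨fun w => g w / k₁ w, b1.div b2 a, ?_⟩
    filter_upwards [b3, b4.genF,
      eventually_genF_ne_zero (analyticAt_fst_sub_pow w₀ e _) (nzAt_fst_sub_pow w₀ e _)]
      with w p q s
    show (w.1 - w₀) ^ e * F w = g w / k₁ w
    rw [p, q]
    field_simp
  have h2 := countable_inter_of_eventually_notMem h1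
  -- a good radius
  obtain ⟨r, hr1, hr2⟩ := ((h2.image fun ζ => ‖ζ - c‖).dense_compl ℝ).exists_mem_open isOpen_Ioo
    (nonempty_Ioo.2 hρR)
  have hr0 : 0 < r := hρ.trans_lt hr2.1
  have h3 : ∀ ζ ∈ sphere c r, ∃ m, (w₀, ζ) ∈ anaSet (G m) := by
    intro ζ hζ
    by_contra hcon
    have hζn : ‖ζ - c‖ = r := mem_sphere_iff_norm.1 hζ
    refine hr1 ⟨ζ, ⟨fun m hm => hcon ⟨m, hm⟩, ?_⟩, hζn⟩
    exact ⟨by rw [hζn]; exact hr2.1, by rw [hζn]; exact hr2.2⟩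
  -- one exponent
  have hmono : Monotone fun m => anaSet (G m) := by
    refine monotone_nat_of_le_succ fun m => ?_
    rintro z ⟨H, hH, hGH⟩
    refine ⟨fun w => (w.1 - w₀) * H w, (analyticAt_fst.sub analyticAt_const).mul hH, ?_⟩
    filter_upwards [hGH] with w hw
    show (w.1 - w₀) ^ (m + 1) * F w = (w.1 - w₀) * H w
    rw [← hw]
    show _ = (w.1 - w₀) * ((w.1 - w₀) ^ m * F w)
    ring
  have hK : IsCompact (({w₀} : Set ℂ) ×ˢ sphere c r) := isCompact_singleton.prod (isCompact_sphere c r)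
  obtain ⟨m, hm⟩ := hK.elim_directed_cover (fun m => anaSet (G m)) (fun m => isOpen_anaSet _)
    (by
      rintro ⟨w, ζ⟩ ⟨hw, hζ⟩
      obtain ⟨m, hm⟩ := h3 ζ hζ
      have hw' : w = w₀ := mem_singleton_iff.1 hw
      rw [hw']
      exact mem_iUnion.2 ⟨m, hm⟩)
    hmono.directed_le
  -- the tube
  let Ψ : (ℂ × ℝ) × ℝ → ℂ × ℂ := fun p => (p.1.1, c + (p.1.2 : ℂ) * Complex.exp ((p.2 : ℂ) * I))
  have hΨ : Continuous Ψ := by fun_prop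
  obtain ⟨u, v, hu, -, hsu, htv, huv⟩ := generalized_tube_lemma
    (isCompact_singleton (x := ((w₀, r) : ℂ × ℝ))) (isCompact_Icc (a := -π) (b := π))
    ((isOpen_anaSet (G m)).preimage hΨ) (by
      rintro ⟨⟨w, s⟩, θ⟩ ⟨hws, -⟩
      obtain ⟨rfl, rfl⟩ := Prod.mk.inj (mem_singleton_iff.1 hws)
      refine hm ⟨rfl, ?_⟩
      rw [mem_sphere_iff_norm]
      show ‖c + (s : ℂ) * Complex.exp ((θ : ℂ) * I) - c‖ = s
      rw [add_sub_cancel_left, norm_mul, Complex.norm_exp_ofReal_mul_I, mul_one,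
        Complex.norm_real, Real.norm_of_nonneg hr0.le])
  obtain ⟨δ, hδ, hδu⟩ := Metric.mem_nhds_iff.1 (hu.mem_nhds (hsu rfl))
  set d : ℝ := min δ (min (r - ρ) (R - r)) / 2 with hd
  have hd0 : 0 < d := by
    have : 0 < min δ (min (r - ρ) (R - r)) := lt_min hδ (lt_min (by linarith [hr2.1]) (by linarith [hr2.2]))
    positivity
  have hd1 : d < δ := by
    have : min δ (min (r - ρ) (R - r)) ≤ δ := min_le_left _ _
    linarith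
  have hd2 : d < r - ρ := by
    have : min δ (min (r - ρ) (R - r)) ≤ r - ρ := (min_le_right _ _).trans (min_le_left _ _)
    linarith [hr2.1]
  have hd3 : d < R - r := by
    have : min δ (min (r - ρ) (R - r)) ≤ R - r := (min_le_right _ _).trans (min_le_right _ _)
    linarith [hr2.2]
  refine ⟨m, r - d, r, r + d, δ, mnf (G m), by linarith, by linarith, by linarith, by linarith, hδ,
    fun w hw ζ hζ1 hζ2 => anaSet_mnf ?_⟩
  have h5 : (((w, ‖ζ - c‖) : ℂ × ℝ), Complex.arg (ζ - c)) ∈ u ×ˢ v := by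
    refine ⟨hδu ?_, htv ⟨(Complex.neg_pi_lt_arg _).le, Complex.arg_le_pi _⟩⟩
    rw [mem_ball, Prod.dist_eq, max_lt_iff]
    refine ⟨hw, ?_⟩
    rw [Real.dist_eq, abs_lt]
    constructor <;> linarith
  have h6 := huv h5
  have h7 : Ψ (((w, ‖ζ - c‖) : ℂ × ℝ), Complex.arg (ζ - c)) = (w, ζ) := by
    show (w, c + (‖ζ - c‖ : ℂ) * Complex.exp ((Complex.arg (ζ - c) : ℂ) * I)) = (w, ζ)
    rw [Complex.norm_mul_exp_arg_mul_I]
    simp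
  rw [mem_preimage, h7] at h6
  exact h6


/-- the moments of the slices on the circle `|ζ - c| = r`. -/
noncomputable def mom (H : ℂ × ℂ → ℂ) (c : ℂ) (r : ℝ) (j : ℕ) (w : ℂ) : ℂ :=
  ∮ ζ in C(c, r), (ζ - c) ^ j * H (w, ζ)

theorem analyticAt_mom {H : ℂ × ℂ → ℂ} {c : ℂ} {r : ℝ} (hr : 0 ≤ r) {w : ℂ}
    (hH : ∀ ζ ∈ sphere c r, AnalyticAt ℂ H (w, ζ)) (j : ℕ) : AnalyticAt ℂ (mom H c r j) w :=
  SCV.analyticAt_circleIntegral (E := ℂ) (F := fun p : ℂ × ℂ => (p.2 - c) ^ j * H p) hr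
    fun ζ hζ => (analyticAt_snd_sub_pow c j _).mul (hH ζ hζ)

/-- linear combinations of moments. -/
theorem sum_mul_mom {H : ℂ × ℂ → ℂ} {c : ℂ} {r : ℝ} (hr : 0 ≤ r) {w : ℂ}
    (hH : ContinuousOn (fun ζ => H (w, ζ)) (sphere c r)) (a : ℕ → ℂ) (n j : ℕ) :
    ∑ l ∈ Finset.range n, a l * mom H c r (l + j) w =
      ∮ ζ in C(c, r), (ζ - c) ^ j * ((∑ l ∈ Finset.range n, a l * (ζ - c) ^ l) * H (w, ζ)) := by
  have h1 : ∀ l ∈ Finset.range n,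
      CircleIntegrable (fun ζ => a l * ((ζ - c) ^ (l + j) * H (w, ζ))) c r := by
    intro l _
    refine ContinuousOn.circleIntegrable hr ?_
    exact continuousOn_const.mul ((by fun_prop : ContinuousOn (fun ζ : ℂ => (ζ - c) ^ (l + j))
      (sphere c r)).mul hH)
  have h2 : (∮ ζ in C(c, r), (ζ - c) ^ j * ((∑ l ∈ Finset.range n, a l * (ζ - c) ^ l) * H (w, ζ))) =
      ∮ ζ in C(c, r), ∑ l ∈ Finset.range n, a l * ((ζ - c) ^ (l + j) * H (w, ζ)) := by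
    congr 1
    funext ζ
    rw [Finset.sum_mul, Finset.mul_sum]
    refine Finset.sum_congr rfl fun l _ => ?_
    rw [pow_add]
    ring
  rw [h2, circleIntegral.integral_fun_sum h1]
  refine Finset.sum_congr rfl fun l _ => ?_
  rw [circleIntegral.integral_const_mul]
  rfl

theorem exists_countable_recurrence {E H : ℂ × ℂ → ℂ} {w₁ c : ℂ} {δ₁ r R : ℝ} (hr : 0 < r)
    (hrR : r < R) (hE : Mero2On E (ball w₁ δ₁ ×ˢ ball c R))
    (hH : ∀ w ∈ ball w₁ δ₁, ∀ ζ ∈ sphere c r, AnalyticAt ℂ H (w, ζ) ∧ E =ᶠ[genF (w, ζ)] H) :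
    ∃ B : Set ℂ, B.Countable ∧ ∀ w ∈ ball w₁ δ₁, w ∉ B → ∃ p : Polynomial ℂ, p ≠ 0 ∧
      ∀ j : ℕ, ∑ l ∈ Finset.range (p.natDegree + 1), p.coeff l * mom H c r (l + j) w = 0 := by
  obtain ⟨B, hB, h1⟩ := hE.exists_countable_slice_fst
  refine ⟨B, hB, fun w hw hwB => ?_⟩
  let e : ℂ → ℂ := fun ζ => mnf E (w, ζ)
  have hmer : MeromorphicOn e (closedBall c r) := by
    intro ζ₀ hζ₀
    have hζ₀' : ζ₀ ∈ ball c R := mem_ball.2 ((mem_closedBall.1 hζ₀).trans_lt hrR)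
    obtain ⟨g, k, hg, hk, hk0, hEg⟩ := h1 (w, ζ₀) ⟨hw, hζ₀'⟩ hwB
    have hg' : AnalyticAt ℂ (fun ζ => g (w, ζ)) ζ₀ := analyticAt_slice_snd (z := (w, ζ₀)) hg
    have hk' : AnalyticAt ℂ (fun ζ => k (w, ζ)) ζ₀ := analyticAt_slice_snd (z := (w, ζ₀)) hk
    have e1 : ∀ᶠ ζ in 𝓝[≠] ζ₀, k (w, ζ) ≠ 0 :=
      hk'.eventually_eq_zero_or_eventually_ne_zero.resolve_left hk0
    have e2 : ∀ᶠ ζ in 𝓝[≠] ζ₀, AnalyticAt ℂ g (w, ζ) ∧ AnalyticAt ℂ k (w, ζ) ∧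
        E =ᶠ[genF (w, ζ)] fun z => g z / k z :=
      ((tendsto_mk_snd (w, ζ₀)).eventually (hg.eventually_analyticAt.and
        (hk.eventually_analyticAt.and (eventually_nhds_genF hEg)))).filter_mono nhdsWithin_le_nhds
    refine (hg'.meromorphicAt.div hk'.meromorphicAt).congr ?_
    filter_upwards [e1, e2] with ζ a b
    exact (mnf_eq_div b.1 b.2.1 a b.2.2).symm
  have hsph : ∀ ζ ∈ sphere c r, e ζ = H (w, ζ) := fun ζ hζ =>
    mnf_eq_of_analyticAt (hH w hw ζ hζ).1 (hH w hw ζ hζ).2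
  obtain ⟨p, hp, hpan⟩ := exists_polynomial_mul_analyticOnNhd (isCompact_closedBall c r) hmer
  refine ⟨p.comp (Polynomial.X + Polynomial.C c), Polynomial.comp_X_add_C_ne_zero_iff.2 hp,
    fun j => ?_⟩
  have hHc : ContinuousOn (fun ζ => H (w, ζ)) (sphere c r) := fun ζ hζ =>
    (analyticAt_slice_snd (z := (w, ζ)) (hH w hw ζ hζ).1).continuousAt.continuousWithinAt
  rw [sum_mul_mom hr.le hHc]
  have h2 : (∮ ζ in C(c, r), (ζ - c) ^ j * ((∑ l ∈ Finset.range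
      ((p.comp (Polynomial.X + Polynomial.C c)).natDegree + 1),
      (p.comp (Polynomial.X + Polynomial.C c)).coeff l * (ζ - c) ^ l) * H (w, ζ))) =
      ∮ ζ in C(c, r), (ζ - c) ^ j * (p.eval ζ * e ζ) := by
    refine circleIntegral.integral_congr hr.le fun ζ hζ => ?_
    rw [← Polynomial.eval_eq_sum_range, Polynomial.eval_comp, hsph ζ hζ]
    simp
  rw [h2]
  have hd : ∀ ζ ∈ closedBall c r, DifferentiableAt ℂ (fun ζ => (ζ - c) ^ j * (p.eval ζ * e ζ)) ζ :=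
    fun ζ hζ => (by fun_prop : DifferentiableAt ℂ (fun ζ : ℂ => (ζ - c) ^ j) ζ).mul
      (hpan ζ hζ).differentiableAt
  exact Complex.circleIntegral_eq_zero_of_differentiable_on_off_countable hr.le (s := ∅)
    countable_empty (fun ζ hζ => (hd ζ hζ).continuousAt.continuousWithinAt)
    fun ζ hζ => hd ζ (ball_subset_closedBall hζ.1)

theorem exists_extension_of_recurrence {H : ℂ × ℂ → ℂ} {w₀ c : ℂ} {δ r₁ r : ℝ} (hr₁ : 0 < r₁)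
    (hr : r₁ < r)
    (hH : ∀ w ∈ ball w₀ δ, ∀ ζ, r₁ ≤ ‖ζ - c‖ → ‖ζ - c‖ ≤ r → AnalyticAt ℂ H (w, ζ))
    {n : ℕ} {Q : ℕ → ℂ → ℂ} (hQ : ∀ l, AnalyticOnNhd ℂ (Q l) (ball w₀ δ))
    (hrec : ∀ w ∈ ball w₀ δ, ∀ j : ℕ, ∑ l ∈ Finset.range (n + 1), Q l w * mom H c r (l + j) w = 0) :
    ∃ Gh : ℂ × ℂ → ℂ, AnalyticOnNhd ℂ Gh (ball w₀ δ ×ˢ ball c r) ∧
      ∀ w ∈ ball w₀ δ, ∀ ζ ∈ annulus c r₁ r,
        Gh (w, ζ) = (∑ l ∈ Finset.range (n + 1), Q l w * (ζ - c) ^ l) * H (w, ζ) := by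
  have hr0 : 0 < r := hr₁.trans hr
  let G : ℂ × ℂ → ℂ := fun z => (∑ l ∈ Finset.range (n + 1), Q l z.1 * (z.2 - c) ^ l) * H z
  have hG : ∀ w ∈ ball w₀ δ, ∀ ζ, r₁ ≤ ‖ζ - c‖ → ‖ζ - c‖ ≤ r → AnalyticAt ℂ G (w, ζ) := by
    intro w hw ζ h1 h2
    refine AnalyticAt.mul (Finset.analyticAt_fun_sum _ fun l _ => ?_) (hH w hw ζ h1 h2)
    exact (AnalyticAt.comp (f := fun z : ℂ × ℂ => z.1) (g := Q l) (hQ l w hw) analyticAt_fst).mul
      (analyticAt_snd_sub_pow c l _)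
  refine ⟨fun z => (2 * π * I : ℂ)⁻¹ * ∮ η in C(c, r), (η - z.2)⁻¹ * G (z.1, η), ?_, ?_⟩
  · rintro z₀ ⟨hz1, hz2⟩
    refine analyticAt_const.mul ?_
    refine SCV.analyticAt_circleIntegral (E := ℂ × ℂ)
      (F := fun p : (ℂ × ℂ) × ℂ => (p.2 - p.1.2)⁻¹ * G (p.1.1, p.2)) hr0.le fun η hη => ?_
    have hηn : ‖η - c‖ = r := mem_sphere_iff_norm.1 hη
    have h1 : AnalyticAt ℂ (fun p : (ℂ × ℂ) × ℂ => (p.2 - p.1.2)⁻¹) (z₀, η) := by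
      refine AnalyticAt.inv (analyticAt_snd.sub (analyticAt_snd.comp analyticAt_fst)) ?_
      show η - z₀.2 ≠ 0
      rw [sub_ne_zero]
      rintro rfl
      exact (mem_ball_iff_norm.1 hz2).ne hηn
    have h2 : AnalyticAt ℂ (fun p : (ℂ × ℂ) × ℂ => G (p.1.1, p.2)) (z₀, η) :=
      AnalyticAt.comp (f := fun p : (ℂ × ℂ) × ℂ => (p.1.1, p.2)) (g := G)
        (hG z₀.1 hz1 η (by rw [hηn]; exact hr.le) (by rw [hηn]))
        ((analyticAt_fst.comp analyticAt_fst).prod analyticAt_snd)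
    exact h1.mul h2
  · intro w hw ζ hζ
    refine cauchy_of_moments (g := fun η => G (w, η)) hr₁ hr
      (fun η a b => analyticAt_slice_snd (z := (w, η)) (hG w hw η a b)) (fun j => ?_) hζ.1 hζ.2
    have hHc : ContinuousOn (fun ζ => H (w, ζ)) (sphere c r) := fun η hη => by
      have hηn : ‖η - c‖ = r := mem_sphere_iff_norm.1 hη
      exact (analyticAt_slice_snd (z := (w, η)) (hH w hw η (by rw [hηn]; exact hr.le)
        (by rw [hηn]))).continuousAt.continuousWithinAt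
    rw [← hrec w hw j, sum_mul_mom hr0.le hHc]


theorem coeff_sum_C_mul_X_pow (a : ℕ → ℂ) (d : ℕ) :
    (∑ i ∈ Finset.range (d + 1), Polynomial.C (a i) * Polynomial.X ^ i).coeff d = a d := by
  simp only [Polynomial.finsetSum_coeff, Polynomial.coeff_C_mul, Polynomial.coeff_X_pow]
  rw [Finset.sum_eq_single d]
  · simp
  · intro i _ hi
    simp [Ne.symm hi]
  · intro h
    exact absurd (Finset.mem_range.2 (Nat.lt_succ_self d)) h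

theorem analyticAt_qpoly {Q : ℕ → ℂ → ℂ} {n : ℕ} {w₀ : ℂ} (c : ℂ) {δ : ℝ}
    (hQ : ∀ l, AnalyticOnNhd ℂ (Q l) (ball w₀ δ)) {z : ℂ × ℂ} (hz : z.1 ∈ ball w₀ δ) :
    AnalyticAt ℂ (fun z : ℂ × ℂ => ∑ l ∈ Finset.range (n + 1), Q l z.1 * (z.2 - c) ^ l) z :=
  Finset.analyticAt_fun_sum _ fun l _ =>
    (AnalyticAt.comp (f := fun z : ℂ × ℂ => z.1) (g := Q l) (hQ l z.1 hz) analyticAt_fst).mul
      (analyticAt_snd_sub_pow c l _)

theorem nzAt_qpoly {Q : ℕ → ℂ → ℂ} {n : ℕ} {w₀ : ℂ} (c : ℂ) {δ : ℝ}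
    (hQ : ∀ l, AnalyticOnNhd ℂ (Q l) (ball w₀ δ)) (hQn : ∃ w ∈ ball w₀ δ, Q n w ≠ 0) {z : ℂ × ℂ}
    (hz : z.1 ∈ ball w₀ δ) :
    NZAt (fun z : ℂ × ℂ => ∑ l ∈ Finset.range (n + 1), Q l z.1 * (z.2 - c) ^ l) z := by
  intro h0
  have han : AnalyticOnNhd ℂ (fun z : ℂ × ℂ => ∑ l ∈ Finset.range (n + 1), Q l z.1 * (z.2 - c) ^ l)
      (ball w₀ δ ×ˢ (univ : Set ℂ)) := fun z hz => analyticAt_qpoly c hQ hz.1
  have hpc : IsPreconnected (ball w₀ δ ×ˢ (univ : Set ℂ)) :=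
    (isPreconnected_ballC _ _).prod isPreconnected_univ
  have h1 := han.eqOn_zero_of_preconnected_of_eventuallyEq_zero hpc
    (⟨hz, mem_univ _⟩ : z ∈ ball w₀ δ ×ˢ (univ : Set ℂ)) h0
  obtain ⟨w, hw, hne⟩ := hQn
  have hP : (∑ l ∈ Finset.range (n + 1), Polynomial.C (Q l w) * Polynomial.X ^ l) = 0 := by
    refine Polynomial.funext fun x => ?_
    have h2 := h1 (⟨hw, mem_univ _⟩ : (w, x + c) ∈ ball w₀ δ ×ˢ (univ : Set ℂ))
    simp only [add_sub_cancel_right, Pi.zero_apply] at h2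
    simp [Polynomial.eval_finsetSum, h2]
  apply hne
  rw [← coeff_sum_C_mul_X_pow (fun l => Q l w) n, hP]
  simp

/-- **The local step of Levi's theorem.** -/
theorem levi_local {F : ℂ × ℂ → ℂ} {w₀ c : ℂ} {ρ R ε : ℝ} (hρ : 0 ≤ ρ) (hρR : ρ < R) (hε : 0 < ε)
    (hF : Mero2On F (ball w₀ ε ×ˢ annulus c ρ R))
    (hreach : ∃ᶠ w₁ in 𝓝 w₀, ∃ δ₁ > 0, ∃ F₁ : ℂ × ℂ → ℂ, Mero2On F₁ (ball w₁ δ₁ ×ˢ ball c R) ∧
      ∀ z ∈ ball w₁ δ₁ ×ˢ annulus c ρ R, Mero2EqAt F₁ F z) :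
    ∃ δ > 0, ∃ Fh : ℂ × ℂ → ℂ, Mero2On Fh (ball w₀ δ ×ˢ ball c R) ∧
      ∀ z ∈ ball w₀ δ ×ˢ annulus c ρ R, Mero2EqAt Fh F z := by
  obtain ⟨m, r₁, r, r₂, δ₀, H, hρr₁, hr₁r, hrr₂, hr₂R, hδ₀, hH⟩ := exists_good_circle hρ hρR
    (fun ζ hζ => hF (w₀, ζ) ⟨mem_ball_self hε, hζ⟩)
  set δ : ℝ := min δ₀ ε with hδdef
  have hδ : 0 < δ := lt_min hδ₀ hε
  have hr₁0 : 0 < r₁ := hρ.trans_lt hρr₁
  have hr0 : 0 < r := hr₁0.trans hr₁r
  have hH' : ∀ w ∈ ball w₀ δ, ∀ ζ, r₁ ≤ ‖ζ - c‖ → ‖ζ - c‖ ≤ r₂ →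
      AnalyticAt ℂ H (w, ζ) ∧ (fun z : ℂ × ℂ => (z.1 - w₀) ^ m * F z) =ᶠ[genF (w, ζ)] H :=
    fun w hw => hH w (ball_subset_ball (min_le_left _ _) hw)
  have hFδ : Mero2On F (ball w₀ δ ×ˢ annulus c ρ R) := fun z hz =>
    hF z ⟨ball_subset_ball (min_le_right _ _) hz.1, hz.2⟩
  obtain ⟨w₁, ⟨δ₁, hδ₁, F₁, hF₁, hF₁F⟩, hw₁⟩ :=
    (hreach.and_eventually (ball_mem_nhds w₀ hδ)).exists
  set δ₂ : ℝ := min δ₁ (δ - dist w₁ w₀) with hδ₂def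
  have hδ₂ : 0 < δ₂ := lt_min hδ₁ (sub_pos.2 hw₁)
  have hsub1 : ball w₁ δ₂ ⊆ ball w₁ δ₁ := ball_subset_ball (min_le_left _ _)
  have hsub2 : ball w₁ δ₂ ⊆ ball w₀ δ :=
    ball_subset_ball' (by linarith [min_le_right δ₁ (δ - dist w₁ w₀)])
  let E : ℂ × ℂ → ℂ := fun z => (z.1 - w₀) ^ m * F₁ z
  have hE : Mero2On E (ball w₁ δ₂ ×ˢ ball c R) := fun z hz =>
    (analyticAt_fst_sub_pow w₀ m z).mero2At.mul (hF₁ z ⟨hsub1 hz.1, hz.2⟩)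
  have hEH : ∀ w ∈ ball w₁ δ₂, ∀ ζ ∈ sphere c r, AnalyticAt ℂ H (w, ζ) ∧ E =ᶠ[genF (w, ζ)] H := by
    intro w hw ζ hζ
    have hζn : ‖ζ - c‖ = r := mem_sphere_iff_norm.1 hζ
    obtain ⟨a, b⟩ := hH' w (hsub2 hw) ζ (by rw [hζn]; exact hr₁r.le) (by rw [hζn]; exact hrr₂.le)
    refine ⟨a, EventuallyEq.trans ?_ b⟩
    filter_upwards [(hF₁F (w, ζ) ⟨hsub1 hw, ⟨by rw [hζn]; linarith,
      by rw [hζn]; linarith⟩⟩).eventuallyEq] with z hz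
    show (z.1 - w₀) ^ m * F₁ z = (z.1 - w₀) ^ m * F z
    rw [hz]
  obtain ⟨B, hB, hBrec⟩ := exists_countable_recurrence hr0 (hrr₂.trans hr₂R) hE hEH
  have hSunc : ¬ (ball w₁ δ₂ \ B).Countable := by
    intro hc
    obtain ⟨x, hx1, hx2⟩ := ((hc.union hB).dense_compl ℂ).exists_mem_open isOpen_ball
      ⟨w₁, mem_ball_self hδ₂⟩
    by_cases hxB : x ∈ B
    · exact hx1 (Or.inr hxB)
    · exact hx1 (Or.inl ⟨hx2, hxB⟩)
  obtain ⟨n, Q, hQ, hQn, hQrec⟩ := exists_analytic_recurrence (c := mom H c r) (U := ball w₀ δ)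
    (isPreconnected_ballC _ _)
    (fun j w hw => analyticAt_mom hr0.le (fun ζ hζ => by
      have hζn : ‖ζ - c‖ = r := mem_sphere_iff_norm.1 hζ
      exact (hH' w hw ζ (by rw [hζn]; exact hr₁r.le) (by rw [hζn]; exact hrr₂.le)).1) j)
    (S := ball w₁ δ₂ \ B) (fun w hw => hsub2 hw.1) hSunc (fun w hw => hBrec w hw.1 hw.2)
  obtain ⟨Gh, hGh, hGhe⟩ := exists_extension_of_recurrence hr₁0 hr₁r
    (fun w hw ζ a b => (hH' w hw ζ a (b.trans hrr₂.le)).1) hQ hQrec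
  let Qp : ℂ × ℂ → ℂ := fun z => ∑ l ∈ Finset.range (n + 1), Q l z.1 * (z.2 - c) ^ l
  let Fh₀ : ℂ × ℂ → ℂ := fun z => Gh z / (Qp z * (z.1 - w₀) ^ m)
  have hFh₀ : Mero2On Fh₀ (ball w₀ δ ×ˢ ball c r) := fun z hz =>
    (hGh z hz).mero2At.div ((analyticAt_qpoly c hQ hz.1).mul (analyticAt_fst_sub_pow w₀ m z)).mero2At
  have hcollar : ∀ z ∈ ball w₀ δ ×ˢ annulus c r₁ r, Mero2EqAt Fh₀ F z := by
    rintro ⟨w, ζ⟩ ⟨hw, hζ⟩
    refine mero2EqAt_iff_genF.2 ⟨hFh₀ _ ⟨hw, annulus_subset_ball _ _ _ hζ⟩, ?_⟩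
    have hopen : ∀ᶠ z in 𝓝 (w, ζ), z ∈ ball w₀ δ ×ˢ annulus c r₁ r :=
      (isOpen_ball.prod (isOpen_annulus c r₁ r)).mem_nhds ⟨hw, hζ⟩
    filter_upwards [hopen.genF, (hH' w hw ζ hζ.1.le (hζ.2.le.trans hrr₂.le)).2,
      eventually_genF_ne_zero (analyticAt_qpoly c hQ (z := (w, ζ)) hw)
        (nzAt_qpoly c hQ hQn (z := (w, ζ)) hw),
      eventually_genF_ne_zero (analyticAt_fst_sub_pow w₀ m _) (nzAt_fst_sub_pow w₀ m _)]
      with z a b c' d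
    show Gh z / (Qp z * (z.1 - w₀) ^ m) = F z
    have h1 : Gh z = Qp z * H z := hGhe z.1 a.1 z.2 a.2
    have c'' : Qp z ≠ 0 := c'
    rw [h1, ← b]
    field_simp
  have hover : ∀ z ∈ ball w₀ δ ×ˢ annulus c ρ r, Mero2EqAt Fh₀ F z := by
    obtain ⟨ζ₁, hζ₁⟩ := annulus_nonempty c hr₁0.le hr₁r
    exact Mero2On.eqAt_of_isPreconnected
      ((isPreconnected_ballC _ _).prod (isPreconnected_annulus c hρ r))
      (fun z hz => hFh₀ z ⟨hz.1, annulus_subset_ball _ _ _ hz.2⟩)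
      (fun z hz => hFδ z ⟨hz.1, annulus_mono c le_rfl (hrr₂.trans hr₂R).le hz.2⟩)
      (z₀ := (w₀, ζ₁)) ⟨mem_ball_self hδ, annulus_mono c hρr₁.le le_rfl hζ₁⟩
      (hcollar _ ⟨mem_ball_self hδ, hζ₁⟩)
  obtain ⟨Fg, hFg, -, hFgF⟩ := Mero2.exists_glue₂ (isOpen_ball.prod isOpen_ball)
    (isOpen_ball.prod (isOpen_annulus c ρ R)) hFh₀ hFδ
    (fun z hz => hover z ⟨hz.1.1, ⟨hz.2.2.1, mem_ball_iff_norm.1 hz.1.2⟩⟩)
  refine ⟨δ, hδ, Fg, fun z hz => hFg z ?_, hFgF⟩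
  have h1 := annulus_union_ball c (hρr₁.trans hr₁r) (hrr₂.trans hr₂R).le
  have hz2 : z.2 ∈ annulus c ρ R ∪ ball c r := by
    rw [h1]
    exact hz.2
  rcases hz2 with h | h
  · exact Or.inr ⟨hz.1, h⟩
  · exact Or.inl ⟨hz.1, h⟩

end Claimed.Agent.R269
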