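/-
Row 269, library L1-SCV, unit 4B: LEVI'S THEOREM / PRODUCT CONTINUATION = P1 Lemma 4.5.   Owner: helper270.

  `levi_hol`     holomorphic version (Hartogs figure), with a finite dimensional parameter space and Banach values
  `levi_mero`    meromorphic version
  `levi_mero₂`   the same for pairs
The first variable is the parameter `w`, the second the disc variable `ζ`.
-/
import Claimed.Agent.R269.Lib.LeviB

set_option autoImplicit false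

namespace Claimed.Agent.R269

open Complex Filter Topology Set Metric
open scoped Real

/-- **Product continuation, holomorphic version.**
`r₀ := (ρ+R)/2`, `K(w,ζ) := (2πi)⁻¹ ∮_{r₀} F(w,η)/(η-ζ) dη`, jointly analytic on `D × ball c r₀`.  For fixed `ζ` with
`ρ < |ζ-c| < r₀` the functions `K(.,ζ)` and `F(.,ζ)` are analytic on `D` and agree on `D₀` (Cauchy's formula for `Ft(w,.)`), so they
agree on `D`.  `Fh := F` on the annulus, `K` elsewhere. -/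
theorem levi_hol {E G : Type*} [NormedAddCommGroup E] [NormedSpace ℂ E] [FiniteDimensional ℂ E]
    [NormedAddCommGroup G] [NormedSpace ℂ G] [CompleteSpace G] {D D₀ : Set E} (hD : IsOpen D)
    (hDc : IsPreconnected D) (hD₀ : IsOpen D₀) (hD₀D : D₀ ⊆ D) (hne : D₀.Nonempty) {c : ℂ}
    {ρ R : ℝ} (hρ : 0 ≤ ρ) (hρR : ρ < R) {F Ft : E × ℂ → G}
    (hF : AnalyticOnNhd ℂ F (D ×ˢ annulus c ρ R)) (hFt : AnalyticOnNhd ℂ Ft (D₀ ×ˢ ball c R))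
    (heq : EqOn Ft F (D₀ ×ˢ annulus c ρ R)) :
    ∃ Fh : E × ℂ → G, AnalyticOnNhd ℂ Fh (D ×ˢ ball c R) ∧ EqOn Fh F (D ×ˢ annulus c ρ R) ∧
      EqOn Fh Ft (D₀ ×ˢ ball c R) := by
  classical
  set r₀ : ℝ := (ρ + R) / 2 with hr₀
  have h1 : ρ < r₀ := by rw [hr₀]; linarith
  have h2 : r₀ < R := by rw [hr₀]; linarith
  have h0 : 0 < r₀ := hρ.trans_lt h1
  have hsph : ∀ η ∈ sphere c r₀, η ∈ annulus c ρ R := fun η hη => by
    have hηn : ‖η - c‖ = r₀ := mem_sphere_iff_norm.1 hη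
    exact ⟨by rw [hηn]; exact h1, by rw [hηn]; exact h2⟩
  let K : E × ℂ → G := fun z => (2 * π * I : ℂ)⁻¹ • ∮ η in C(c, r₀), (η - z.2)⁻¹ • F (z.1, η)
  have hK : AnalyticOnNhd ℂ K (D ×ˢ ball c r₀) := by
    rintro z₀ ⟨hz1, hz2⟩
    refine AnalyticAt.const_smul ?_
    refine SCV.analyticAt_circleIntegral (E := E × ℂ)
      (F := fun p : (E × ℂ) × ℂ => (p.2 - p.1.2)⁻¹ • F (p.1.1, p.2)) h0.le fun η hη => ?_
    have a1 : AnalyticAt ℂ (fun p : (E × ℂ) × ℂ => (p.2 - p.1.2)⁻¹) (z₀, η) := by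
      refine AnalyticAt.inv (analyticAt_snd.sub (analyticAt_snd.comp analyticAt_fst)) ?_
      show η - z₀.2 ≠ 0
      rw [sub_ne_zero]
      rintro rfl
      exact (mem_ball_iff_norm.1 hz2).ne (mem_sphere_iff_norm.1 hη)
    have a2 : AnalyticAt ℂ (fun p : (E × ℂ) × ℂ => F (p.1.1, p.2)) (z₀, η) :=
      AnalyticAt.comp (f := fun p : (E × ℂ) × ℂ => (p.1.1, p.2)) (g := F)
        (hF (z₀.1, η) ⟨hz1, hsph η hη⟩) ((analyticAt_fst.comp analyticAt_fst).prod analyticAt_snd)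
    exact a1.smul a2
  -- Cauchy's formula over `D₀`
  have hKFt : ∀ w ∈ D₀, ∀ ζ ∈ ball c r₀, K (w, ζ) = Ft (w, ζ) := by
    intro w hw ζ hζ
    have hd : DifferentiableOn ℂ (fun η => Ft (w, η)) (closedBall c r₀) := by
      intro η hη
      have a1 : AnalyticAt ℂ Ft (w, η) :=
        hFt (w, η) ⟨hw, mem_ball.2 ((mem_closedBall.1 hη).trans_lt h2)⟩
      have a2 : AnalyticAt ℂ (fun η : ℂ => (w, η)) η := analyticAt_const.prod analyticAt_id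
      exact (AnalyticAt.comp (f := fun η : ℂ => (w, η)) (g := Ft) a1
        a2).differentiableAt.differentiableWithinAt
    have e1 := hd.circleIntegral_sub_inv_smul hζ
    have e2 : (∮ η in C(c, r₀), (η - ζ)⁻¹ • F (w, η)) = ∮ η in C(c, r₀), (η - ζ)⁻¹ • Ft (w, η) :=
      circleIntegral.integral_congr h0.le fun η hη => by
        simp only [heq (⟨hw, hsph η hη⟩ : (w, η) ∈ D₀ ×ˢ annulus c ρ R)]
    show (2 * π * I : ℂ)⁻¹ • (∮ η in C(c, r₀), (η - ζ)⁻¹ • F (w, η)) = Ft (w, ζ)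
    rw [e2, e1, inv_smul_smul₀]
    simp [Real.pi_ne_zero, I_ne_zero]
  have hKF : ∀ w ∈ D, ∀ ζ ∈ annulus c ρ r₀, K (w, ζ) = F (w, ζ) := by
    intro w hw ζ hζ
    have hζb : ζ ∈ ball c r₀ := annulus_subset_ball _ _ _ hζ
    have hζA : ζ ∈ annulus c ρ R := annulus_mono c le_rfl h2.le hζ
    have am : ∀ w : E, AnalyticAt ℂ (fun w : E => (w, ζ)) w := fun w =>
      analyticAt_id.prod analyticAt_const
    have a1 : AnalyticOnNhd ℂ (fun w => K (w, ζ)) D := fun w hw =>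
      AnalyticAt.comp (f := fun w : E => (w, ζ)) (g := K) (hK (w, ζ) ⟨hw, hζb⟩) (am w)
    have a2 : AnalyticOnNhd ℂ (fun w => F (w, ζ)) D := fun w hw =>
      AnalyticAt.comp (f := fun w : E => (w, ζ)) (g := F) (hF (w, ζ) ⟨hw, hζA⟩) (am w)
    obtain ⟨w₁, hw₁⟩ := hne
    have e : (fun w => K (w, ζ)) =ᶠ[𝓝 w₁] fun w => F (w, ζ) := by
      filter_upwards [hD₀.mem_nhds hw₁] with w' hw'
      rw [hKFt w' hw' ζ hζb]
      exact heq (⟨hw', hζA⟩ : (w', ζ) ∈ D₀ ×ˢ annulus c ρ R)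
    exact a1.eqOn_of_preconnected_of_eventuallyEq a2 hDc (hD₀D hw₁) e hw
  have hnotA : ∀ ζ ∈ ball c R, ζ ∉ annulus c ρ R → ζ ∈ ball c r₀ := by
    intro ζ hζ hA
    rw [mem_ball_iff_norm] at hζ ⊢
    by_contra hcon
    exact hA ⟨h1.trans_le (not_lt.1 hcon), hζ⟩
  let Fh : E × ℂ → G := fun z => if z.2 ∈ annulus c ρ R then F z else K z
  refine ⟨Fh, ?_, ?_, ?_⟩
  · rintro ⟨w, ζ⟩ ⟨hw, hζ⟩
    by_cases hA : ζ ∈ annulus c ρ R
    · refine (hF (w, ζ) ⟨hw, hA⟩).congr ?_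
      have hc : ContinuousAt (fun z : E × ℂ => z.2) (w, ζ) := continuousAt_snd
      filter_upwards [hc.eventually ((isOpen_annulus c ρ R).mem_nhds hA)] with z hz
      have hz' : z.2 ∈ annulus c ρ R := hz
      simp only [Fh, if_pos hz']
    · have hζ0 : ζ ∈ ball c r₀ := hnotA ζ hζ hA
      refine (hK (w, ζ) ⟨hw, hζ0⟩).congr ?_
      filter_upwards [(hD.prod isOpen_ball).mem_nhds (⟨hw, hζ0⟩ : (w, ζ) ∈ D ×ˢ ball c r₀)]
        with z hz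
      by_cases hzA : z.2 ∈ annulus c ρ R
      · simp only [Fh, if_pos hzA]
        exact hKF z.1 hz.1 z.2 ⟨hzA.1, mem_ball_iff_norm.1 hz.2⟩
      · simp only [Fh, if_neg hzA]
  · intro z hz
    simp only [Fh, if_pos hz.2]
  · intro z hz
    by_cases hzA : z.2 ∈ annulus c ρ R
    · simp only [Fh, if_pos hzA]
      exact (heq (⟨hz.1, hzA⟩ : z ∈ D₀ ×ˢ annulus c ρ R)).symm
    · simp only [Fh, if_neg hzA]
      exact hKFt z.1 hz.1 z.2 (hnotA z.2 hz.2 hzA)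

/-- **Product continuation, meromorphic version (E. E. Levi).**
The set of reached parameters `{w ∈ D | ∃ δ > 0, ∃ Fh meromorphic on ball w δ × ball c R, ~ F on ball w δ × annulus}` is
open, contains `D₀`, and is closed in `D` by `levi_local`.  Two local extensions have the same germs on
`(ball w δ ∩ ball w' δ') × ball c R` (convex; identity theorem from the annulus).  `Mero2.exists_glue`. -/
theorem levi_mero {D D₀ : Set ℂ} (hD : IsOpen D) (hDc : IsPreconnected D) (hD₀ : IsOpen D₀)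
    (hD₀D : D₀ ⊆ D) (hne : D₀.Nonempty) {c : ℂ} {ρ R : ℝ} (hρ : 0 ≤ ρ) (hρR : ρ < R)
    {F Ft : ℂ × ℂ → ℂ} (hF : Mero2On F (D ×ˢ annulus c ρ R)) (hFt : Mero2On Ft (D₀ ×ˢ ball c R))
    (heq : ∀ z ∈ D₀ ×ˢ annulus c ρ R, Mero2EqAt Ft F z) :
    ∃ Fh : ℂ × ℂ → ℂ, Mero2On Fh (D ×ˢ ball c R) ∧ (∀ z ∈ D ×ˢ annulus c ρ R, Mero2EqAt Fh F z) ∧
      ∀ z ∈ D₀ ×ˢ ball c R, Mero2EqAt Fh Ft z := by
  let Reach : ℂ → Prop := fun w => ∃ δ > 0, ∃ Fh : ℂ × ℂ → ℂ, Mero2On Fh (ball w δ ×ˢ ball c R) ∧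
    ∀ z ∈ ball w δ ×ˢ annulus c ρ R, Mero2EqAt Fh F z
  have hopen : IsOpen {w | Reach w} := by
    rw [isOpen_iff_mem_nhds]
    rintro w ⟨δ, hδ, Fh, h1, h2⟩
    filter_upwards [ball_mem_nhds w hδ] with w' hw'
    have hsub : ball w' (δ - dist w' w) ⊆ ball w δ := ball_subset_ball' (by linarith)
    exact ⟨δ - dist w' w, sub_pos.2 hw', Fh, fun z hz => h1 z ⟨hsub hz.1, hz.2⟩,
      fun z hz => h2 z ⟨hsub hz.1, hz.2⟩⟩
  have hD₀R : ∀ w ∈ D₀, Reach w := by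
    intro w hw
    obtain ⟨δ, hδ, hb⟩ := Metric.isOpen_iff.1 hD₀ w hw
    exact ⟨δ, hδ, Ft, fun z hz => hFt z ⟨hb hz.1, hz.2⟩, fun z hz => heq z ⟨hb hz.1, hz.2⟩⟩
  have hclosed : closure {w | Reach w} ∩ D ⊆ {w | Reach w} := by
    rintro w₀ ⟨hcl, hw₀⟩
    obtain ⟨ε, hε, hb⟩ := Metric.isOpen_iff.1 hD w₀ hw₀
    exact levi_local hρ hρR hε (fun z hz => hF z ⟨hb hz.1, hz.2⟩)
      (mem_closure_iff_frequently.1 hcl)
  have hall : ∀ w ∈ D, Reach w := hDc.subset_of_closure_inter_subset hopen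
    (hne.mono fun w hw => ⟨hD₀D hw, hD₀R w hw⟩) hclosed
  choose! δ hδ Fl hFl hFlF using hall
  obtain ⟨ζ₁, hζ₁⟩ := annulus_nonempty c hρ hρR
  have hζ₁b : ζ₁ ∈ ball c R := annulus_subset_ball _ _ _ hζ₁
  obtain ⟨Fg, hFg, hFgl, -⟩ := Mero2.exists_glue (ι := D)
    (fun w => ball (w : ℂ) (δ w) ×ˢ ball c R) (fun w => isOpen_ball.prod isOpen_ball)
    (fun w => Fl w) (fun w => hFl w w.2) (by
      rintro ⟨w, hw⟩ ⟨w', hw'⟩ z ⟨hz, hz'⟩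
      have hconv : Convex ℝ (ball w (δ w) ∩ ball w' (δ w')) :=
        (convex_ball w (δ w)).inter (convex_ball w' (δ w'))
      refine Mero2On.eqAt_of_isPreconnected
        (W := (ball w (δ w) ∩ ball w' (δ w')) ×ˢ ball c R)
        (hconv.isPreconnected.prod (isPreconnected_ballC c R))
        (fun z hz => hFl w hw z ⟨hz.1.1, hz.2⟩) (fun z hz => hFl w' hw' z ⟨hz.1.2, hz.2⟩)
        (z₀ := (z.1, ζ₁)) ⟨⟨hz.1, hz'.1⟩, hζ₁b⟩ ?_ z ⟨⟨hz.1, hz'.1⟩, hz.2⟩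
      exact (hFlF w hw (z.1, ζ₁) ⟨hz.1, hζ₁⟩).trans (hFlF w' hw' (z.1, ζ₁) ⟨hz'.1, hζ₁⟩).symm)
  have hmem : ∀ z ∈ D ×ˢ ball c R, z ∈ ball z.1 (δ z.1) ×ˢ ball c R := fun z hz =>
    ⟨mem_ball_self (hδ z.1 hz.1), hz.2⟩
  have hFgD : Mero2On Fg (D ×ˢ ball c R) := fun z hz =>
    hFg z (mem_iUnion.2 ⟨⟨z.1, hz.1⟩, hmem z hz⟩)
  have hFgF : ∀ z ∈ D ×ˢ annulus c ρ R, Mero2EqAt Fg F z := fun z hz =>
    (hFgl ⟨z.1, hz.1⟩ z (hmem z ⟨hz.1, annulus_subset_ball _ _ _ hz.2⟩)).trans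
      (hFlF z.1 hz.1 z ⟨mem_ball_self (hδ z.1 hz.1), hz.2⟩)
  refine ⟨Fg, hFgD, hFgF, ?_⟩
  intro z hz
  obtain ⟨ε, hε, hb⟩ := Metric.isOpen_iff.1 hD₀ z.1 hz.1
  refine Mero2On.eqAt_of_isPreconnected (W := ball z.1 ε ×ˢ ball c R)
    ((isPreconnected_ballC _ _).prod (isPreconnected_ballC c R))
    (fun z' hz' => hFgD z' ⟨hD₀D (hb hz'.1), hz'.2⟩) (fun z' hz' => hFt z' ⟨hb hz'.1, hz'.2⟩)
    (z₀ := (z.1, ζ₁)) ⟨mem_ball_self hε, hζ₁b⟩ ?_ z ⟨mem_ball_self hε, hz.2⟩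
  exact (hFgF (z.1, ζ₁) ⟨hD₀D hz.1, hζ₁⟩).trans (heq (z.1, ζ₁) ⟨hz.1, hζ₁⟩).symm

/-- the same for pairs. -/
theorem levi_mero₂ {D D₀ : Set ℂ} (hD : IsOpen D) (hDc : IsPreconnected D) (hD₀ : IsOpen D₀)
    (hD₀D : D₀ ⊆ D) (hne : D₀.Nonempty) {c : ℂ} {ρ R : ℝ} (hρ : 0 ≤ ρ) (hρR : ρ < R)
    {F Ft : ℂ × ℂ → ℂ × ℂ} (hF : Mero2On₂ F (D ×ˢ annulus c ρ R))
    (hFt : Mero2On₂ Ft (D₀ ×ˢ ball c R))
    (heq : ∀ z ∈ D₀ ×ˢ annulus c ρ R, Mero2EqAt₂ Ft F z) :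
    ∃ Fh : ℂ × ℂ → ℂ × ℂ, Mero2On₂ Fh (D ×ˢ ball c R) ∧
      (∀ z ∈ D ×ˢ annulus c ρ R, Mero2EqAt₂ Fh F z) ∧ ∀ z ∈ D₀ ×ˢ ball c R, Mero2EqAt₂ Fh Ft z := by
  obtain ⟨A, hA, hA1, hA2⟩ := levi_mero hD hDc hD₀ hD₀D hne hρ hρR hF.1 hFt.1 fun z hz => (heq z hz).1
  obtain ⟨B, hB, hB1, hB2⟩ := levi_mero hD hDc hD₀ hD₀D hne hρ hρR hF.2 hFt.2 fun z hz => (heq z hz).2
  exact ⟨fun z => (A z, B z), ⟨hA, hB⟩, fun z hz => ⟨hA1 z hz, hB1 z hz⟩,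
    fun z hz => ⟨hA2 z hz, hB2 z hz⟩⟩

end Claimed.Agent.R269
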