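/-
Row 269, library: LF-LS-1 (statements of `Lib/LogSub.lean`, owner helper171).  Proofs: helper221.  HOST-FREE (Mathlib only).

* `ls1_lintegral_ball_polar` : polar coordinates on a disc, `∫⁻` form.
* `ls1_submean`              : a function bounded above on a disc whose circle averages are `≥ m` is integrable and has
                               area mean `≥ m`.
* `ls1_norm_le_area_mean`, `ls1_log_submean` : the two statements of LF-LS-1 (verbatim).
* `ls1_jensen_le`            : `log ‖g c‖ ≤ circleAverage (log ‖g ·‖) c r`.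
-/
import Mathlib

set_option autoImplicit false

namespace Claimed.Agent.R269.LS

open Complex Metric Set Filter Topology MeasureTheory
open scoped Real ENNReal

/-- polar coordinates on a disc. -/
theorem ls1_lintegral_ball_polar (F : ℂ → ℝ≥0∞) (hF : Measurable F) (c : ℂ) (R : ℝ) :
    ∫⁻ z in ball c R, F z
      = ∫⁻ r in Ioo 0 R, ENNReal.ofReal r * ∫⁻ θ in Ioo (-π) π, F (circleMap c r θ) := by
  have hG : Measurable (fun w : ℂ => (ball c R).indicator F (w + c)) :=
    (hF.indicator measurableSet_ball).comp (measurable_id.add_const c)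
  have h1 : ∫⁻ z in ball c R, F z = ∫⁻ w : ℂ, (ball c R).indicator F (w + c) := by
    rw [← lintegral_indicator measurableSet_ball]
    exact (lintegral_add_right_eq_self (fun z => (ball c R).indicator F z) c).symm
  rw [h1, ← Complex.lintegral_comp_polarCoord_symm, polarCoord_target, Measure.volume_eq_prod,
    ← Measure.prod_restrict, lintegral_prod]
  swap
  · refine Measurable.aemeasurable ?_
    refine (ENNReal.measurable_ofReal.comp measurable_fst).smul (hG.comp ?_)
    have e : (fun p : ℝ × ℝ => Complex.polarCoord.symm p)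
        = fun p => (p.1 : ℂ) * (Real.cos p.2 + Real.sin p.2 * I) :=
      funext Complex.polarCoord_symm_apply
    have hc : Continuous (fun p : ℝ × ℝ => Complex.polarCoord.symm p) := by
      rw [e]; fun_prop
    exact hc.measurable
  have h2 : ∀ r ∈ Ioi (0 : ℝ), (∫⁻ θ in Ioo (-π) π, ENNReal.ofReal r •
      (ball c R).indicator F (Complex.polarCoord.symm (r, θ) + c))
      = (Ioo 0 R).indicator
        (fun r => ENNReal.ofReal r * ∫⁻ θ in Ioo (-π) π, F (circleMap c r θ)) r := by
    intro r hr
    have hr0 : (0 : ℝ) < r := hr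
    have e : ∀ θ : ℝ, Complex.polarCoord.symm (r, θ) + c = circleMap c r θ := by
      intro θ
      rw [Complex.polarCoord_symm_apply, circleMap, Complex.exp_mul_I]
      push_cast
      ring
    simp only [e, smul_eq_mul]
    by_cases hrR : r < R
    · rw [indicator_of_mem (show r ∈ Ioo 0 R from ⟨hr0, hrR⟩), lintegral_const_mul' _ _ ENNReal.ofReal_ne_top]
      congr 1
      refine lintegral_congr fun θ => ?_
      rw [indicator_of_mem]
      rw [mem_ball, dist_eq_norm, circleMap_sub_center, norm_circleMap_zero, abs_of_pos hr0]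
      exact hrR
    · rw [indicator_of_notMem (fun h : r ∈ Ioo 0 R => hrR h.2)]
      have : ∀ θ : ℝ, (ball c R).indicator F (circleMap c r θ) = 0 := by
        intro θ
        rw [indicator_of_notMem]
        rw [mem_ball, dist_eq_norm, circleMap_sub_center, norm_circleMap_zero, abs_of_pos hr0]
        exact hrR
      simp [this]
  rw [setLIntegral_congr_fun measurableSet_Ioi h2, lintegral_indicator measurableSet_Ioo,
    Measure.restrict_restrict measurableSet_Ioo]
  congr 2
  ext x
  simp only [mem_inter_iff, mem_Ioo, mem_Ioi]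
  tauto

/-- the angular integral over `(-π, π)` in terms of the circle average. -/
theorem ls1_integral_Ioo_circle (u : ℂ → ℝ) (c : ℂ) (r : ℝ) (hci : CircleIntegrable u c r) :
    IntegrableOn (fun θ => u (circleMap c r θ)) (Ioo (-π) π) ∧
      ∫ θ in Ioo (-π) π, u (circleMap c r θ) = 2 * π * Real.circleAverage u c r := by
  have hper : Function.Periodic (fun θ => u (circleMap c r θ)) (2 * π) :=
    fun x => by simp [periodic_circleMap c r x]
  have hii : IntervalIntegrable (fun θ => u (circleMap c r θ)) volume (-π) π :=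
    hper.intervalIntegrable₀ Real.two_pi_pos.ne' hci _ _
  have hle : -π ≤ π := by linarith [Real.pi_pos]
  refine ⟨(intervalIntegrable_iff_integrableOn_Ioo_of_le hle).1 hii, ?_⟩
  rw [← integral_Ioc_eq_integral_Ioo, ← intervalIntegral.integral_of_le hle]
  have h1 := hper.intervalIntegral_add_eq (-π) 0
  have e1 : -π + 2 * π = π := by ring
  rw [e1, zero_add] at h1
  rw [h1, Real.circleAverage_def, smul_eq_mul]
  field_simp

/-- **Sub-mean value lemma**: if `u ≤ M` on the disc and all circle averages about the centre are `≥ m`, then `u` is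
integrable on the disc and its area mean is `≥ m`. -/
theorem ls1_submean (u : ℂ → ℝ) (c : ℂ) (R M m : ℝ) (hR : 0 < R)
    (hu : Measurable ((ball c R).indicator u)) (hM : ∀ z ∈ ball c R, u z ≤ M)
    (hci : ∀ r ∈ Ioo 0 R, CircleIntegrable u c r)
    (hm : ∀ r ∈ Ioo 0 R, m ≤ Real.circleAverage u c r) :
    IntegrableOn u (ball c R) ∧ π * R ^ 2 * m ≤ ∫ z in ball c R, u z := by
  have hmemc : ∀ r ∈ Ioo 0 R, ∀ θ : ℝ, circleMap c r θ ∈ ball c R := by
    intro r hr θ
    rw [mem_ball, dist_eq_norm, circleMap_sub_center, norm_circleMap_zero, abs_of_pos hr.1]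
    exact hr.2
  -- the nonnegative function `M - u`
  have hFm : Measurable (fun z => ENNReal.ofReal (M - (ball c R).indicator u z)) :=
    ENNReal.measurable_ofReal.comp (measurable_const.sub hu)
  have h1 := ls1_lintegral_ball_polar _ hFm c R
  have h2 : ∀ r ∈ Ioo 0 R, ENNReal.ofReal r * ∫⁻ θ in Ioo (-π) π,
      ENNReal.ofReal (M - (ball c R).indicator u (circleMap c r θ))
      ≤ ENNReal.ofReal r * ENNReal.ofReal (2 * π * (M - m)) := by
    intro r hr
    gcongr
    have e : ∀ θ : ℝ, (ball c R).indicator u (circleMap c r θ) = u (circleMap c r θ) :=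
      fun θ => indicator_of_mem (hmemc r hr θ) u
    simp only [e]
    obtain ⟨i1, i2⟩ := ls1_integral_Ioo_circle u c r (hci r hr)
    have i0 : IntegrableOn (fun _ : ℝ => M) (Ioo (-π) π) := integrableOn_const (by simp)
    have i3 : IntegrableOn (fun θ => M - u (circleMap c r θ)) (Ioo (-π) π) := i0.sub i1
    rw [← ofReal_integral_eq_lintegral_ofReal i3
      (Eventually.of_forall fun θ => sub_nonneg.2 (hM _ (hmemc r hr θ)))]
    apply ENNReal.ofReal_le_ofReal
    rw [integral_sub i0 i1, i2, setIntegral_const]
    have := hm r hr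
    have e2 : volume.real (Ioo (-π) π) = 2 * π := by
      rw [Measure.real, Real.volume_Ioo, ENNReal.toReal_ofReal (by linarith [Real.pi_pos])]
      ring
    rw [e2, smul_eq_mul]
    nlinarith [Real.pi_pos]
  have h3 : ∫⁻ r in Ioo 0 R, ENNReal.ofReal r = ENNReal.ofReal (R ^ 2 / 2) := by
    have i4 : IntegrableOn (fun r : ℝ => r) (Ioo 0 R) :=
      (intervalIntegrable_iff_integrableOn_Ioo_of_le hR.le).1 (continuous_id.intervalIntegrable _ _)
    rw [← ofReal_integral_eq_lintegral_ofReal i4
      ((ae_restrict_iff' measurableSet_Ioo).2 (Eventually.of_forall fun r hr => hr.1.le))]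
    rw [← integral_Ioc_eq_integral_Ioo, ← intervalIntegral.integral_of_le hR.le, integral_id]
    congr 1
    ring
  have h4 : ∫⁻ z in ball c R, ENNReal.ofReal (M - (ball c R).indicator u z)
      ≤ ENNReal.ofReal (π * R ^ 2 * (M - m)) := by
    rw [h1]
    refine (setLIntegral_mono (by fun_prop) h2).trans ?_
    rw [lintegral_mul_const _ ENNReal.measurable_ofReal, h3,
      ← ENNReal.ofReal_mul (by positivity)]
    apply ENNReal.ofReal_le_ofReal
    apply le_of_eq
    ring
  have e5 : ∀ z ∈ ball c R, (ball c R).indicator u z = u z := fun z hz => indicator_of_mem hz u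
  have h5 : ∫⁻ z in ball c R, ENNReal.ofReal (M - u z) ≤ ENNReal.ofReal (π * R ^ 2 * (M - m)) := by
    refine le_trans (le_of_eq ?_) h4
    refine setLIntegral_congr_fun measurableSet_ball fun z hz => ?_
    simp only [e5 z hz]
  have hnn : 0 ≤ᵐ[volume.restrict (ball c R)] fun z => M - u z :=
    (ae_restrict_iff' measurableSet_ball).2 (Eventually.of_forall fun z hz => sub_nonneg.2 (hM z hz))
  have hmeas : AEStronglyMeasurable u (volume.restrict (ball c R)) := by
    refine hu.aestronglyMeasurable.congr ?_
    exact (ae_restrict_iff' measurableSet_ball).2 (Eventually.of_forall e5)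
  have hint : IntegrableOn (fun z => M - u z) (ball c R) := by
    refine ⟨aestronglyMeasurable_const.sub hmeas, ?_⟩
    rw [hasFiniteIntegral_iff_ofReal hnn]
    exact h5.trans_lt ENNReal.ofReal_lt_top
  have hconst : IntegrableOn (fun _ : ℂ => M) (ball c R) :=
    integrableOn_const (by rw [Complex.volume_ball]; exact ENNReal.mul_ne_top (by simp) (by simp))
  have hintu : IntegrableOn u (ball c R) := by
    have := hconst.sub hint
    refine this.congr (Eventually.of_forall fun z => ?_)
    simp
  refine ⟨hintu, ?_⟩
  have h6 : ∫ z in ball c R, (M - u z) ≤ π * R ^ 2 * (M - m) := by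
    rw [integral_eq_lintegral_of_nonneg_ae hnn hint.aestronglyMeasurable]
    have hMm : 0 ≤ π * R ^ 2 * (M - m) := by
      have hr : R / 2 ∈ Ioo 0 R := ⟨by linarith, by linarith⟩
      have h7 : Real.circleAverage u c (R / 2) ≤ M := by
        apply Real.circleAverage_mono_on_of_le_circle (hci _ hr)
        intro z hz
        apply hM
        rw [abs_of_pos hr.1] at hz
        exact sphere_subset_closedBall.trans (closedBall_subset_ball hr.2) hz
      have := hm _ hr
      have : 0 ≤ M - m := by linarith
      positivity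
    exact ENNReal.toReal_le_of_le_ofReal hMm h5
  rw [integral_sub hconst hintu, setIntegral_const] at h6
  have e7 : volume.real (ball c R) = π * R ^ 2 := by
    rw [Measure.real, Complex.volume_ball, ENNReal.toReal_mul, ENNReal.toReal_pow,
      ENNReal.toReal_ofReal hR.le]
    simp [mul_comm]
  rw [e7, smul_eq_mul] at h6
  linarith

/-- `|g(c)| ≤` area mean of `|g|`. -/
theorem ls1_norm_le_area_mean (g : ℂ → ℂ) (c : ℂ) (R : ℝ) (hR : 0 < R)
    (hg : DiffContOnCl ℂ g (ball c R)) :
    π * R ^ 2 * ‖g c‖ ≤ ∫ z in ball c R, ‖g z‖ := by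
  classical
  have hcb : ContinuousOn g (closedBall c R) := hg.continuousOn_ball
  obtain ⟨M, hM⟩ := (isCompact_closedBall c R).exists_bound_of_continuousOn hcb
  refine (ls1_submean (fun z => ‖g z‖) c R M ‖g c‖ hR ?_ (fun z hz => hM z (ball_subset_closedBall hz))
    ?_ ?_).2
  · rw [← Set.piecewise_eq_indicator]
    exact (hcb.mono ball_subset_closedBall).norm.measurable_piecewise continuousOn_const
      measurableSet_ball
  · intro r hr
    refine ContinuousOn.circleIntegrable hr.1.le ?_
    exact (hcb.mono (sphere_subset_closedBall.trans (closedBall_subset_closedBall hr.2.le))).norm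
  · intro r hr
    have h1 : Real.circleAverage g c r = g c := by
      apply DiffContOnCl.circleAverage
      rw [abs_of_pos hr.1]
      exact hg.mono (ball_subset_ball hr.2.le)
    rw [← h1, Real.circleAverage_def, Real.circleAverage_def, norm_smul, smul_eq_mul,
      Real.norm_of_nonneg (by positivity)]
    gcongr
    exact intervalIntegral.norm_integral_le_integral_norm Real.two_pi_pos.le

/-- Jensen's inequality: `log ‖g c‖ ≤` circle average of `log ‖g‖`. -/
theorem ls1_jensen_le (g : ℂ → ℂ) (c : ℂ) (r : ℝ) (hr : 0 < r)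
    (hg : AnalyticOnNhd ℂ g (closedBall c r)) (h0 : g c ≠ 0) :
    Real.log ‖g c‖ ≤ Real.circleAverage (fun z => Real.log ‖g z‖) c r := by
  have hg' : AnalyticOnNhd ℂ g (closedBall c |r|) := by rwa [abs_of_pos hr]
  rw [hg'.circleAverage_log_norm hr.ne' h0]
  have : 0 ≤ ∑ᶠ u, (MeromorphicOn.divisor g (closedBall c |r|) u : ℝ) * Real.log (r * ‖c - u‖⁻¹) := by
    refine finsum_nonneg fun u => ?_
    by_cases hu : u ∈ closedBall c |r|
    · refine mul_nonneg (by exact_mod_cast MeromorphicOn.AnalyticOnNhd.divisor_nonneg hg' u) ?_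
      rcases eq_or_ne u c with rfl | huc
      · simp
      · apply Real.log_nonneg
        have h1 : 0 < ‖c - u‖ := norm_pos_iff.2 (sub_ne_zero.2 huc.symm)
        have h2 : ‖c - u‖ ≤ r := by
          rw [abs_of_pos hr, mem_closedBall, dist_eq_norm, norm_sub_rev] at hu
          exact hu
        rw [← div_eq_mul_inv, le_div_iff₀ h1]
        linarith
    · simp [hu]
  linarith

/-- `log|g|` is integrable on discs and has the area sub-mean value property. -/
theorem ls1_log_submean (g : ℂ → ℂ) (c : ℂ) (R : ℝ) (hR : 0 < R)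
    (hg : AnalyticOnNhd ℂ g (closedBall c R)) (h0 : g c ≠ 0) :
    IntegrableOn (fun z => Real.log ‖g z‖) (ball c R) ∧
      π * R ^ 2 * Real.log ‖g c‖ ≤ ∫ z in ball c R, Real.log ‖g z‖ := by
  classical
  have hcb : ContinuousOn g (closedBall c R) := hg.continuousOn
  obtain ⟨M, hM⟩ := (isCompact_closedBall c R).exists_bound_of_continuousOn hcb
  refine ls1_submean (fun z => Real.log ‖g z‖) c R (Real.log (max M 1)) (Real.log ‖g c‖) hR ?_ ?_ ?_ ?_
  · have h1 : Measurable ((ball c R).piecewise g (fun _ => 1)) :=
      (hcb.mono ball_subset_closedBall).measurable_piecewise continuousOn_const measurableSet_ball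
    have h2 : Measurable (fun z => Real.log ‖(ball c R).piecewise g (fun _ => 1) z‖) :=
      Real.measurable_log.comp h1.norm
    have e : (ball c R).indicator (fun z => Real.log ‖g z‖)
        = fun z => Real.log ‖(ball c R).piecewise g (fun _ => 1) z‖ := by
      ext z
      by_cases hz : z ∈ ball c R
      · simp [hz]
      · simp [hz]
    rw [e]
    exact h2
  · intro z hz
    rcases eq_or_ne (g z) 0 with h | h
    · simp only [h, norm_zero, Real.log_zero]
      exact Real.log_nonneg (le_max_right _ _)
    · exact Real.log_le_log (norm_pos_iff.2 h)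
        ((hM z (ball_subset_closedBall hz)).trans (le_max_left _ _))
  · intro r hr
    apply MeromorphicOn.circleIntegrable_log_norm
    rw [abs_of_pos hr.1]
    exact (hg.mono (sphere_subset_closedBall.trans (closedBall_subset_closedBall hr.2.le))).meromorphicOn
  · intro r hr
    exact ls1_jensen_le g c r hr.1 (hg.mono (closedBall_subset_closedBall hr.2.le)) h0

end Claimed.Agent.R269.LS
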