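/-
Row 269, library: LF-LS-2 (statement `log_L2` of `Lib/LogSub.lean`, owner helper171).  Proof: helper221.  HOST-FREE.

ROUTE.  Blaschke division (`ca_blaschke_division`, centre `ζs`, radii `33/16 < 293/100 < 47/16`): `n ≤ 6 M` points `a j`, `g` zero-free on
`closedBall ζs (33/16)`, `‖g‖ ≤ e^M`, `‖g ζs‖ ≥ e^{-M}`, `‖g‖ ∏ ‖ζ - a j‖/A ≤ ‖G‖` (`A = 293/50`).  Harnack: `‖g‖ ≥ e^{-21M/4}` on `closedBall 0 1`.  So
`|log‖G‖| ≤ 21M/4 + ∑ Λ(ζ - a j)`, `Λ w = max 0 (log (A/‖w‖))`, off the finite set `{a j}`;  `Λ²` has finite integral over the plane and over the line.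
-/
import Claimed.Agent.R269.Lib.CABlaschke
import Claimed.Agent.R269.Lib.LogSub1Pf

set_option autoImplicit false

namespace Claimed.Agent.R269.LS

open Complex Metric Set Filter Topology MeasureTheory
open scoped Real ENNReal

/-- `(log y)² ≤ 4 y` for `y ≥ 1`. -/
theorem ls2_log_sq_le {y : ℝ} (hy : 1 ≤ y) : Real.log y ^ 2 ≤ 4 * y := by
  have h0 : 0 ≤ y := by linarith
  have h1 := Real.log_le_rpow_div h0 (show (0 : ℝ) < 1 / 2 by norm_num)
  have h2 : 0 ≤ Real.log y := Real.log_nonneg hy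
  have h3 : (y ^ (1 / 2 : ℝ)) ^ 2 = y := by
    rw [← Real.rpow_natCast, ← Real.rpow_mul h0]; norm_num
  have h4 : 0 ≤ y ^ (1 / 2 : ℝ) := Real.rpow_nonneg h0 _
  have h5 : Real.log y ≤ 2 * y ^ (1 / 2 : ℝ) := by
    refine h1.trans (le_of_eq ?_); ring
  nlinarith

/-- `(log y)² ≤ 16 y^{1/2}` for `y ≥ 1`. -/
theorem ls2_log_sq_le' {y : ℝ} (hy : 1 ≤ y) : Real.log y ^ 2 ≤ 16 * y ^ (1 / 2 : ℝ) := by
  have h0 : 0 ≤ y := by linarith
  have h1 := Real.log_le_rpow_div h0 (show (0 : ℝ) < 1 / 4 by norm_num)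
  have h2 : 0 ≤ Real.log y := Real.log_nonneg hy
  have h3 : (y ^ (1 / 4 : ℝ)) ^ 2 = y ^ (1 / 2 : ℝ) := by
    rw [← Real.rpow_natCast, ← Real.rpow_mul h0]; norm_num
  have h4 : 0 ≤ y ^ (1 / 4 : ℝ) := Real.rpow_nonneg h0 _
  have h5 : Real.log y ≤ 4 * y ^ (1 / 4 : ℝ) := by
    refine h1.trans (le_of_eq ?_); ring
  nlinarith

theorem ls2_measurable (A : ℝ) :
    Measurable (fun w : ℂ => ENNReal.ofReal ((max 0 (Real.log (A / ‖w‖))) ^ 2)) := by
  refine ENNReal.measurable_ofReal.comp (Measurable.pow_const ?_ 2)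
  exact measurable_const.max (Real.measurable_log.comp (measurable_const.div measurable_norm))

/-- `Λ²` has a finite integral over the plane. -/
theorem ls2_area_fin (A : ℝ) (hA : 0 < A) :
    ∫⁻ w : ℂ, ENNReal.ofReal ((max 0 (Real.log (A / ‖w‖))) ^ 2) < ∞ := by
  have hsupp : (ball (0 : ℂ) A).indicator
      (fun w : ℂ => ENNReal.ofReal ((max 0 (Real.log (A / ‖w‖))) ^ 2))
      = fun w : ℂ => ENNReal.ofReal ((max 0 (Real.log (A / ‖w‖))) ^ 2) := by
    rw [Set.indicator_eq_self]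
    intro w hw
    by_contra hwb
    apply hw
    have h1 : A ≤ ‖w‖ := by simpa [mem_ball, dist_eq_norm] using hwb
    have h2 : A / ‖w‖ ≤ 1 := (div_le_one (hA.trans_le h1)).2 h1
    have h3 : Real.log (A / ‖w‖) ≤ 0 := Real.log_nonpos (by positivity) h2
    simp [max_eq_left h3]
  rw [← hsupp, lintegral_indicator measurableSet_ball,
    ls1_lintegral_ball_polar _ (ls2_measurable A) 0 A]
  have h1 : ∀ r ∈ Ioo 0 A, ENNReal.ofReal r * ∫⁻ θ in Ioo (-π) π,
      ENNReal.ofReal ((max 0 (Real.log (A / ‖circleMap 0 r θ‖))) ^ 2)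
      ≤ ENNReal.ofReal (8 * π * A) := by
    intro r hr
    have e : ∀ θ : ℝ, ‖circleMap 0 r θ‖ = r := fun θ => by
      rw [norm_circleMap_zero, abs_of_pos hr.1]
    simp only [e]
    rw [setLIntegral_const, Real.volume_Ioo, ← ENNReal.ofReal_mul (by positivity),
      ← ENNReal.ofReal_mul hr.1.le]
    apply ENNReal.ofReal_le_ofReal
    have hy : 1 ≤ A / r := (one_le_div hr.1).2 hr.2.le
    have h2 := ls2_log_sq_le hy
    rw [max_eq_right (Real.log_nonneg hy)]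
    have h3 : r * Real.log (A / r) ^ 2 ≤ 4 * A := by
      have hr0 : r ≠ 0 := hr.1.ne'
      calc r * Real.log (A / r) ^ 2 ≤ r * (4 * (A / r)) :=
            mul_le_mul_of_nonneg_left h2 hr.1.le
        _ = 4 * A := by field_simp
    have hπ := Real.pi_pos
    calc r * (Real.log (A / r) ^ 2 * (π - -π)) = (r * Real.log (A / r) ^ 2) * (2 * π) := by ring
      _ ≤ (4 * A) * (2 * π) := by gcongr
      _ = 8 * π * A := by ring
  refine (setLIntegral_mono measurable_const h1).trans_lt ?_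
  rw [setLIntegral_const, Real.volume_Ioo]
  exact ENNReal.mul_lt_top ENNReal.ofReal_lt_top ENNReal.ofReal_lt_top

theorem ls2_measurable_line (A : ℝ) :
    Measurable (fun s : ℝ => ENNReal.ofReal ((max 0 (Real.log (A / |s|))) ^ 2)) := by
  refine ENNReal.measurable_ofReal.comp (Measurable.pow_const ?_ 2)
  exact measurable_const.max (Real.measurable_log.comp (measurable_const.div measurable_norm))

/-- `Λ²` has a finite integral over the line. -/
theorem ls2_line_fin (A : ℝ) (hA : 0 < A) :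
    ∫⁻ s : ℝ, ENNReal.ofReal ((max 0 (Real.log (A / |s|))) ^ 2) < ∞ := by
  have hm := ls2_measurable_line A
  have hm1 : Measurable ((Ioi (0 : ℝ)).indicator
      (fun s : ℝ => ENNReal.ofReal ((max 0 (Real.log (A / |s|))) ^ 2))) :=
    hm.indicator measurableSet_Ioi
  -- the positive half line
  have hpos : ∫⁻ s : ℝ, (Ioi (0 : ℝ)).indicator
      (fun s : ℝ => ENNReal.ofReal ((max 0 (Real.log (A / |s|))) ^ 2)) s < ∞ := by
    have hii : IntegrableOn (fun s : ℝ => 16 * A ^ (1 / 2 : ℝ) * s ^ (-(1 / 2) : ℝ)) (Ioo 0 A) := by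
      refine Integrable.const_mul ?_ _
      exact (intervalIntegrable_iff_integrableOn_Ioo_of_le hA.le).1
        (intervalIntegral.intervalIntegrable_rpow' (by norm_num))
    have hlt := hii.lintegral_lt_top
    refine lt_of_le_of_lt ?_ hlt
    rw [← lintegral_indicator measurableSet_Ioo]
    refine lintegral_mono fun s => ?_
    by_cases hs : 0 < s
    · rw [indicator_of_mem (show s ∈ Ioi (0 : ℝ) from hs), abs_of_pos hs]
      by_cases hsA : s < A
      · rw [indicator_of_mem (show s ∈ Ioo 0 A from ⟨hs, hsA⟩)]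
        apply ENNReal.ofReal_le_ofReal
        have hy : 1 ≤ A / s := (one_le_div hs).2 hsA.le
        rw [max_eq_right (Real.log_nonneg hy)]
        refine (ls2_log_sq_le' hy).trans (le_of_eq ?_)
        rw [Real.div_rpow hA.le hs.le, Real.rpow_neg hs.le]
        ring
      · have h2 : A / s ≤ 1 := (div_le_one hs).2 (not_lt.1 hsA)
        have h3 : Real.log (A / s) ≤ 0 := Real.log_nonpos (by positivity) h2
        simp [max_eq_left h3]
    · rw [indicator_of_notMem (show s ∉ Ioi (0 : ℝ) from hs)]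
      exact zero_le
  have hle : ∀ s : ℝ, ENNReal.ofReal ((max 0 (Real.log (A / |s|))) ^ 2)
      ≤ (Ioi (0 : ℝ)).indicator
          (fun s : ℝ => ENNReal.ofReal ((max 0 (Real.log (A / |s|))) ^ 2)) s
        + (Ioi (0 : ℝ)).indicator
          (fun s : ℝ => ENNReal.ofReal ((max 0 (Real.log (A / |s|))) ^ 2)) (-s) := by
    intro s
    rcases lt_trichotomy s 0 with h | h | h
    · rw [indicator_of_mem (show -s ∈ Ioi (0 : ℝ) from neg_pos.2 h), abs_neg]
      exact le_add_self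
    · subst h
      simp
    · rw [indicator_of_mem (show s ∈ Ioi (0 : ℝ) from h)]
      exact le_self_add
  refine (lintegral_mono hle).trans_lt ?_
  rw [lintegral_add_left hm1, lintegral_neg_eq_self]
  exact ENNReal.add_lt_top.2 ⟨hpos, hpos⟩

/-- abstract integration step. -/
theorem ls2_integrate {X : Type*} [MeasurableSpace X] (μ : Measure X) (S : Set X) (u : X → ℝ) (n : ℕ)
    (L : Fin n → X → ℝ) (hL : ∀ j, Measurable (L j)) (c m₀ K : ℝ) (hm₀ : 0 ≤ m₀) (hK0 : 0 ≤ K)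
    (hS : μ S ≤ ENNReal.ofReal m₀)
    (hK : ∀ j, ∫⁻ x in S, ENNReal.ofReal (L j x ^ 2) ∂μ ≤ ENNReal.ofReal K)
    (hpt : ∀ᵐ x ∂(μ.restrict S), u x ^ 2 ≤ 2 * c ^ 2 + 2 * n * ∑ j, L j x ^ 2) :
    ∫⁻ x in S, ENNReal.ofReal (u x ^ 2) ∂μ ≤ ENNReal.ofReal (2 * c ^ 2 * m₀ + 2 * n ^ 2 * K) := by
  have h1 : ∫⁻ x in S, ENNReal.ofReal (u x ^ 2) ∂μ
      ≤ ∫⁻ x in S, (ENNReal.ofReal (2 * c ^ 2)
        + ENNReal.ofReal (2 * n) * ∑ j, ENNReal.ofReal (L j x ^ 2)) ∂μ := by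
    refine lintegral_mono_ae (hpt.mono fun x hx => ?_)
    refine (ENNReal.ofReal_le_ofReal hx).trans (le_of_eq ?_)
    rw [ENNReal.ofReal_add (by positivity) (by positivity),
      ENNReal.ofReal_mul (p := 2 * (n : ℝ)) (by positivity),
      ENNReal.ofReal_sum_of_nonneg (fun j _ => by positivity)]
  refine h1.trans ?_
  have hmj : ∀ j, Measurable (fun x => ENNReal.ofReal (L j x ^ 2)) := fun j =>
    ENNReal.measurable_ofReal.comp ((hL j).pow_const 2)
  rw [lintegral_add_left measurable_const, setLIntegral_const,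
    lintegral_const_mul _ (Finset.measurable_sum _ fun j _ => hmj j),
    lintegral_finsetSum _ fun j _ => hmj j]
  have h2 : ∑ j : Fin n, ∫⁻ x in S, ENNReal.ofReal (L j x ^ 2) ∂μ ≤ ENNReal.ofReal (n * K) := by
    refine (Finset.sum_le_sum fun j _ => hK j).trans (le_of_eq ?_)
    rw [Finset.sum_const, Finset.card_univ, Fintype.card_fin, nsmul_eq_mul,
      ENNReal.ofReal_mul (by positivity), ENNReal.ofReal_natCast]
  calc ENNReal.ofReal (2 * c ^ 2) * μ S
        + ENNReal.ofReal (2 * n) * ∑ j : Fin n, ∫⁻ x in S, ENNReal.ofReal (L j x ^ 2) ∂μ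
      ≤ ENNReal.ofReal (2 * c ^ 2) * ENNReal.ofReal m₀
        + ENNReal.ofReal (2 * n) * ENNReal.ofReal (n * K) := by gcongr
    _ = ENNReal.ofReal (2 * c ^ 2 * m₀ + 2 * n ^ 2 * K) := by
        rw [← ENNReal.ofReal_mul (by positivity), ← ENNReal.ofReal_mul (by positivity),
          ← ENNReal.ofReal_add (by positivity) (by positivity)]
        congr 1
        ring

/-- `e^{1/3} ≤ (293/100)/(33/16)`. -/
theorem ls2_ratio : Real.exp (1 / 3) ≤ (293 / 100 : ℝ) / (33 / 16) := by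
  by_contra h
  push Not at h
  have h1 : ((293 / 100 : ℝ) / (33 / 16)) ^ 3 < Real.exp (1 / 3) ^ 3 :=
    pow_lt_pow_left₀ h (by norm_num) (by norm_num)
  rw [← Real.exp_nat_mul] at h1
  have h2 : ((3 : ℕ) : ℝ) * (1 / 3) = 1 := by norm_num
  rw [h2] at h1
  have h3 := Real.exp_one_lt_d9
  norm_num at h1
  linarith

/-- **The division package** for functions as in `log_L2`, `zero_shadow`. -/
theorem ls2_division (G : ℂ → ℂ) (M : ℝ) (hG : AnalyticOnNhd ℂ G (closedBall 0 3))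
    (hb : ∀ ζ ∈ closedBall (0 : ℂ) 3, ‖G ζ‖ ≤ Real.exp M) (ζs : ℂ)
    (hζs : ζs ∈ closedBall (0 : ℂ) (1 / 16)) (hs : Real.exp (-M) ≤ ‖G ζs‖) :
    ∃ (n : ℕ) (a : Fin n → ℂ) (g : ℂ → ℂ), (n : ℝ) ≤ 6 * M ∧
      DifferentiableOn ℂ g (ball ζs (47 / 16)) ∧
      (∀ ζ ∈ closedBall ζs (293 / 100), ‖g ζ‖ ≤ Real.exp M) ∧ Real.exp (-M) ≤ ‖g ζs‖ ∧
      (∀ j, a j ∈ closedBall ζs (33 / 16)) ∧ (∀ ζ ∈ closedBall ζs (33 / 16), g ζ ≠ 0) ∧
      ∀ ζ ∈ closedBall ζs (293 / 100), ‖g ζ‖ * ∏ j, (‖ζ - a j‖ / (2 * (293 / 100))) ≤ ‖G ζ‖ := by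
  have hn : ‖ζs‖ ≤ 1 / 16 := by simpa using hζs
  have hsub : ∀ r : ℝ, r ≤ 47 / 16 → closedBall ζs r ⊆ closedBall (0 : ℂ) 3 := by
    intro r hr z hz
    rw [mem_closedBall, dist_eq_norm] at hz
    rw [mem_closedBall, dist_zero_right]
    have : ‖z‖ ≤ ‖z - ζs‖ + ‖ζs‖ := by
      have := norm_add_le (z - ζs) ζs
      simpa using this
    linarith
  have hd : DifferentiableOn ℂ G (ball ζs (47 / 16)) :=
    hG.differentiableOn.mono (ball_subset_closedBall.trans (hsub _ le_rfl))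
  have h0 : G ζs ≠ 0 := by
    intro h
    rw [h, norm_zero] at hs
    exact absurd hs (not_le.2 (Real.exp_pos _))
  obtain ⟨n, a, g, g1, g2, g3, g4, g5, g6⟩ := ca_blaschke_division G ζs (33 / 16) (293 / 100) (47 / 16)
    (Real.exp M) (by norm_num) (by norm_num) (by norm_num) hd
    (fun ζ hζ => hb ζ (hsub _ (by norm_num) hζ)) h0
  have hq1 : (1 : ℝ) ≤ ((293 / 100 : ℝ) / (33 / 16)) ^ n := one_le_pow₀ (by norm_num)
  refine ⟨n, a, g, ?_, g1, g2, ?_, g4, g5, g6⟩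
  · have h1 : Real.exp (1 / 3) ^ n * Real.exp (-M) ≤ Real.exp M := by
      calc Real.exp (1 / 3) ^ n * Real.exp (-M)
          ≤ ((293 / 100 : ℝ) / (33 / 16)) ^ n * ‖G ζs‖ := by
            gcongr
            exact ls2_ratio
        _ ≤ ‖g ζs‖ := g3
        _ ≤ Real.exp M := g2 ζs (mem_closedBall_self (by norm_num))
    rw [← Real.exp_nat_mul, ← Real.exp_add, Real.exp_le_exp] at h1
    linarith
  · refine le_trans ?_ g3
    calc Real.exp (-M) ≤ ‖G ζs‖ := hs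
      _ = 1 * ‖G ζs‖ := (one_mul _).symm
      _ ≤ _ := by gcongr

/-- the pointwise estimate off the points `a j`. -/
theorem ls2_pointwise (G : ℂ → ℂ) (M : ℝ) (hM : 1 ≤ M)
    (hb : ∀ ζ ∈ closedBall (0 : ℂ) 3, ‖G ζ‖ ≤ Real.exp M) (ζs : ℂ)
    (hζs : ζs ∈ closedBall (0 : ℂ) (1 / 16)) (n : ℕ) (a : Fin n → ℂ) (g : ℂ → ℂ)
    (g1 : DifferentiableOn ℂ g (ball ζs (47 / 16)))
    (g2 : ∀ ζ ∈ closedBall ζs (293 / 100), ‖g ζ‖ ≤ Real.exp M) (g3 : Real.exp (-M) ≤ ‖g ζs‖)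
    (g5 : ∀ ζ ∈ closedBall ζs (33 / 16), g ζ ≠ 0)
    (g6 : ∀ ζ ∈ closedBall ζs (293 / 100),
      ‖g ζ‖ * ∏ j, (‖ζ - a j‖ / (2 * (293 / 100))) ≤ ‖G ζ‖)
    (ζ : ℂ) (hζ : ζ ∈ closedBall (0 : ℂ) 1) (hne : ∀ j, ζ ≠ a j) :
    Real.log ‖G ζ‖ ^ 2 ≤ 2 * (21 / 4 * M) ^ 2
      + 2 * n * ∑ j, (max 0 (Real.log (2 * (293 / 100) / ‖ζ - a j‖))) ^ 2 := by
  have hn : ‖ζs‖ ≤ 1 / 16 := by simpa using hζs
  have hζ1 : ‖ζ‖ ≤ 1 := by simpa using hζ
  have hζs' : ζ ∈ closedBall ζs (17 / 16) := by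
    rw [mem_closedBall, dist_eq_norm]
    have := norm_sub_le ζ ζs
    linarith
  have hH := ca_harnack g ζs (33 / 16) (17 / 16) (Real.exp M) (2 * M) (by norm_num) (by norm_num)
    (Real.exp_pos _) (by linarith) (g1.mono (ball_subset_ball (by norm_num)))
    (fun z hz => g5 z (ball_subset_closedBall hz))
    (fun z hz => g2 z (ball_subset_closedBall.trans (closedBall_subset_closedBall (by norm_num)) hz))
    (by rw [← Real.exp_add]; refine le_trans (le_of_eq ?_) g3; congr 1; ring) ζ hζs'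
  have hlow : Real.exp (-(21 / 4 * M)) ≤ ‖g ζ‖ := by
    refine le_trans (le_of_eq ?_) hH
    rw [← Real.exp_add]
    congr 1
    norm_num
    ring
  have hpos : ∀ j, 0 < ‖ζ - a j‖ / (2 * (293 / 100)) := fun j =>
    div_pos (norm_pos_iff.2 (sub_ne_zero.2 (hne j))) (by norm_num)
  have hP : 0 < ∏ j, (‖ζ - a j‖ / (2 * (293 / 100))) := Finset.prod_pos fun j _ => hpos j
  have h1 : Real.exp (-(21 / 4 * M)) * ∏ j, (‖ζ - a j‖ / (2 * (293 / 100))) ≤ ‖G ζ‖ :=
    le_trans (mul_le_mul_of_nonneg_right hlow hP.le)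
      (g6 ζ (closedBall_subset_closedBall (by norm_num) hζs'))
  have hGpos : 0 < ‖G ζ‖ := lt_of_lt_of_le (mul_pos (Real.exp_pos _) hP) h1
  have h2 : -(21 / 4 * M) + ∑ j, Real.log (‖ζ - a j‖ / (2 * (293 / 100))) ≤ Real.log ‖G ζ‖ := by
    have := Real.log_le_log (mul_pos (Real.exp_pos _) hP) h1
    rwa [Real.log_mul (Real.exp_pos _).ne' hP.ne', Real.log_exp,
      Real.log_prod (fun j _ => (hpos j).ne')] at this
  have h3 : ∀ j, -(max 0 (Real.log (2 * (293 / 100) / ‖ζ - a j‖)))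
      ≤ Real.log (‖ζ - a j‖ / (2 * (293 / 100))) := by
    intro j
    have e : Real.log (‖ζ - a j‖ / (2 * (293 / 100))) = -Real.log (2 * (293 / 100) / ‖ζ - a j‖) := by
      rw [← Real.log_inv, inv_div]
    rw [e]
    exact neg_le_neg (le_max_right _ _)
  have h4 : -∑ j, (max 0 (Real.log (2 * (293 / 100) / ‖ζ - a j‖)))
      ≤ ∑ j, Real.log (‖ζ - a j‖ / (2 * (293 / 100))) := by
    rw [← Finset.sum_neg_distrib]
    exact Finset.sum_le_sum fun j _ => h3 j
  have h5 : Real.log ‖G ζ‖ ≤ M := by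
    have := Real.log_le_log hGpos (hb ζ (closedBall_subset_closedBall (by norm_num) hζ))
    rwa [Real.log_exp] at this
  obtain ⟨S, hS⟩ : ∃ S, S = ∑ j, (max 0 (Real.log (2 * (293 / 100) / ‖ζ - a j‖))) := ⟨_, rfl⟩
  have hS0 : 0 ≤ S := by
    rw [hS]; exact Finset.sum_nonneg fun j _ => le_max_left _ _
  have h6 : S ^ 2 ≤ n * ∑ j, (max 0 (Real.log (2 * (293 / 100) / ‖ζ - a j‖))) ^ 2 := by
    rw [hS]
    have := sq_sum_le_card_mul_sum_sq (s := (Finset.univ : Finset (Fin n)))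
      (f := fun j => max 0 (Real.log (2 * (293 / 100) / ‖ζ - a j‖)))
    simpa using this
  rw [← hS] at h4
  have h7 : |Real.log ‖G ζ‖| ≤ 21 / 4 * M + S := by
    rw [abs_le]
    constructor <;> linarith
  have h8 : Real.log ‖G ζ‖ ^ 2 ≤ (21 / 4 * M + S) ^ 2 := by
    rw [← sq_abs]
    exact pow_le_pow_left₀ (abs_nonneg _) h7 2
  nlinarith [sq_nonneg (21 / 4 * M - S)]

/-- **LF-LS-2**: the `L²` norm of `log|G|` on the unit disc and on `[-1,1]`. -/
theorem ls2_log_L2 : ∃ C : ℝ, 0 < C ∧ ∀ (G : ℂ → ℂ) (M : ℝ), 1 ≤ M →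
    AnalyticOnNhd ℂ G (closedBall 0 3) →
    (∀ ζ ∈ closedBall (0 : ℂ) 3, ‖G ζ‖ ≤ Real.exp M) →
    (∃ ζs ∈ closedBall (0 : ℂ) (1 / 16), Real.exp (-M) ≤ ‖G ζs‖) →
    (∫⁻ ζ in closedBall (0 : ℂ) 1, ENNReal.ofReal (Real.log ‖G ζ‖ ^ 2)
      ≤ ENNReal.ofReal (C * M ^ 2)) ∧
    (∫⁻ t in Icc (-1 : ℝ) 1, ENNReal.ofReal (Real.log ‖G (t : ℂ)‖ ^ 2)
      ≤ ENNReal.ofReal (C * M ^ 2)) := by
  have hA : (0 : ℝ) < 2 * (293 / 100) := by norm_num
  obtain ⟨K₂, hK₂⟩ : ∃ K₂ : ℝ, K₂ = (∫⁻ w : ℂ,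
      ENNReal.ofReal ((max 0 (Real.log (2 * (293 / 100) / ‖w‖))) ^ 2)).toReal := ⟨_, rfl⟩
  obtain ⟨K₁, hK₁⟩ : ∃ K₁ : ℝ, K₁ = (∫⁻ s : ℝ,
      ENNReal.ofReal ((max 0 (Real.log (2 * (293 / 100) / |s|))) ^ 2)).toReal := ⟨_, rfl⟩
  have hK₂0 : 0 ≤ K₂ := hK₂ ▸ ENNReal.toReal_nonneg
  have hK₁0 : 0 ≤ K₁ := hK₁ ▸ ENNReal.toReal_nonneg
  have eK₂ : ENNReal.ofReal K₂ = ∫⁻ w : ℂ,
      ENNReal.ofReal ((max 0 (Real.log (2 * (293 / 100) / ‖w‖))) ^ 2) := by
    rw [hK₂, ENNReal.ofReal_toReal (ls2_area_fin _ hA).ne]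
  have eK₁ : ENNReal.ofReal K₁ = ∫⁻ s : ℝ,
      ENNReal.ofReal ((max 0 (Real.log (2 * (293 / 100) / |s|))) ^ 2) := by
    rw [hK₁, ENNReal.ofReal_toReal (ls2_line_fin _ hA).ne]
  have hπ := Real.pi_pos
  refine ⟨2 * (21 / 4) ^ 2 * π + 72 * K₂ + (2 * (21 / 4) ^ 2 * 2 + 72 * K₁) + 1, by positivity, ?_⟩
  intro G M hM hG hb ⟨ζs, hζs, hs⟩
  obtain ⟨n, a, g, hn, g1, g2, g3, -, g5, g6⟩ := ls2_division G M hG hb ζs hζs hs
  have hn2 : (n : ℝ) ^ 2 ≤ 36 * M ^ 2 := by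
    have h0 : (0 : ℝ) ≤ n := Nat.cast_nonneg n
    nlinarith
  have hM2 : 0 ≤ M ^ 2 := by positivity
  constructor
  · have key := ls2_integrate (volume : Measure ℂ) (closedBall (0 : ℂ) 1)
      (fun ζ => Real.log ‖G ζ‖) n
      (fun j ζ => max 0 (Real.log (2 * (293 / 100) / ‖ζ - a j‖)))
      (fun j => measurable_const.max (Real.measurable_log.comp
        (measurable_const.div (measurable_id.sub_const (a j)).norm)))
      (21 / 4 * M) π K₂ hπ.le hK₂0
      (by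
        rw [Complex.volume_closedBall]
        simp [ENNReal.ofReal, Real.toNNReal_of_nonneg hπ.le]
        rfl)
      (fun j => by
        refine (setLIntegral_le_lintegral _ _).trans (le_of_eq ?_)
        rw [eK₂]
        exact lintegral_sub_right_eq_self
          (fun w : ℂ => ENNReal.ofReal ((max 0 (Real.log (2 * (293 / 100) / ‖w‖))) ^ 2)) (a j))
      (by
        rw [ae_restrict_iff' measurableSet_closedBall]
        have h0 : ∀ᵐ ζ : ℂ, ζ ∉ Set.range a :=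
          measure_eq_zero_iff_ae_notMem.1 ((Set.finite_range a).measure_zero volume)
        filter_upwards [h0] with ζ hζr hζ
        exact ls2_pointwise G M hM hb ζs hζs n a g g1 g2 g3 g5 g6 ζ hζ
          (fun j h => hζr ⟨j, h.symm⟩))
    refine key.trans (ENNReal.ofReal_le_ofReal ?_)
    nlinarith [mul_nonneg hK₂0 hM2, mul_nonneg hK₁0 hM2, mul_nonneg hK₂0 (sub_nonneg.2 hn2)]
  · have key := ls2_integrate (volume : Measure ℝ) (Icc (-1 : ℝ) 1)
      (fun t => Real.log ‖G (t : ℂ)‖) n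
      (fun j t => max 0 (Real.log (2 * (293 / 100) / |t - (a j).re|)))
      (fun j => measurable_const.max (Real.measurable_log.comp
        (measurable_const.div (measurable_id.sub_const (a j).re).norm)))
      (21 / 4 * M) 2 K₁ (by norm_num) hK₁0
      (by rw [Real.volume_Icc]; apply ENNReal.ofReal_le_ofReal; norm_num)
      (fun j => by
        refine (setLIntegral_le_lintegral _ _).trans (le_of_eq ?_)
        rw [eK₁]
        exact lintegral_sub_right_eq_self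
          (fun s : ℝ => ENNReal.ofReal ((max 0 (Real.log (2 * (293 / 100) / |s|))) ^ 2)) (a j).re)
      (by
        rw [ae_restrict_iff' measurableSet_Icc]
        have h0 : ∀ᵐ t : ℝ, t ∉ Set.range (fun j => (a j).re) :=
          measure_eq_zero_iff_ae_notMem.1 ((Set.finite_range _).measure_zero volume)
        filter_upwards [h0] with t htr ht
        have hne : ∀ j, t ≠ (a j).re := fun j h => htr ⟨j, h.symm⟩
        have h1 := ls2_pointwise G M hM hb ζs hζs n a g g1 g2 g3 g5 g6 (t : ℂ)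
          (by
            rw [mem_closedBall, dist_zero_right, Complex.norm_real, Real.norm_eq_abs]
            exact abs_le.2 ht)
          (fun j h => hne j (by rw [← h]; simp))
        refine h1.trans ?_
        gcongr with j _
        · have h2 : 0 < |t - (a j).re| := abs_pos.2 (sub_ne_zero.2 (hne j))
          have h3 : |t - (a j).re| ≤ ‖(t : ℂ) - a j‖ := by
            have := Complex.abs_re_le_norm ((t : ℂ) - a j)
            simpa using this
          exact div_pos hA (h2.trans_le h3)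
        · exact abs_pos.2 (sub_ne_zero.2 (hne j))
        · have := Complex.abs_re_le_norm ((t : ℂ) - a j)
          simpa using this)
    refine key.trans (ENNReal.ofReal_le_ofReal ?_)
    nlinarith [mul_nonneg hK₂0 hM2, mul_nonneg hK₁0 hM2, mul_nonneg hK₁0 (sub_nonneg.2 hn2),
      mul_nonneg hπ.le hM2]

end Claimed.Agent.R269.LS
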