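/-
Row 269, library: LF-LS-3 (statement `log_osc` of `Lib/LogSub.lean`, owner helper171).  Proof: helper221.  HOST-FREE.

ROUTE (no scaling, no normal families).  Suppose `∫_{|z - z₁| ≤ r} |u - ζ| < c₂ r²`, `u = log|g|`, `η = 260 c₂/π`, `μ = 4c₂/π`, `ν = 256c₂/π`.
(1) `ls1_log_submean` on `ball z (r/2)`: `‖g‖ ≤ E = e^{ζ+μ}` on `ball z₁ (r/2)`.  (2) some `z₀ ∈ ball z₁ (r/16)` has `‖g z₀‖ ≥ e^{ζ-ν} ≥ (1-η)E`.
(3) `f = κ g - 1`, `κ = conj (g z₀)/(‖g z₀‖ E)`: `Re f ≤ 0`, `‖f z₀‖ ≤ η`; Borel-Caratheodory: `‖f‖ ≤ 5η` on `closedBall z₀ (7r/32)`.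
(4) Cauchy on `ball z₁ (5r/32)`: `‖f''(z₁)‖ ≤ 409.6 η/r²`, `f''(z₁) = q₁ (f z₁ + 1)`.
-/
import Claimed.Agent.R269.Lib.LogSub1Pf

set_option autoImplicit false

namespace Claimed.Agent.R269.LS

open Complex Metric Set Filter Topology MeasureTheory
open scoped Real ENNReal

/-- the zeros of `g` form a null set. -/
theorem ls3_ae_ne_zero (g : ℂ → ℂ) (z₁ : ℂ) (r : ℝ) (hr : 0 < r)
    (hg : AnalyticOnNhd ℂ g (closedBall z₁ r)) (hne : g z₁ ≠ 0 ∨ deriv g z₁ ≠ 0) :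
    ∀ᵐ z ∂(volume.restrict (closedBall z₁ r)), g z ≠ 0 := by
  have hz₁ : z₁ ∈ closedBall z₁ r := mem_closedBall_self hr.le
  obtain ⟨x, hx, hgx⟩ : ∃ x ∈ closedBall z₁ r, g x ≠ 0 := by
    rcases hne with h | h
    · exact ⟨z₁, hz₁, h⟩
    · rcases (hg z₁ hz₁).eventually_eq_zero_or_eventually_ne_zero with h0 | h0
      · have h1 : g =ᶠ[𝓝 z₁] fun _ => (0 : ℂ) := h0
        exact absurd (by simpa using h1.deriv_eq) h
      · obtain ⟨x, hx1, hx2⟩ := (h0.and (mem_nhdsWithin_of_mem_nhds (closedBall_mem_nhds z₁ hr))).exists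
        exact ⟨x, hx2, hx1⟩
  have hconn : IsConnected (closedBall z₁ r) :=
    ⟨⟨z₁, hz₁⟩, (convex_closedBall z₁ r).isPreconnected⟩
  have h1 := hg.preimage_zero_mem_codiscreteWithin hgx hx hconn
  have h2 := ae_restrict_le_codiscreteWithin (μ := (volume : Measure ℂ)) measurableSet_closedBall h1
  filter_upwards [h2] with z hz
  simpa using hz

/-- the analytic core: a bounded function which almost attains its bound near `z₁` has small curvature at `z₁`. -/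
theorem ls3_core (g : ℂ → ℂ) (q₁ z₁ z₀ : ℂ) (r E η : ℝ) (hr : 0 < r) (hE : 0 < E) (hη : 0 < η)
    (hη1 : η ≤ 1 / 10) (hg : DifferentiableOn ℂ g (ball z₁ (r / 2))) (hz₀ : z₀ ∈ ball z₁ (r / 16))
    (hub : ∀ z ∈ ball z₁ (r / 2), ‖g z‖ ≤ E) (hlb : (1 - η) * E ≤ ‖g z₀‖)
    (hode : deriv (deriv g) z₁ = q₁ * g z₁) : r ^ 2 * ‖q₁‖ * (1 - 5 * η) ≤ 410 * η := by
  have hd01 : dist z₀ z₁ < r / 16 := hz₀
  have hw0 : 0 < ‖g z₀‖ := lt_of_lt_of_le (mul_pos (by linarith) hE) hlb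
  obtain ⟨κ, hκ⟩ : ∃ κ : ℂ, κ = (starRingEnd ℂ) (g z₀) / ((‖g z₀‖ * E : ℝ) : ℂ) := ⟨_, rfl⟩
  have hκn : ‖κ‖ = 1 / E := by
    rw [hκ, norm_div, RCLike.norm_conj, norm_real, Real.norm_of_nonneg (by positivity)]
    field_simp
  have hsub1 : ball z₀ (7 * r / 16) ⊆ ball z₁ (r / 2) := by
    intro z hz
    rw [mem_ball] at hz ⊢
    have := dist_triangle z z₀ z₁
    linarith
  have hz₀' : z₀ ∈ ball z₁ (r / 2) := hsub1 (mem_ball_self (by positivity))
  have hκg : ∀ z ∈ ball z₁ (r / 2), ‖κ * g z‖ ≤ 1 := by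
    intro z hz
    rw [norm_mul, hκn, one_div, inv_mul_le_iff₀ hE, mul_one]
    exact hub z hz
  -- value at `z₀`
  have hfz₀ : ‖κ * g z₀ - 1‖ ≤ η := by
    have e : κ * g z₀ = ((‖g z₀‖ / E : ℝ) : ℂ) := by
      rw [hκ, div_mul_eq_mul_div, mul_comm, mul_conj, normSq_eq_norm_sq]
      push_cast
      have h1 : (‖g z₀‖ : ℂ) ≠ 0 := by exact_mod_cast hw0.ne'
      have h2 : (E : ℂ) ≠ 0 := by exact_mod_cast hE.ne'
      field_simp
    rw [e]
    have e2 : ((‖g z₀‖ / E : ℝ) : ℂ) - 1 = ((‖g z₀‖ / E - 1 : ℝ) : ℂ) := by push_cast; ring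
    rw [e2, norm_real, Real.norm_eq_abs, abs_le]
    have h1 : ‖g z₀‖ / E ≤ 1 := (div_le_one hE).2 (hub z₀ hz₀')
    have h2 : 1 - η ≤ ‖g z₀‖ / E := (le_div_iff₀ hE).2 hlb
    constructor <;> linarith
  -- Borel-Caratheodory
  have hR : (0 : ℝ) < 7 * r / 16 := by positivity
  have hbc : ∀ z ∈ closedBall z₀ (7 * r / 32), ‖κ * g z - 1‖ ≤ 5 * η := by
    intro z hz
    have hzn : ‖z - z₀‖ ≤ 7 * r / 32 := by simpa [dist_eq_norm] using hz
    have hmem : ∀ w ∈ ball (0 : ℂ) (7 * r / 16), z₀ + w ∈ ball z₁ (r / 2) := by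
      intro w hw
      apply hsub1
      simpa [mem_ball, dist_eq_norm] using hw
    have hF : DifferentiableOn ℂ (fun w => κ * g (z₀ + w) - 1) (ball 0 (7 * r / 16)) := by
      intro w hw
      have h1 : DifferentiableAt ℂ g (z₀ + w) :=
        (hg _ (hmem w hw)).differentiableAt (isOpen_ball.mem_nhds (hmem w hw))
      have h2 : DifferentiableAt ℂ (fun w => g (z₀ + w)) w :=
        DifferentiableAt.comp (f := fun w => z₀ + w) w h1 (by fun_prop)
      exact ((h2.const_mul κ).sub_const 1).differentiableWithinAt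
    have hmaps : MapsTo (fun w => κ * g (z₀ + w) - 1) (ball 0 (7 * r / 16)) {z | z.re ≤ η} := by
      intro w hw
      have h1 := hκg _ (hmem w hw)
      have h2 := (Complex.re_le_norm (κ * g (z₀ + w))).trans h1
      show (κ * g (z₀ + w) - 1).re ≤ η
      rw [sub_re, one_re]
      linarith
    have hzb : z - z₀ ∈ ball (0 : ℂ) (7 * r / 16) := by
      rw [mem_ball_zero_iff]; linarith
    have := Complex.borelCaratheodory hη hF hmaps hR hzb
    simp only [add_zero, add_sub_cancel] at this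
    refine this.trans ?_
    have hden : 0 < 7 * r / 16 - ‖z - z₀‖ := by linarith
    have hnn := norm_nonneg (z - z₀)
    have t1 : 2 * η * ‖z - z₀‖ / (7 * r / 16 - ‖z - z₀‖) ≤ 2 * η := by
      rw [div_le_iff₀ hden]
      nlinarith
    have t2 : ‖κ * g z₀ - 1‖ * (7 * r / 16 + ‖z - z₀‖) / (7 * r / 16 - ‖z - z₀‖) ≤ 3 * η := by
      rw [div_le_iff₀ hden]
      have h3 : 7 * r / 16 + ‖z - z₀‖ ≤ 3 * (7 * r / 16 - ‖z - z₀‖) := by linarith
      calc ‖κ * g z₀ - 1‖ * (7 * r / 16 + ‖z - z₀‖)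
          ≤ η * (3 * (7 * r / 16 - ‖z - z₀‖)) := by gcongr
        _ = 3 * η * (7 * r / 16 - ‖z - z₀‖) := by ring
    linarith
  -- Cauchy estimate at `z₁`
  have hρ : (0 : ℝ) < 5 * r / 32 := by positivity
  have hsub2 : closedBall z₁ (5 * r / 32) ⊆ closedBall z₀ (7 * r / 32) := by
    intro z hz
    rw [mem_closedBall] at hz ⊢
    have := dist_triangle z z₁ z₀
    rw [dist_comm z₁ z₀] at this
    linarith
  have hsub3 : closedBall z₁ (5 * r / 32) ⊆ ball z₁ (r / 2) := closedBall_subset_ball (by linarith)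
  have hcauchy := Complex.norm_iteratedDeriv_le_of_forall_mem_sphere_norm_le (F := ℂ) (c := z₁)
    (R := 5 * r / 32) (C := 5 * η) (f := fun z => κ * g z - 1) 2 hρ
    (by
      apply DifferentiableOn.diffContOnCl
      rw [closure_ball z₁ hρ.ne']
      exact ((hg.const_mul κ).sub_const 1).mono hsub3)
    (fun z hz => hbc z (hsub2 (sphere_subset_closedBall hz)))
  have e1 : deriv (fun z => κ * g z - 1) = fun z => κ * deriv g z := by
    funext z
    rw [deriv_sub_const, deriv_const_mul_field]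
  have e2 : iteratedDeriv 2 (fun z => κ * g z - 1) z₁ = q₁ * (κ * g z₁) := by
    rw [iteratedDeriv_succ, iteratedDeriv_one, e1, deriv_const_mul_field, hode]
    ring
  rw [e2, norm_mul] at hcauchy
  have h5 : 1 - 5 * η ≤ ‖κ * g z₁‖ := by
    have h6 := hbc z₁ (hsub2 (mem_closedBall_self hρ.le))
    have h7 := norm_sub_le (1 : ℂ) (1 - κ * g z₁)
    rw [sub_sub_cancel, norm_one, norm_sub_rev 1 (κ * g z₁)] at h7
    have h8 := norm_sub_norm_le (1 : ℂ) (1 - κ * g z₁)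
    rw [sub_sub_cancel, norm_one, norm_sub_rev 1 (κ * g z₁)] at h8
    linarith
  have h6 : ‖q₁‖ * (1 - 5 * η) ≤ (2 : ℕ).factorial * (5 * η) / (5 * r / 32) ^ 2 :=
    le_trans (mul_le_mul_of_nonneg_left h5 (norm_nonneg _)) hcauchy
  have h7 : ((2 : ℕ).factorial : ℝ) * (5 * η) / (5 * r / 32) ^ 2 = 409.6 * η / r ^ 2 := by
    have : ((2 : ℕ).factorial : ℝ) = 2 := by norm_num [Nat.factorial]
    rw [this]
    field_simp
    ring
  rw [h7, le_div_iff₀ (by positivity)] at h6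
  nlinarith

theorem ls3_volume_real_ball (z : ℂ) (R : ℝ) (hR : 0 ≤ R) : volume.real (ball z R) = π * R ^ 2 := by
  rw [Measure.real, Complex.volume_ball, ENNReal.toReal_mul, ENNReal.toReal_pow,
    ENNReal.toReal_ofReal hR]
  simp [mul_comm]

/-- **LF-LS-3**: a curvature witness forces logarithmic oscillation. -/
theorem ls3_log_osc (c : ℝ) (hc : 0 < c) : ∃ c₂ : ℝ, 0 < c₂ ∧ ∀ (g : ℂ → ℂ) (q₁ z₁ : ℂ) (r : ℝ),
    0 < r → AnalyticOnNhd ℂ g (closedBall z₁ r) → (g z₁ ≠ 0 ∨ deriv g z₁ ≠ 0) →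
    deriv (deriv g) z₁ = q₁ * g z₁ → c ≤ r ^ 2 * ‖q₁‖ →
    ∀ ζ : ℝ, ENNReal.ofReal (c₂ * r ^ 2)
      ≤ ∫⁻ z in closedBall z₁ r, ENNReal.ofReal |Real.log ‖g z‖ - ζ| := by
  have hπ := Real.pi_pos
  obtain ⟨η, hη⟩ : ∃ η, η = min (1 / 10) (c / 1000) := ⟨_, rfl⟩
  have hη0 : 0 < η := by rw [hη]; exact lt_min (by norm_num) (by positivity)
  have hη1 : η ≤ 1 / 10 := by rw [hη]; exact min_le_left _ _
  have hη2 : η ≤ c / 1000 := by rw [hη]; exact min_le_right _ _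
  refine ⟨π * η / 260, by positivity, ?_⟩
  intro g q₁ z₁ r hr hg hne hode hcq ζ
  by_contra hcon
  push Not at hcon
  obtain ⟨c₂, hc₂⟩ : ∃ c₂, c₂ = π * η / 260 := ⟨_, rfl⟩
  rw [← hc₂] at hcon
  have hc₂0 : 0 < c₂ := by rw [hc₂]; positivity
  have hfin : ∫⁻ z in closedBall z₁ r, ENNReal.ofReal |Real.log ‖g z‖ - ζ| ≠ ∞ :=
    (hcon.trans ENNReal.ofReal_lt_top).ne
  -- (1) the upper bound
  have hub : ∀ z ∈ ball z₁ (r / 2), ‖g z‖ ≤ Real.exp (ζ + 4 * c₂ / π) := by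
    intro z hz
    rcases eq_or_ne (g z) 0 with h0 | h0
    · rw [h0, norm_zero]; exact (Real.exp_pos _).le
    have hsubc : closedBall z (r / 2) ⊆ closedBall z₁ r := by
      intro w hw
      rw [mem_closedBall] at hw ⊢
      rw [mem_ball] at hz
      have := dist_triangle w z z₁
      linarith
    obtain ⟨hint, hsm⟩ := ls1_log_submean g z (r / 2) (by positivity) (hg.mono hsubc) h0
    have hconst : IntegrableOn (fun _ : ℂ => ζ) (ball z (r / 2)) :=
      integrableOn_const (by rw [Complex.volume_ball]; exact ENNReal.mul_ne_top (by simp) (by simp))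
    have hint2 : IntegrableOn (fun w => Real.log ‖g w‖ - ζ) (ball z (r / 2)) := hint.sub hconst
    have h1 : ∫ w in ball z (r / 2), (Real.log ‖g w‖ - ζ)
        ≤ ∫ w in ball z (r / 2), |Real.log ‖g w‖ - ζ| :=
      integral_mono hint2 hint2.abs fun w => le_abs_self _
    have h2 : ∫ w in ball z (r / 2), |Real.log ‖g w‖ - ζ| < c₂ * r ^ 2 := by
      rw [integral_eq_lintegral_of_nonneg_ae (Eventually.of_forall fun w => abs_nonneg _)
        hint2.abs.aestronglyMeasurable]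
      refine ENNReal.toReal_lt_of_lt_ofReal (lt_of_le_of_lt ?_ hcon)
      exact lintegral_mono_set (ball_subset_closedBall.trans hsubc)
    rw [integral_sub hint hconst, setIntegral_const, ls3_volume_real_ball z (r / 2) (by positivity),
      smul_eq_mul] at h1
    have h3 : π * (r / 2) ^ 2 * (Real.log ‖g z‖ - ζ) < c₂ * r ^ 2 := by nlinarith
    have h4 : Real.log ‖g z‖ - ζ < 4 * c₂ / π := by
      rw [lt_div_iff₀ hπ]
      have h5 : (Real.log ‖g z‖ - ζ) * π * r ^ 2 < 4 * c₂ * r ^ 2 := by nlinarith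
      exact lt_of_mul_lt_mul_right h5 (by positivity)
    have h5 : Real.log ‖g z‖ ≤ ζ + 4 * c₂ / π := by linarith
    exact (Real.log_le_iff_le_exp (norm_pos_iff.2 h0)).1 h5
  -- (2) a good point
  obtain ⟨z₀, hz₀, hgz₀, huz₀⟩ : ∃ z₀ ∈ ball z₁ (r / 16), g z₀ ≠ 0 ∧
      |Real.log ‖g z₀‖ - ζ| ≤ 256 * c₂ / π := by
    by_contra hno
    push Not at hno
    have hsub : ball z₁ (r / 16) ⊆ closedBall z₁ r :=
      ball_subset_closedBall.trans (closedBall_subset_closedBall (by linarith))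
    have hae : ∀ᵐ z ∂(volume.restrict (ball z₁ (r / 16))), g z ≠ 0 :=
      ae_restrict_of_ae_restrict_of_subset hsub (ls3_ae_ne_zero g z₁ r hr hg hne)
    have h1 : ∫⁻ _ in ball z₁ (r / 16), ENNReal.ofReal (256 * c₂ / π)
        ≤ ∫⁻ z in ball z₁ (r / 16), ENNReal.ofReal |Real.log ‖g z‖ - ζ| := by
      refine lintegral_mono_ae ?_
      filter_upwards [hae, ae_restrict_mem measurableSet_ball] with z hz hzb
      exact ENNReal.ofReal_le_ofReal (hno z hzb hz).le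
    have h2 : ∫⁻ _ in ball z₁ (r / 16), ENNReal.ofReal (256 * c₂ / π) = ENNReal.ofReal (c₂ * r ^ 2) := by
      rw [setLIntegral_const]
      have e : volume (ball z₁ (r / 16)) = ENNReal.ofReal (π * (r / 16) ^ 2) := by
        rw [← ls3_volume_real_ball z₁ (r / 16) (by positivity), Measure.real,
          ENNReal.ofReal_toReal]
        rw [Complex.volume_ball]; exact ENNReal.mul_ne_top (by simp) (by simp)
      rw [e, ← ENNReal.ofReal_mul (by positivity)]
      congr 1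
      field_simp
      ring
    rw [h2] at h1
    exact absurd (h1.trans (lintegral_mono_set hsub)) (not_le.2 hcon)
  -- (3), (4)
  have hlb : (1 - η) * Real.exp (ζ + 4 * c₂ / π) ≤ ‖g z₀‖ := by
    have h1 : ζ - 256 * c₂ / π ≤ Real.log ‖g z₀‖ := by
      have := (abs_le.1 huz₀).1
      linarith
    have h2 : Real.exp (ζ - 256 * c₂ / π) ≤ ‖g z₀‖ :=
      (Real.le_log_iff_exp_le (norm_pos_iff.2 hgz₀)).1 h1
    refine le_trans ?_ h2
    have e : ζ - 256 * c₂ / π = (ζ + 4 * c₂ / π) + (-η) := by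
      rw [hc₂]; field_simp; ring
    have e' : Real.exp (ζ - 256 * c₂ / π) = Real.exp (ζ + 4 * c₂ / π) * Real.exp (-η) := by
      rw [e, Real.exp_add]
    rw [e', mul_comm]
    have h3 := Real.add_one_le_exp (-η)
    have h4 : 1 - η ≤ Real.exp (-η) := by linarith
    exact mul_le_mul_of_nonneg_left h4 (Real.exp_pos _).le
  have hd : DifferentiableOn ℂ g (ball z₁ (r / 2)) :=
    hg.differentiableOn.mono (ball_subset_closedBall.trans (closedBall_subset_closedBall (by linarith)))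
  have hcore := ls3_core g q₁ z₁ z₀ r _ η hr (Real.exp_pos _) hη0 hη1 hd hz₀ hub hlb hode
  have h1 : c * (1 - 5 * η) ≤ r ^ 2 * ‖q₁‖ * (1 - 5 * η) :=
    mul_le_mul_of_nonneg_right hcq (by linarith)
  nlinarith

end Claimed.Agent.R269.LS
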