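/-
Row 269, library: LF-LS-5 (statements `zero_near`, `log_lip`, `zero_shadow` of `Lib/LogSub.lean`, owner helper171).  Proofs: helper221.  HOST-FREE.

`ls5_zero_near`: sup-norm bootstrap on `D = closedBall p r₀`, `r₀ = 2‖G p‖/‖G' p‖`:  `S = max_D ‖G‖ ≤ 3‖G p‖ + (M r₀)² S`, `M r₀ ≤ 2/7`, so
`‖G z - G p - G' p (z - p)‖ ≤ M² S r₀² ≤ (4/15) ‖G p‖ < ‖G p‖ ≤ ‖G p + G' p (z - p)‖` on the sphere; Rouché (`ca_rouche_exists`).
-/
import Claimed.Agent.R269.Lib.CARouche
import Claimed.Agent.R269.Lib.LogSub2Pf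

set_option autoImplicit false

namespace Claimed.Agent.R269.LS

open Complex Metric Set Filter Topology MeasureTheory
open scoped Real ENNReal

/-- **Local zero test.** -/
theorem ls5_zero_near (G Q : ℂ → ℂ) (p : ℂ) (ρ M : ℝ) (hM : 0 < M)
    (hG : DifferentiableOn ℂ G (ball p ρ))
    (hode : ∀ z ∈ ball p ρ, deriv (deriv G) z = Q z * G z) (hQ : ∀ z ∈ ball p ρ, ‖Q z‖ ≤ M ^ 2)
    (hp : G p ≠ 0) (h7 : 7 * M * ‖G p‖ ≤ ‖deriv G p‖) (h2 : 2 * ‖G p‖ < ρ * ‖deriv G p‖) :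
    ∃ z ∈ closedBall p (2 * ‖G p‖ / ‖deriv G p‖), G z = 0 := by
  have hg0 : 0 < ‖G p‖ := norm_pos_iff.2 hp
  have hd0 : 0 < ‖deriv G p‖ := lt_of_lt_of_le (by positivity) h7
  have hd0' : deriv G p ≠ 0 := norm_pos_iff.1 hd0
  obtain ⟨r₀, hr₀⟩ : ∃ r₀, r₀ = 2 * ‖G p‖ / ‖deriv G p‖ := ⟨_, rfl⟩
  rw [← hr₀]
  have hr₀0 : 0 < r₀ := by rw [hr₀]; positivity
  have hr₀ρ : r₀ < ρ := by rw [hr₀, div_lt_iff₀ hd0]; exact h2
  have hdr : ‖deriv G p‖ * r₀ = 2 * ‖G p‖ := by rw [hr₀]; field_simp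
  have hMr : M * r₀ ≤ 2 / 7 := by
    rw [hr₀, mul_div_assoc', div_le_div_iff₀ hd0 (by norm_num)]
    nlinarith
  have hDsub : closedBall p r₀ ⊆ ball p ρ := closedBall_subset_ball hr₀ρ
  have hopen : IsOpen (ball p ρ) := isOpen_ball
  have hGd : ∀ z ∈ ball p ρ, HasDerivAt G (deriv G z) z := fun z hz =>
    ((hG z hz).differentiableAt (hopen.mem_nhds hz)).hasDerivAt
  have hG'd : ∀ z ∈ ball p ρ, HasDerivAt (deriv G) (Q z * G z) z := fun z hz => by
    have h1 : DifferentiableAt ℂ (deriv G) z :=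
      ((hG.deriv hopen) z hz).differentiableAt (hopen.mem_nhds hz)
    have h2 := h1.hasDerivAt
    rwa [hode z hz] at h2
  -- the maximum of `‖G‖` on the closed disc
  obtain ⟨zs, hzs, hmax⟩ := (isCompact_closedBall p r₀).exists_isMaxOn
    ⟨p, mem_closedBall_self hr₀0.le⟩ (hG.continuousOn.mono hDsub).norm
  obtain ⟨S, hS⟩ : ∃ S, S = ‖G zs‖ := ⟨_, rfl⟩
  have hSmax : ∀ z ∈ closedBall p r₀, ‖G z‖ ≤ S := fun z hz => by rw [hS]; exact hmax hz
  have hS0 : 0 ≤ S := by rw [hS]; exact norm_nonneg _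
  have hpD : p ∈ closedBall p r₀ := mem_closedBall_self hr₀0.le
  -- first derivative
  have hder1 : ∀ z ∈ closedBall p r₀, ‖deriv G z - deriv G p‖ ≤ M ^ 2 * S * r₀ := by
    intro z hz
    have := (convex_closedBall p r₀).norm_image_sub_le_of_norm_hasDerivWithin_le
      (f := deriv G) (f' := fun z => Q z * G z) (C := M ^ 2 * S)
      (fun x hx => (hG'd x (hDsub hx)).hasDerivWithinAt)
      (fun x hx => by
        rw [norm_mul]
        exact mul_le_mul (hQ x (hDsub hx)) (hSmax x hx) (norm_nonneg _) (by positivity)) hpD hz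
    refine this.trans ?_
    have h3 : ‖z - p‖ ≤ r₀ := by simpa [dist_eq_norm] using hz
    gcongr
  -- the function itself
  have hder0 : ∀ z ∈ closedBall p r₀, ‖G z - (G p + deriv G p * (z - p))‖ ≤ M ^ 2 * S * r₀ * r₀ := by
    intro z hz
    have := (convex_closedBall p r₀).norm_image_sub_le_of_norm_hasDerivWithin_le
      (f := fun z => G z - (G p + deriv G p * (z - p))) (f' := fun z => deriv G z - deriv G p)
      (C := M ^ 2 * S * r₀)
      (fun x hx => by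
        have h1 : HasDerivAt (fun z => G p + deriv G p * (z - p)) (deriv G p) x := by
          simpa using (((hasDerivAt_id x).sub_const p).const_mul (deriv G p)).const_add (G p)
        exact ((hGd x (hDsub hx)).sub h1).hasDerivWithinAt)
      hder1 hpD hz
    simp only [sub_self, mul_zero, add_zero, sub_zero] at this
    refine this.trans ?_
    have h3 : ‖z - p‖ ≤ r₀ := by simpa [dist_eq_norm] using hz
    gcongr
  have hMr2 : M ^ 2 * S * r₀ * r₀ ≤ 4 / 49 * S := by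
    have h1 : (M * r₀) ^ 2 ≤ (2 / 7) ^ 2 := pow_le_pow_left₀ (by positivity) hMr 2
    calc M ^ 2 * S * r₀ * r₀ = (M * r₀) ^ 2 * S := by ring
      _ ≤ (2 / 7) ^ 2 * S := by gcongr
      _ = 4 / 49 * S := by norm_num
  -- bootstrap
  have hSle : S ≤ 49 / 15 * ‖G p‖ := by
    have h1 := hder0 zs hzs
    have h3 : ‖zs - p‖ ≤ r₀ := by simpa [dist_eq_norm] using hzs
    have h4 : ‖G zs‖ ≤ ‖G zs - (G p + deriv G p * (zs - p))‖ + ‖G p + deriv G p * (zs - p)‖ := by
      have := norm_add_le (G zs - (G p + deriv G p * (zs - p))) (G p + deriv G p * (zs - p))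
      simpa using this
    have h5 : ‖G p + deriv G p * (zs - p)‖ ≤ 3 * ‖G p‖ := by
      refine (norm_add_le _ _).trans ?_
      rw [norm_mul]
      have : ‖deriv G p‖ * ‖zs - p‖ ≤ ‖deriv G p‖ * r₀ := by gcongr
      linarith
    rw [← hS] at h4
    linarith
  -- Rouché
  have hR := ca_rouche_exists (f := fun z => G p + deriv G p * (z - p)) (g := G) (c := p) hr₀0
    (by
      apply Differentiable.diffContOnCl
      fun_prop)
    (by
      apply DifferentiableOn.diffContOnCl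
      rw [closure_ball p hr₀0.ne']
      exact hG.mono hDsub)
    (by
      intro z hz
      have hz' : ‖z - p‖ = r₀ := by simpa [dist_eq_norm] using hz
      have h1 := hder0 z (sphere_subset_closedBall hz)
      rw [norm_sub_rev] at h1
      have h5 : ‖G p‖ ≤ ‖G p + deriv G p * (z - p)‖ := by
        have h6 : ‖deriv G p * (z - p)‖ = 2 * ‖G p‖ := by rw [norm_mul, hz', hdr]
        have h7 := norm_sub_le (G p + deriv G p * (z - p)) (G p)
        rw [add_sub_cancel_left, h6] at h7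
        linarith
      have h8 : M ^ 2 * S * r₀ * r₀ < ‖G p‖ := by
        have : 4 / 49 * S ≤ 4 / 15 * ‖G p‖ := by linarith
        linarith
      linarith)
    ⟨p - G p / deriv G p, by
      rw [mem_ball, dist_eq_norm, sub_sub_cancel_left, norm_neg, norm_div, hr₀]
      rw [div_lt_div_iff_of_pos_right hd0]
      linarith, by
      field_simp
      ring⟩
  obtain ⟨z, hz, hz0⟩ := hR
  exact ⟨z, ball_subset_closedBall hz, hz0⟩

/-- On a zero-free disc of radius `r ≤ 4/(7M)` the logarithmic derivative is `≤ 4/r` on the disc of half radius. -/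
theorem ls5_logDeriv_le (G Q : ℂ → ℂ) (t : ℂ) (r M : ℝ) (hM : 0 < M) (hr : 0 < r)
    (hrM : 7 * M * r ≤ 4) (hG : DifferentiableOn ℂ G (ball t r))
    (hode : ∀ z ∈ ball t r, deriv (deriv G) z = Q z * G z)
    (hQ : ∀ z ∈ ball t r, ‖Q z‖ ≤ M ^ 2) (h0 : ∀ z ∈ ball t r, G z ≠ 0) (p : ℂ)
    (hp : p ∈ ball t (r / 2)) : ‖deriv G p‖ ≤ 4 / r * ‖G p‖ := by
  by_contra hcon
  push Not at hcon
  have hsub : ball p (r / 2) ⊆ ball t r := by
    intro z hz
    rw [mem_ball] at hz hp ⊢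
    have := dist_triangle z p t
    linarith
  have hpt : p ∈ ball t r := hsub (mem_ball_self (by positivity))
  have hg0 : 0 < ‖G p‖ := norm_pos_iff.2 (h0 p hpt)
  have hd0 : 0 < ‖deriv G p‖ := lt_trans (by positivity) hcon
  have h4 : 4 * ‖G p‖ < r * ‖deriv G p‖ := by
    rw [div_mul_eq_mul_div, div_lt_iff₀ hr] at hcon
    linarith
  obtain ⟨z, hz, hz0⟩ := ls5_zero_near G Q p (r / 2) M hM (hG.mono hsub)
    (fun z hz => hode z (hsub hz)) (fun z hz => hQ z (hsub hz)) (h0 p hpt)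
    (by
      have h5 : 7 * M * ‖G p‖ * r ≤ ‖deriv G p‖ * r := by nlinarith
      exact le_of_mul_le_mul_right h5 hr)
    (by linarith)
  refine h0 z (hsub ?_) hz0
  rw [mem_closedBall] at hz
  rw [mem_ball]
  refine lt_of_le_of_lt hz ?_
  rw [div_lt_iff₀ hd0]
  linarith

/-- On a zero-free disc of radius `r ≤ 4/(7M)` the logarithm of `|G|` is `4/r`-Lipschitz on the disc of half radius. -/
theorem ls5_log_lip (G Q : ℂ → ℂ) (t : ℂ) (r M : ℝ) (hM : 0 < M) (hr : 0 < r) (hrM : 7 * M * r ≤ 4)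
    (hG : DifferentiableOn ℂ G (ball t r)) (hode : ∀ z ∈ ball t r, deriv (deriv G) z = Q z * G z)
    (hQ : ∀ z ∈ ball t r, ‖Q z‖ ≤ M ^ 2) (h0 : ∀ z ∈ ball t r, G z ≠ 0) (ζ : ℂ)
    (hζ : ζ ∈ ball t (r / 2)) :
    |Real.log ‖G ζ‖ - Real.log ‖G t‖| ≤ 4 / r * ‖ζ - t‖ := by
  have htt : t ∈ ball t r := mem_ball_self hr
  obtain ⟨L, -, hL, hexp⟩ := ca_exists_log (v := G) isOpen_ball (convex_ball t r) hG h0
    (y₀ := t) (L₀ := Complex.log (G t)) htt (Complex.exp_log (h0 t htt))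
  have hsub : ball t (r / 2) ⊆ ball t r := ball_subset_ball (by linarith)
  have hlog : ∀ z ∈ ball t r, Real.log ‖G z‖ = (L z).re := by
    intro z hz
    rw [← hexp z hz, Complex.norm_exp, Real.log_exp]
  have hmv := (convex_ball t (r / 2)).norm_image_sub_le_of_norm_hasDerivWithin_le
    (f := L) (f' := fun z => deriv G z / G z) (C := 4 / r)
    (fun x hx => (hL x (hsub hx)).hasDerivWithinAt)
    (fun x hx => by
      have h1 := ls5_logDeriv_le G Q t r M hM hr hrM hG hode hQ h0 x hx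
      rw [norm_div, div_le_iff₀ (norm_pos_iff.2 (h0 x (hsub hx)))]
      exact h1)
    (mem_ball_self (by positivity)) hζ
  rw [hlog ζ (hsub hζ), hlog t htt, ← Complex.sub_re]
  exact (Complex.abs_re_le_norm _).trans hmv

/-- **Shadows of the zeros.** -/
theorem ls5_zero_shadow (G : ℂ → ℂ) (M r : ℝ) (hM : 1 ≤ M) (hr : 0 < r) (hr1 : r ≤ 1)
    (hG : AnalyticOnNhd ℂ G (closedBall 0 3))
    (hb : ∀ ζ ∈ closedBall (0 : ℂ) 3, ‖G ζ‖ ≤ Real.exp M)
    (hs : ∃ ζs ∈ closedBall (0 : ℂ) (1 / 16), Real.exp (-M) ≤ ‖G ζs‖) :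
    volume {t : ℝ | t ∈ Icc (-1 : ℝ) 1 ∧ ∃ z ∈ ball (t : ℂ) r, G z = 0}
      ≤ ENNReal.ofReal (12 * M * r) := by
  obtain ⟨ζs, hζs, hs⟩ := hs
  obtain ⟨n, a, g, hn, -, -, -, -, g5, g6⟩ := ls2_division G M hG hb ζs hζs hs
  have hnζ : ‖ζs‖ ≤ 1 / 16 := by simpa using hζs
  have hsub : {t : ℝ | t ∈ Icc (-1 : ℝ) 1 ∧ ∃ z ∈ ball (t : ℂ) r, G z = 0}
      ⊆ ⋃ j : Fin n, ball (a j).re r := by
    rintro t ⟨ht, z, hz, hz0⟩
    rw [mem_ball, dist_eq_norm] at hz
    have ht1 : ‖(t : ℂ)‖ ≤ 1 := by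
      rw [Complex.norm_real, Real.norm_eq_abs]; exact abs_le.2 ht
    have hzs : z ∈ closedBall ζs (33 / 16) := by
      rw [mem_closedBall, dist_eq_norm]
      have e : z - ζs = (z - t) + (t - ζs) := by ring
      rw [e]
      have h1 := norm_add_le (z - (t : ℂ)) ((t : ℂ) - ζs)
      have h2 := norm_sub_le (t : ℂ) ζs
      linarith
    have h1 := g6 z (closedBall_subset_closedBall (by norm_num) hzs)
    rw [hz0, norm_zero] at h1
    have h2 : 0 < ‖g z‖ := norm_pos_iff.2 (g5 z hzs)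
    have h3 : ∏ j, (‖z - a j‖ / (2 * (293 / 100))) = 0 := by
      have h4 : 0 ≤ ∏ j, (‖z - a j‖ / (2 * (293 / 100))) :=
        Finset.prod_nonneg fun j _ => by positivity
      nlinarith
    obtain ⟨j, -, hj⟩ := Finset.prod_eq_zero_iff.1 h3
    have hj' : z = a j := by
      have : ‖z - a j‖ = 0 := by
        rcases div_eq_zero_iff.1 hj with h | h
        · exact h
        · norm_num at h
      exact sub_eq_zero.1 (norm_eq_zero.1 this)
    refine mem_iUnion.2 ⟨j, ?_⟩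
    rw [mem_ball, Real.dist_eq, ← hj']
    have h5 := Complex.abs_re_le_norm ((t : ℂ) - z)
    rw [Complex.sub_re, Complex.ofReal_re, norm_sub_rev] at h5
    linarith
  refine (measure_mono hsub).trans ((measure_iUnion_fintype_le _ _).trans ?_)
  simp only [Real.volume_ball, Finset.sum_const, Finset.card_univ, Fintype.card_fin, nsmul_eq_mul]
  rw [← ENNReal.ofReal_natCast, ← ENNReal.ofReal_mul (Nat.cast_nonneg n)]
  apply ENNReal.ofReal_le_ofReal
  nlinarith

end Claimed.Agent.R269.LS
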