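/-
Row 269, library: LF-LS-6 (statement `wkb_measure` of `Lib/LogSub.lean`, owner helper171).  Proof: helper255.  HOST-FREE (Mathlib only).

`w₊ = g' + B p g`, `w₋ = g' - B p g`, `a = ‖w₊‖`, `b = ‖w₋‖`.  Then `(a²)' ≥ 2Bc₁a² - 2κ(a² + ab)`, `(b²)' ≤ -2Bc₁b² + 2κ(b² + ab)`, `κ = C₁/(2c₁)`.
The functions `a² - 4b²` and `4a² - b²` have a positive derivative at their zeros (barrier), so `[α,β]` splits into three
order connected pieces `4a² < b²`, `b² ≤ 4a², a² < 4b²`, `4b² ≤ a²`, on which `-log b²`, `log a² - log b²`, `log a²` have slope `≥ Bc₁/2`.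
* `ls6_window`  : a function with slope `≥ m` on an order connected set spends a time `≤ (b-a)/m` in the window `[a,b]`.
* `ls6_barrier` : a function with positive derivative at its zeros stays `≥ 0`.
* `ls6_wkb_measure` : the statement of LF-LS-6 (verbatim).
-/
import Mathlib

set_option autoImplicit false

namespace Claimed.Agent.R269.LS

open Complex Metric Set Filter Topology MeasureTheory
open scoped Real ENNReal ComplexConjugate

/-- a function with slope `≥ m` on an order connected set spends a time `≤ (b-a)/m` in the window `[a,b]` -/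
theorem ls6_window (φ φ' : ℝ → ℝ) (I W : Set ℝ) (m a b : ℝ) (hm : 0 < m) (hI : I.OrdConnected)
    (hφ : ∀ u ∈ I, HasDerivAt φ (φ' u) u) (hm' : ∀ u ∈ I, m ≤ φ' u) (hW : W ⊆ I)
    (hab : ∀ u ∈ W, φ u ∈ Icc a b) : volume W ≤ ENNReal.ofReal ((b - a) / m) := by
  have key : ∀ x ∈ W, ∀ y ∈ W, x ≤ y → y - x ≤ (b - a) / m := by
    intro x hx y hy hxy
    rcases hxy.eq_or_lt with rfl | hlt
    · have := hab x hx
      rw [sub_self]
      exact div_nonneg (by linarith [this.1, this.2]) hm.le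
    · have hsub : Icc x y ⊆ I := hI.out (hW hx) (hW hy)
      obtain ⟨c, hc, hc'⟩ := exists_hasDerivAt_eq_slope φ φ' hlt
        (fun u hu => (hφ u (hsub hu)).continuousAt.continuousWithinAt)
        (fun u hu => hφ u (hsub (Ioo_subset_Icc_self hu)))
      have h1 := hm' c (hsub (Ioo_subset_Icc_self hc))
      rw [hc', le_div_iff₀ (sub_pos.2 hlt)] at h1
      rw [le_div_iff₀ hm]
      have h2 := (hab x hx).1
      have h3 := (hab y hy).2
      nlinarith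
  refine (Real.volume_le_diam W).trans (Metric.ediam_le fun x hx y hy => ?_)
  rw [edist_dist, Real.dist_eq]
  apply ENNReal.ofReal_le_ofReal
  rcases le_total x y with h | h
  · rw [abs_sub_comm, abs_of_nonneg (sub_nonneg.2 h)]
    exact key x hx y hy h
  · rw [abs_of_nonneg (sub_nonneg.2 h)]
    exact key y hy x hx h

/-- a function with positive derivative at its zeros stays `≥ 0` -/
theorem ls6_barrier (D D' : ℝ → ℝ) (α β : ℝ) (hD : ∀ u ∈ Icc α β, HasDerivAt D (D' u) u)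
    (hpos : ∀ u ∈ Icc α β, D u = 0 → 0 < D' u) {x y : ℝ} (hx : x ∈ Icc α β) (hy : y ∈ Icc α β)
    (hxy : x ≤ y) (h0 : 0 ≤ D x) : 0 ≤ D y := by
  have hsub : Icc x y ⊆ Icc α β := Icc_subset_Icc hx.1 hy.2
  have h := image_le_of_deriv_right_lt_deriv_boundary (f := fun u => - D u) (f' := fun u => - D' u)
    (a := x) (b := y) (B := fun _ => 0) (B' := fun _ => 0)
    (fun u hu => (hD u (hsub hu)).neg.continuousAt.continuousWithinAt)
    (fun u hu => (hD u (hsub (Ico_subset_Icc_self hu))).neg.hasDerivWithinAt)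
    (by simpa using h0) (fun u => hasDerivAt_const u 0)
    (fun u hu h1 => by
      have := hpos u (hsub (Ico_subset_Icc_self hu)) (by simpa using h1)
      simpa using this)
    (right_mem_Icc.2 hxy)
  simpa using h

theorem ls6_hasDerivAt_normSq {w : ℝ → ℂ} {w' : ℂ} {u : ℝ} (h : HasDerivAt w w' u) :
    HasDerivAt (fun t => ‖w t‖ ^ 2) (2 * (conj (w u) * w').re) u := by
  have := h.norm_sq
  rwa [Complex.inner, mul_comm w'] at this

/-- lower bound for the derivative of `‖w‖²` when `w' = P w + r (w - v)` -/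
theorem ls6_re_lower (w v P r : ℂ) (κ : ℝ) (hr : ‖r‖ ≤ κ) :
    P.re * ‖w‖ ^ 2 - κ * (‖w‖ ^ 2 + ‖w‖ * ‖v‖) ≤ (conj w * (P * w + r * (w - v))).re := by
  have e : conj w * (P * w + r * (w - v)) = P * (conj w * w) + conj w * (r * (w - v)) := by ring
  have e1 : (P * (conj w * w)).re = P.re * ‖w‖ ^ 2 := by
    rw [Complex.conj_mul']
    have : ((‖w‖ : ℂ) ^ 2) = ((‖w‖ ^ 2 : ℝ) : ℂ) := by push_cast; ring
    rw [this, Complex.re_mul_ofReal]
  have e2 : -(κ * (‖w‖ ^ 2 + ‖w‖ * ‖v‖)) ≤ (conj w * (r * (w - v))).re := by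
    have h1 : |(conj w * (r * (w - v))).re| ≤ ‖conj w * (r * (w - v))‖ := Complex.abs_re_le_norm _
    have h2 : ‖conj w * (r * (w - v))‖ ≤ ‖w‖ * (κ * (‖w‖ + ‖v‖)) := by
      rw [norm_mul, norm_mul, Complex.norm_conj]
      have hκ : 0 ≤ κ := (norm_nonneg r).trans hr
      exact mul_le_mul_of_nonneg_left
        (mul_le_mul hr (norm_sub_le w v) (norm_nonneg _) hκ) (norm_nonneg _)
    have h3 := (abs_le.1 (h1.trans h2)).1
    nlinarith
  rw [e, Complex.add_re, e1]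
  linarith

/-- upper bound for the derivative of `‖v‖²` when `v' = -P v - r (w - v)` -/
theorem ls6_re_upper (w v P r : ℂ) (κ : ℝ) (hr : ‖r‖ ≤ κ) :
    (conj v * (-(P * v) - r * (w - v))).re ≤ -(P.re * ‖v‖ ^ 2) + κ * (‖v‖ ^ 2 + ‖w‖ * ‖v‖) := by
  have h := ls6_re_lower v w P (-r) κ (by rwa [norm_neg])
  have e : conj v * (-(P * v) - r * (w - v)) = -(conj v * (P * v + -r * (v - w))) := by ring
  rw [e, Complex.neg_re]
  nlinarith

/-- the derivatives of `w₊ = g' + B p g` and `w₋ = g' - B p g` -/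
theorem ls6_w_deriv {B : ℝ} {g g' p : ℝ → ℂ} {p' : ℂ} {u : ℝ} (hg : HasDerivAt g (g' u) u)
    (hg' : HasDerivAt g' ((B : ℂ) ^ 2 * p u ^ 2 * g u) u) (hp : HasDerivAt p p' u) (hp0 : p u ≠ 0) :
    HasDerivAt (fun t => g' t + (B : ℂ) * p t * g t)
      ((B : ℂ) * p u * (g' u + (B : ℂ) * p u * g u)
        + p' / (2 * p u) * ((g' u + (B : ℂ) * p u * g u) - (g' u - (B : ℂ) * p u * g u))) u ∧
    HasDerivAt (fun t => g' t - (B : ℂ) * p t * g t)
      (-((B : ℂ) * p u * (g' u - (B : ℂ) * p u * g u))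
        - p' / (2 * p u) * ((g' u + (B : ℂ) * p u * g u) - (g' u - (B : ℂ) * p u * g u))) u := by
  have h1 : HasDerivAt (fun t => (B : ℂ) * p t * g t) ((B : ℂ) * p' * g u + (B : ℂ) * p u * g' u) u :=
    (hp.const_mul (B : ℂ)).mul hg
  have e : p' / (2 * p u) * ((g' u + (B : ℂ) * p u * g u) - (g' u - (B : ℂ) * p u * g u))
      = (B : ℂ) * p' * g u := by
    field_simp
    ring
  rw [e]
  constructor
  · exact (hg'.add h1).congr_deriv (by ring)
  · exact (hg'.sub h1).congr_deriv (by ring)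

/-- pointwise data: everything that is needed at one point `u` -/
structure Ls6Pt (c₁ κ B a b Ea Eb : ℝ) : Prop where
  a0 : 0 ≤ a
  b0 : 0 ≤ b
  ab : 0 < a + b
  κ0 : 0 ≤ κ
  Bc : 4 * κ ≤ B * c₁
  Bc0 : 0 < B * c₁
  lo : 2 * (B * c₁) * a ^ 2 - 2 * κ * (a ^ 2 + a * b) ≤ Ea
  up : Eb ≤ -(2 * (B * c₁) * b ^ 2) + 2 * κ * (b ^ 2 + a * b)

theorem Ls6Pt.barrier1 {c₁ κ B a b Ea Eb : ℝ} (h : Ls6Pt c₁ κ B a b Ea Eb) (h0 : a ^ 2 - 4 * b ^ 2 = 0) :
    0 < Ea - 4 * Eb := by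
  obtain ⟨a0, b0, ab, κ0, Bc, Bc0, lo, up⟩ := h
  have hab : a = 2 * b := by
    have : (a - 2 * b) * (a + 2 * b) = 0 := by ring_nf; linarith
    rcases mul_eq_zero.1 this with h1 | h1
    · linarith
    · have : a = 0 := by linarith
      have : b = 0 := by linarith
      linarith
  subst hab
  have hb : 0 < b := by linarith
  have hb2 : 0 < b ^ 2 := by positivity
  nlinarith

theorem Ls6Pt.barrier2 {c₁ κ B a b Ea Eb : ℝ} (h : Ls6Pt c₁ κ B a b Ea Eb) (h0 : 4 * a ^ 2 - b ^ 2 = 0) :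
    0 < 4 * Ea - Eb := by
  obtain ⟨a0, b0, ab, κ0, Bc, Bc0, lo, up⟩ := h
  have hab : b = 2 * a := by
    have : (b - 2 * a) * (b + 2 * a) = 0 := by ring_nf; linarith
    rcases mul_eq_zero.1 this with h1 | h1
    · linarith
    · have : a = 0 := by linarith
      have : b = 0 := by linarith
      linarith
  subst hab
  have hb : 0 < a := by linarith
  have hb2 : 0 < a ^ 2 := by positivity
  nlinarith

/-- slope of `log a²` where `b ≤ 2a` -/
theorem Ls6Pt.slope_a {c₁ κ B a b Ea Eb : ℝ} (h : Ls6Pt c₁ κ B a b Ea Eb) (h0 : b ^ 2 ≤ 4 * a ^ 2) :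
    0 < a ∧ B * c₁ / 2 ≤ Ea / a ^ 2 := by
  obtain ⟨a0, b0, ab, κ0, Bc, Bc0, lo, up⟩ := h
  have hb : b ≤ 2 * a := by
    by_contra hlt
    rw [not_le] at hlt
    nlinarith
  have ha : 0 < a := by linarith
  refine ⟨ha, ?_⟩
  rw [le_div_iff₀ (by positivity)]
  have h1 : a * b ≤ 2 * a ^ 2 := by nlinarith
  have h2 : κ * (a ^ 2 + a * b) ≤ κ * (3 * a ^ 2) := mul_le_mul_of_nonneg_left (by linarith) κ0
  have h3 : 4 * κ * a ^ 2 ≤ B * c₁ * a ^ 2 := mul_le_mul_of_nonneg_right Bc (by positivity)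
  nlinarith

/-- slope of `-log b²` where `a ≤ 2b` -/
theorem Ls6Pt.slope_b {c₁ κ B a b Ea Eb : ℝ} (h : Ls6Pt c₁ κ B a b Ea Eb) (h0 : a ^ 2 ≤ 4 * b ^ 2) :
    0 < b ∧ B * c₁ / 2 ≤ -(Eb / b ^ 2) := by
  obtain ⟨a0, b0, ab, κ0, Bc, Bc0, lo, up⟩ := h
  have hb : a ≤ 2 * b := by
    by_contra hlt
    rw [not_le] at hlt
    nlinarith
  have ha : 0 < b := by linarith
  refine ⟨ha, ?_⟩
  rw [← neg_div, le_div_iff₀ (by positivity)]
  have h1 : a * b ≤ 2 * b ^ 2 := by nlinarith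
  have h2 : κ * (b ^ 2 + a * b) ≤ κ * (3 * b ^ 2) := mul_le_mul_of_nonneg_left (by linarith) κ0
  have h3 : 4 * κ * b ^ 2 ≤ B * c₁ * b ^ 2 := mul_le_mul_of_nonneg_right Bc (by positivity)
  nlinarith

/-- comparison of the dominant component `x` with `γ = ‖g‖` -/
theorem ls6_cmp {x y d B c₁ C₁ P γ : ℝ} (_hy : 0 ≤ y) (hxy : 4 * y ^ 2 ≤ x ^ 2) (hx : 0 ≤ x)
    (hd1 : x - y ≤ d) (hd2 : d ≤ x + y) (hd : d = 2 * B * P * γ) (hB : 0 < B) (hγ : 0 ≤ γ)
    (hP1 : c₁ ≤ P) (hP2 : P ≤ C₁) : 4 / 3 * B * c₁ * γ ≤ x ∧ x ≤ 4 * B * C₁ * γ := by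
  have h2 : 2 * y ≤ x := by
    by_contra hlt
    rw [not_le] at hlt
    nlinarith
  have hBγ : 0 ≤ B * γ := by positivity
  have h3 : B * γ * c₁ ≤ B * γ * P := mul_le_mul_of_nonneg_left hP1 hBγ
  have h4 : B * γ * P ≤ B * γ * C₁ := mul_le_mul_of_nonneg_left hP2 hBγ
  constructor
  · nlinarith
  · nlinarith

theorem ls6_logwin {x γ lo hi T : ℝ} (hx : 0 < x) (hγ : 0 < γ) (hlo : 0 < lo) (h1 : lo * γ ≤ x)
    (h2 : x ≤ hi * γ) (hT : |Real.log γ| ≤ T) :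
    Real.log (x ^ 2) ∈ Icc (2 * Real.log lo - 2 * T) (2 * Real.log hi + 2 * T) := by
  have hhi : 0 < hi := by
    by_contra h
    rw [not_lt] at h
    nlinarith
  obtain ⟨hT1, hT2⟩ := abs_le.1 hT
  have e : Real.log (x ^ 2) = 2 * Real.log x := by rw [Real.log_pow]; norm_num
  have h3 : Real.log lo + Real.log γ ≤ Real.log x := by
    rw [← Real.log_mul hlo.ne' hγ.ne']
    exact Real.log_le_log (by positivity) h1
  have h4 : Real.log x ≤ Real.log hi + Real.log γ := by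
    rw [← Real.log_mul hhi.ne' hγ.ne']
    exact Real.log_le_log hx h2
  rw [e]
  constructor <;> linarith

theorem ls6_wkb_measure (c₁ C₁ : ℝ) (hc : 0 < c₁) : ∃ C B₀ : ℝ, 0 < C ∧ ∀ (α β B T : ℝ) (g g' p p' : ℝ → ℂ), α ≤ β → B₀ ≤ B → 0 ≤ T →
    (∀ u ∈ Icc α β, HasDerivAt g (g' u) u) → (∀ u ∈ Icc α β, HasDerivAt g' ((B : ℂ) ^ 2 * p u ^ 2 * g u) u) →
    (∀ u ∈ Icc α β, HasDerivAt p (p' u) u) → (∀ u ∈ Icc α β, c₁ ≤ (p u).re ∧ ‖p u‖ ≤ C₁ ∧ ‖p' u‖ ≤ C₁) →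
    (∀ u ∈ Icc α β, g u ≠ 0 ∨ g' u ≠ 0) →
    volume {u : ℝ | u ∈ Icc α β ∧ |Real.log ‖g u‖| ≤ T} ≤ ENNReal.ofReal (C * (T + 1) / B) := by
  set κ := C₁ / (2 * c₁) with hκ
  set Λ := Real.log (3 * C₁ / c₁) with hΛ
  have hlog4 : 0 < Real.log 4 := Real.log_pos (by norm_num)
  refine ⟨(16 + 8 * |Λ| + 2 * Real.log 4) / c₁, 1 + 4 * |κ| / c₁, by positivity, ?_⟩
  intro α β B T g g' p p' hαβ hB hT hg hg' hp hb hne
  -- basic consequences
  have hC₁ : c₁ ≤ C₁ := by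
    obtain ⟨h1, h2, -⟩ := hb α (left_mem_Icc.2 hαβ)
    exact h1.trans ((Complex.re_le_norm _).trans h2)
  have hC₁0 : 0 < C₁ := hc.trans_le hC₁
  have hκ0 : 0 ≤ κ := by positivity
  have hB0 : 0 < B := by
    have : 0 ≤ 4 * |κ| / c₁ := by positivity
    linarith
  have hBc : 4 * κ ≤ B * c₁ := by
    have h1 : (1 + 4 * |κ| / c₁) * c₁ ≤ B * c₁ := mul_le_mul_of_nonneg_right hB hc.le
    have h2 : (1 + 4 * |κ| / c₁) * c₁ = c₁ + 4 * |κ| := by field_simp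
    have h3 := le_abs_self κ
    linarith
  have hBc0 : 0 < B * c₁ := by positivity
  set wp : ℝ → ℂ := fun t => g' t + (B : ℂ) * p t * g t with hwp_def
  set wm : ℝ → ℂ := fun t => g' t - (B : ℂ) * p t * g t with hwm_def
  set wp' : ℝ → ℂ := fun u => (B : ℂ) * p u * wp u + p' u / (2 * p u) * (wp u - wm u) with hwp'_def
  set wm' : ℝ → ℂ := fun u => -((B : ℂ) * p u * wm u) - p' u / (2 * p u) * (wp u - wm u) with hwm'_def
  set Ea : ℝ → ℝ := fun u => 2 * (conj (wp u) * wp' u).re with hEa_def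
  set Eb : ℝ → ℝ := fun u => 2 * (conj (wm u) * wm' u).re with hEb_def
  have hpn : ∀ u ∈ Icc α β, c₁ ≤ ‖p u‖ := fun u hu => (hb u hu).1.trans (Complex.re_le_norm _)
  have hp0 : ∀ u ∈ Icc α β, p u ≠ 0 := fun u hu h0 => by
    have := hpn u hu
    rw [h0, norm_zero] at this
    linarith
  have hwp : ∀ u ∈ Icc α β, HasDerivAt wp (wp' u) u := fun u hu =>
    (ls6_w_deriv (hg u hu) (hg' u hu) (hp u hu) (hp0 u hu)).1
  have hwm : ∀ u ∈ Icc α β, HasDerivAt wm (wm' u) u := fun u hu =>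
    (ls6_w_deriv (hg u hu) (hg' u hu) (hp u hu) (hp0 u hu)).2
  have hEa : ∀ u ∈ Icc α β, HasDerivAt (fun t => ‖wp t‖ ^ 2) (Ea u) u := fun u hu =>
    ls6_hasDerivAt_normSq (hwp u hu)
  have hEb : ∀ u ∈ Icc α β, HasDerivAt (fun t => ‖wm t‖ ^ 2) (Eb u) u := fun u hu =>
    ls6_hasDerivAt_normSq (hwm u hu)
  have hdiff : ∀ u, wp u - wm u = 2 * (B : ℂ) * p u * g u := fun u => by
    simp only [hwp_def, hwm_def]; ring
  have hdn : ∀ u, ‖wp u - wm u‖ = 2 * B * ‖p u‖ * ‖g u‖ := fun u => by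
    rw [hdiff, norm_mul, norm_mul, norm_mul, Complex.norm_real, Real.norm_of_nonneg hB0.le]
    norm_num
  have hpt : ∀ u ∈ Icc α β, Ls6Pt c₁ κ B ‖wp u‖ ‖wm u‖ (Ea u) (Eb u) := by
    intro u hu
    have hr : ‖p' u / (2 * p u)‖ ≤ κ := by
      rw [norm_div, norm_mul, hκ]
      have : ‖(2 : ℂ)‖ = 2 := by norm_num
      rw [this]
      exact div_le_div₀ hC₁0.le (hb u hu).2.2 (by positivity)
        (mul_le_mul_of_nonneg_left (hpn u hu) (by norm_num))
    have hre : B * c₁ ≤ ((B : ℂ) * p u).re := by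
      rw [Complex.re_ofReal_mul]
      exact mul_le_mul_of_nonneg_left (hb u hu).1 hB0.le
    refine ⟨norm_nonneg _, norm_nonneg _, ?_, hκ0, hBc, hBc0, ?_, ?_⟩
    · by_contra h
      have h1 : ‖wp u‖ = 0 := by
        have := norm_nonneg (wp u); have := norm_nonneg (wm u); linarith
      have h2 : ‖wm u‖ = 0 := by
        have := norm_nonneg (wp u); have := norm_nonneg (wm u); linarith
      rw [norm_eq_zero] at h1 h2
      have h3 := hdiff u
      rw [h1, h2, sub_zero] at h3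
      have hg0 : g u = 0 := by
        have hne0 : 2 * (B : ℂ) * p u ≠ 0 :=
          mul_ne_zero (mul_ne_zero two_ne_zero (by exact_mod_cast hB0.ne')) (hp0 u hu)
        exact (mul_eq_zero.1 h3.symm).resolve_left hne0
      have hg'0 : g' u = 0 := by
        have : wp u = g' u + (B : ℂ) * p u * g u := rfl
        rw [h1, hg0, mul_zero, add_zero] at this
        exact this.symm
      rcases hne u hu with h4 | h4
      · exact h4 hg0
      · exact h4 hg'0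
    · have h1 := ls6_re_lower (wp u) (wm u) ((B : ℂ) * p u) (p' u / (2 * p u)) κ hr
      have h2 : B * c₁ * ‖wp u‖ ^ 2 ≤ ((B : ℂ) * p u).re * ‖wp u‖ ^ 2 :=
        mul_le_mul_of_nonneg_right hre (by positivity)
      have h3 : Ea u = 2 * (conj (wp u) * ((B : ℂ) * p u * wp u + p' u / (2 * p u) * (wp u - wm u))).re :=
        rfl
      rw [h3]
      linarith
    · have h1 := ls6_re_upper (wp u) (wm u) ((B : ℂ) * p u) (p' u / (2 * p u)) κ hr
      have h2 : B * c₁ * ‖wm u‖ ^ 2 ≤ ((B : ℂ) * p u).re * ‖wm u‖ ^ 2 :=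
        mul_le_mul_of_nonneg_right hre (by positivity)
      have h3 : Eb u = 2 * (conj (wm u) * (-((B : ℂ) * p u * wm u) - p' u / (2 * p u) * (wp u - wm u))).re :=
        rfl
      rw [h3]
      linarith
  -- the two barriers
  have hbar1 : ∀ x ∈ Icc α β, ∀ y ∈ Icc α β, x ≤ y → 0 ≤ ‖wp x‖ ^ 2 - 4 * ‖wm x‖ ^ 2 →
      0 ≤ ‖wp y‖ ^ 2 - 4 * ‖wm y‖ ^ 2 := fun x hx y hy hxy h0 =>
    ls6_barrier (fun t => ‖wp t‖ ^ 2 - 4 * ‖wm t‖ ^ 2) (fun u => Ea u - 4 * Eb u) α β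
      (fun u hu => (hEa u hu).sub ((hEb u hu).const_mul 4))
      (fun u hu h => (hpt u hu).barrier1 h) hx hy hxy h0
  have hbar2 : ∀ x ∈ Icc α β, ∀ y ∈ Icc α β, x ≤ y → 0 ≤ 4 * ‖wp x‖ ^ 2 - ‖wm x‖ ^ 2 →
      0 ≤ 4 * ‖wp y‖ ^ 2 - ‖wm y‖ ^ 2 := fun x hx y hy hxy h0 =>
    ls6_barrier (fun t => 4 * ‖wp t‖ ^ 2 - ‖wm t‖ ^ 2) (fun u => 4 * Ea u - Eb u) α β
      (fun u hu => ((hEa u hu).const_mul 4).sub (hEb u hu))
      (fun u hu h => (hpt u hu).barrier2 h) hx hy hxy h0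
  -- the three regions
  set U : Set ℝ := {u | u ∈ Icc α β ∧ 0 ≤ ‖wp u‖ ^ 2 - 4 * ‖wm u‖ ^ 2} with hU
  set Mi : Set ℝ := {u | u ∈ Icc α β ∧ 0 ≤ 4 * ‖wp u‖ ^ 2 - ‖wm u‖ ^ 2 ∧ ‖wp u‖ ^ 2 - 4 * ‖wm u‖ ^ 2 < 0}
    with hMi
  set L : Set ℝ := {u | u ∈ Icc α β ∧ 4 * ‖wp u‖ ^ 2 - ‖wm u‖ ^ 2 < 0} with hL
  have hsubI : ∀ {x y z : ℝ}, x ∈ Icc α β → y ∈ Icc α β → z ∈ Icc x y → z ∈ Icc α β :=
    fun hx hy hz => ⟨hx.1.trans hz.1, hz.2.trans hy.2⟩
  have hUo : U.OrdConnected := ⟨fun x hx y hy z hz =>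
    ⟨hsubI hx.1 hy.1 hz, hbar1 x hx.1 z (hsubI hx.1 hy.1 hz) hz.1 hx.2⟩⟩
  have hMo : Mi.OrdConnected := ⟨fun x hx y hy z hz =>
    ⟨hsubI hx.1 hy.1 hz, hbar2 x hx.1 z (hsubI hx.1 hy.1 hz) hz.1 hx.2.1, by
      by_contra h
      rw [not_lt] at h
      exact absurd (hbar1 z (hsubI hx.1 hy.1 hz) y hy.1 hz.2 h) (not_le.2 hy.2.2)⟩⟩
  have hLo : L.OrdConnected := ⟨fun x hx y hy z hz =>
    ⟨hsubI hx.1 hy.1 hz, by
      by_contra h
      rw [not_lt] at h
      exact absurd (hbar2 z (hsubI hx.1 hy.1 hz) y hy.1 hz.2 h) (not_le.2 hy.2)⟩⟩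
  set lo : ℝ := 4 / 3 * B * c₁ with hlo
  set hi : ℝ := 4 * B * C₁ with hhi
  have hlo0 : 0 < lo := by positivity
  have hhi0 : 0 < hi := by positivity
  have hwin : (2 * Real.log hi + 2 * T) - (2 * Real.log lo - 2 * T) = 4 * T + 2 * Λ := by
    have : Real.log hi - Real.log lo = Λ := by
      rw [← Real.log_div hhi0.ne' hlo0.ne', hΛ]
      congr 1
      rw [hhi, hlo]
      field_simp
    linarith
  -- region U
  have hvU : volume {u | u ∈ U ∧ |Real.log ‖g u‖| ≤ T} ≤ ENNReal.ofReal ((4 * T + 2 * Λ) / (B * c₁ / 2)) := by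
    rw [← hwin]
    refine ls6_window (fun t => Real.log (‖wp t‖ ^ 2)) (fun u => Ea u / ‖wp u‖ ^ 2) U _ (B * c₁ / 2) _ _
      (by positivity) hUo ?_ ?_ (fun u hu => hu.1) ?_
    · intro u hu
      have h1 := (hpt u hu.1).slope_a (by nlinarith [hu.2, sq_nonneg ‖wm u‖])
      exact (hEa u hu.1).log (by have := h1.1; positivity)
    · intro u hu
      exact ((hpt u hu.1).slope_a (by nlinarith [hu.2, sq_nonneg ‖wm u‖])).2
    · rintro u ⟨hu, hT'⟩
      have h1 := ((hpt u hu.1).slope_a (by nlinarith [hu.2, sq_nonneg ‖wm u‖])).1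
      obtain ⟨h2, h3⟩ := ls6_cmp (x := ‖wp u‖) (y := ‖wm u‖) (norm_nonneg _) (by linarith [hu.2])
        (norm_nonneg _) (by linarith [norm_sub_norm_le (wp u) (wm u)]) (norm_sub_le _ _) (hdn u) hB0
        (norm_nonneg _) (hpn u hu.1) (hb u hu.1).2.1
      have hγ : 0 < ‖g u‖ := by
        by_contra h
        have h0 : ‖g u‖ = 0 := le_antisymm (not_lt.1 h) (norm_nonneg _)
        rw [h0, mul_zero] at h3
        linarith
      exact ls6_logwin h1 hγ hlo0 h2 h3 hT'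
  -- region L
  have hvL : volume {u | u ∈ L ∧ |Real.log ‖g u‖| ≤ T} ≤ ENNReal.ofReal ((4 * T + 2 * Λ) / (B * c₁ / 2)) := by
    have hwin' : (-(2 * Real.log lo - 2 * T)) - (-(2 * Real.log hi + 2 * T)) = 4 * T + 2 * Λ := by
      linarith
    rw [← hwin']
    refine ls6_window (fun t => -Real.log (‖wm t‖ ^ 2)) (fun u => -(Eb u / ‖wm u‖ ^ 2)) L _ (B * c₁ / 2) _ _
      (by positivity) hLo ?_ ?_ (fun u hu => hu.1) ?_
    · intro u hu
      have h1 := (hpt u hu.1).slope_b (by nlinarith [hu.2, sq_nonneg ‖wp u‖])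
      exact ((hEb u hu.1).log (by have := h1.1; positivity)).neg
    · intro u hu
      exact ((hpt u hu.1).slope_b (by nlinarith [hu.2, sq_nonneg ‖wp u‖])).2
    · rintro u ⟨hu, hT'⟩
      have h1 := ((hpt u hu.1).slope_b (by nlinarith [hu.2, sq_nonneg ‖wp u‖])).1
      obtain ⟨h2, h3⟩ := ls6_cmp (x := ‖wm u‖) (y := ‖wp u‖) (norm_nonneg _) (by linarith [hu.2])
        (norm_nonneg _) (by rw [norm_sub_rev (wp u) (wm u)]; exact norm_sub_norm_le _ _)
        (by rw [add_comm]; exact norm_sub_le _ _) (hdn u) hB0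
        (norm_nonneg _) (hpn u hu.1) (hb u hu.1).2.1
      have hγ : 0 < ‖g u‖ := by
        by_contra h
        have h0 : ‖g u‖ = 0 := le_antisymm (not_lt.1 h) (norm_nonneg _)
        rw [h0, mul_zero] at h3
        linarith
      have h4 := ls6_logwin h1 hγ hlo0 h2 h3 hT'
      exact ⟨neg_le_neg h4.2, neg_le_neg h4.1⟩
  -- middle region
  have hvM : volume Mi ≤ ENNReal.ofReal ((Real.log 4 - -Real.log 4) / (B * c₁)) := by
    refine ls6_window (fun t => Real.log (‖wp t‖ ^ 2) - Real.log (‖wm t‖ ^ 2))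
      (fun u => Ea u / ‖wp u‖ ^ 2 - Eb u / ‖wm u‖ ^ 2) Mi Mi (B * c₁) _ _
      hBc0 hMo ?_ ?_ subset_rfl ?_
    · intro u hu
      have h1 := (hpt u hu.1).slope_a (by linarith [hu.2.1])
      have h2 := (hpt u hu.1).slope_b (by linarith [hu.2.2])
      exact ((hEa u hu.1).log (by have := h1.1; positivity)).sub
        ((hEb u hu.1).log (by have := h2.1; positivity))
    · intro u hu
      have h1 := (hpt u hu.1).slope_a (by linarith [hu.2.1])
      have h2 := (hpt u hu.1).slope_b (by linarith [hu.2.2])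
      linarith [h1.2, h2.2]
    · intro u hu
      have h1 := ((hpt u hu.1).slope_a (by linarith [hu.2.1])).1
      have h2 := ((hpt u hu.1).slope_b (by linarith [hu.2.2])).1
      have ha2 : 0 < ‖wp u‖ ^ 2 := by positivity
      have hb2 : 0 < ‖wm u‖ ^ 2 := by positivity
      constructor
      · have : Real.log (‖wm u‖ ^ 2) ≤ Real.log 4 + Real.log (‖wp u‖ ^ 2) := by
          rw [← Real.log_mul (by norm_num) ha2.ne']
          exact Real.log_le_log hb2 (by linarith [hu.2.1])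
        show -Real.log 4 ≤ Real.log (‖wp u‖ ^ 2) - Real.log (‖wm u‖ ^ 2)
        linarith
      · have : Real.log (‖wp u‖ ^ 2) ≤ Real.log 4 + Real.log (‖wm u‖ ^ 2) := by
          rw [← Real.log_mul (by norm_num) hb2.ne']
          exact Real.log_le_log ha2 (by linarith [hu.2.2])
        show Real.log (‖wp u‖ ^ 2) - Real.log (‖wm u‖ ^ 2) ≤ Real.log 4
        linarith
  -- assembly
  have hcover : {u : ℝ | u ∈ Icc α β ∧ |Real.log ‖g u‖| ≤ T}
      ⊆ {u | u ∈ U ∧ |Real.log ‖g u‖| ≤ T} ∪ Mi ∪ {u | u ∈ L ∧ |Real.log ‖g u‖| ≤ T} := by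
    rintro u ⟨hu, hT'⟩
    by_cases h1 : 0 ≤ ‖wp u‖ ^ 2 - 4 * ‖wm u‖ ^ 2
    · exact Or.inl (Or.inl ⟨⟨hu, h1⟩, hT'⟩)
    · by_cases h2 : 0 ≤ 4 * ‖wp u‖ ^ 2 - ‖wm u‖ ^ 2
      · exact Or.inl (Or.inr ⟨hu, h2, not_le.1 h1⟩)
      · exact Or.inr ⟨⟨hu, not_le.1 h2⟩, hT'⟩
  have hΛ0 : 0 ≤ Λ := by
    rw [hΛ]
    apply Real.log_nonneg
    rw [le_div_iff₀ hc]
    linarith
  have hX : 0 ≤ (4 * T + 2 * Λ) / (B * c₁ / 2) := by positivity
  have hY : 0 ≤ (Real.log 4 - -Real.log 4) / (B * c₁) := by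
    apply div_nonneg _ hBc0.le
    linarith
  calc volume {u : ℝ | u ∈ Icc α β ∧ |Real.log ‖g u‖| ≤ T}
      ≤ volume ({u | u ∈ U ∧ |Real.log ‖g u‖| ≤ T} ∪ Mi ∪ {u | u ∈ L ∧ |Real.log ‖g u‖| ≤ T}) :=
        measure_mono hcover
    _ ≤ volume {u | u ∈ U ∧ |Real.log ‖g u‖| ≤ T} + volume Mi
          + volume {u | u ∈ L ∧ |Real.log ‖g u‖| ≤ T} :=
        (measure_union_le _ _).trans (add_le_add (measure_union_le _ _) le_rfl)
    _ ≤ ENNReal.ofReal ((4 * T + 2 * Λ) / (B * c₁ / 2))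
          + ENNReal.ofReal ((Real.log 4 - -Real.log 4) / (B * c₁))
          + ENNReal.ofReal ((4 * T + 2 * Λ) / (B * c₁ / 2)) :=
        add_le_add (add_le_add hvU hvM) hvL
    _ = ENNReal.ofReal ((4 * T + 2 * Λ) / (B * c₁ / 2) + (Real.log 4 - -Real.log 4) / (B * c₁)
          + (4 * T + 2 * Λ) / (B * c₁ / 2)) := by
        rw [ENNReal.ofReal_add (add_nonneg hX hY) hX, ENNReal.ofReal_add hX hY]
    _ ≤ ENNReal.ofReal ((16 + 8 * |Λ| + 2 * Real.log 4) / c₁ * (T + 1) / B) := by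
        apply ENNReal.ofReal_le_ofReal
        rw [abs_of_nonneg hΛ0]
        have e1 : (4 * T + 2 * Λ) / (B * c₁ / 2) + (Real.log 4 - -Real.log 4) / (B * c₁)
            + (4 * T + 2 * Λ) / (B * c₁ / 2) = (16 * T + 8 * Λ + 2 * Real.log 4) / (B * c₁) := by
          field_simp
          ring
        have e2 : (16 + 8 * Λ + 2 * Real.log 4) / c₁ * (T + 1) / B
            = (16 + 8 * Λ + 2 * Real.log 4) * (T + 1) / (B * c₁) := by
          field_simp
        rw [e1, e2]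
        apply div_le_div_of_nonneg_right _ hBc0.le
        nlinarith

end Claimed.Agent.R269.LS
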