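/-
Row 269, library: LF-LS-7 (statements `local_to_global`, `null_zero`, `null_slit` of `Lib/LogSub.lean`, owner helper171).
Proofs: helper255.  HOST-FREE (Mathlib only).

* `ls7_countable_zeros` : the zeros in a connected set `U` of a function analytic on `U`, not identically zero, are countable (`𝕜 = ℝ` or `ℂ`).
* `ls7_ch`              : copy of the chart `ch` of `Lib/LogSub.lean` (same definition; `ch = ls7_ch` by `rfl`).
* `ls7_local_to_global`, `ls7_null_zero`, `ls7_null_slit` : the three statements of LF-LS-7 (verbatim, with `ls7_ch` for `ch`).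
-/
import Mathlib

set_option autoImplicit false

namespace Claimed.Agent.R269.LS

open Complex Metric Set Filter Topology MeasureTheory
open scoped Real ENNReal

/-- outer regularity + compactness -/
theorem ls7_local_to_global (S N : Set (ℝ × ℝ)) (hS : IsCompact S) (hN : volume N = 0) (bad : ℕ → Set (ℝ × ℝ))
    (h : ∀ p ∈ S \ N, ∃ V ∈ 𝓝 p, Tendsto (fun n => volume (bad n ∩ V)) atTop (𝓝 0)) :
    Tendsto (fun n => volume (bad n ∩ S)) atTop (𝓝 0) := by
  classical
  rw [ENNReal.tendsto_nhds_zero]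
  intro ε hε
  have hε2 : 0 < ε / 2 := ENNReal.half_pos hε.ne'
  obtain ⟨O, hNO, hO, hOε⟩ := N.exists_isOpen_lt_of_lt (ε / 2) (by rw [hN]; exact hε2)
  have hK : IsCompact (S \ O) := hS.diff hO
  choose! V hV hVt using h
  have hsub : S \ O ⊆ S \ N := fun p hp => ⟨hp.1, fun hpN => hp.2 (hNO hpN)⟩
  obtain ⟨t, hts, hcov⟩ := hK.elim_nhds_subcover V (fun p hp => hV p (hsub hp))
  have hsum : Tendsto (fun n => ∑ p ∈ t, volume (bad n ∩ V p)) atTop (𝓝 0) := by
    have := tendsto_finsetSum t (fun p hp => hVt p (hsub (hts p hp)))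
    simpa using this
  filter_upwards [(ENNReal.tendsto_nhds_zero.1 hsum) (ε / 2) hε2] with n hn
  have hincl : bad n ∩ S ⊆ O ∪ ⋃ p ∈ t, bad n ∩ V p := by
    rintro q ⟨hq1, hq2⟩
    by_cases hqO : q ∈ O
    · exact Or.inl hqO
    · right
      obtain ⟨p, hp, hqp⟩ := mem_iUnion₂.1 (hcov ⟨hq2, hqO⟩)
      exact mem_iUnion₂.2 ⟨p, hp, hq1, hqp⟩
  calc volume (bad n ∩ S) ≤ volume (O ∪ ⋃ p ∈ t, bad n ∩ V p) := measure_mono hincl
    _ ≤ volume O + volume (⋃ p ∈ t, bad n ∩ V p) := measure_union_le _ _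
    _ ≤ ε / 2 + ∑ p ∈ t, volume (bad n ∩ V p) :=
        add_le_add hOε.le (measure_biUnion_finset_le _ _)
    _ ≤ ε / 2 + ε / 2 := add_le_add le_rfl hn
    _ = ε := ENNReal.add_halves ε

/-- the zeros of a nonzero analytic function on a connected set are countable -/
theorem ls7_countable_zeros {𝕜 E : Type*} [NontriviallyNormedField 𝕜] [SecondCountableTopology 𝕜]
    [NormedAddCommGroup E] [NormedSpace 𝕜 E] {f : 𝕜 → E} {U : Set 𝕜} {x : 𝕜}
    (hf : AnalyticOnNhd 𝕜 f U) (hx : x ∈ U) (hfx : f x ≠ 0) (hU : IsConnected U) :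
    {z | z ∈ U ∧ f z = 0}.Countable := by
  have h := hf.preimage_zero_mem_codiscreteWithin hfx hx hU
  have hd : IsDiscrete ((f ⁻¹' {0}) ∩ U) := isDiscrete_of_codiscreteWithin (by simpa using h)
  refine ((HereditarilyLindelofSpace.isLindelof _).countable_of_isDiscrete hd).mono ?_
  rintro z ⟨hz1, hz2⟩
  exact ⟨hz2, hz1⟩

/-- the chart `(u,t) ↦ u - i e^{-t}` of the lower half plane -/
noncomputable def ls7_ch (p : ℝ × ℝ) : ℂ := ⟨p.1, -Real.exp (-p.2)⟩

theorem ls7_ch_im_neg (p : ℝ × ℝ) : (ls7_ch p).im < 0 := by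
  show -Real.exp (-p.2) < 0
  have := Real.exp_pos (-p.2)
  linarith

theorem ls7_ch_injective : Function.Injective ls7_ch := by
  intro p q hpq
  have h1 : p.1 = q.1 := congrArg Complex.re hpq
  have h2 : -Real.exp (-p.2) = -Real.exp (-q.2) := congrArg Complex.im hpq
  have h3 : -p.2 = -q.2 := Real.exp_injective (neg_injective h2)
  exact Prod.ext h1 (neg_injective h3)

theorem ls7_ch_continuous : Continuous ls7_ch := by
  have e : ls7_ch = fun p : ℝ × ℝ => (p.1 : ℂ) + ((-Real.exp (-p.2) : ℝ) : ℂ) * I := by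
    funext p
    exact Complex.mk_eq_add_mul_I _ _
  rw [e]
  fun_prop

theorem ls7_isOpen_lower : IsOpen {Z : ℂ | Z.im < 0} :=
  isOpen_lt Complex.continuous_im continuous_const

theorem ls7_isConnected_lower : IsConnected {Z : ℂ | Z.im < 0} :=
  ⟨⟨-I, by simp⟩, (convex_halfSpace_im_lt 0).isPreconnected⟩

/-- the zeros of a nonzero holomorphic function are countable -/
theorem ls7_null_zero (F : ℂ → ℂ) (hF : DifferentiableOn ℂ F {Z | Z.im < 0}) (hne : ∃ Z, Z.im < 0 ∧ F Z ≠ 0) :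
    volume {p : ℝ × ℝ | F (ls7_ch p) = 0} = 0 := by
  obtain ⟨Z, hZ, hFZ⟩ := hne
  have hc := ls7_countable_zeros (hF.analyticOnNhd ls7_isOpen_lower) (x := Z) hZ hFZ
    ls7_isConnected_lower
  have hc' : {p : ℝ × ℝ | F (ls7_ch p) = 0}.Countable := by
    refine (hc.preimage_of_injOn (f := ls7_ch) ls7_ch_injective.injOn).mono ?_
    intro p hp
    exact ⟨ls7_ch_im_neg p, hp⟩
  exact hc'.measure_zero _

/-- the imaginary part of a holomorphic function along a real line is real analytic -/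
theorem ls7_line (Q : ℂ → ℂ) (hQ : DifferentiableOn ℂ Q {Z | Z.im < 0}) (α β : ℂ) (J : Set ℝ)
    (hJ : ∀ s ∈ J, (α * (s : ℂ) + β).im < 0) :
    AnalyticOnNhd ℝ (fun s : ℝ => (Q (α * (s : ℂ) + β)).im) J := by
  intro s hs
  have h1 : AnalyticAt ℝ Q (α * (s : ℂ) + β) :=
    ((hQ.analyticOnNhd ls7_isOpen_lower) _ (hJ s hs)).restrictScalars
  have h2 : AnalyticAt ℝ (fun s : ℝ => α * (s : ℂ) + β) s :=
    (analyticAt_const.mul (Complex.ofRealCLM.analyticAt s)).add analyticAt_const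
  have h3 : AnalyticAt ℝ (fun s : ℝ => Q (α * (s : ℂ) + β)) s :=
    AnalyticAt.comp (g := Q) (f := fun s : ℝ => α * (s : ℂ) + β) h1 h2
  exact AnalyticAt.comp (g := Complex.imCLM) (f := fun s : ℝ => Q (α * (s : ℂ) + β))
    (Complex.imCLM.analyticAt _) h3

theorem ls7_null_slit (Q : ℂ → ℂ) (hQ : DifferentiableOn ℂ Q {Z | Z.im < 0})
    (hne : ∃ Z Z', Z.im < 0 ∧ Z'.im < 0 ∧ Q Z ≠ Q Z') :
    volume {p : ℝ × ℝ | Q (ls7_ch p) ∉ Complex.slitPlane} = 0 := by
  -- a point where `Im Q ≠ 0`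
  obtain ⟨Z₁, hZ₁, hQZ₁⟩ : ∃ Z₁ : ℂ, Z₁.im < 0 ∧ (Q Z₁).im ≠ 0 := by
    by_contra hcon
    push Not at hcon
    obtain ⟨c, hc⟩ := (hQ.analyticOnNhd ls7_isOpen_lower).eq_const_of_im_eq_const (c₀ := 0)
      (fun x hx => hcon x hx) ls7_isOpen_lower ls7_isConnected_lower
    obtain ⟨Z, Z', hZ, hZ', hZZ⟩ := hne
    exact hZZ ((hc Z hZ).trans (hc Z' hZ').symm)
  have hmk : ∀ u D : ℝ, (⟨u, -D⟩ : ℂ) = 1 * (u : ℂ) + (-(D : ℂ) * I) := by
    intro u D
    apply Complex.ext <;> simp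
  have hmk' : ∀ u D : ℝ, (⟨u, -D⟩ : ℂ) = (-I) * (D : ℂ) + (u : ℂ) := by
    intro u D
    apply Complex.ext <;> simp
  -- the column through `Z₁`
  have hcol : {D : ℝ | D ∈ Ioi (0 : ℝ) ∧ (Q ⟨Z₁.re, -D⟩).im = 0}.Countable := by
    have h1 := ls7_line Q hQ (-I) (Z₁.re : ℂ) (Ioi 0) (fun s hs => by
      rw [← hmk']
      show -s < 0
      have : 0 < s := hs
      linarith)
    have h2 := ls7_countable_zeros h1 (x := -Z₁.im) (by show 0 < -Z₁.im; linarith)
      (by
        rw [← hmk', neg_neg]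
        exact hQZ₁)
      ⟨⟨1, by simp⟩, isPreconnected_Ioi⟩
    refine h2.mono ?_
    rintro D ⟨hD, hD0⟩
    refine ⟨hD, ?_⟩
    rw [← hmk']
    exact hD0
  -- the bad rows
  have hbad : {t : ℝ | ∀ u : ℝ, (Q ⟨u, -Real.exp (-t)⟩).im = 0}.Countable := by
    refine (hcol.preimage_of_injOn (f := fun t : ℝ => Real.exp (-t))
      (fun a _ b _ hab => neg_injective (Real.exp_injective hab))).mono ?_
    intro t ht
    exact ⟨Real.exp_pos _, ht Z₁.re⟩
  -- good rows
  have hrow : ∀ t : ℝ, t ∉ {t : ℝ | ∀ u : ℝ, (Q ⟨u, -Real.exp (-t)⟩).im = 0} →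
      {u : ℝ | (Q ⟨u, -Real.exp (-t)⟩).im = 0}.Countable := by
    intro t ht
    simp only [mem_ofPred_eq, not_forall] at ht
    obtain ⟨u₁, hu₁⟩ := ht
    have h1 := ls7_line Q hQ 1 (-(Real.exp (-t) : ℂ) * I) univ (fun s _ => by
      rw [← hmk]
      show -Real.exp (-t) < 0
      have := Real.exp_pos (-t)
      linarith)
    have h2 := ls7_countable_zeros h1 (x := u₁) (mem_univ _)
      (by rw [← hmk]; exact hu₁) isConnected_univ
    refine h2.mono ?_
    intro u hu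
    refine ⟨mem_univ _, ?_⟩
    rw [← hmk]
    exact hu
  -- the closed set `Im Q = 0`
  set s' : Set (ℝ × ℝ) := {p | (Q (ls7_ch p)).im = 0} with hs'
  have hcont : Continuous fun p : ℝ × ℝ => (Q (ls7_ch p)).im :=
    Complex.continuous_im.comp
      (hQ.continuousOn.comp_continuous ls7_ch_continuous ls7_ch_im_neg)
  have hms : MeasurableSet s' := (isClosed_eq hcont continuous_const).measurableSet
  have hs0 : volume s' = 0 := by
    rw [Measure.volume_eq_prod, Measure.prod_apply_symm hms]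
    rw [lintegral_eq_zero_iff' (measurable_measure_prodMk_right hms).aemeasurable]
    have hae : ∀ᵐ t : ℝ, t ∉ {t : ℝ | ∀ u : ℝ, (Q ⟨u, -Real.exp (-t)⟩).im = 0} :=
      hbad.ae_notMem _
    filter_upwards [hae] with t ht
    exact (hrow t ht).measure_zero _
  refine measure_mono_null ?_ hs0
  intro p hp
  by_contra hne0
  exact hp (Or.inr hne0)

end Claimed.Agent.R269.LS
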