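/-
Row 269, library for P1 Section 11.1-11.6 (owner: helper171).  HOST-FREE: only Mathlib, no paper reading needed.

One-variable complex analysis and real analysis used by the DETERMINISTIC proof of the row sign test (the Brownian motion of the paper is
replaced by the average over the disc of radius `δ(z)/4`).  All integrals of nonnegative quantities are `∫⁻` (no integrability side conditions).
Recall `Real.log 0 = 0` (the zeros of a nonzero analytic function form a null set).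

RULES: one package = one NEW file `Lib/LogSub<k>Pf.lean` importing only Mathlib (and other Pf files), proving the statements VERBATIM under the names
`ls<k>_<name>`; tell helper171, who wires them here.  Do not change a statement without telling helper171; report doubts at once.
-/
import Mathlib
import Claimed.Agent.R269.Lib.LogSub1Pf
import Claimed.Agent.R269.Lib.LogSub2Pf
import Claimed.Agent.R269.Lib.LogSub3Pf
import Claimed.Agent.R269.Lib.LogSub4Pf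
import Claimed.Agent.R269.Lib.LogSub5Pf
import Claimed.Agent.R269.Lib.LogSub6Pf
import Claimed.Agent.R269.Lib.LogSub7Pf

set_option autoImplicit false

namespace Claimed.Agent.R269.LS

open Complex Metric Set Filter Topology MeasureTheory
open scoped Real ENNReal

/-! ### LF-LS-1: area mean value inequalities (polar coordinates + circle averages) -/

/-- `|g(c)| ≤` area mean of `|g|`.  (`Complex.circleAverage…`/Cauchy on circles of radius `r < R`, then `integral_comp_polarCoord_symm`.) -/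
theorem norm_le_area_mean (g : ℂ → ℂ) (c : ℂ) (R : ℝ) (hR : 0 < R) (hg : DiffContOnCl ℂ g (ball c R)) :
    π * R ^ 2 * ‖g c‖ ≤ ∫ z in ball c R, ‖g z‖ :=
  ls1_norm_le_area_mean g c R hR hg

/-- `log|g|` is integrable on discs and has the area sub-mean value property (Jensen: `AnalyticOnNhd.circleAverage_log_norm`, all terms of the
divisor sum are `≥ 0`). -/
theorem log_submean (g : ℂ → ℂ) (c : ℂ) (R : ℝ) (hR : 0 < R) (hg : AnalyticOnNhd ℂ g (closedBall c R)) (h0 : g c ≠ 0) :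
    IntegrableOn (fun z => Real.log ‖g z‖) (ball c R) ∧
      π * R ^ 2 * Real.log ‖g c‖ ≤ ∫ z in ball c R, Real.log ‖g z‖ :=
  ls1_log_submean g c R hR hg h0

/-! ### LF-LS-2: the `L²` norm of `log|G|` (P1 Lemma 11.3, second half)
Proof: `n ≤ 6M` zeros in `closedBall 0 2` (`AnalyticOnNhd.sum_divisor_le` centred at `ζs`); `G = P·G₁`, `P = ∏ (ζ - ζ_j)`
(`MeromorphicOn.extract_zeros_poles` or induction); `log|G₁| ≤ M + n log 2` on `|ζ| ≤ 5/2` (maximum principle), `log|G₁(ζs)| ≥ -M - n log 3`; `G₁ = e^φ` on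
the disc; Harnack / Borel-Caratheodory gives `|log|G₁|| ≤ C M` on `|ζ| ≤ 1`; `‖log|ζ - ζ_j|‖_{L²} ≤ C` on the unit disc and on `[-1,1]`;
Minkowski. -/

theorem log_L2 : ∃ C : ℝ, 0 < C ∧ ∀ (G : ℂ → ℂ) (M : ℝ), 1 ≤ M → AnalyticOnNhd ℂ G (closedBall 0 3) →
    (∀ ζ ∈ closedBall (0 : ℂ) 3, ‖G ζ‖ ≤ Real.exp M) →
    (∃ ζs ∈ closedBall (0 : ℂ) (1 / 16), Real.exp (-M) ≤ ‖G ζs‖) →
    (∫⁻ ζ in closedBall (0 : ℂ) 1, ENNReal.ofReal (Real.log ‖G ζ‖ ^ 2) ≤ ENNReal.ofReal (C * M ^ 2)) ∧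
    (∫⁻ t in Icc (-1 : ℝ) 1, ENNReal.ofReal (Real.log ‖G (t : ℂ)‖ ^ 2) ≤ ENNReal.ofReal (C * M ^ 2)) := by
  exact ls2_log_L2

/-! ### LF-LS-3: a curvature witness forces logarithmic oscillation (P1 (11.18)), QUANTITATIVE proof without normal families.
Scale to `z₁ = 0`, `r = 1`, replace `g` by `g e^{-ζ}`.  Suppose `∫_{|z| ≤ 1} |u| < c₂`, `u = log|g|`.  (1) `log_submean` on `ball z (1/2)`:
`u ≤ 4c₂/π` on `ball 0 (1/2)`.  (2) some `z₀ ∈ ball 0 (1/16)` has `g z₀ ≠ 0`, `|u(z₀)| ≤ 256 c₂/π`.  (3) `G = g e^{-4c₂/π}` maps `ball z₀ (7/16)` to the closed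
unit disc and `|G(z₀)| ≥ 1 - η`, `η ≤ 260c₂/π`; after a rotation `P = 1 - G` has `Re P ≥ 0`, `P(z₀) = η' ≤ η` real: Schwarz for `(P-η')/(P+η')` (or
`Complex.borelCaratheodory`) gives `|P| ≤ 3η` on `ball z₀ (7/32)`.  (4) Cauchy: `|G''(0)| ≤ Cη`, `|G(0)| ≥ 1 - 3η`. -/

theorem log_osc (c : ℝ) (hc : 0 < c) : ∃ c₂ : ℝ, 0 < c₂ ∧ ∀ (g : ℂ → ℂ) (q₁ z₁ : ℂ) (r : ℝ), 0 < r →
    AnalyticOnNhd ℂ g (closedBall z₁ r) → (g z₁ ≠ 0 ∨ deriv g z₁ ≠ 0) →
    deriv (deriv g) z₁ = q₁ * g z₁ → c ≤ r ^ 2 * ‖q₁‖ →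
    ∀ ζ : ℝ, ENNReal.ofReal (c₂ * r ^ 2) ≤ ∫⁻ z in closedBall z₁ r, ENNReal.ofReal |Real.log ‖g z‖ - ζ| := by
  exact ls3_log_osc c hc

/-! ### LF-LS-4: the ramp function and the abstract double-integral lemma (real analysis / measure theory) -/

/-- **The bounded ramp.**  `ψ` rises from `0` at `-2h` to `4` at `2h` (slope `1/h`), falls back to `0` at `2h + R` (slope `-4/R`), `Φ = ∫ ψ`.
The Taylor remainder `Φ y - Φ x - ψ x (y-x) = ∫_x^y (ψ t - ψ x) dt` gains `min((y-x)²,h²)/(2h)` when `|x| ≤ h` and loses at most `(2/R)(y-x)²`. -/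
theorem ramp (h R : ℝ) (hh : 0 < h) (hR : 0 < R) : ∃ Φ ψ : ℝ → ℝ, Continuous Φ ∧
    (∀ x, 0 ≤ Φ x ∧ Φ x ≤ 8 * h + 2 * R) ∧ (∀ x, 0 ≤ ψ x) ∧
    ∀ x y, ψ x * (y - x) + (if |x| ≤ h then min ((y - x) ^ 2) (h ^ 2) / (2 * h) else 0)
      ≤ Φ y - Φ x + 2 / R * (y - x) ^ 2 := by
  exact ls4_ramp h R hh hR

/-- **Truncated witness, integrated** (P1 (11.20) and the paragraph after it).  `e = A - a ≥ 0`.  For `|ζ| ≤ h/2`: on `{|a| > h}` one has `a < -h`, `e ≥ 2h/3`,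
`|a - ζ| ≤ 9e/4`, so the discarded `L¹` mass is `≤ (27/8)E/h ≤ c₂/4`; on `{|a| ≤ h}`, `min(|a-ζ|,h) ≥ (2/3)|a-ζ|`; Cauchy-Schwarz gives
`∫ 1_{|a| ≤ h} min((a-ζ)²,h²) ≥ c₂²/4`.  The set `{|a| ≤ h/2}` has measure `≥ 1/2` (`|a| > h/2 ⇒ e ≥ h/6`, Chebyshev).  Take `ζ = a y`, Tonelli. -/
theorem dbl {X : Type} [MeasurableSpace X] (μ : Measure X) [IsProbabilityMeasure μ] (a A : X → ℝ) (ha : Measurable a)
    (hA : Measurable A) (h c₂ E : ℝ) (hh : 0 < h) (hc : 0 < c₂) (hA3 : ∀ᵐ x ∂μ, |A x| ≤ h / 3) (haA : ∀ᵐ x ∂μ, a x ≤ A x)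
    (hE : ∫⁻ x, ENNReal.ofReal ((A x - a x) ^ 2) ∂μ ≤ ENNReal.ofReal E)
    (hosc : ∀ ζ : ℝ, ENNReal.ofReal c₂ ≤ ∫⁻ x, ENNReal.ofReal |a x - ζ| ∂μ)
    (hE1 : 16 * E ≤ c₂ * h) (hE2 : 72 * E ≤ h ^ 2) :
    ENNReal.ofReal (c₂ ^ 2 / 8) ≤
      ∫⁻ x, ∫⁻ y, ENNReal.ofReal (if |a x| ≤ h then min ((a y - a x) ^ 2) (h ^ 2) else 0) ∂μ ∂μ := by
  exact ls4_dbl μ a A ha hA h c₂ E hh hc hA3 haA hE hosc hE1 hE2

/-! ### LF-LS-5: zeros and the logarithmic derivative for `G'' = Q G` (P1 Proposition 11.8) -/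

/-- **Local zero test.**  A large logarithmic derivative produces a nearby zero.  With `λ = G'(p)/G(p)`: `G(p+u)/G(p) = 1 + λu + E(u)`,
`E'(u) = ∫_0^u Q G/G(p)`, `|G/G(p)| ≤ 6` on `|u| ≤ 2/|λ|` (Gronwall), so `u ↦ -1/λ - E(u)/λ` is a `1/4`-contraction of `closedBall 0 (2/|λ|)`; or Rouché. -/
theorem zero_near (G Q : ℂ → ℂ) (p : ℂ) (ρ M : ℝ) (hM : 0 < M) (hG : DifferentiableOn ℂ G (ball p ρ))
    (hode : ∀ z ∈ ball p ρ, deriv (deriv G) z = Q z * G z) (hQ : ∀ z ∈ ball p ρ, ‖Q z‖ ≤ M ^ 2) (hp : G p ≠ 0)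
    (h7 : 7 * M * ‖G p‖ ≤ ‖deriv G p‖) (h2 : 2 * ‖G p‖ < ρ * ‖deriv G p‖) :
    ∃ z ∈ closedBall p (2 * ‖G p‖ / ‖deriv G p‖), G z = 0 := by
  exact ls5_zero_near G Q p ρ M hM hG hode hQ hp h7 h2

/-- On a zero-free disc of radius `r ≤ 4/(7M)` the logarithm of `|G|` is `4/r`-Lipschitz on the disc of half radius (`zero_near` at every point of
`ball t (r/2)` gives `|G'/G| ≤ 4/r`; integrate along the segment). -/
theorem log_lip (G Q : ℂ → ℂ) (t : ℂ) (r M : ℝ) (hM : 0 < M) (hr : 0 < r) (hrM : 7 * M * r ≤ 4)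
    (hG : DifferentiableOn ℂ G (ball t r)) (hode : ∀ z ∈ ball t r, deriv (deriv G) z = Q z * G z)
    (hQ : ∀ z ∈ ball t r, ‖Q z‖ ≤ M ^ 2) (h0 : ∀ z ∈ ball t r, G z ≠ 0) (ζ : ℂ) (hζ : ζ ∈ ball t (r / 2)) :
    |Real.log ‖G ζ‖ - Real.log ‖G t‖| ≤ 4 / r * ‖ζ - t‖ := by
  exact ls5_log_lip G Q t r M hM hr hrM hG hode hQ h0 ζ hζ

/-- **Shadows of the zeros** (`≤ 6M` zeros in `closedBall 0 2` by `AnalyticOnNhd.sum_divisor_le` centred at `ζs`, each shadow has length `≤ 2r`). -/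
theorem zero_shadow (G : ℂ → ℂ) (M r : ℝ) (hM : 1 ≤ M) (hr : 0 < r) (hr1 : r ≤ 1) (hG : AnalyticOnNhd ℂ G (closedBall 0 3))
    (hb : ∀ ζ ∈ closedBall (0 : ℂ) 3, ‖G ζ‖ ≤ Real.exp M)
    (hs : ∃ ζs ∈ closedBall (0 : ℂ) (1 / 16), Real.exp (-M) ≤ ‖G ζs‖) :
    volume {t : ℝ | t ∈ Icc (-1 : ℝ) 1 ∧ ∃ z ∈ ball (t : ℂ) r, G z = 0} ≤ ENNReal.ofReal (12 * M * r) := by
  exact ls5_zero_shadow G M r hM hr hr1 hG hb hs

/-! ### LF-LS-6: the WKB measure estimate WITHOUT a WKB basis (replaces P1 (11.6) and the Volterra argument)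
`w₊ = g' + B p g`, `w₋ = g' - B p g`, `E_± = |w_±|²`.  Then `w₊' = B p w₊ + (p'/2p)(w₊ - w₋)`, `w₋' = -B p w₋ - (p'/2p)(w₊ - w₋)`; with `κ = C₁/(2c₁)`:
`E₊' ≥ 2Bc₁E₊ - 2κ(E₊ + √(E₊E₋))`, `E₋' ≤ -2Bc₁E₋ + 2κ(E₋ + √(E₊E₋))`.  `Θ = (E₊-E₋)/(E₊+E₋)` satisfies `Θ' ≥ B c₁` while `|Θ| ≤ 3/5` (`B` large).  Hence (barrier lemma
`image_le_of_deriv_right_lt_deriv_boundary`) `[α,β]` splits into three consecutive intervals `Θ < -3/5`, `|Θ| ≤ 3/5` (length `≤ 6/(5Bc₁)`), `Θ > 3/5`.  On the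
last one `|w₋| ≤ |w₊|/2`, so `log|g| = ½ log E₊ - log(2B|p|) + O(1)` and `½ log E₊` has slope `≥ Bc₁/2`: it spends a time `≤ (2T + log(3C₁/c₁))/(Bc₁/2)` in
the window.  Symmetrically on the first one. -/

theorem wkb_measure (c₁ C₁ : ℝ) (hc : 0 < c₁) : ∃ C B₀ : ℝ, 0 < C ∧ ∀ (α β B T : ℝ) (g g' p p' : ℝ → ℂ), α ≤ β → B₀ ≤ B → 0 ≤ T →
    (∀ u ∈ Icc α β, HasDerivAt g (g' u) u) → (∀ u ∈ Icc α β, HasDerivAt g' ((B : ℂ) ^ 2 * p u ^ 2 * g u) u) →
    (∀ u ∈ Icc α β, HasDerivAt p (p' u) u) → (∀ u ∈ Icc α β, c₁ ≤ (p u).re ∧ ‖p u‖ ≤ C₁ ∧ ‖p' u‖ ≤ C₁) →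
    (∀ u ∈ Icc α β, g u ≠ 0 ∨ g' u ≠ 0) →
    volume {u : ℝ | u ∈ Icc α β ∧ |Real.log ‖g u‖| ≤ T} ≤ ENNReal.ofReal (C * (T + 1) / B) := by
  exact ls6_wkb_measure c₁ C₁ hc

/-! ### LF-LS-7: from local to global smallness; null sets -/

/-- outer regularity + compactness -/
theorem local_to_global (S N : Set (ℝ × ℝ)) (hS : IsCompact S) (hN : volume N = 0) (bad : ℕ → Set (ℝ × ℝ))
    (h : ∀ p ∈ S \ N, ∃ V ∈ 𝓝 p, Tendsto (fun n => volume (bad n ∩ V)) atTop (𝓝 0)) :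
    Tendsto (fun n => volume (bad n ∩ S)) atTop (𝓝 0) := by
  exact ls7_local_to_global S N hS hN bad h

/-- the chart `(u,t) ↦ u - i e^{-t}` of the lower half plane -/
noncomputable def ch (p : ℝ × ℝ) : ℂ := ⟨p.1, -Real.exp (-p.2)⟩

/-- the zeros of a nonzero holomorphic function are countable -/
theorem null_zero (F : ℂ → ℂ) (hF : DifferentiableOn ℂ F {Z | Z.im < 0}) (hne : ∃ Z, Z.im < 0 ∧ F Z ≠ 0) :
    volume {p : ℝ × ℝ | F (ch p) = 0} = 0 := by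
  exact ls7_null_zero F hF hne

/-- a nonconstant holomorphic function takes values in `(-∞,0]` on a null set.  (Rows: `u ↦ Im Q(u - iD)` is real analytic, so it vanishes identically or
on a countable set; if it vanishes identically for infinitely many `D` in a compact interval of `(0,∞)`, then for each `u` the real analytic function `D ↦ Im Q(u - iD)`
vanishes identically, so `Im Q ≡ 0` and `Q` is constant.  Tonelli.) -/
theorem null_slit (Q : ℂ → ℂ) (hQ : DifferentiableOn ℂ Q {Z | Z.im < 0})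
    (hne : ∃ Z Z', Z.im < 0 ∧ Z'.im < 0 ∧ Q Z ≠ Q Z') :
    volume {p : ℝ × ℝ | Q (ch p) ∉ Complex.slitPlane} = 0 := by
  exact ls7_null_slit Q hQ hne

/-! ### toolkit: periodic shifts, Cauchy kernel, `dA = dx dy` (all `∫⁻`) -/

/-- the integral of a periodic function over one period does not depend on the starting point (no measurability needed) -/
theorem lintegral_Ioc_periodic (g : ℝ → ℝ≥0∞) (T : ℝ) (hT : 0 < T) (hper : ∀ x, g (x + T) = g x) (t : ℝ) :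
    ∫⁻ x in Ioc t (t + T), g x = ∫⁻ x in Ioc 0 T, g x := by
  have : Fact (0 < T) := ⟨hT⟩
  have hp : Function.Periodic g T := hper
  have h1 := AddCircle.lintegral_preimage T t hp.lift
  have h2 := AddCircle.lintegral_preimage T 0 hp.lift
  simp only [Function.Periodic.lift_coe, zero_add] at h1 h2
  rw [h1, h2]

/-- translation of a periodic function -/
theorem lintegral_Icc_shift (g : ℝ → ℝ≥0∞) (T c : ℝ) (hT : 0 < T) (hper : ∀ x, g (x + T) = g x) :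
    ∫⁻ x in Icc 0 T, g (x + c) = ∫⁻ x in Icc 0 T, g x := by
  rw [setLIntegral_congr (Ioc_ae_eq_Icc (a := (0 : ℝ)) (b := T)).symm, setLIntegral_congr (Ioc_ae_eq_Icc (a := (0 : ℝ)) (b := T)).symm]
  have h1 : ∫⁻ x in Ioc 0 T, g (x + c) = ∫⁻ x in Ioc c (c + T), g x := by
    rw [← lintegral_indicator measurableSet_Ioc, ← lintegral_indicator measurableSet_Ioc]
    rw [← lintegral_add_right_eq_self (fun x => (Ioc c (c + T)).indicator g x) c]
    refine lintegral_congr fun x => ?_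
    by_cases hx : x ∈ Ioc 0 T
    · have hx' : x + c ∈ Ioc c (c + T) := ⟨by linarith [hx.1], by linarith [hx.2]⟩
      rw [indicator_of_mem hx, indicator_of_mem hx']
    · have hx' : x + c ∉ Ioc c (c + T) := fun h => hx ⟨by linarith [h.1], by linarith [h.2]⟩
      rw [indicator_of_notMem hx, indicator_of_notMem hx']
  rw [h1, lintegral_Ioc_periodic g T hT hper c]

/-- the Cauchy kernel -/
theorem lintegral_cauchy (D : ℝ) (hD : 0 < D) : ∫⁻ X : ℝ, ENNReal.ofReal (1 / (1 + (X / D) ^ 2)) = ENNReal.ofReal (π * D) := by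
  have hi : Integrable (fun x : ℝ => (1 + x ^ 2)⁻¹) := integrable_inv_one_add_sq
  have hi2 : Integrable (fun x : ℝ => (1 + (x / D) ^ 2)⁻¹) := hi.comp_div hD.ne'
  have h1 : ∫ x : ℝ, (1 + (x / D) ^ 2)⁻¹ = π * D := by
    have := Measure.integral_comp_div (fun y : ℝ => (1 + y ^ 2)⁻¹) D
    rw [this, integral_univ_inv_one_add_sq, abs_of_pos hD, smul_eq_mul, mul_comm]
  rw [← h1, ofReal_integral_eq_lintegral_ofReal hi2 (Eventually.of_forall fun x => by positivity)]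
  simp only [one_div]

/-- `dA = dx dy` -/
theorem lintegral_complex (g : ℂ → ℝ≥0∞) (hg : Measurable g) :
    ∫⁻ z, g z = ∫⁻ y : ℝ, ∫⁻ x : ℝ, g ⟨x, y⟩ := by
  have h1 := Complex.volume_preserving_equiv_real_prod.symm.lintegral_comp hg
  rw [← h1, Measure.volume_eq_prod]
  exact lintegral_prod_symm (fun a : ℝ × ℝ => g (Complex.measurableEquivRealProd.symm a))
    (hg.comp Complex.measurableEquivRealProd.symm.measurable).aemeasurable

end Claimed.Agent.R269.LS
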