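/-
Row 269, library: LF-LS-4 (statements `ramp`, `dbl` of `Lib/LogSub.lean`, owner helper171).  Proofs: helper255.  HOST-FREE (Mathlib only).

* `ls4_le_of_deriv_le` : `F' ≤ Q'` on `[a,b]` implies `F b - F a ≤ Q b - Q a`.
* `ls4_ramp`, `ls4_dbl` : the two statements of LF-LS-4 (verbatim).
-/
import Mathlib

set_option autoImplicit false

namespace Claimed.Agent.R269.LS

open Complex Metric Set Filter Topology MeasureTheory
open scoped Real ENNReal

theorem ls4_mono {G G' : ℝ → ℝ} {a b : ℝ} (hab : a ≤ b) (hG : ∀ c ∈ Icc a b, HasDerivAt G (G' c) c)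
    (h : ∀ c ∈ Icc a b, 0 ≤ G' c) : G a ≤ G b := by
  rcases hab.eq_or_lt with rfl | hlt
  · exact le_rfl
  obtain ⟨c, hc, hc'⟩ := exists_hasDerivAt_eq_slope G G' hlt
    (fun u hu => (hG u hu).continuousAt.continuousWithinAt)
    (fun u hu => hG u (Ioo_subset_Icc_self hu))
  have h1 := h c (Ioo_subset_Icc_self hc)
  rw [hc'] at h1
  have h2 := mul_nonneg h1 (sub_pos.2 hlt).le
  rw [div_mul_cancel₀ _ (sub_pos.2 hlt).ne'] at h2
  linarith

theorem ls4_le_of_deriv_le {F F' Q Q' : ℝ → ℝ} {a b : ℝ} (hab : a ≤ b)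
    (hF : ∀ c ∈ Icc a b, HasDerivAt F (F' c) c) (hQ : ∀ c ∈ Icc a b, HasDerivAt Q (Q' c) c)
    (h : ∀ c ∈ Icc a b, F' c ≤ Q' c) : F b - F a ≤ Q b - Q a := by
  have := ls4_mono (G := fun t => Q t - F t) (G' := fun t => Q' t - F' t) hab
    (fun c hc => (hQ c hc).sub (hF c hc)) (fun c hc => sub_nonneg.2 (h c hc))
  linarith

theorem ls4_sq (a c : ℝ) : HasDerivAt (fun t : ℝ => (t - a) ^ 2) (2 * (c - a)) c := by
  have h0 : HasDerivAt (fun t : ℝ => t - a) 1 c := (hasDerivAt_id c).sub_const a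
  have h1 := h0.mul h0
  have e : (fun t : ℝ => (t - a) ^ 2) = fun t => (t - a) * (t - a) := by
    funext t; ring
  rw [e]
  exact h1.congr_deriv (by ring)

theorem ls4_ramp (h R : ℝ) (hh : 0 < h) (hR : 0 < R) : ∃ Φ ψ : ℝ → ℝ, Continuous Φ ∧
    (∀ x, 0 ≤ Φ x ∧ Φ x ≤ 8 * h + 2 * R) ∧ (∀ x, 0 ≤ ψ x) ∧
    ∀ x y, ψ x * (y - x) + (if |x| ≤ h then min ((y - x) ^ 2) (h ^ 2) / (2 * h) else 0)
      ≤ Φ y - Φ x + 2 / R * (y - x) ^ 2 := by
  set ψ : ℝ → ℝ := fun t => max 0 (min ((t + 2 * h) / h) (4 - 4 / R * (t - 2 * h))) with hψ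
  set Φ : ℝ → ℝ := fun x => ∫ t in (-2 * h)..x, ψ t with hΦdef
  have hψc : Continuous ψ := by
    rw [hψ]; fun_prop
  have hΦ : ∀ x, HasDerivAt Φ (ψ x) x := fun x => (hψc.integral_hasStrictDerivAt _ x).hasDerivAt
  have hψ0 : ∀ x, 0 ≤ ψ x := fun x => le_max_left _ _
  have hk : 0 < 4 / R := by positivity
  have hLip : ∀ x y, x ≤ y → ψ x ≤ ψ y + 4 / R * (y - x) := by
    intro x y hxy
    have h0 : 0 ≤ 4 / R * (y - x) := mul_nonneg hk.le (sub_nonneg.2 hxy)
    refine max_le (add_nonneg (hψ0 y) h0) ?_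
    refine le_trans ?_ (add_le_add_left (le_max_right 0 _) _)
    rw [← min_add_add_right]
    refine le_min ((min_le_left _ _).trans ?_) ((min_le_right _ _).trans ?_)
    · have : (x + 2 * h) / h ≤ (y + 2 * h) / h := div_le_div_of_nonneg_right (by linarith) hh.le
      linarith
    · apply le_of_eq; ring
  have hlin : ∀ t ∈ Icc (-2 * h) (2 * h), ψ t = (t + 2 * h) / h := by
    intro t ht
    have h1 : 0 ≤ (t + 2 * h) / h := div_nonneg (by linarith [ht.1]) hh.le
    have h2 : (t + 2 * h) / h ≤ 4 := by rw [div_le_iff₀ hh]; linarith [ht.2]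
    have h3 : 0 ≤ 4 / R * (2 * h - t) := mul_nonneg hk.le (by linarith [ht.2])
    show max 0 (min ((t + 2 * h) / h) (4 - 4 / R * (t - 2 * h))) = _
    rw [min_eq_left (by nlinarith), max_eq_right h1]
  have hfall : ∀ t ∈ Icc (2 * h) (2 * h + R), ψ t = 4 - 4 / R * (t - 2 * h) := by
    intro t ht
    have h2 : 4 ≤ (t + 2 * h) / h := by rw [le_div_iff₀ hh]; linarith [ht.1]
    have h3 : 0 ≤ 4 / R * (t - 2 * h) := mul_nonneg hk.le (by linarith [ht.1])
    have h4 : 4 / R * (t - 2 * h) ≤ 4 := by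
      have : 4 / R * (t - 2 * h) ≤ 4 / R * R := mul_le_mul_of_nonneg_left (by linarith [ht.2]) hk.le
      rwa [div_mul_cancel₀ _ hR.ne'] at this
    show max 0 (min ((t + 2 * h) / h) (4 - 4 / R * (t - 2 * h))) = _
    rw [min_eq_right (by linarith), max_eq_right (by linarith)]
  have hzL : ∀ t, t ≤ -2 * h → ψ t = 0 := by
    intro t ht
    have h1 : (t + 2 * h) / h ≤ 0 := div_nonpos_of_nonpos_of_nonneg (by linarith) hh.le
    exact max_eq_left ((min_le_left _ _).trans h1)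
  have hzR : ∀ t, 2 * h + R ≤ t → ψ t = 0 := by
    intro t ht
    have h4 : 4 ≤ 4 / R * (t - 2 * h) := by
      have : 4 / R * R ≤ 4 / R * (t - 2 * h) := mul_le_mul_of_nonneg_left (by linarith) hk.le
      rwa [div_mul_cancel₀ _ hR.ne'] at this
    exact max_eq_left ((min_le_right _ _).trans (by linarith))
  have hΦmono : ∀ s t, s ≤ t → Φ s ≤ Φ t := fun s t hst =>
    ls4_mono hst (fun c _ => hΦ c) (fun c _ => hψ0 c)
  have hΦ0 : Φ (-2 * h) = 0 := intervalIntegral.integral_same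
  have hconst : ∀ c : ℝ, HasDerivAt (fun _ : ℝ => (0 : ℝ)) 0 c := fun c => hasDerivAt_const c 0
  have hlow : ∀ x, 0 ≤ Φ x := by
    intro x
    rcases le_total (-2 * h) x with hx | hx
    · rw [← hΦ0]; exact hΦmono _ _ hx
    · have := ls4_le_of_deriv_le (F := Φ) (F' := ψ) (Q := fun _ => 0) (Q' := fun _ => 0) hx
        (fun c _ => hΦ c) (fun c _ => hconst c) (fun c hc => (hzL c hc.2).le)
      rw [hΦ0] at this
      linarith
  have h8 : Φ (2 * h) ≤ 8 * h := by
    have := ls4_le_of_deriv_le (F := Φ) (F' := ψ) (Q := fun t => (t + 2 * h) ^ 2 / (2 * h))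
      (Q' := fun t => (t + 2 * h) / h) (a := -2 * h) (b := 2 * h) (by linarith)
      (fun c _ => hΦ c)
      (fun c _ => by
        have h1 : HasDerivAt (fun t : ℝ => (t + 2 * h) ^ 2) (2 * (c + 2 * h)) c := by
          simpa using ls4_sq (-(2 * h)) c
        exact (h1.div_const (2 * h)).congr_deriv (by field_simp))
      (fun c hc => (hlin c hc).le)
    rw [hΦ0] at this
    have e : (2 * h + 2 * h) ^ 2 / (2 * h) - (-2 * h + 2 * h) ^ 2 / (2 * h) = 8 * h := by
      field_simp; ring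
    linarith
  have h2R : Φ (2 * h + R) ≤ 8 * h + 2 * R := by
    have := ls4_le_of_deriv_le (F := Φ) (F' := ψ)
      (Q := fun t => 4 * (t - 2 * h) - 2 / R * (t - 2 * h) ^ 2)
      (Q' := fun t => 4 - 4 / R * (t - 2 * h)) (a := 2 * h) (b := 2 * h + R) (by linarith)
      (fun c _ => hΦ c)
      (fun c _ => by
        have h0 : HasDerivAt (fun t : ℝ => t - 2 * h) 1 c := (hasDerivAt_id c).sub_const (2 * h)
        have h1 : HasDerivAt (fun t : ℝ => (t - 2 * h) ^ 2) (2 * (c - 2 * h)) c := ls4_sq _ c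
        exact ((h0.const_mul 4).sub (h1.const_mul (2 / R))).congr_deriv (by ring))
      (fun c hc => (hfall c hc).le)
    have e : 4 * (2 * h + R - 2 * h) - 2 / R * (2 * h + R - 2 * h) ^ 2
        - (4 * (2 * h - 2 * h) - 2 / R * (2 * h - 2 * h) ^ 2) = 2 * R := by
      field_simp; ring
    linarith
  have hup : ∀ x, Φ x ≤ 8 * h + 2 * R := by
    intro x
    rcases le_total x (2 * h + R) with hx | hx
    · exact (hΦmono _ _ hx).trans h2R
    · have := ls4_le_of_deriv_le (F := Φ) (F' := ψ) (Q := fun _ => 0) (Q' := fun _ => 0) hx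
        (fun c _ => hΦ c) (fun c _ => hconst c) (fun c hc => (hzR c hc.1).le)
      linarith
  refine ⟨Φ, ψ, continuous_iff_continuousAt.2 fun x => (hΦ x).continuousAt,
    fun x => ⟨hlow x, hup x⟩, hψ0, ?_⟩
  intro x y
  -- the comparison functions
  have hQt : ∀ c : ℝ, HasDerivAt (fun t : ℝ => ψ x * (t - x) - 2 / R * (t - x) ^ 2)
      (ψ x - 4 / R * (c - x)) c := by
    intro c
    have h0 : HasDerivAt (fun t : ℝ => t - x) 1 c := (hasDerivAt_id c).sub_const x
    have h1 : HasDerivAt (fun t : ℝ => (t - x) ^ 2) (2 * (c - x)) c := ls4_sq _ c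
    exact ((h0.const_mul (ψ x)).sub (h1.const_mul (2 / R))).congr_deriv (by ring)
  have hQ : ∀ c : ℝ, HasDerivAt (fun t : ℝ => ψ x * (t - x) + (t - x) ^ 2 / (2 * h))
      (ψ x + (c - x) / h) c := by
    intro c
    have h0 : HasDerivAt (fun t : ℝ => t - x) 1 c := (hasDerivAt_id c).sub_const x
    have h1 : HasDerivAt (fun t : ℝ => (t - x) ^ 2) (2 * (c - x)) c := ls4_sq _ c
    exact ((h0.const_mul (ψ x)).add (h1.div_const (2 * h))).congr_deriv (by field_simp)
  have F1 : ∀ s t, x ≤ s → s ≤ t →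
      (ψ x * (t - x) - 2 / R * (t - x) ^ 2) - (ψ x * (s - x) - 2 / R * (s - x) ^ 2) ≤ Φ t - Φ s :=
    fun s t hs hst => ls4_le_of_deriv_le hst (fun c _ => hQt c) (fun c _ => hΦ c)
      (fun c hc => by linarith [hLip x c (hs.trans hc.1)])
  have F2 : ∀ s t, s ≤ t → t ≤ x →
      Φ t - Φ s ≤ (ψ x * (t - x) - 2 / R * (t - x) ^ 2) - (ψ x * (s - x) - 2 / R * (s - x) ^ 2) :=
    fun s t hst ht => ls4_le_of_deriv_le hst (fun c _ => hΦ c) (fun c _ => hQt c)
      (fun c hc => by linarith [hLip c x (hc.2.trans ht)])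
  have hsq : 0 ≤ 2 / R * (y - x) ^ 2 := by positivity
  split_ifs with hx
  · obtain ⟨hx1, hx2⟩ := abs_le.1 hx
    have hψlin : ∀ c ∈ Icc (x - h) (x + h), ψ c = ψ x + (c - x) / h := by
      intro c hc
      rw [hlin c ⟨by linarith [hc.1], by linarith [hc.2]⟩, hlin x ⟨by linarith, by linarith⟩]
      field_simp
      ring
    have F3 : ∀ s t, x - h ≤ s → s ≤ t → t ≤ x + h →
        (ψ x * (t - x) + (t - x) ^ 2 / (2 * h)) - (ψ x * (s - x) + (s - x) ^ 2 / (2 * h)) ≤ Φ t - Φ s :=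
      fun s t hs hst ht => ls4_le_of_deriv_le hst (fun c _ => hQ c) (fun c _ => hΦ c)
        (fun c hc => (hψlin c ⟨hs.trans hc.1, hc.2.trans ht⟩).ge)
    have F4 : ∀ s t, x - h ≤ s → s ≤ t → t ≤ x + h →
        Φ t - Φ s ≤ (ψ x * (t - x) + (t - x) ^ 2 / (2 * h)) - (ψ x * (s - x) + (s - x) ^ 2 / (2 * h)) :=
      fun s t hs hst ht => ls4_le_of_deriv_le hst (fun c _ => hΦ c) (fun c _ => hQ c)
        (fun c hc => (hψlin c ⟨hs.trans hc.1, hc.2.trans ht⟩).le)
    have hm1 : min ((y - x) ^ 2) (h ^ 2) / (2 * h) ≤ (y - x) ^ 2 / (2 * h) :=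
      div_le_div_of_nonneg_right (min_le_left _ _) (by positivity)
    have hm2 : min ((y - x) ^ 2) (h ^ 2) / (2 * h) ≤ h / 2 := by
      have : min ((y - x) ^ 2) (h ^ 2) / (2 * h) ≤ h ^ 2 / (2 * h) :=
        div_le_div_of_nonneg_right (min_le_right _ _) (by positivity)
      have e : h ^ 2 / (2 * h) = h / 2 := by field_simp
      linarith
    have hh2 : 0 ≤ 2 / R * h ^ 2 := by positivity
    rcases le_total x y with hxy | hxy
    · rcases le_total y (x + h) with hy | hy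
      · have := F3 x y (by linarith) hxy hy
        simp only [sub_self] at this
        norm_num at this
        linarith
      · have h1 := F3 x (x + h) (by linarith) (by linarith) le_rfl
        have h2 := F1 (x + h) y (by linarith) hy
        have e : (x + h - x) = h := by ring
        simp only [sub_self, e] at h1 h2
        have e2 : h ^ 2 / (2 * h) = h / 2 := by field_simp
        rw [e2] at h1
        norm_num at h1
        nlinarith
    · rcases le_total (x - h) y with hy | hy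
      · have := F4 y x hy hxy (by linarith)
        simp only [sub_self] at this
        norm_num at this
        linarith
      · have h1 := F4 (x - h) x le_rfl (by linarith) (by linarith)
        have h2 := F2 y (x - h) hy (by linarith)
        have e : (x - h - x) = -h := by ring
        simp only [sub_self, e] at h1 h2
        have e2 : (-h) ^ 2 / (2 * h) = h / 2 := by field_simp
        rw [e2] at h1
        norm_num at h1
        nlinarith
  · rw [add_zero]
    rcases le_total x y with hxy | hxy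
    · have := F1 x y le_rfl hxy
      simp only [sub_self] at this
      norm_num at this
      linarith
    · have := F2 y x hxy le_rfl
      simp only [sub_self] at this
      norm_num at this
      linarith

/-- the pointwise inequality behind `dbl` -/
theorem ls4_pt {a₀ A₀ ζ h m : ℝ} (hh : 0 < h) (hm : 0 ≤ m) (hA : |A₀| ≤ h / 3) (haA : a₀ ≤ A₀)
    (hζ : |ζ| ≤ h / 2) :
    4 * m / 3 * |a₀ - ζ| ≤ (if |a₀| ≤ h then min ((ζ - a₀) ^ 2) (h ^ 2) else 0) + m ^ 2
      + 9 * m / (2 * h) * (A₀ - a₀) ^ 2 := by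
  obtain ⟨hA1, hA2⟩ := abs_le.1 hA
  obtain ⟨hζ1, hζ2⟩ := abs_le.1 hζ
  have hd0 : 0 ≤ |a₀ - ζ| := abs_nonneg _
  have hK : 0 ≤ 9 * m / (2 * h) * (A₀ - a₀) ^ 2 := by positivity
  split_ifs with hx
  · obtain ⟨hx1, hx2⟩ := abs_le.1 hx
    have hd : |a₀ - ζ| ≤ 3 * h / 2 := abs_le.2 ⟨by linarith, by linarith⟩
    have e : (ζ - a₀) ^ 2 = |a₀ - ζ| ^ 2 := by rw [sq_abs]; ring
    have h1 : 4 * m / 3 * |a₀ - ζ| - m ^ 2 ≤ min ((ζ - a₀) ^ 2) (h ^ 2) := by
      rw [e]
      refine le_min ?_ ?_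
      · nlinarith [sq_nonneg (|a₀ - ζ| - m), mul_nonneg hm hd0]
      · have : m * |a₀ - ζ| ≤ m * (3 * h / 2) := mul_le_mul_of_nonneg_left hd hm
        nlinarith [sq_nonneg (h - m)]
    linarith
  · rw [not_le] at hx
    have hlt : a₀ < -h := by
      rcases lt_abs.1 hx with h1 | h1
      · linarith
      · linarith
    set e := A₀ - a₀ with he
    have he1 : 2 * h / 3 ≤ e := by linarith
    have hd : |a₀ - ζ| ≤ 9 / 4 * e := abs_le.2 ⟨by linarith, by linarith⟩
    have he2 : e ≤ 3 / (2 * h) * e ^ 2 := by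
      have : 3 / (2 * h) * e ^ 2 = e * (3 * e / (2 * h)) := by field_simp
      rw [this]
      have h1 : 1 ≤ 3 * e / (2 * h) := by rw [le_div_iff₀ (by positivity)]; linarith
      have h0 : 0 ≤ e := by linarith
      nlinarith
    have h3 : m * |a₀ - ζ| ≤ m * (9 / 4 * e) := mul_le_mul_of_nonneg_left hd hm
    have h4 : m * e ≤ m * (3 / (2 * h) * e ^ 2) := mul_le_mul_of_nonneg_left he2 hm
    have e5 : 9 * m / (2 * h) * e ^ 2 = 3 * (m * (3 / (2 * h) * e ^ 2)) := by field_simp; ring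
    rw [e5]
    nlinarith [sq_nonneg m]

theorem ls4_dbl {X : Type} [MeasurableSpace X] (μ : Measure X) [IsProbabilityMeasure μ] (a A : X → ℝ) (ha : Measurable a)
    (hA : Measurable A) (h c₂ E : ℝ) (hh : 0 < h) (hc : 0 < c₂) (hA3 : ∀ᵐ x ∂μ, |A x| ≤ h / 3) (haA : ∀ᵐ x ∂μ, a x ≤ A x)
    (hE : ∫⁻ x, ENNReal.ofReal ((A x - a x) ^ 2) ∂μ ≤ ENNReal.ofReal E)
    (hosc : ∀ ζ : ℝ, ENNReal.ofReal c₂ ≤ ∫⁻ x, ENNReal.ofReal |a x - ζ| ∂μ)
    (hE1 : 16 * E ≤ c₂ * h) (hE2 : 72 * E ≤ h ^ 2) :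
    ENNReal.ofReal (c₂ ^ 2 / 8) ≤
      ∫⁻ x, ∫⁻ y, ENNReal.ofReal (if |a x| ≤ h then min ((a y - a x) ^ 2) (h ^ 2) else 0) ∂μ ∂μ := by
  have hme : Measurable fun x => ENNReal.ofReal ((A x - a x) ^ 2) :=
    ENNReal.measurable_ofReal.comp ((hA.sub ha).pow_const 2)
  have hF0 : ∀ (x : X) (ζ : ℝ), 0 ≤ (if |a x| ≤ h then min ((ζ - a x) ^ 2) (h ^ 2) else 0) := by
    intro x ζ
    split_ifs
    · exact le_min (sq_nonneg _) (sq_nonneg _)
    · exact le_rfl
  -- Step B
  have hB : ∀ ζ : ℝ, |ζ| ≤ h / 2 → ENNReal.ofReal (c₂ ^ 2 / 4) ≤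
      ∫⁻ x, ENNReal.ofReal (if |a x| ≤ h then min ((ζ - a x) ^ 2) (h ^ 2) else 0) ∂μ := by
    intro ζ hζ
    set m : ℝ := c₂ / 2 with hm
    have hm0 : 0 ≤ m := by positivity
    set K : ℝ := 9 * m / (2 * h) with hK
    have hK0 : 0 ≤ K := by positivity
    have h1 : ∫⁻ x, ENNReal.ofReal (4 * m / 3) * ENNReal.ofReal |a x - ζ| ∂μ ≤
        ∫⁻ x, (ENNReal.ofReal (if |a x| ≤ h then min ((ζ - a x) ^ 2) (h ^ 2) else 0)
          + (ENNReal.ofReal (m ^ 2) + ENNReal.ofReal K * ENNReal.ofReal ((A x - a x) ^ 2))) ∂μ := by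
      refine lintegral_mono_ae ?_
      filter_upwards [hA3, haA] with x hx1 hx2
      rw [← ENNReal.ofReal_mul (by positivity), ← ENNReal.ofReal_mul hK0,
        ← ENNReal.ofReal_add (sq_nonneg _) (by positivity),
        ← ENNReal.ofReal_add (hF0 x ζ) (by positivity)]
      apply ENNReal.ofReal_le_ofReal
      have := ls4_pt hh hm0 hx1 hx2 hζ
      linarith
    have hmg : Measurable fun x => ENNReal.ofReal (m ^ 2)
        + ENNReal.ofReal K * ENNReal.ofReal ((A x - a x) ^ 2) :=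
      measurable_const.add (hme.const_mul _)
    rw [lintegral_const_mul' _ _ ENNReal.ofReal_ne_top,
      lintegral_add_right _ hmg,
      lintegral_add_left measurable_const, lintegral_const, measure_univ, mul_one,
      lintegral_const_mul' _ _ ENNReal.ofReal_ne_top] at h1
    have h2 : ENNReal.ofReal (4 * m / 3 * c₂) ≤
        ENNReal.ofReal (4 * m / 3) * ∫⁻ x, ENNReal.ofReal |a x - ζ| ∂μ := by
      rw [ENNReal.ofReal_mul (by positivity)]
      exact mul_le_mul_right (hosc ζ) _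
    have h3 : ENNReal.ofReal (m ^ 2) + ENNReal.ofReal K * ∫⁻ x, ENNReal.ofReal ((A x - a x) ^ 2) ∂μ
        ≤ ENNReal.ofReal (25 * c₂ ^ 2 / 64) := by
      have h4 : ENNReal.ofReal K * ∫⁻ x, ENNReal.ofReal ((A x - a x) ^ 2) ∂μ
          ≤ ENNReal.ofReal (9 * c₂ ^ 2 / 64) := by
        refine (mul_le_mul_right hE _).trans ?_
        rw [← ENNReal.ofReal_mul hK0]
        apply ENNReal.ofReal_le_ofReal
        have h5 : K * E ≤ K * (c₂ * h / 16) := mul_le_mul_of_nonneg_left (by linarith) hK0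
        have h6 : K * (c₂ * h / 16) = 9 * c₂ ^ 2 / 64 := by
          rw [hK, hm]; field_simp; ring
        linarith
      refine (add_le_add le_rfl h4).trans ?_
      rw [← ENNReal.ofReal_add (sq_nonneg _) (by positivity)]
      apply ENNReal.ofReal_le_ofReal
      rw [hm]
      apply le_of_eq
      ring
    have h7 := h2.trans (h1.trans (add_le_add le_rfl h3))
    have h8 : ENNReal.ofReal (c₂ ^ 2 / 4) ≤ ENNReal.ofReal (4 * m / 3 * c₂ - 25 * c₂ ^ 2 / 64) := by
      apply ENNReal.ofReal_le_ofReal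
      rw [hm]
      nlinarith [sq_nonneg c₂]
    refine h8.trans ?_
    rw [ENNReal.ofReal_sub _ (by positivity)]
    exact tsub_le_iff_right.2 h7
  -- Step C
  have hC : ∀ᵐ y ∂μ, ENNReal.ofReal (c₂ ^ 2 / 4) ≤
      (∫⁻ x, ENNReal.ofReal (if |a x| ≤ h then min ((a y - a x) ^ 2) (h ^ 2) else 0) ∂μ)
        + ENNReal.ofReal (9 * c₂ ^ 2 / h ^ 2) * ENNReal.ofReal ((A y - a y) ^ 2) := by
    filter_upwards [hA3, haA] with y hy1 hy2
    by_cases hy : |a y| ≤ h / 2
    · exact (hB (a y) hy).trans le_self_add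
    · refine le_trans ?_ le_add_self
      rw [← ENNReal.ofReal_mul (by positivity)]
      apply ENNReal.ofReal_le_ofReal
      rw [not_le] at hy
      obtain ⟨hA1, hA2⟩ := abs_le.1 hy1
      have hlt : a y < -(h / 2) := by
        rcases lt_abs.1 hy with h1 | h1
        · linarith
        · linarith
      have he : h / 6 ≤ A y - a y := by linarith
      have he2 : (h / 6) ^ 2 ≤ (A y - a y) ^ 2 := pow_le_pow_left₀ (by positivity) he 2
      have h9 : 9 * c₂ ^ 2 / h ^ 2 * (h / 6) ^ 2 ≤ 9 * c₂ ^ 2 / h ^ 2 * (A y - a y) ^ 2 :=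
        mul_le_mul_of_nonneg_left he2 (by positivity)
      have e : 9 * c₂ ^ 2 / h ^ 2 * (h / 6) ^ 2 = c₂ ^ 2 / 4 := by field_simp; ring
      linarith
  -- Step D
  have hD : ENNReal.ofReal (c₂ ^ 2 / 4) ≤
      (∫⁻ y, ∫⁻ x, ENNReal.ofReal (if |a x| ≤ h then min ((a y - a x) ^ 2) (h ^ 2) else 0) ∂μ ∂μ)
        + ENNReal.ofReal (c₂ ^ 2 / 8) := by
    have h1 := lintegral_mono_ae hC
    rw [lintegral_const, measure_univ, mul_one, lintegral_add_right _ (hme.const_mul _),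
      lintegral_const_mul' _ _ ENNReal.ofReal_ne_top] at h1
    refine h1.trans (add_le_add le_rfl ?_)
    refine (mul_le_mul_right hE _).trans ?_
    rw [← ENNReal.ofReal_mul (by positivity)]
    apply ENNReal.ofReal_le_ofReal
    have h5 : 9 * c₂ ^ 2 / h ^ 2 * E ≤ 9 * c₂ ^ 2 / h ^ 2 * (h ^ 2 / 72) :=
      mul_le_mul_of_nonneg_left (by linarith) (by positivity)
    have h6 : 9 * c₂ ^ 2 / h ^ 2 * (h ^ 2 / 72) = c₂ ^ 2 / 8 := by field_simp; ring
    linarith
  have hswap : ∫⁻ x, ∫⁻ y, ENNReal.ofReal (if |a x| ≤ h then min ((a y - a x) ^ 2) (h ^ 2) else 0) ∂μ ∂μ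
      = ∫⁻ y, ∫⁻ x, ENNReal.ofReal (if |a x| ≤ h then min ((a y - a x) ^ 2) (h ^ 2) else 0) ∂μ ∂μ := by
    refine lintegral_lintegral_swap (Measurable.aemeasurable ?_)
    refine ENNReal.measurable_ofReal.comp ?_
    refine Measurable.ite ?_ ?_ measurable_const
    · exact measurableSet_le (ha.comp measurable_fst).abs measurable_const
    · exact (((ha.comp measurable_snd).sub (ha.comp measurable_fst)).pow_const 2).min measurable_const
  rw [hswap]
  have e : ENNReal.ofReal (c₂ ^ 2 / 4) = ENNReal.ofReal (c₂ ^ 2 / 8) + ENNReal.ofReal (c₂ ^ 2 / 8) := by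
    rw [← ENNReal.ofReal_add (by positivity) (by positivity)]
    congr 1
    ring
  rw [e] at hD
  exact (ENNReal.add_le_add_iff_right ENNReal.ofReal_ne_top).1 hD

end Claimed.Agent.R269.LS
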