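/-
Row 269, library for P1 Sections 10-11.  Package LF-Mart-1 (helper53): proofs of `ville`, `ville_mean`, `logdef`,
`bddBelow_of_bddAbove` of `Lib/Mart.lean`, same statements, names `mrt1_*`.  Imports only `Lib/Chain`.
-/
import Claimed.Agent.R269.Lib.Chain

set_option autoImplicit false

namespace Claimed.Agent.R269.Chn

open MeasureTheory Set Finset Filter Topology

variable {Ξ : Type} [MeasurableSpace Ξ] (ν : Measure Ξ) [IsProbabilityMeasure ν]

/-- the frozen process is the process at some earlier alive time -/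
theorem mrt1_frz_eq {E : Type} (A : ℕ → Om Ξ → Prop) (X : ℕ → Om Ξ → E) (N : ℕ) (ω : Om Ξ) :
    ∃ m, m ≤ N ∧ Alive A m ω ∧ frz A X N ω = X m ω := by
  classical
  induction N with
  | zero => exact ⟨0, le_rfl, fun i hi => absurd hi (Nat.not_lt_zero i), rfl⟩
  | succ N ih =>
    by_cases ha : Alive A (N + 1) ω
    · exact ⟨N + 1, le_rfl, ha, frz_of_alive A X (N + 1) ω ha⟩
    · obtain ⟨m, hm, h1, h2⟩ := ih
      refine ⟨m, by omega, h1, ?_⟩
      rw [chn_frz_succ, if_neg ha, h2]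

/-- after the first failure the frozen process does not move -/
theorem mrt1_frz_stopped {E : Type} (A : ℕ → Om Ξ → Prop) (X : ℕ → Om Ξ → E) (n N : ℕ) (hnN : n ≤ N) (ω : Om Ξ)
    (h1 : Alive A n ω) (h2 : ¬ A n ω) : frz A X N ω = X n ω := by
  classical
  induction N, hnN using Nat.le_induction with
  | base => exact frz_of_alive A X n ω h1
  | succ N hN ih =>
    have : ¬ Alive A (N + 1) ω := fun h => h2 (h n (by omega))
    rw [chn_frz_succ, if_neg this, ih]

theorem mrt1_ville_fin (A : ℕ → Om Ξ → Prop) (hA : Cut A) (X : ℕ → Om Ξ → ℝ) (hX : Proc X)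
    (hs : ∀ n ω, Alive A (n + 1) ω → stp ν n (X (n + 1)) ω ≤ X n ω)
    (h0 : ∀ n ω, Alive A n ω → 0 ≤ X n ω) (lam : ℝ) (hl : 0 < lam) (N : ℕ) :
    (Pr ν).real {ω | ∃ n, n ≤ N ∧ Alive A n ω ∧ lam ≤ X n ω} ≤ (∫ ω, X 0 ω ∂(Pr ν)) / lam := by
  classical
  set A' : ℕ → Om Ξ → Prop := fun n ω => A n ω ∧ X n ω < lam with hA'
  have hcut : Cut A' := by
    refine ⟨fun n => ?_, fun n ω ω' h => ?_⟩
    · exact (hA.meas n).inter (measurableSet_lt (hX.meas n) measurable_const)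
    · simp only [hA']
      rw [hA.reads n ω ω' h, hX.reads n ω ω' h]
  have hal : ∀ n ω, Alive A' n ω → Alive A n ω := fun n ω h i hi => (h i hi).1
  have hF := proc_frz A' hcut X hX
  have hint := integral_frz_le ν A' hcut X hX (fun n ω h => hs n ω (hal _ _ h)) N
  have hnn : ∀ ω, 0 ≤ frz A' X N ω := by
    intro ω
    obtain ⟨m, -, h1, h2⟩ := mrt1_frz_eq A' X N ω
    rw [h2]
    exact h0 m ω (hal _ _ h1)
  have hmk := mul_meas_ge_le_integral_of_nonneg (μ := Pr ν) (f := frz A' X N)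
    (Filter.Eventually.of_forall hnn) (chn_proc_integrable ν _ hF N) lam
  have hsub : {ω | ∃ n, n ≤ N ∧ Alive A n ω ∧ lam ≤ X n ω} ⊆ {ω | lam ≤ frz A' X N ω} := by
    rintro ω ⟨n, hnN, hn⟩
    have hex : ∃ n, Alive A n ω ∧ lam ≤ X n ω := ⟨n, hn⟩
    have hmin := Nat.find_spec hex
    have hle : Nat.find hex ≤ n := Nat.find_min' hex hn
    have halive : Alive A' (Nat.find hex) ω := by
      intro i hi
      refine ⟨hmin.1 i hi, ?_⟩
      by_contra hcon
      exact Nat.find_min hex hi ⟨fun j hj => hmin.1 j (hj.trans hi), not_lt.mp hcon⟩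
    have hfail : ¬ A' (Nat.find hex) ω := fun h => absurd h.2 (not_lt.mpr hmin.2)
    show lam ≤ frz A' X N ω
    rw [mrt1_frz_stopped A' X (Nat.find hex) N (hle.trans hnN) ω halive hfail]
    exact hmin.2
  rw [le_div_iff₀ hl, mul_comm]
  calc lam * (Pr ν).real {ω | ∃ n, n ≤ N ∧ Alive A n ω ∧ lam ≤ X n ω}
      ≤ lam * (Pr ν).real {ω | lam ≤ frz A' X N ω} :=
        mul_le_mul_of_nonneg_left (measureReal_mono hsub) hl.le
    _ ≤ ∫ ω, frz A' X N ω ∂(Pr ν) := hmk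
    _ ≤ _ := hint

/-- a bound for all members of an increasing sequence of sets is a bound for the union -/
theorem mrt1_real_iUnion_le {α : Type} [MeasurableSpace α] (μ : Measure α) [IsFiniteMeasure μ] (s : ℕ → Set α)
    (hm : Monotone s) (c : ℝ) (h : ∀ N, μ.real (s N) ≤ c) : μ.real (⋃ N, s N) ≤ c := by
  have ht := tendsto_measure_iUnion_atTop (μ := μ) hm
  have ht' : Tendsto (fun N => μ.real (s N)) atTop (𝓝 (μ.real (⋃ N, s N))) :=
    (ENNReal.tendsto_toReal (measure_ne_top μ _)).comp ht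
  exact le_of_tendsto' ht' h

/-- Ville's inequality, mean form. -/
theorem mrt1_ville_mean (A : ℕ → Om Ξ → Prop) (hA : Cut A) (X : ℕ → Om Ξ → ℝ) (hX : Proc X)
    (hs : ∀ n ω, Alive A (n + 1) ω → stp ν n (X (n + 1)) ω ≤ X n ω)
    (h0 : ∀ n ω, Alive A n ω → 0 ≤ X n ω) (lam : ℝ) (hl : 0 < lam) :
    (Pr ν).real {ω | ∃ n, Alive A n ω ∧ lam ≤ X n ω} ≤ (∫ ω, X 0 ω ∂(Pr ν)) / lam := by
  have hU : {ω | ∃ n, Alive A n ω ∧ lam ≤ X n ω} = ⋃ N : ℕ, {ω | ∃ n, n ≤ N ∧ Alive A n ω ∧ lam ≤ X n ω} := by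
    ext ω
    simp only [Set.mem_ofPred_eq, Set.mem_iUnion]
    constructor
    · rintro ⟨n, hn⟩; exact ⟨n, n, le_rfl, hn⟩
    · rintro ⟨N, n, -, hn⟩; exact ⟨n, hn⟩
  rw [hU]
  refine mrt1_real_iUnion_le _ _ ?_ _ (mrt1_ville_fin ν A hA X hX hs h0 lam hl)
  intro N N' hNN' ω
  rintro ⟨n, hn, h⟩
  exact ⟨n, hn.trans hNN', h⟩

/-- **Ville.** -/
theorem mrt1_ville (A : ℕ → Om Ξ → Prop) (hA : Cut A) (X : ℕ → Om Ξ → ℝ) (hX : Proc X)
    (hs : ∀ n ω, Alive A (n + 1) ω → stp ν n (X (n + 1)) ω ≤ X n ω)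
    (h0 : ∀ n ω, Alive A n ω → 0 ≤ X n ω) (δ lam : ℝ) (hδ : 0 ≤ δ) (hl : 0 < lam) :
    (Pr ν).real {ω | ∃ m n, m ≤ n ∧ Alive A n ω ∧ X m ω ≤ δ ∧ lam ≤ X n ω} ≤ δ / lam := by
  classical
  set S : ℕ → Om Ξ → Prop := fun n ω => ∃ m, m ≤ n ∧ X m ω ≤ δ with hS
  have hSm : ∀ n, MeasurableSet {ω | S n ω} := by
    intro n
    have : {ω | S n ω} = ⋃ m ∈ Finset.range (n + 1), {ω | X m ω ≤ δ} := by
      ext ω
      simp only [hS, Set.mem_ofPred_eq, Set.mem_iUnion, Finset.mem_range, exists_prop, Nat.lt_succ_iff]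
    rw [this]
    exact Finset.measurableSet_biUnion _ fun m _ => measurableSet_le (hX.meas m) measurable_const
  have hSr : ∀ n, Reads n (S n) := by
    intro n ω ω' h
    simp only [hS]
    apply propext
    constructor
    · rintro ⟨m, hm, hx⟩
      exact ⟨m, hm, by rwa [← hX.reads m ω ω' fun i hi => h i (hi.trans hm)]⟩
    · rintro ⟨m, hm, hx⟩
      exact ⟨m, hm, by rwa [hX.reads m ω ω' fun i hi => h i (hi.trans hm)]⟩
  set Y : ℕ → Om Ξ → ℝ := fun n ω => if S n ω then X n ω else δ with hY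
  have hYp : Proc Y := by
    refine ⟨fun n => Measurable.ite (hSm n) (hX.meas n) measurable_const, fun n ω ω' h => ?_, fun n => ?_⟩
    · simp only [hY]
      have e1 : S n ω = S n ω' := hSr n ω ω' h
      by_cases hsn : S n ω
      · rw [if_pos hsn, if_pos (e1 ▸ hsn), hX.reads n ω ω' h]
      · rw [if_neg hsn, if_neg (e1 ▸ hsn)]
    · obtain ⟨C, hC⟩ := hX.bdd n
      refine ⟨max C δ, fun ω => ?_⟩
      simp only [hY]
      split_ifs
      · exact (hC ω).trans (le_max_left _ _)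
      · rw [Real.norm_eq_abs, abs_of_nonneg hδ]; exact le_max_right _ _
  have hYs : ∀ n ω, Alive A (n + 1) ω → stp ν n (Y (n + 1)) ω ≤ Y n ω := by
    intro n ω ha
    by_cases hsn : S n ω
    · have h1 : ∀ ξ, Y (n + 1) (Function.update ω (n + 1) ξ) = X (n + 1) (Function.update ω (n + 1) ξ) := by
        intro ξ
        have : S (n + 1) (Function.update ω (n + 1) ξ) := by
          have h2 : S n (Function.update ω (n + 1) ξ) := by
            rw [chn_reads_update n _ (hSr n) ω ξ]; exact hsn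
          obtain ⟨m, hm, hx⟩ := h2
          exact ⟨m, by omega, hx⟩
        simp only [hY, if_pos this]
      have h3 : stp ν n (Y (n + 1)) ω = stp ν n (X (n + 1)) ω := by
        unfold stp
        simp only [h1]
      rw [h3]
      simp only [hY, if_pos hsn]
      exact hs n ω ha
    · have h1 : ∀ ξ, Y (n + 1) (Function.update ω (n + 1) ξ) ≤ δ := by
        intro ξ
        simp only [hY]
        split_ifs with h
        · obtain ⟨m, hm, hx⟩ := h
          rcases Nat.lt_or_ge m (n + 1) with hlt | hge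
          · exfalso
            apply hsn
            have h2 : S n (Function.update ω (n + 1) ξ) := ⟨m, by omega, hx⟩
            rwa [chn_reads_update n _ (hSr n) ω ξ] at h2
          · have : m = n + 1 := by omega
            subst this
            exact hx
        · exact le_rfl
      simp only [hY, if_neg hsn] at h1 ⊢
      unfold stp
      have hi : Integrable (fun ξ => Y (n + 1) (Function.update ω (n + 1) ξ)) ν := by
        refine chn_integrable _ _ ((hYp.meas (n + 1)).comp (measurable_update ω)) ?_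
        obtain ⟨C, hC⟩ := hYp.bdd (n + 1)
        exact ⟨C, fun ξ => by simpa using hC _⟩
      calc ∫ ξ, Y (n + 1) (Function.update ω (n + 1) ξ) ∂ν ≤ ∫ _ξ, δ ∂ν :=
            integral_mono hi (integrable_const _) h1
        _ = δ := by simp
  have hY0 : ∀ n ω, Alive A n ω → 0 ≤ Y n ω := by
    intro n ω ha
    simp only [hY]
    split_ifs
    · exact h0 n ω ha
    · exact hδ
  have hv := mrt1_ville_mean ν A hA Y hYp hYs hY0 lam hl
  have hsub : {ω | ∃ m n, m ≤ n ∧ Alive A n ω ∧ X m ω ≤ δ ∧ lam ≤ X n ω} ⊆ {ω | ∃ n, Alive A n ω ∧ lam ≤ Y n ω} := by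
    rintro ω ⟨m, n, hmn, ha, hx, hl'⟩
    refine ⟨n, ha, ?_⟩
    have : S n ω := ⟨m, hmn, hx⟩
    simp only [hY, if_pos this]
    exact hl'
  have hI : ∫ ω, Y 0 ω ∂(Pr ν) ≤ δ := by
    calc ∫ ω, Y 0 ω ∂(Pr ν) ≤ ∫ _ω, δ ∂(Pr ν) := by
          refine integral_mono (chn_proc_integrable ν Y hYp 0) (integrable_const _) fun ω => ?_
          simp only [hY]
          split_ifs with h
          · obtain ⟨m, hm, hx⟩ := h
            have : m = 0 := by omega
            subst this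
            exact hx
          · exact le_rfl
      _ = δ := by simp
  calc _ ≤ (Pr ν).real {ω | ∃ n, Alive A n ω ∧ lam ≤ Y n ω} := measureReal_mono hsub
    _ ≤ (∫ ω, Y 0 ω ∂(Pr ν)) / lam := hv
    _ ≤ δ / lam := div_le_div_of_nonneg_right hI hl.le

theorem mrt1_stp_const_sub (n : ℕ) (c : ℝ) (f : Om Ξ → ℝ) (hf : Measurable f) (hb : ∃ C : ℝ, ∀ ω, |f ω| ≤ C)
    (ω : Om Ξ) : stp ν n (fun ω' => c - f ω') ω = c - stp ν n f ω := by
  unfold stp
  have hi : Integrable (fun ξ => f (Function.update ω (n + 1) ξ)) ν := by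
    refine chn_integrable _ _ (hf.comp (measurable_update ω)) ?_
    obtain ⟨C, hC⟩ := hb
    exact ⟨C, fun ξ => hC _⟩
  rw [integral_sub (integrable_const _) hi]
  simp

/-- **Logarithmic deficit** (P1 Lemma 10.5). -/
theorem mrt1_logdef (A : ℕ → Om Ξ → Prop) (hA : Cut A) (u : ℕ → Om Ξ → ℝ) (hu : Proc u)
    (hs : ∀ n ω, Alive A (n + 1) ω → u n ω ≤ stp ν n (u (n + 1)) ω) (κ B0 B1 C0 : ℝ) (hκ : 0 ≤ κ)
    (hk : ∀ n ω, Alive A (n + 1) ω → u (n + 1) ω ≤ u n ω + κ)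
    (h0 : ∀ ω, -C0 ≤ u 0 ω) (h0' : ∀ ω, u 0 ω ≤ B0) (hB : 0 < B0 + κ + B1) :
    (Pr ν).real {ω | ∃ n, Alive A n ω ∧ (∀ i, i < n → u i ω ≤ B0) ∧ u n ω ≤ -B1}
      ≤ (B0 + κ + C0) / (B0 + κ + B1) := by
  classical
  set A' : ℕ → Om Ξ → Prop := fun n ω => A n ω ∧ u n ω ≤ B0 with hA'
  have hcut : Cut A' := by
    refine ⟨fun n => ?_, fun n ω ω' h => ?_⟩
    · exact (hA.meas n).inter (measurableSet_le (hu.meas n) measurable_const)
    · simp only [hA']
      rw [hA.reads n ω ω' h, hu.reads n ω ω' h]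
  have hal : ∀ n ω, Alive A' n ω → Alive A n ω := fun n ω h i hi => (h i hi).1
  set X : ℕ → Om Ξ → ℝ := fun n ω => B0 + κ - u n ω with hX
  have hXp : Proc X := by
    refine ⟨fun n => measurable_const.sub (hu.meas n), fun n ω ω' h => ?_, fun n => ?_⟩
    · simp only [hX]; rw [hu.reads n ω ω' h]
    · obtain ⟨C, hC⟩ := hu.bdd n
      refine ⟨‖B0 + κ‖ + C, fun ω => ?_⟩
      simp only [hX]
      exact (norm_sub_le _ _).trans (by gcongr; exact hC ω)
  have hXs : ∀ n ω, Alive A' (n + 1) ω → stp ν n (X (n + 1)) ω ≤ X n ω := by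
    intro n ω ha
    have := mrt1_stp_const_sub ν n (B0 + κ) (u (n + 1)) (hu.meas (n + 1)) (chn_proc_bdd u hu (n + 1)) ω
    simp only [hX]
    rw [this]
    have := hs n ω (hal _ _ ha)
    linarith
  have hX0 : ∀ n ω, Alive A' n ω → 0 ≤ X n ω := by
    intro n ω ha
    simp only [hX]
    cases n with
    | zero => have := h0' ω; linarith
    | succ k =>
      have h1 := hk k ω (hal _ _ ha)
      have h2 := (ha k (Nat.lt_succ_self k)).2
      linarith
  have hv := mrt1_ville_mean ν A' hcut X hXp hXs hX0 (B0 + κ + B1) hB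
  have hsub : {ω | ∃ n, Alive A n ω ∧ (∀ i, i < n → u i ω ≤ B0) ∧ u n ω ≤ -B1}
      ⊆ {ω | ∃ n, Alive A' n ω ∧ B0 + κ + B1 ≤ X n ω} := by
    rintro ω ⟨n, ha, hb, hc⟩
    refine ⟨n, fun i hi => ⟨ha i hi, hb i hi⟩, ?_⟩
    simp only [hX]
    linarith
  have hI : ∫ ω, X 0 ω ∂(Pr ν) ≤ B0 + κ + C0 := by
    calc ∫ ω, X 0 ω ∂(Pr ν) ≤ ∫ _ω, (B0 + κ + C0) ∂(Pr ν) := by
          refine integral_mono (chn_proc_integrable ν X hXp 0) (integrable_const _) fun ω => ?_
          simp only [hX]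
          have := h0 ω
          linarith
      _ = B0 + κ + C0 := by simp
  calc _ ≤ (Pr ν).real {ω | ∃ n, Alive A' n ω ∧ B0 + κ + B1 ≤ X n ω} := measureReal_mono hsub
    _ ≤ (∫ ω, X 0 ω ∂(Pr ν)) / (B0 + κ + B1) := hv
    _ ≤ _ := div_le_div_of_nonneg_right hI hB.le

/-- a submartingale bounded above is a.s. bounded below -/
theorem mrt1_bddBelow_of_bddAbove (A : ℕ → Om Ξ → Prop) (hA : Cut A) (u : ℕ → Om Ξ → ℝ) (hu : Proc u)
    (hs : ∀ n ω, Alive A (n + 1) ω → u n ω ≤ stp ν n (u (n + 1)) ω) (κ B0 : ℝ) (hκ : 0 ≤ κ)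
    (hk : ∀ n ω, Alive A (n + 1) ω → u (n + 1) ω ≤ u n ω + κ) :
    (Pr ν) {ω | (∀ n, A n ω) ∧ (∀ n, u n ω ≤ B0) ∧ ¬ BddBelow (range fun n => u n ω)} = 0 := by
  obtain ⟨C, hC⟩ := chn_proc_bdd u hu 0
  have hC0 : 0 ≤ C := (abs_nonneg _).trans (hC (fun _ => (chn_nonempty ν).some))
  set B := max B0 C with hB
  set E : Set (Om Ξ) := {ω | (∀ n, A n ω) ∧ (∀ n, u n ω ≤ B0) ∧ ¬ BddBelow (range fun n => u n ω)} with hE
  have hBC : 0 ≤ B := hC0.trans (le_max_right _ _)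
  have hbound : ∀ B1 : ℝ, 0 < B1 → (Pr ν).real E ≤ (B + κ + C) / (B + κ + B1) := by
    intro B1 hB1
    have hl := mrt1_logdef ν A hA u hu hs κ B B1 C hκ hk (fun ω => (abs_le.mp (hC ω)).1)
      (fun ω => ((abs_le.mp (hC ω)).2).trans (le_max_right _ _)) (by positivity)
    refine le_trans (measureReal_mono ?_) hl
    rintro ω ⟨h1, h2, h3⟩
    have : ∃ n, u n ω ≤ -B1 := by
      by_contra hcon
      push Not at hcon
      apply h3
      refine ⟨-B1, ?_⟩
      rintro _ ⟨n, rfl⟩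
      exact (hcon n).le
    obtain ⟨n, hn⟩ := this
    exact ⟨n, fun i _ => h1 i, fun i _ => (h2 i).trans (le_max_left _ _), hn⟩
  have hlim : Tendsto (fun B1 : ℝ => (B + κ + C) / (B + κ + B1)) atTop (𝓝 0) := by
    apply Tendsto.div_atTop tendsto_const_nhds
    exact tendsto_atTop_add_const_left _ _ tendsto_id
  have hle : (Pr ν).real E ≤ 0 :=
    ge_of_tendsto hlim ((eventually_gt_atTop 0).mono fun B1 hB1 => hbound B1 hB1)
  have h0 : (Pr ν).real E = 0 := le_antisymm hle measureReal_nonneg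
  rwa [measureReal_eq_zero_iff] at h0

end Claimed.Agent.R269.Chn
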