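/-
Row 269, library for P1 Sections 10-11.  LEAF LF-Mart-2 (prover: helper230): proofs of `l2_sum` and `l2max` of `Lib/Mart.lean`
(`mrt2_l2_sum`, `mrt2_l2max`: same statements), with a self-contained mean form of Ville's inequality (`mrt2_ville_mean`).
HOST-FREE.
-/
import Claimed.Agent.R269.Lib.Chain

set_option autoImplicit false
set_option linter.unusedSectionVars false

namespace Claimed.Agent.R269.Chn

open MeasureTheory Set Finset Filter Topology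

variable {Ξ : Type} [MeasurableSpace Ξ] (ν : Measure Ξ) [IsProbabilityMeasure ν]

/-! ### Ville's inequality, mean form -/

/-- the frozen process is nonnegative -/
theorem mrt2_frz_nonneg (A : ℕ → Om Ξ → Prop) (X : ℕ → Om Ξ → ℝ) (h0 : ∀ n ω, Alive A n ω → 0 ≤ X n ω)
    (n : ℕ) (ω : Om Ξ) : 0 ≤ frz A X n ω := by
  classical
  induction n with
  | zero => exact h0 0 ω fun i hi => absurd hi (Nat.not_lt_zero i)
  | succ n ih =>
    rw [chn_frz_succ]
    by_cases ha : Alive A (n + 1) ω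
    · rw [if_pos ha]; exact h0 _ _ ha
    · rw [if_neg ha]; exact ih

/-- once the level has been reached the process frozen below the level stays above it -/
theorem mrt2_frz_ge (A : ℕ → Om Ξ → Prop) (X : ℕ → Om Ξ → ℝ) (lam : ℝ) (n : ℕ) (ω : Om Ξ)
    (h : ∃ k, k ≤ n ∧ Alive A k ω ∧ lam ≤ X k ω) :
    lam ≤ frz (fun i ω => A i ω ∧ X i ω < lam) X n ω := by
  classical
  induction n with
  | zero =>
    obtain ⟨k, hk, -, hx⟩ := h
    obtain rfl : k = 0 := by omega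
    exact hx
  | succ n ih =>
    rw [chn_frz_succ]
    obtain ⟨k, hk, hal, hx⟩ := h
    by_cases ha : Alive (fun i ω => A i ω ∧ X i ω < lam) (n + 1) ω
    · rw [if_pos ha]
      rcases Nat.lt_or_ge k (n + 1) with hlt | hge
      · exact absurd hx (not_le.2 (ha k hlt).2)
      · obtain rfl : k = n + 1 := by omega
        exact hx
    · rw [if_neg ha]
      apply ih
      rcases Nat.lt_or_ge k (n + 1) with hlt | hge
      · exact ⟨k, by omega, hal, hx⟩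
      · obtain rfl : k = n + 1 := by omega
        obtain ⟨i, hi, hi'⟩ : ∃ i, i < n + 1 ∧ ¬ (A i ω ∧ X i ω < lam) := by
          by_contra hcon
          exact ha fun i hi => by
            by_contra h'
            exact hcon ⟨i, hi, h'⟩
        have hAi : A i ω := hal i hi
        have hxi : lam ≤ X i ω := by
          by_contra hc
          exact hi' ⟨hAi, not_le.1 hc⟩
        exact ⟨i, by omega, fun j hj => hal j (by omega), hxi⟩

/-- Ville's inequality, mean form (same statement as `ville_mean` of `Lib/Mart.lean`). -/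
theorem mrt2_ville_mean (A : ℕ → Om Ξ → Prop) (hA : Cut A) (X : ℕ → Om Ξ → ℝ) (hX : Proc X)
    (hs : ∀ n ω, Alive A (n + 1) ω → stp ν n (X (n + 1)) ω ≤ X n ω)
    (h0 : ∀ n ω, Alive A n ω → 0 ≤ X n ω) (lam : ℝ) (hl : 0 < lam) :
    (Pr ν).real {ω | ∃ n, Alive A n ω ∧ lam ≤ X n ω} ≤ (∫ ω, X 0 ω ∂(Pr ν)) / lam := by
  classical
  set A' : ℕ → Om Ξ → Prop := fun i ω => A i ω ∧ X i ω < lam with hA'def
  have hA' : Cut A' := by
    refine ⟨fun n => ?_, fun n ω ω' h => ?_⟩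
    · exact (hA.meas n).inter (measurableSet_lt (hX.meas n) measurable_const)
    · show (A n ω ∧ X n ω < lam) = (A n ω' ∧ X n ω' < lam)
      rw [hA.reads n ω ω' h, hX.reads n ω ω' h]
  have hal : ∀ n ω, Alive A' n ω → Alive A n ω := fun n ω h i hi => (h i hi).1
  have hF := proc_frz A' hA' X hX
  have hint : ∀ n, ∫ ω, frz A' X n ω ∂(Pr ν) ≤ ∫ ω, X 0 ω ∂(Pr ν) :=
    integral_frz_le ν A' hA' X hX fun n ω h => hs n ω (hal _ _ h)
  have hnn : ∀ n ω, 0 ≤ frz A' X n ω := mrt2_frz_nonneg A' X fun n ω h => h0 n ω (hal _ _ h)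
  have hX0 : 0 ≤ ∫ ω, X 0 ω ∂(Pr ν) :=
    integral_nonneg fun ω => h0 0 ω fun i hi => absurd hi (Nat.not_lt_zero i)
  have hb : 0 ≤ (∫ ω, X 0 ω ∂(Pr ν)) / lam := div_nonneg hX0 hl.le
  set E : ℕ → Set (Om Ξ) := fun n => {ω | ∃ k, k ≤ n ∧ Alive A k ω ∧ lam ≤ X k ω} with hE
  have hEn : ∀ n, (Pr ν).real (E n) ≤ (∫ ω, X 0 ω ∂(Pr ν)) / lam := by
    intro n
    have h1 : E n ⊆ {ω | lam ≤ frz A' X n ω} := fun ω hω => mrt2_frz_ge A X lam n ω hω
    have h2 := mul_meas_ge_le_integral_of_nonneg (μ := Pr ν) (f := frz A' X n)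
      (Filter.Eventually.of_forall (hnn n)) (chn_proc_integrable ν _ hF n) lam
    have h3 : (Pr ν).real (E n) ≤ (Pr ν).real {ω | lam ≤ frz A' X n ω} := measureReal_mono h1
    rw [le_div_iff₀ hl]
    calc (Pr ν).real (E n) * lam ≤ (Pr ν).real {ω | lam ≤ frz A' X n ω} * lam :=
          mul_le_mul_of_nonneg_right h3 hl.le
      _ = lam * (Pr ν).real {ω | lam ≤ frz A' X n ω} := mul_comm _ _
      _ ≤ ∫ ω, frz A' X n ω ∂(Pr ν) := h2
      _ ≤ _ := hint n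
  have hmono : Monotone E := by
    intro m n hmn ω hω
    obtain ⟨k, hk, h⟩ := hω
    exact ⟨k, hk.trans hmn, h⟩
  have hU : {ω | ∃ n, Alive A n ω ∧ lam ≤ X n ω} = ⋃ n, E n := by
    ext ω
    simp only [Set.mem_ofPred_eq, Set.mem_iUnion, hE]
    constructor
    · rintro ⟨n, h⟩
      exact ⟨n, n, le_rfl, h⟩
    · rintro ⟨n, k, -, h⟩
      exact ⟨k, h⟩
  rw [hU]
  refine ENNReal.toReal_le_of_le_ofReal hb ?_
  rw [hmono.measure_iUnion]
  refine iSup_le fun n => ?_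
  rw [← ENNReal.ofReal_toReal (measure_ne_top (Pr ν) (E n))]
  exact ENNReal.ofReal_le_ofReal (hEn n)

/-! ### Orthogonality of one step -/

/-- Pythagoras for one centred step. -/
theorem mrt2_orth (f : Ξ → ℂ) (hf : Measurable f) (hb : ∃ C : ℝ, ∀ ξ, ‖f ξ‖ ≤ C) (m s : ℂ) (c : ℝ)
    (hm : ∫ ξ, f ξ ∂ν = m) :
    ∫ ξ, ‖s + (c : ℂ) * (f ξ - m)‖ ^ 2 ∂ν = ‖s‖ ^ 2 + c ^ 2 * ∫ ξ, ‖f ξ - m‖ ^ 2 ∂ν := by
  obtain ⟨C, hC⟩ := hb
  have hfi : Integrable f ν := Integrable.of_bound hf.aestronglyMeasurable C (Filter.Eventually.of_forall hC)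
  have hgi : Integrable (fun ξ => f ξ - m) ν := hfi.sub (integrable_const m)
  have hg0 : ∫ ξ, (f ξ - m) ∂ν = 0 := by
    rw [integral_sub hfi (integrable_const m), hm]
    simp
  have hsq : Integrable (fun ξ => ‖f ξ - m‖ ^ 2) ν := by
    refine Integrable.of_bound ((hf.sub_const m).norm.pow_const 2).aestronglyMeasurable ((C + ‖m‖) ^ 2)
      (Filter.Eventually.of_forall fun ξ => ?_)
    rw [Real.norm_eq_abs, abs_of_nonneg (by positivity)]
    exact pow_le_pow_left₀ (norm_nonneg _) ((norm_sub_le _ _).trans (by linarith [hC ξ])) 2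
  have hin : Integrable (fun ξ => inner ℝ s (f ξ - m)) ν := hgi.const_inner s
  have hpt : ∀ ξ, ‖s + (c : ℂ) * (f ξ - m)‖ ^ 2 =
      ‖s‖ ^ 2 + 2 * c * inner ℝ s (f ξ - m) + c ^ 2 * ‖f ξ - m‖ ^ 2 := by
    intro ξ
    rw [← Complex.real_smul, norm_add_sq_real, real_inner_smul_right, norm_smul, mul_pow, Real.norm_eq_abs,
      sq_abs]
    ring
  simp only [hpt]
  have hA1 : Integrable (fun ξ => 2 * c * inner ℝ s (f ξ - m)) ν := hin.const_mul _
  have hA2 : Integrable (fun ξ => ‖s‖ ^ 2 + 2 * c * inner ℝ s (f ξ - m)) ν := (integrable_const _).add hA1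
  have hA3 : Integrable (fun ξ => c ^ 2 * ‖f ξ - m‖ ^ 2) ν := hsq.const_mul _
  rw [integral_add hA2 hA3, integral_add (integrable_const _) hA1, integral_const_mul, integral_const_mul,
    integral_inner hgi, hg0]
  simp

/-- measurability of a section of a measurable function along one coordinate -/
theorem mrt2_meas_upd {E : Type} [MeasurableSpace E] (f : Om Ξ → E) (hf : Measurable f) (k : ℕ) (ω : Om Ξ) :
    Measurable fun ξ => f (Function.update ω k ξ) :=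
  hf.comp (measurable_update ω)

/-- **one step**: `s`, `c` known at time `n`, `M` centred at `ω`. -/
theorem mrt2_step (M : ℕ → Om Ξ → ℂ) (hM : Proc M) (n : ℕ) (s : Om Ξ → ℂ) (hs : Reads n s) (c : Om Ξ → ℝ)
    (hc : Reads n c) (ω : Om Ξ) (hm : stp ν n (M (n + 1)) ω = M n ω) :
    stp ν n (fun ω' => ‖s ω' + (c ω' : ℂ) * (M (n + 1) ω' - M n ω')‖ ^ 2) ω =
      ‖s ω‖ ^ 2 + c ω ^ 2 * stp ν n (fun ω' => ‖M (n + 1) ω' - M n ω‖ ^ 2) ω := by
  unfold stp at hm ⊢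
  simp only [chn_reads_update n s hs, chn_reads_update n c hc, chn_reads_update n (M n) (hM.reads n)]
  obtain ⟨C, hC⟩ := hM.bdd (n + 1)
  exact mrt2_orth ν (fun ξ => M (n + 1) (Function.update ω (n + 1) ξ))
    (mrt2_meas_upd _ (hM.meas (n + 1)) _ ω) ⟨C, fun ξ => hC _⟩ (M n ω) (s ω) (c ω) hm

/-- the conditional variance, with the centre read at the resampled point -/
theorem mrt2_var_eq (M : ℕ → Om Ξ → ℂ) (hM : Proc M) (n : ℕ) (ω : Om Ξ) :
    stp ν n (fun ω' => ‖M (n + 1) ω' - M n ω‖ ^ 2) ω =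
      stp ν n (fun ω' => ‖M (n + 1) ω' - M n ω'‖ ^ 2) ω := by
  unfold stp
  simp only [chn_reads_update n (M n) (hM.reads n)]

theorem mrt2_var_nonneg (M : ℕ → Om Ξ → ℂ) (n : ℕ) (ω : Om Ξ) :
    0 ≤ stp ν n (fun ω' => ‖M (n + 1) ω' - M n ω‖ ^ 2) ω :=
  integral_nonneg fun _ => by positivity

/-! ### second moments add up -/

theorem mrt2_sq_meas (f : Om Ξ → ℂ) (hf : Measurable f) : Measurable fun ω => ‖f ω‖ ^ 2 := hf.norm.pow_const 2

theorem mrt2_sq_bdd (f : Om Ξ → ℂ) (hb : ∃ C : ℝ, ∀ ω, ‖f ω‖ ≤ C) : ∃ C : ℝ, ∀ ω, |‖f ω‖ ^ 2| ≤ C := by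
  obtain ⟨C, hC⟩ := hb
  refine ⟨C ^ 2, fun ω => ?_⟩
  rw [abs_of_nonneg (by positivity)]
  exact pow_le_pow_left₀ (norm_nonneg _) (hC ω) 2

theorem mrt2_sub_bdd (f g : Om Ξ → ℂ) (hf : ∃ C : ℝ, ∀ ω, ‖f ω‖ ≤ C) (hg : ∃ C : ℝ, ∀ ω, ‖g ω‖ ≤ C) :
    ∃ C : ℝ, ∀ ω, ‖f ω - g ω‖ ≤ C := by
  obtain ⟨C, hC⟩ := hf
  obtain ⟨C', hC'⟩ := hg
  exact ⟨C + C', fun ω => (norm_sub_le _ _).trans (add_le_add (hC ω) (hC' ω))⟩

/-- second moments add up (same statement as `l2_sum` of `Lib/Mart.lean`) -/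
theorem mrt2_l2_sum (M : ℕ → Om Ξ → ℂ) (hM : Proc M) (hm : ∀ n ω, stp ν n (M (n + 1)) ω = M n ω) (n : ℕ) :
    ∫ ω, ‖M n ω - M 0 ω‖ ^ 2 ∂(Pr ν) =
      ∑ i ∈ range n, ∫ ω, stp ν i (fun ω' => ‖M (i + 1) ω' - M i ω‖ ^ 2) ω ∂(Pr ν) := by
  induction n with
  | zero => simp
  | succ n ih =>
    rw [Finset.sum_range_succ, ← ih]
    have hmeas : Measurable fun ω => ‖M (n + 1) ω - M 0 ω‖ ^ 2 :=
      mrt2_sq_meas _ ((hM.meas (n + 1)).sub (hM.meas 0))
    have hbd : ∃ C : ℝ, ∀ ω, |‖M (n + 1) ω - M 0 ω‖ ^ 2| ≤ C :=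
      mrt2_sq_bdd _ (mrt2_sub_bdd _ _ (hM.bdd (n + 1)) (hM.bdd 0))
    rw [← integral_stp ν n _ hmeas hbd]
    have hr : Reads n fun ω => M n ω - M 0 ω := by
      intro ω ω' h
      show M n ω - M 0 ω = M n ω' - M 0 ω'
      rw [hM.reads n ω ω' h, hM.reads 0 ω ω' fun i hi => h i (by omega)]
    have hpt : ∀ ω, stp ν n (fun ω => ‖M (n + 1) ω - M 0 ω‖ ^ 2) ω =
        ‖M n ω - M 0 ω‖ ^ 2 + stp ν n (fun ω' => ‖M (n + 1) ω' - M n ω‖ ^ 2) ω := by
      intro ω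
      have h := mrt2_step ν M hM n (fun ω => M n ω - M 0 ω) hr (fun _ => 1) (fun _ _ _ => rfl) ω (hm n ω)
      simp only [Complex.ofReal_one, one_mul, one_pow] at h
      rw [← h]
      congr 1
      funext ω'
      congr 2
      ring
    simp only [hpt]
    have hi1 : Integrable (fun ω => ‖M n ω - M 0 ω‖ ^ 2) (Pr ν) :=
      chn_integrable _ _ (mrt2_sq_meas _ ((hM.meas n).sub (hM.meas 0)))
        (mrt2_sq_bdd _ (mrt2_sub_bdd _ _ (hM.bdd n) (hM.bdd 0)))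
    have hi2 : Integrable (fun ω => stp ν n (fun ω' => ‖M (n + 1) ω' - M n ω‖ ^ 2) ω) (Pr ν) := by
      simp only [mrt2_var_eq ν M hM n]
      exact chn_integrable _ _
        (measurable_stp ν n _ (mrt2_sq_meas _ ((hM.meas (n + 1)).sub (hM.meas n))))
        (chn_stp_bdd ν n _ (mrt2_sq_bdd _ (mrt2_sub_bdd _ _ (hM.bdd (n + 1)) (hM.bdd n))))
    rw [integral_add hi1 hi2]

/-! ### the transform and its clock -/

/-- the martingale transform -/
noncomputable def mrt2S (c : ℕ → Om Ξ → ℝ) (M : ℕ → Om Ξ → ℂ) (n : ℕ) (ω : Om Ξ) : ℂ :=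
  ∑ i ∈ range n, (c i ω : ℂ) * (M (i + 1) ω - M i ω)

/-- the clock -/
noncomputable def mrt2K (c v : ℕ → Om Ξ → ℝ) (n : ℕ) (ω : Om Ξ) : ℝ := ∑ i ∈ range n, c i ω ^ 2 * v i ω

theorem mrt2S_succ (c : ℕ → Om Ξ → ℝ) (M : ℕ → Om Ξ → ℂ) (n : ℕ) (ω : Om Ξ) :
    mrt2S c M (n + 1) ω = mrt2S c M n ω + (c n ω : ℂ) * (M (n + 1) ω - M n ω) := Finset.sum_range_succ _ _

theorem mrt2K_succ (c v : ℕ → Om Ξ → ℝ) (n : ℕ) (ω : Om Ξ) :
    mrt2K c v (n + 1) ω = mrt2K c v n ω + c n ω ^ 2 * v n ω := Finset.sum_range_succ _ _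

theorem mrt2S_proc (c : ℕ → Om Ξ → ℝ) (hc : Proc c) (M : ℕ → Om Ξ → ℂ) (hM : Proc M) : Proc (mrt2S c M) := by
  refine ⟨fun n => ?_, fun n => ?_, fun n => ?_⟩
  · exact Finset.measurable_fun_sum _ fun i _ =>
      (Complex.measurable_ofReal.comp (hc.meas i)).mul ((hM.meas (i + 1)).sub (hM.meas i))
  · intro ω ω' h
    refine Finset.sum_congr rfl fun i hi => ?_
    have hi' : i < n := Finset.mem_range.1 hi
    rw [hc.reads i ω ω' fun j hj => h j (by omega), hM.reads (i + 1) ω ω' fun j hj => h j (by omega),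
      hM.reads i ω ω' fun j hj => h j (by omega)]
  · induction n with
    | zero => exact ⟨0, fun ω => by simp [mrt2S]⟩
    | succ n ih =>
      obtain ⟨C, hC⟩ := ih
      obtain ⟨C1, h1⟩ := hc.bdd n
      obtain ⟨C2, h2⟩ := mrt2_sub_bdd _ _ (hM.bdd (n + 1)) (hM.bdd n)
      refine ⟨C + C1 * C2, fun ω => ?_⟩
      rw [mrt2S_succ]
      refine (norm_add_le _ _).trans (add_le_add (hC ω) ?_)
      rw [norm_mul, Complex.norm_real]
      exact mul_le_mul (h1 ω) (h2 ω) (norm_nonneg _) ((norm_nonneg _).trans (h1 ω))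

theorem mrt2K_meas (c v : ℕ → Om Ξ → ℝ) (hc : Proc c) (hv : Proc v) (n : ℕ) : Measurable (mrt2K c v n) :=
  Finset.measurable_fun_sum _ fun i _ => ((hc.meas i).pow_const 2).mul (hv.meas i)

/-- the clock at time `n + 1` is known at time `n` -/
theorem mrt2K_reads (c v : ℕ → Om Ξ → ℝ) (hc : Proc c) (hv : Proc v) (n : ℕ) : Reads n (mrt2K c v (n + 1)) := by
  intro ω ω' h
  refine Finset.sum_congr rfl fun i hi => ?_
  have hi' : i < n + 1 := Finset.mem_range.1 hi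
  rw [hc.reads i ω ω' fun j hj => h j (by omega), hv.reads i ω ω' fun j hj => h j (by omega)]

theorem mrt2K_reads' (c v : ℕ → Om Ξ → ℝ) (hc : Proc c) (hv : Proc v) (n : ℕ) : Reads n (mrt2K c v n) := by
  intro ω ω' h
  refine Finset.sum_congr rfl fun i hi => ?_
  have hi' : i < n := Finset.mem_range.1 hi
  rw [hc.reads i ω ω' fun j hj => h j (by omega), hv.reads i ω ω' fun j hj => h j (by omega)]

theorem mrt2K_bdd (c v : ℕ → Om Ξ → ℝ) (hc : Proc c) (hv : Proc v) (n : ℕ) : ∃ C : ℝ, ∀ ω, ‖mrt2K c v n ω‖ ≤ C := by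
  induction n with
  | zero => exact ⟨0, fun ω => by simp [mrt2K]⟩
  | succ n ih =>
    obtain ⟨C, hC⟩ := ih
    obtain ⟨C1, h1⟩ := hc.bdd n
    obtain ⟨C2, h2⟩ := hv.bdd n
    refine ⟨C + C1 ^ 2 * C2, fun ω => ?_⟩
    rw [mrt2K_succ]
    refine (norm_add_le _ _).trans (add_le_add (hC ω) ?_)
    rw [norm_mul, norm_pow]
    exact mul_le_mul (pow_le_pow_left₀ (norm_nonneg _) (h1 ω) 2) (h2 ω) (norm_nonneg _) (by positivity)

/-- **Maximal inequality with a deterministic clock cut** (same statement as `l2max` of `Lib/Mart.lean`). -/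
theorem mrt2_l2max (A : ℕ → Om Ξ → Prop) (hA : Cut A) (M : ℕ → Om Ξ → ℂ) (hM : Proc M) (c v : ℕ → Om Ξ → ℝ)
    (hc : Proc c) (hv : Proc v)
    (hm : ∀ n ω, Alive A (n + 1) ω → stp ν n (M (n + 1)) ω = M n ω)
    (hq : ∀ n ω, Alive A (n + 1) ω → stp ν n (fun ω' => ‖M (n + 1) ω' - M n ω‖ ^ 2) ω ≤ v n ω)
    (B lam : ℝ) (hB : 0 ≤ B) (hl : 0 < lam) :
    (Pr ν).real {ω | ∃ n, Alive A n ω ∧ ∑ i ∈ range n, c i ω ^ 2 * v i ω ≤ B ∧
        lam ≤ ‖∑ i ∈ range n, (c i ω : ℂ) * (M (i + 1) ω - M i ω)‖} ≤ B / lam ^ 2 := by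
  classical
  have hS := mrt2S_proc c hc M hM
  -- the cut: the clock including the present step is still below `B`
  set A' : ℕ → Om Ξ → Prop := fun i ω => A i ω ∧ mrt2K c v (i + 1) ω ≤ B with hA'def
  have hA' : Cut A' := by
    refine ⟨fun n => ?_, fun n ω ω' h => ?_⟩
    · exact (hA.meas n).inter (measurableSet_le (mrt2K_meas c v hc hv (n + 1)) measurable_const)
    · show (A n ω ∧ mrt2K c v (n + 1) ω ≤ B) = (A n ω' ∧ mrt2K c v (n + 1) ω' ≤ B)
      rw [hA.reads n ω ω' h, mrt2K_reads c v hc hv n ω ω' h]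
  have hal : ∀ n ω, Alive A' n ω → Alive A n ω := fun n ω h i hi => (h i hi).1
  -- the supermartingale
  set Y : ℕ → Om Ξ → ℝ := fun n ω => ‖mrt2S c M n ω‖ ^ 2 + (B - mrt2K c v n ω) with hY
  have hYp : Proc Y := by
    refine ⟨fun n => ?_, fun n ω ω' h => ?_, fun n => ?_⟩
    · exact (mrt2_sq_meas _ (hS.meas n)).add (measurable_const.sub (mrt2K_meas c v hc hv n))
    · show ‖mrt2S c M n ω‖ ^ 2 + (B - mrt2K c v n ω) = ‖mrt2S c M n ω'‖ ^ 2 + (B - mrt2K c v n ω')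
      rw [hS.reads n ω ω' h, mrt2K_reads' c v hc hv n ω ω' h]
    · obtain ⟨C1, h1⟩ := mrt2_sq_bdd _ (hS.bdd n)
      obtain ⟨C2, h2⟩ := mrt2K_bdd c v hc hv n
      refine ⟨C1 + (B + C2), fun ω => ?_⟩
      refine (norm_add_le _ _).trans (add_le_add (h1 ω) ((norm_sub_le _ _).trans (add_le_add ?_ (h2 ω))))
      rw [Real.norm_eq_abs, abs_of_nonneg hB]
  have hYs : ∀ n ω, Alive A' (n + 1) ω → stp ν n (Y (n + 1)) ω ≤ Y n ω := by
    intro n ω h
    have hAl := hal _ _ h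
    have h1 := mrt2_step ν M hM n (mrt2S c M n) (hS.reads n) (c n) (hc.reads n) ω (hm n ω hAl)
    have h2 : stp ν n (Y (n + 1)) ω =
        stp ν n (fun ω' => ‖mrt2S c M n ω' + (c n ω' : ℂ) * (M (n + 1) ω' - M n ω')‖ ^ 2) ω +
          (B - mrt2K c v (n + 1) ω) := by
      unfold stp
      simp only [hY, mrt2S_succ, chn_reads_update n _ (mrt2K_reads c v hc hv n)]
      rw [integral_add _ (integrable_const _)]
      · simp
      · have hm1 : Measurable fun ω' => ‖mrt2S c M (n + 1) ω'‖ ^ 2 := mrt2_sq_meas _ (hS.meas (n + 1))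
        obtain ⟨C, hC⟩ := mrt2_sq_bdd _ (hS.bdd (n + 1))
        have := chn_integrable ν (fun ξ => ‖mrt2S c M (n + 1) (Function.update ω (n + 1) ξ)‖ ^ 2)
          (mrt2_meas_upd _ hm1 _ ω) ⟨C, fun ξ => hC _⟩
        simpa only [mrt2S_succ] using this
    rw [h2, h1, mrt2K_succ]
    have h3 := mul_le_mul_of_nonneg_left (hq n ω hAl) (sq_nonneg (c n ω))
    show _ ≤ ‖mrt2S c M n ω‖ ^ 2 + (B - mrt2K c v n ω)
    linarith
  have hY0 : ∀ n ω, Alive A' n ω → 0 ≤ Y n ω := by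
    intro n ω h
    have hK : mrt2K c v n ω ≤ B := by
      cases n with
      | zero => simpa [mrt2K] using hB
      | succ k => exact (h k (Nat.lt_succ_self k)).2
    show 0 ≤ ‖mrt2S c M n ω‖ ^ 2 + (B - mrt2K c v n ω)
    have : 0 ≤ ‖mrt2S c M n ω‖ ^ 2 := by positivity
    linarith
  have hV := mrt2_ville_mean ν A' hA' Y hYp hYs hY0 (lam ^ 2) (by positivity)
  have hI : ∫ ω, Y 0 ω ∂(Pr ν) = B := by
    simp [hY, mrt2S, mrt2K]
  rw [hI] at hV
  refine le_trans (measureReal_mono ?_) hV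
  rintro ω ⟨n, hAl, hK, hS'⟩
  have hK' : mrt2K c v n ω ≤ B := hK
  have hvn : ∀ j, j < n → 0 ≤ c j ω ^ 2 * v j ω := by
    intro j hj
    have h1 : Alive A (j + 1) ω := fun i hi => hAl i (by omega)
    exact mul_nonneg (sq_nonneg _) ((mrt2_var_nonneg ν M j ω).trans (hq j ω h1))
  refine ⟨n, fun i hi => ⟨hAl i hi, ?_⟩, ?_⟩
  · refine le_trans ?_ hK'
    unfold mrt2K
    refine Finset.sum_le_sum_of_subset_of_nonneg (Finset.range_subset_range.2 (by omega)) ?_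
    intro j hj _
    exact hvn j (Finset.mem_range.1 hj)
  · show lam ^ 2 ≤ ‖mrt2S c M n ω‖ ^ 2 + (B - mrt2K c v n ω)
    have h1 : lam ^ 2 ≤ ‖mrt2S c M n ω‖ ^ 2 := pow_le_pow_left₀ hl.le hS' 2
    linarith

end Claimed.Agent.R269.Chn
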