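/-
Row 269, library for P1 Sections 10-11.  Package LF-Mart-3 (helper53): proofs of `occup`, `occup_summable`, `clockTail`
of `Lib/Mart.lean`, same statements, names `mrt3_*`.  Imports `Lib/Mart1Pf` (Ville), not `Lib/Mart`.
-/
import Claimed.Agent.R269.Lib.Mart1Pf

set_option autoImplicit false

namespace Claimed.Agent.R269.Chn

open MeasureTheory Set Finset Filter Topology

variable {Ξ : Type} [MeasurableSpace Ξ] (ν : Measure Ξ) [IsProbabilityMeasure ν]

theorem mrt3_integrable_upd (f : Om Ξ → ℝ) (hf : Measurable f) (hb : ∃ C : ℝ, ∀ ω, |f ω| ≤ C) (k : ℕ) (ω : Om Ξ) :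
    Integrable (fun ξ => f (Function.update ω k ξ)) ν := by
  refine chn_integrable _ _ (hf.comp (measurable_update ω)) ?_
  obtain ⟨C, hC⟩ := hb
  exact ⟨C, fun ξ => hC _⟩

/-- partial sums of a process, with the sum up to `n` (exclusive), form a process -/
theorem mrt3_proc_sum (c : ℕ → Om Ξ → ℝ) (hc : Proc c) : Proc (fun n ω => ∑ i ∈ range n, c i ω) := by
  refine ⟨fun n => Finset.measurable_sum _ fun i _ => hc.meas i, fun n ω ω' h => ?_, fun n => ?_⟩
  · refine Finset.sum_congr rfl fun i hi => ?_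
    exact hc.reads i ω ω' fun j hj => h j (hj.trans (Finset.mem_range.mp hi).le)
  · choose C hC using hc.bdd
    refine ⟨∑ i ∈ range n, C i, fun ω => ?_⟩
    exact (norm_sum_le _ _).trans (Finset.sum_le_sum fun i _ => hC i ω)

/-- the sum up to `n + 1` (exclusive) reads only the coordinates `≤ n` -/
theorem mrt3_reads_sum (c : ℕ → Om Ξ → ℝ) (hc : Proc c) (n : ℕ) : Reads n (fun ω => ∑ i ∈ range (n + 1), c i ω) := by
  intro ω ω' h
  refine Finset.sum_congr rfl fun i hi => ?_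
  exact hc.reads i ω ω' fun j hj => h j (hj.trans (Nat.lt_succ_iff.mp (Finset.mem_range.mp hi)))

theorem mrt3_stp_reads_sub (n : ℕ) (a f : Om Ξ → ℝ) (ha : Reads n a) (hf : Measurable f)
    (hb : ∃ C : ℝ, ∀ ω, |f ω| ≤ C) (ω : Om Ξ) : stp ν n (fun ω' => a ω' - f ω') ω = a ω - stp ν n f ω := by
  have := mrt1_stp_const_sub ν n (a ω) f hf hb ω
  rw [← this]
  unfold stp
  simp only [chn_reads_update n a ha]

/-- **Occupation bound.** -/
theorem mrt3_occup (A : ℕ → Om Ξ → Prop) (hA : Cut A) (g c : ℕ → Om Ξ → ℝ) (hg : Proc g) (hc : Proc c)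
    (hc0 : ∀ n ω, 0 ≤ c n ω)
    (hs : ∀ n ω, Alive A (n + 1) ω → g n ω + c n ω ≤ stp ν n (g (n + 1)) ω)
    (Gmin Gmax lam : ℝ) (h0 : ∀ ω, Gmin ≤ g 0 ω) (h1 : ∀ n ω, Alive A n ω → g n ω ≤ Gmax) (hl : 0 < lam) :
    (Pr ν).real {ω | ∃ n, Alive A n ω ∧ lam < ∑ i ∈ range n, c i ω} ≤ (Gmax - Gmin) / lam := by
  have hS := mrt3_proc_sum c hc
  set W : ℕ → Om Ξ → ℝ := fun n ω => (Gmax + ∑ i ∈ range n, c i ω) - g n ω with hW
  have hWp : Proc W := by
    refine ⟨fun n => (measurable_const.add (hS.meas n)).sub (hg.meas n), fun n ω ω' h => ?_, fun n => ?_⟩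
    · simp only [hW]
      have e1 : ∑ i ∈ range n, c i ω = ∑ i ∈ range n, c i ω' := hS.reads n ω ω' h
      rw [hg.reads n ω ω' h, e1]
    · obtain ⟨C1, hC1⟩ := hS.bdd n
      obtain ⟨C2, hC2⟩ := hg.bdd n
      refine ⟨‖Gmax‖ + C1 + C2, fun ω => ?_⟩
      simp only [hW]
      refine (norm_sub_le _ _).trans (add_le_add ((norm_add_le _ _).trans ?_) (hC2 ω))
      exact add_le_add le_rfl (hC1 ω)
  have hWs : ∀ n ω, Alive A (n + 1) ω → stp ν n (W (n + 1)) ω ≤ W n ω := by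
    intro n ω ha
    have hr : Reads n (fun ω => Gmax + ∑ i ∈ range (n + 1), c i ω) := by
      intro ω ω' h
      have e1 : ∑ i ∈ range (n + 1), c i ω = ∑ i ∈ range (n + 1), c i ω' := mrt3_reads_sum c hc n ω ω' h
      simp only
      rw [e1]
    have := mrt3_stp_reads_sub ν n _ (g (n + 1)) hr (hg.meas (n + 1)) (chn_proc_bdd g hg (n + 1)) ω
    simp only [hW]
    rw [this, Finset.sum_range_succ]
    have := hs n ω ha
    linarith
  have hW0 : ∀ n ω, Alive A n ω → 0 ≤ W n ω := by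
    intro n ω ha
    simp only [hW]
    have h2 := h1 n ω ha
    have h3 : 0 ≤ ∑ i ∈ range n, c i ω := Finset.sum_nonneg fun i _ => hc0 i ω
    linarith
  have hv := mrt1_ville_mean ν A hA W hWp hWs hW0 lam hl
  have hsub : {ω | ∃ n, Alive A n ω ∧ lam < ∑ i ∈ range n, c i ω} ⊆ {ω | ∃ n, Alive A n ω ∧ lam ≤ W n ω} := by
    rintro ω ⟨n, ha, hn⟩
    refine ⟨n, ha, ?_⟩
    simp only [hW]
    have h2 := h1 n ω ha
    linarith
  have hI : ∫ ω, W 0 ω ∂(Pr ν) ≤ Gmax - Gmin := by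
    calc ∫ ω, W 0 ω ∂(Pr ν) ≤ ∫ _ω, (Gmax - Gmin) ∂(Pr ν) := by
          refine integral_mono (chn_proc_integrable ν W hWp 0) (integrable_const _) fun ω => ?_
          simp only [hW, Finset.range_zero, Finset.sum_empty]
          have := h0 ω
          linarith
      _ = Gmax - Gmin := by simp
  calc _ ≤ (Pr ν).real {ω | ∃ n, Alive A n ω ∧ lam ≤ W n ω} := measureReal_mono hsub
    _ ≤ (∫ ω, W 0 ω ∂(Pr ν)) / lam := hv
    _ ≤ _ := div_le_div_of_nonneg_right hI hl.le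

/-- the accumulated drift is a.s. finite -/
theorem mrt3_occup_summable (g c : ℕ → Om Ξ → ℝ) (hg : Proc g) (hc : Proc c) (hc0 : ∀ n ω, 0 ≤ c n ω)
    (hs : ∀ n ω, g n ω + c n ω ≤ stp ν n (g (n + 1)) ω) (Gmax : ℝ) (h1 : ∀ n ω, g n ω ≤ Gmax) :
    ∀ᵐ ω ∂(Pr ν), Summable fun n => c n ω := by
  obtain ⟨C, hC⟩ := chn_proc_bdd g hg 0
  have hcut : Cut (fun (_ : ℕ) (_ : Om Ξ) => True) := ⟨fun n => by simp, fun n ω ω' _ => rfl⟩
  set E : Set (Om Ξ) := {ω | ¬ Summable fun n => c n ω} with hE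
  have hbound : ∀ lam : ℝ, 0 < lam → (Pr ν).real E ≤ (Gmax - (-C)) / lam := by
    intro lam hl
    have ho := mrt3_occup ν _ hcut g c hg hc hc0 (fun n ω _ => hs n ω) (-C) Gmax lam
      (fun ω => (abs_le.mp (hC ω)).1) (fun n ω _ => h1 n ω) hl
    refine le_trans (measureReal_mono ?_) ho
    intro ω hω
    by_contra hcon
    apply hω
    refine summable_of_sum_range_le (c := lam) (fun n => hc0 n ω) fun n => ?_
    by_contra hlt
    exact hcon ⟨n, fun _ _ => trivial, not_le.mp hlt⟩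
  have hlim : Tendsto (fun lam : ℝ => (Gmax - (-C)) / lam) atTop (𝓝 0) :=
    Tendsto.div_atTop tendsto_const_nhds tendsto_id
  have hle : (Pr ν).real E ≤ 0 :=
    ge_of_tendsto hlim ((eventually_gt_atTop 0).mono fun lam hl => hbound lam hl)
  have h0 : (Pr ν).real E = 0 := le_antisymm hle measureReal_nonneg
  rw [measureReal_eq_zero_iff] at h0
  rw [ae_iff]
  exact h0

/-- "started": the process has been `≤ δ` at some time `≤ n` -/
def mrt3S (X : ℕ → Om Ξ → ℝ) (δ : ℝ) (n : ℕ) (ω : Om Ξ) : Prop := ∃ m, m ≤ n ∧ X m ω ≤ δ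

theorem mrt3S_meas (X : ℕ → Om Ξ → ℝ) (hX : Proc X) (δ : ℝ) (n : ℕ) : MeasurableSet {ω | mrt3S X δ n ω} := by
  have : {ω | mrt3S X δ n ω} = ⋃ m ∈ Finset.range (n + 1), {ω | X m ω ≤ δ} := by
    ext ω
    simp only [mrt3S, Set.mem_ofPred_eq, Set.mem_iUnion, Finset.mem_range, exists_prop, Nat.lt_succ_iff]
  rw [this]
  exact Finset.measurableSet_biUnion _ fun m _ => measurableSet_le (hX.meas m) measurable_const

theorem mrt3S_reads (X : ℕ → Om Ξ → ℝ) (hX : Proc X) (δ : ℝ) (n : ℕ) : Reads n (mrt3S X δ n) := by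
  intro ω ω' h
  apply propext
  constructor
  · rintro ⟨m, hm, hx⟩
    exact ⟨m, hm, by rwa [← hX.reads m ω ω' fun i hi => h i (hi.trans hm)]⟩
  · rintro ⟨m, hm, hx⟩
    exact ⟨m, hm, by rwa [hX.reads m ω ω' fun i hi => h i (hi.trans hm)]⟩

theorem mrt3S_mono (X : ℕ → Om Ξ → ℝ) (δ : ℝ) {m n : ℕ} (hmn : m ≤ n) (ω : Om Ξ) (h : mrt3S X δ m ω) :
    mrt3S X δ n ω := by
  obtain ⟨k, hk, hx⟩ := h
  exact ⟨k, hk.trans hmn, hx⟩

theorem mrt3S_succ (X : ℕ → Om Ξ → ℝ) (δ : ℝ) (n : ℕ) (ω : Om Ξ) (h : mrt3S X δ (n + 1) ω) (h' : ¬ mrt3S X δ n ω) :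
    X (n + 1) ω ≤ δ := by
  obtain ⟨k, hk, hx⟩ := h
  rcases Nat.lt_or_ge k (n + 1) with hlt | hge
  · exact absurd ⟨k, by omega, hx⟩ h'
  · have : k = n + 1 := by omega
    subst this
    exact hx

open Classical in
theorem mrt3_proc_ite (S : ℕ → Om Ξ → Prop) (hSm : ∀ n, MeasurableSet {ω | S n ω}) (hSr : ∀ n, Reads n (S n))
    (X : ℕ → Om Ξ → ℝ) (hX : Proc X) (c : ℝ) : Proc (fun n ω => if S n ω then X n ω else c) := by
  refine ⟨fun n => Measurable.ite (hSm n) (hX.meas n) measurable_const, fun n ω ω' h => ?_, fun n => ?_⟩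
  · have e1 : S n ω = S n ω' := hSr n ω ω' h
    by_cases hsn : S n ω
    · rw [if_pos hsn, if_pos (e1 ▸ hsn), hX.reads n ω ω' h]
    · rw [if_neg hsn, if_neg (e1 ▸ hsn)]
  · obtain ⟨C, hC⟩ := hX.bdd n
    refine ⟨max C ‖c‖, fun ω => ?_⟩
    split_ifs
    · exact (hC ω).trans (le_max_left _ _)
    · exact le_max_right _ _

/-- **Remaining clock**. -/
theorem mrt3_clockTail (A : ℕ → Om Ξ → Prop) (hA : Cut A) (D v : ℕ → Om Ξ → ℝ) (hD : Proc D) (hv : Proc v)
    (hm : ∀ n ω, Alive A (n + 1) ω → stp ν n (D (n + 1)) ω = D n ω)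
    (h0 : ∀ n ω, Alive A n ω → 0 ≤ D n ω)
    (h2 : ∀ n ω, Alive A (n + 1) ω → D (n + 1) ω ≤ 2 * D n ω)
    (hq : ∀ n ω, Alive A (n + 1) ω → v n ω ≤ stp ν n (fun ω' => (D (n + 1) ω' - D n ω) ^ 2) ω)
    (hv0 : ∀ n ω, 0 ≤ v n ω) (δ T : ℝ) (hδ : 0 ≤ δ) (hT : 0 < T) :
    (Pr ν).real {ω | ∃ m n, m ≤ n ∧ Alive A n ω ∧ D m ω ≤ δ ∧ T < ∑ i ∈ Ico m n, v i ω}
      ≤ 3 * δ / Real.sqrt T := by
  classical
  set lam := Real.sqrt T with hlam
  have hl : 0 < lam := Real.sqrt_pos.mpr hT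
  have hlT : lam ^ 2 = T := Real.sq_sqrt hT.le
  rcases lt_or_ge lam δ with hbig | hδl
  · refine le_trans measureReal_le_one ?_
    rw [le_div_iff₀ hl]
    linarith
  set S : ℕ → Om Ξ → Prop := mrt3S D δ with hS
  have hSm : ∀ n, MeasurableSet {ω | S n ω} := mrt3S_meas D hD δ
  have hSr : ∀ n, Reads n (S n) := mrt3S_reads D hD δ
  set w : ℕ → Om Ξ → ℝ := fun n ω => if S n ω then v n ω else 0 with hw
  have hwp : Proc w := mrt3_proc_ite S hSm hSr v hv 0
  have hw0 : ∀ n ω, 0 ≤ w n ω := by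
    intro n ω
    simp only [hw]
    split_ifs
    · exact hv0 n ω
    · exact le_rfl
  set K : ℕ → Om Ξ → ℝ := fun n ω => ∑ i ∈ range n, w i ω with hK
  have hKp : Proc K := mrt3_proc_sum w hwp
  have hK0 : ∀ n ω, 0 ≤ K n ω := fun n ω => Finset.sum_nonneg fun i _ => hw0 i ω
  set Z' : ℕ → Om Ξ → ℝ := fun n ω => 2 * lam * D n ω - D n ω ^ 2 + K n ω with hZ'
  have hZ'p : Proc Z' := by
    refine ⟨fun n => (((hD.meas n).const_mul (2 * lam)).sub ((hD.meas n).pow_const 2)).add (hKp.meas n),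
      fun n ω ω' h => ?_, fun n => ?_⟩
    · simp only [hZ']
      rw [hD.reads n ω ω' h, hKp.reads n ω ω' h]
    · obtain ⟨C1, hC1⟩ := hD.bdd n
      obtain ⟨C2, hC2⟩ := hKp.bdd n
      refine ⟨‖2 * lam‖ * C1 + C1 ^ 2 + C2, fun ω => ?_⟩
      simp only [hZ']
      refine (norm_add_le _ _).trans (add_le_add ((norm_sub_le _ _).trans (add_le_add ?_ ?_)) (hC2 ω))
      · rw [norm_mul]
        exact mul_le_mul_of_nonneg_left (hC1 ω) (norm_nonneg _)
      · rw [norm_pow]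
        exact pow_le_pow_left₀ (norm_nonneg _) (hC1 ω) 2
  set Z : ℕ → Om Ξ → ℝ := fun n ω => if S n ω then Z' n ω else 2 * lam * δ with hZ
  have hZp : Proc Z := mrt3_proc_ite S hSm hSr Z' hZ'p (2 * lam * δ)
  set A' : ℕ → Om Ξ → Prop := fun n ω => A n ω ∧ (S n ω → D n ω < lam) with hA'
  have hcut : Cut A' := by
    refine ⟨fun n => ?_, fun n ω ω' h => ?_⟩
    · have : {ω | A' n ω} = {ω | A n ω} ∩ ({ω | S n ω}ᶜ ∪ {ω | D n ω < lam}) := by
        ext ω
        simp only [hA', Set.mem_ofPred_eq, Set.mem_inter_iff, Set.mem_union, Set.mem_compl_iff]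
        tauto
      rw [this]
      exact (hA.meas n).inter ((hSm n).compl.union (measurableSet_lt (hD.meas n) measurable_const))
    · simp only [hA']
      rw [hA.reads n ω ω' h, hD.reads n ω ω' h, hSr n ω ω' h]
  have hal : ∀ n ω, Alive A' n ω → Alive A n ω := fun n ω h i hi => (h i hi).1
  have hD2 : ∀ n ω, Alive A' n ω → S n ω → D n ω ≤ 2 * lam := by
    intro n ω ha hs
    cases n with
    | zero =>
      obtain ⟨k, hk, hx⟩ := hs
      have : k = 0 := by omega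
      subst this
      linarith
    | succ k =>
      by_cases hsk : S k ω
      · have h3 := (ha k (Nat.lt_succ_self k)).2 hsk
        have h4 := h2 k ω (hal _ _ ha)
        linarith
      · have := mrt3S_succ D δ k ω hs hsk
        linarith
  have hZ0 : ∀ n ω, Alive A' n ω → 0 ≤ Z n ω := by
    intro n ω ha
    simp only [hZ]
    split_ifs with hs
    · simp only [hZ']
      have h3 := hD2 n ω ha hs
      have h4 := h0 n ω (hal _ _ ha)
      have h5 := hK0 n ω
      nlinarith [mul_nonneg h4 (sub_nonneg.mpr h3)]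
    · positivity
  have hZs : ∀ n ω, Alive A' (n + 1) ω → stp ν n (Z (n + 1)) ω ≤ Z n ω := by
    intro n ω ha
    have hKr : ∀ ξ, K (n + 1) (Function.update ω (n + 1) ξ) = K (n + 1) ω := fun ξ =>
      chn_reads_update n _ (mrt3_reads_sum w hwp n) ω ξ
    have hSu : ∀ ξ, S n (Function.update ω (n + 1) ξ) = S n ω := fun ξ =>
      chn_reads_update n _ (hSr n) ω ξ
    have hid : Integrable (fun ξ => D (n + 1) (Function.update ω (n + 1) ξ)) ν :=
      mrt3_integrable_upd ν _ (hD.meas (n + 1)) (chn_proc_bdd D hD (n + 1)) (n + 1) ω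
    by_cases hsn : S n ω
    · have h1 : ∀ ξ, Z (n + 1) (Function.update ω (n + 1) ξ)
          = -(D (n + 1) (Function.update ω (n + 1) ξ) - D n ω) ^ 2
            + ((2 * lam - 2 * D n ω) * D (n + 1) (Function.update ω (n + 1) ξ) + (D n ω ^ 2 + K (n + 1) ω)) := by
        intro ξ
        have : S (n + 1) (Function.update ω (n + 1) ξ) :=
          mrt3S_mono D δ (Nat.le_succ n) _ (by rw [← hS, hSu ξ]; exact hsn)
        simp only [hZ, if_pos this, hZ']
        rw [hKr ξ]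
        ring
      have hi2 : Integrable (fun ξ => (D (n + 1) (Function.update ω (n + 1) ξ) - D n ω) ^ 2) ν := by
        obtain ⟨C, hC⟩ := chn_proc_bdd D hD (n + 1)
        refine mrt3_integrable_upd ν (fun ω' => (D (n + 1) ω' - D n ω) ^ 2)
          (((hD.meas (n + 1)).sub_const _).pow_const 2) ⟨(C + |D n ω|) ^ 2, fun ω' => ?_⟩ (n + 1) ω
        rw [abs_pow]
        exact pow_le_pow_left₀ (abs_nonneg _) ((abs_sub _ _).trans (add_le_add (hC ω') le_rfl)) 2
      have hq' := hq n ω (hal _ _ ha)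
      have hm' := hm n ω (hal _ _ ha)
      unfold stp at hq' hm' ⊢
      simp only [h1]
      have hi2n : Integrable (fun ξ => -(D (n + 1) (Function.update ω (n + 1) ξ) - D n ω) ^ 2) ν := hi2.neg
      have hi3 : Integrable (fun ξ => (2 * lam - 2 * D n ω) * D (n + 1) (Function.update ω (n + 1) ξ)) ν :=
        hid.const_mul _
      have hi4 : Integrable (fun ξ => (2 * lam - 2 * D n ω) * D (n + 1) (Function.update ω (n + 1) ξ)
          + (D n ω ^ 2 + K (n + 1) ω)) ν := hi3.add (integrable_const _)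
      rw [integral_add hi2n hi4, integral_neg, integral_add hi3 (integrable_const _), integral_const_mul, hm']
      simp only [integral_const, probReal_univ, smul_eq_mul, one_mul]
      have hKs : K (n + 1) ω = K n ω + v n ω := by
        simp only [hK, Finset.sum_range_succ, hw, if_pos hsn]
      simp only [hZ, if_pos hsn, hZ']
      rw [hKs]
      nlinarith
    · have hKz : K (n + 1) ω = 0 := by
        simp only [hK]
        refine Finset.sum_eq_zero fun i hi => ?_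
        have : ¬ S i ω := fun h => hsn (mrt3S_mono D δ (Nat.lt_succ_iff.mp (Finset.mem_range.mp hi)) ω h)
        simp only [hw, if_neg this]
      have h1 : ∀ ξ, Z (n + 1) (Function.update ω (n + 1) ξ) ≤ 2 * lam * δ := by
        intro ξ
        simp only [hZ]
        split_ifs with h
        · have hx := mrt3S_succ D δ n _ h (by rw [← hS, hSu ξ]; exact hsn)
          simp only [hZ']
          rw [hKr ξ, hKz]
          nlinarith [sq_nonneg (D (n + 1) (Function.update ω (n + 1) ξ))]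
        · exact le_rfl
      have hi : Integrable (fun ξ => Z (n + 1) (Function.update ω (n + 1) ξ)) ν :=
        mrt3_integrable_upd ν _ (hZp.meas (n + 1)) (chn_proc_bdd Z hZp (n + 1)) (n + 1) ω
      have e : Z n ω = 2 * lam * δ := by simp only [hZ, if_neg hsn]
      rw [e]
      unfold stp
      calc ∫ ξ, Z (n + 1) (Function.update ω (n + 1) ξ) ∂ν ≤ ∫ _ξ, 2 * lam * δ ∂ν :=
            integral_mono hi (integrable_const _) h1
        _ = 2 * lam * δ := by simp
  have hv1 := mrt1_ville_mean ν A' hcut Z hZp hZs hZ0 T hT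
  have hv2 := mrt1_ville ν A hA D hD (fun n ω ha => (hm n ω ha).le) h0 δ lam hδ hl
  have hI : ∫ ω, Z 0 ω ∂(Pr ν) ≤ 2 * lam * δ := by
    calc ∫ ω, Z 0 ω ∂(Pr ν) ≤ ∫ _ω, 2 * lam * δ ∂(Pr ν) := by
          refine integral_mono (chn_proc_integrable ν Z hZp 0) (integrable_const _) fun ω => ?_
          simp only [hZ]
          split_ifs with h
          · obtain ⟨k, hk, hx⟩ := h
            have : k = 0 := by omega
            subst this
            simp only [hZ', hK, Finset.range_zero, Finset.sum_empty]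
            nlinarith [sq_nonneg (D 0 ω)]
          · exact le_rfl
      _ = 2 * lam * δ := by simp
  have hsub : {ω | ∃ m n, m ≤ n ∧ Alive A n ω ∧ D m ω ≤ δ ∧ T < ∑ i ∈ Ico m n, v i ω}
      ⊆ {ω | ∃ m n, m ≤ n ∧ Alive A n ω ∧ D m ω ≤ δ ∧ lam ≤ D n ω} ∪ {ω | ∃ n, Alive A' n ω ∧ T ≤ Z n ω} := by
    rintro ω ⟨m, n, hmn, ha, hx, hsum⟩
    by_cases hE1 : ω ∈ {ω | ∃ m n, m ≤ n ∧ Alive A n ω ∧ D m ω ≤ δ ∧ lam ≤ D n ω}
    · exact Or.inl hE1
    · right
      have ha' : Alive A' n ω := by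
        intro i hi
        refine ⟨ha i hi, fun hsi => ?_⟩
        by_contra hcon
        obtain ⟨k, hk, hxk⟩ := hsi
        exact hE1 ⟨k, i, hk, fun j hj => ha j (hj.trans hi), hxk, not_lt.mp hcon⟩
      refine ⟨n, ha', ?_⟩
      have hsn : S n ω := ⟨m, hmn, hx⟩
      have h3 := hD2 n ω ha' hsn
      have h4 := h0 n ω ha
      have h5 : ∑ i ∈ Ico m n, v i ω ≤ K n ω := by
        have e1 : ∑ i ∈ Ico m n, v i ω = ∑ i ∈ Ico m n, w i ω := by
          refine Finset.sum_congr rfl fun i hi => ?_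
          have : S i ω := ⟨m, (Finset.mem_Ico.mp hi).1, hx⟩
          simp only [hw, if_pos this]
        rw [e1]
        refine Finset.sum_le_sum_of_subset_of_nonneg ?_ fun i _ _ => hw0 i ω
        intro i hi
        exact Finset.mem_range.mpr (Finset.mem_Ico.mp hi).2
      simp only [hZ, if_pos hsn, hZ']
      nlinarith [mul_nonneg h4 (sub_nonneg.mpr h3)]
  calc _ ≤ (Pr ν).real ({ω | ∃ m n, m ≤ n ∧ Alive A n ω ∧ D m ω ≤ δ ∧ lam ≤ D n ω}
        ∪ {ω | ∃ n, Alive A' n ω ∧ T ≤ Z n ω}) := measureReal_mono hsub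
    _ ≤ (Pr ν).real {ω | ∃ m n, m ≤ n ∧ Alive A n ω ∧ D m ω ≤ δ ∧ lam ≤ D n ω}
        + (Pr ν).real {ω | ∃ n, Alive A' n ω ∧ T ≤ Z n ω} := measureReal_union_le _ _
    _ ≤ δ / lam + (2 * lam * δ) / T := add_le_add hv2 (hv1.trans (div_le_div_of_nonneg_right hI hT.le))
    _ = 3 * δ / lam := by
        rw [← hlT]
        field_simp
        ring

end Claimed.Agent.R269.Chn
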