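/-
Row 269, library for P1 Sections 10-11.  LEAF LF-Mart-4 (prover: helper230): hysteresis statuses and the number of switches.
The DEFINITIONS `stat`, `nsw` live here (moved verbatim from `Lib/Mart.lean`, which imports this file), so that the proofs
`mrt4_stat_false`, `mrt4_stat_true`, `mrt4_stat_reads`, `mrt4_switch_count` can be wired into `Lib/Mart.lean`.
HOST-FREE.

PROOF of `switch_count` (betting argument, no upcrossing machinery).  `w = max u a` is a submartingale with the same statuses, `a ≤ w ≤ Umax`.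
Bet while the status is tiny: `G_n = ∑_{i<n} 1[stat i] (w_{i+1} - w_i)`.  Deterministically `(b-a)(nsw_n - 1)/2 ≤ G_n` (`mrt4_gain`), and
`X_n = Umax - w_n + G_n + (b-a)/2` is a nonnegative supermartingale with `X_0 ≤ Umax - a + (b-a)/2` and `(b-a) nsw_n / 2 ≤ X_n`:  Ville.
-/
import Claimed.Agent.R269.Lib.Mart1Pf

set_option autoImplicit false
set_option linter.unusedSectionVars false

namespace Claimed.Agent.R269.Chn

open MeasureTheory Set Finset Filter Topology

variable {Ξ : Type} [MeasurableSpace Ξ] (ν : Measure Ξ) [IsProbabilityMeasure ν]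

open Classical in
/-- two statuses with hysteresis: `false` = moderate, `true` = tiny.  Switch to tiny when `u ≤ a`, back to moderate when `b ≤ u`. -/
noncomputable def stat (a b : ℝ) (u : ℕ → Om Ξ → ℝ) : ℕ → Om Ξ → Bool
  | 0, ω => decide (u 0 ω ≤ a)
  | n + 1, ω => if stat a b u n ω = false then decide (u (n + 1) ω ≤ a) else !decide (b ≤ u (n + 1) ω)

open Classical in
/-- number of switches before time `n` -/
noncomputable def nsw (a b : ℝ) (u : ℕ → Om Ξ → ℝ) (n : ℕ) (ω : Om Ξ) : ℕ :=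
  ((range n).filter fun i => stat a b u (i + 1) ω ≠ stat a b u i ω).card

/-! ### the recursion -/

theorem mrt4_stat_zero (a b : ℝ) (u : ℕ → Om Ξ → ℝ) (ω : Om Ξ) : stat a b u 0 ω = true ↔ u 0 ω ≤ a := by
  simp [stat]

theorem mrt4_stat_succ_of_false (a b : ℝ) (u : ℕ → Om Ξ → ℝ) (n : ℕ) (ω : Om Ξ) (h : stat a b u n ω = false) :
    stat a b u (n + 1) ω = true ↔ u (n + 1) ω ≤ a := by
  simp [stat, h]

theorem mrt4_stat_succ_of_true (a b : ℝ) (u : ℕ → Om Ξ → ℝ) (n : ℕ) (ω : Om Ξ) (h : stat a b u n ω = true) :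
    stat a b u (n + 1) ω = true ↔ u (n + 1) ω < b := by
  simp [stat, h]

theorem mrt4_stat_false (a b : ℝ) (hab : a < b) (u : ℕ → Om Ξ → ℝ) (n : ℕ) (ω : Om Ξ)
    (h : stat a b u n ω = false) : a < u n ω := by
  have h' : ¬ stat a b u n ω = true := by rw [h]; simp
  cases n with
  | zero => exact not_le.1 fun hc => h' ((mrt4_stat_zero a b u ω).2 hc)
  | succ n =>
    cases hs : stat a b u n ω with
    | false => exact not_le.1 fun hc => h' ((mrt4_stat_succ_of_false a b u n ω hs).2 hc)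
    | true => exact hab.trans_le (not_lt.1 fun hc => h' ((mrt4_stat_succ_of_true a b u n ω hs).2 hc))

theorem mrt4_stat_true (a b : ℝ) (hab : a < b) (u : ℕ → Om Ξ → ℝ) (n : ℕ) (ω : Om Ξ)
    (h : stat a b u n ω = true) : u n ω < b := by
  cases n with
  | zero => exact ((mrt4_stat_zero a b u ω).1 h).trans_lt hab
  | succ n =>
    cases hs : stat a b u n ω with
    | false => exact ((mrt4_stat_succ_of_false a b u n ω hs).1 h).trans_lt hab
    | true => exact (mrt4_stat_succ_of_true a b u n ω hs).1 h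

theorem mrt4_stat_reads (a b : ℝ) (u : ℕ → Om Ξ → ℝ) (hu : Proc u) (n : ℕ) :
    Reads n (stat a b u n) ∧ Measurable (stat a b u n) := by
  classical
  induction n with
  | zero =>
    refine ⟨fun ω ω' h => ?_, ?_⟩
    · simp only [stat]
      rw [hu.reads 0 ω ω' h]
    · refine measurable_to_bool ?_
      have : stat a b u 0 ⁻¹' {true} = {ω | u 0 ω ≤ a} := by
        ext ω
        exact mrt4_stat_zero a b u ω
      rw [this]
      exact measurableSet_le (hu.meas 0) measurable_const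
  | succ n ih =>
    refine ⟨fun ω ω' h => ?_, ?_⟩
    · simp only [stat]
      rw [hu.reads (n + 1) ω ω' h, ih.1 ω ω' fun i hi => h i (by omega)]
    · refine measurable_to_bool ?_
      have : stat a b u (n + 1) ⁻¹' {true} =
          (stat a b u n ⁻¹' {false} ∩ {ω | u (n + 1) ω ≤ a}) ∪ (stat a b u n ⁻¹' {true} ∩ {ω | u (n + 1) ω < b}) := by
        ext ω
        simp only [Set.mem_preimage, Set.mem_singleton_iff, Set.mem_union, Set.mem_inter_iff, Set.mem_ofPred_eq]
        cases hs : stat a b u n ω with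
        | false => simpa using mrt4_stat_succ_of_false a b u n ω hs
        | true => simpa using mrt4_stat_succ_of_true a b u n ω hs
      rw [this]
      exact ((ih.2 (measurableSet_singleton _)).inter (measurableSet_le (hu.meas (n + 1)) measurable_const)).union
        ((ih.2 (measurableSet_singleton _)).inter (measurableSet_lt (hu.meas (n + 1)) measurable_const))

theorem mrt4_nsw_zero (a b : ℝ) (u : ℕ → Om Ξ → ℝ) (ω : Om Ξ) : nsw a b u 0 ω = 0 := by
  simp [nsw]

theorem mrt4_nsw_succ (a b : ℝ) (u : ℕ → Om Ξ → ℝ) (n : ℕ) (ω : Om Ξ) :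
    nsw a b u (n + 1) ω = nsw a b u n ω + (if stat a b u (n + 1) ω ≠ stat a b u n ω then 1 else 0) := by
  classical
  unfold nsw
  rw [Finset.range_add_one, Finset.filter_insert]
  split_ifs with h
  · rw [Finset.card_insert_of_notMem (by simp)]
  · rfl

/-! ### the bet -/

/-- the truncated process -/
noncomputable def mrt4W (a : ℝ) (u : ℕ → Om Ξ → ℝ) (n : ℕ) (ω : Om Ξ) : ℝ := max (u n ω) a

/-- the stake: `1` while the status is tiny -/
noncomputable def mrt4H (a b : ℝ) (u : ℕ → Om Ξ → ℝ) (n : ℕ) (ω : Om Ξ) : ℝ := if stat a b u n ω = true then 1 else 0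

/-- the gains -/
noncomputable def mrt4G (a b : ℝ) (u : ℕ → Om Ξ → ℝ) (n : ℕ) (ω : Om Ξ) : ℝ :=
  ∑ i ∈ range n, mrt4H a b u i ω * (mrt4W a u (i + 1) ω - mrt4W a u i ω)

theorem mrt4G_succ (a b : ℝ) (u : ℕ → Om Ξ → ℝ) (n : ℕ) (ω : Om Ξ) :
    mrt4G a b u (n + 1) ω = mrt4G a b u n ω + mrt4H a b u n ω * (mrt4W a u (n + 1) ω - mrt4W a u n ω) :=
  Finset.sum_range_succ _ _

/-- **the deterministic inequality**: every pair of switches pays `b - a`. -/
theorem mrt4_gain_aux (a b : ℝ) (hab : a < b) (u : ℕ → Om Ξ → ℝ) (n : ℕ) (ω : Om Ξ) :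
    (b - a) * ((nsw a b u n ω : ℝ) - mrt4H a b u n ω) / 2 + mrt4H a b u n ω * (mrt4W a u n ω - a)
      ≤ mrt4G a b u n ω := by
  induction n with
  | zero =>
    rw [mrt4_nsw_zero]
    unfold mrt4G mrt4H mrt4W
    cases hs : stat a b u 0 ω with
    | false => simp
    | true =>
      have h1 : u 0 ω ≤ a := (mrt4_stat_zero a b u ω).1 hs
      simp only [if_true, Finset.range_zero, Finset.sum_empty, max_eq_right h1]
      norm_num
      linarith
  | succ n ih =>
    rw [mrt4_nsw_succ, mrt4G_succ]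
    unfold mrt4H at ih ⊢
    cases hs : stat a b u n ω with
    | false =>
      rw [hs] at ih
      cases hs' : stat a b u (n + 1) ω with
      | false =>
        simp only [ne_eq, not_true_eq_false, if_false, Bool.false_eq_true] at ih ⊢
        simpa using ih
      | true =>
        have h1 : u (n + 1) ω ≤ a := (mrt4_stat_succ_of_false a b u n ω hs).1 hs'
        have h2 : mrt4W a u (n + 1) ω = a := max_eq_right h1
        simp only [Bool.false_eq_true, if_false] at ih
        simp only [ne_eq, Bool.true_eq_false, not_false_eq_true, if_true, Bool.false_eq_true, if_false, h2]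
        push_cast
        linarith
    | true =>
      rw [hs] at ih
      simp only [if_true] at ih
      cases hs' : stat a b u (n + 1) ω with
      | false =>
        have h1 : b ≤ u (n + 1) ω := not_lt.1 fun hc => by
          have := (mrt4_stat_succ_of_true a b u n ω hs).2 hc
          rw [hs'] at this
          exact absurd this (by simp)
        have h2 : b ≤ mrt4W a u (n + 1) ω := h1.trans (le_max_left _ _)
        simp only [ne_eq, Bool.false_eq_true, not_false_eq_true, if_true, if_false]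
        push_cast
        linarith
      | true =>
        simp only [ne_eq, not_true_eq_false, if_false, if_true]
        push_cast
        linarith

theorem mrt4_gain (a b : ℝ) (hab : a < b) (u : ℕ → Om Ξ → ℝ) (n : ℕ) (ω : Om Ξ) :
    (b - a) * ((nsw a b u n ω : ℝ) - 1) / 2 ≤ mrt4G a b u n ω := by
  have h := mrt4_gain_aux a b hab u n ω
  have hW : a ≤ mrt4W a u n ω := le_max_right _ _
  unfold mrt4H at h
  split_ifs at h
  · linarith
  · have : 0 < b - a := by linarith
    linarith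

/-! ### adaptedness -/

theorem mrt4W_proc (a : ℝ) (u : ℕ → Om Ξ → ℝ) (hu : Proc u) : Proc (mrt4W a u) := by
  refine ⟨fun n => (hu.meas n).max measurable_const, fun n ω ω' h => ?_, fun n => ?_⟩
  · unfold mrt4W
    rw [hu.reads n ω ω' h]
  · obtain ⟨C, hC⟩ := hu.bdd n
    refine ⟨max C |a|, fun ω => ?_⟩
    unfold mrt4W
    rw [Real.norm_eq_abs]
    exact abs_max_le_max_abs_abs.trans (max_le_max (hC ω) le_rfl)

theorem mrt4H_proc (a b : ℝ) (u : ℕ → Om Ξ → ℝ) (hu : Proc u) : Proc (mrt4H a b u) := by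
  refine ⟨fun n => ?_, fun n ω ω' h => ?_, fun n => ⟨1, fun ω => ?_⟩⟩
  · exact Measurable.ite ((mrt4_stat_reads a b u hu n).2 (measurableSet_singleton true)) measurable_const
      measurable_const
  · unfold mrt4H
    rw [(mrt4_stat_reads a b u hu n).1 ω ω' h]
  · unfold mrt4H
    split_ifs <;> simp

theorem mrt4H_mem (a b : ℝ) (u : ℕ → Om Ξ → ℝ) (n : ℕ) (ω : Om Ξ) :
    0 ≤ mrt4H a b u n ω ∧ mrt4H a b u n ω ≤ 1 := by
  unfold mrt4H
  split_ifs <;> simp

theorem mrt4G_proc (a b : ℝ) (u : ℕ → Om Ξ → ℝ) (hu : Proc u) : Proc (mrt4G a b u) := by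
  have hW := mrt4W_proc a u hu
  have hH := mrt4H_proc a b u hu
  refine ⟨fun n => ?_, fun n ω ω' h => ?_, fun n => ?_⟩
  · exact Finset.measurable_fun_sum _ fun i _ => (hH.meas i).mul ((hW.meas (i + 1)).sub (hW.meas i))
  · refine Finset.sum_congr rfl fun i hi => ?_
    have hi' : i < n := Finset.mem_range.1 hi
    rw [hH.reads i ω ω' fun j hj => h j (by omega), hW.reads (i + 1) ω ω' fun j hj => h j (by omega),
      hW.reads i ω ω' fun j hj => h j (by omega)]
  · induction n with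
    | zero => exact ⟨0, fun ω => by simp [mrt4G]⟩
    | succ n ih =>
      obtain ⟨C, hC⟩ := ih
      obtain ⟨C1, h1⟩ := hW.bdd (n + 1)
      obtain ⟨C2, h2⟩ := hW.bdd n
      refine ⟨C + (C1 + C2), fun ω => ?_⟩
      rw [mrt4G_succ]
      refine (norm_add_le _ _).trans (add_le_add (hC ω) ?_)
      rw [norm_mul]
      have h3 : ‖mrt4H a b u n ω‖ ≤ 1 := by
        rw [Real.norm_eq_abs, abs_of_nonneg (mrt4H_mem a b u n ω).1]
        exact (mrt4H_mem a b u n ω).2
      have h4 : ‖mrt4W a u (n + 1) ω - mrt4W a u n ω‖ ≤ C1 + C2 :=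
        (norm_sub_le _ _).trans (add_le_add (h1 ω) (h2 ω))
      calc ‖mrt4H a b u n ω‖ * ‖mrt4W a u (n + 1) ω - mrt4W a u n ω‖
          ≤ 1 * (C1 + C2) := mul_le_mul h3 h4 (norm_nonneg _) zero_le_one
        _ = C1 + C2 := one_mul _

/-! ### one-step means -/

theorem mrt4_int_upd (f : Om Ξ → ℝ) (hf : Measurable f) (hb : ∃ C : ℝ, ∀ ω, |f ω| ≤ C) (k : ℕ) (ω : Om Ξ) :
    Integrable (fun ξ => f (Function.update ω k ξ)) ν := by
  obtain ⟨C, hC⟩ := hb
  exact chn_integrable ν _ (hf.comp (measurable_update ω)) ⟨C, fun ξ => hC _⟩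

/-- affine functions of the new value with known coefficients -/
theorem mrt4_stp_affine (n : ℕ) (k g f : Om Ξ → ℝ) (hk : Reads n k) (hg : Reads n g) (hf : Measurable f)
    (hb : ∃ C : ℝ, ∀ ω, |f ω| ≤ C) (ω : Om Ξ) :
    stp ν n (fun ω' => k ω' + g ω' * f ω') ω = k ω + g ω * stp ν n f ω := by
  unfold stp
  simp only [chn_reads_update n k hk, chn_reads_update n g hg]
  rw [integral_add (integrable_const _) ((mrt4_int_upd ν f hf hb _ ω).const_mul _), integral_const_mul]
  simp

theorem mrt4_stp_mono (n : ℕ) (f g : Om Ξ → ℝ) (hf : Measurable f) (hfb : ∃ C : ℝ, ∀ ω, |f ω| ≤ C)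
    (hg : Measurable g) (hgb : ∃ C : ℝ, ∀ ω, |g ω| ≤ C) (h : ∀ ω, f ω ≤ g ω) (ω : Om Ξ) :
    stp ν n f ω ≤ stp ν n g ω :=
  integral_mono (mrt4_int_upd ν f hf hfb _ ω) (mrt4_int_upd ν g hg hgb _ ω) fun _ => h _

/-- the truncation of a submartingale is a submartingale -/
theorem mrt4W_sub (a : ℝ) (u : ℕ → Om Ξ → ℝ) (hu : Proc u) (n : ℕ) (ω : Om Ξ)
    (h : u n ω ≤ stp ν n (u (n + 1)) ω) : mrt4W a u n ω ≤ stp ν n (mrt4W a u (n + 1)) ω := by
  have hW := mrt4W_proc a u hu
  refine max_le (h.trans ?_) ?_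
  · exact mrt4_stp_mono ν n _ _ (hu.meas (n + 1)) (chn_proc_bdd u hu (n + 1)) (hW.meas (n + 1))
      (chn_proc_bdd _ hW (n + 1)) (fun ω' => le_max_left _ _) ω
  · have h1 := mrt4_stp_mono ν n (fun _ => a) _ measurable_const ⟨|a|, fun _ => le_rfl⟩ (hW.meas (n + 1))
      (chn_proc_bdd _ hW (n + 1)) (fun ω' => le_max_right _ _) ω
    have h2 : stp ν n (fun _ : Om Ξ => a) ω = a := by
      unfold stp
      simp
    rwa [h2] at h1

/-- **Doob's upcrossing inequality** in the form used in P1 Lemma 10.7 (same statement as `switch_count` of `Lib/Mart.lean`). -/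
theorem mrt4_switch_count (A : ℕ → Om Ξ → Prop) (hA : Cut A) (u : ℕ → Om Ξ → ℝ) (hu : Proc u)
    (hs : ∀ n ω, Alive A (n + 1) ω → u n ω ≤ stp ν n (u (n + 1)) ω)
    (a b Umax lam : ℝ) (hab : a < b) (haU : a ≤ Umax) (h1 : ∀ n ω, Alive A n ω → u n ω ≤ Umax) (hl : 0 < lam) :
    (Pr ν).real {ω | ∃ n, Alive A n ω ∧ lam < (nsw a b u n ω : ℝ)} ≤ (2 * (Umax - a) / (b - a) + 2) / lam := by
  have hW := mrt4W_proc a u hu
  have hH := mrt4H_proc a b u hu
  have hG := mrt4G_proc a b u hu
  have hba : 0 < b - a := by linarith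
  set X : ℕ → Om Ξ → ℝ := fun n ω => Umax - mrt4W a u n ω + mrt4G a b u n ω + (b - a) / 2 with hX
  have hXp : Proc X := by
    refine ⟨fun n => ?_, fun n ω ω' h => ?_, fun n => ?_⟩
    · exact ((measurable_const.sub (hW.meas n)).add (hG.meas n)).add measurable_const
    · show Umax - mrt4W a u n ω + mrt4G a b u n ω + (b - a) / 2 = Umax - mrt4W a u n ω' + mrt4G a b u n ω' + (b - a) / 2
      rw [hW.reads n ω ω' h, hG.reads n ω ω' h]
    · obtain ⟨C1, c1⟩ := hW.bdd n
      obtain ⟨C2, c2⟩ := hG.bdd n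
      refine ⟨|Umax| + C1 + C2 + |(b - a) / 2|, fun ω => ?_⟩
      refine (norm_add_le _ _).trans (add_le_add ((norm_add_le _ _).trans (add_le_add
        ((norm_sub_le _ _).trans (add_le_add le_rfl (c1 ω))) (c2 ω))) le_rfl)
  have hXs : ∀ n ω, Alive A (n + 1) ω → stp ν n (X (n + 1)) ω ≤ X n ω := by
    intro n ω h
    have e : X (n + 1) = fun ω' => (Umax + mrt4G a b u n ω' - mrt4H a b u n ω' * mrt4W a u n ω' + (b - a) / 2) +
        (mrt4H a b u n ω' - 1) * mrt4W a u (n + 1) ω' := by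
      funext ω'
      show Umax - mrt4W a u (n + 1) ω' + mrt4G a b u (n + 1) ω' + (b - a) / 2 = _
      rw [mrt4G_succ]
      ring
    rw [e, mrt4_stp_affine ν n _ _ _ _ _ (hW.meas (n + 1)) (chn_proc_bdd _ hW (n + 1)) ω]
    · have h2 := mrt4W_sub ν a u hu n ω (hs n ω h)
      have h3 : mrt4H a b u n ω - 1 ≤ 0 := by linarith [(mrt4H_mem a b u n ω).2]
      have h4 := mul_le_mul_of_nonpos_left h2 h3
      show _ ≤ Umax - mrt4W a u n ω + mrt4G a b u n ω + (b - a) / 2
      linarith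
    · intro ω₁ ω₂ h'
      show Umax + mrt4G a b u n ω₁ - mrt4H a b u n ω₁ * mrt4W a u n ω₁ + (b - a) / 2 =
        Umax + mrt4G a b u n ω₂ - mrt4H a b u n ω₂ * mrt4W a u n ω₂ + (b - a) / 2
      rw [hG.reads n ω₁ ω₂ h', hH.reads n ω₁ ω₂ h', hW.reads n ω₁ ω₂ h']
    · intro ω₁ ω₂ h'
      show mrt4H a b u n ω₁ - 1 = mrt4H a b u n ω₂ - 1
      rw [hH.reads n ω₁ ω₂ h']
  have hWU : ∀ n ω, Alive A n ω → mrt4W a u n ω ≤ Umax := fun n ω h => max_le (h1 n ω h) haU
  have hXge : ∀ n ω, Alive A n ω → (b - a) * (nsw a b u n ω : ℝ) / 2 ≤ X n ω := by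
    intro n ω h
    have h2 := mrt4_gain a b hab u n ω
    have h3 := hWU n ω h
    show _ ≤ Umax - mrt4W a u n ω + mrt4G a b u n ω + (b - a) / 2
    linarith
  have hX0 : ∀ n ω, Alive A n ω → 0 ≤ X n ω := fun n ω h =>
    le_trans (by positivity) (hXge n ω h)
  have hV := mrt1_ville_mean ν A hA X hXp hXs hX0 ((b - a) * lam / 2) (by positivity)
  have hI : ∫ ω, X 0 ω ∂(Pr ν) ≤ Umax - a + (b - a) / 2 := by
    have h2 : ∀ ω, X 0 ω ≤ Umax - a + (b - a) / 2 := by
      intro ω
      have h3 : a ≤ mrt4W a u 0 ω := le_max_right _ _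
      show Umax - mrt4W a u 0 ω + mrt4G a b u 0 ω + (b - a) / 2 ≤ _
      have h4 : mrt4G a b u 0 ω = 0 := by simp [mrt4G]
      rw [h4]
      linarith
    calc ∫ ω, X 0 ω ∂(Pr ν) ≤ ∫ _ω, (Umax - a + (b - a) / 2) ∂(Pr ν) :=
          integral_mono (chn_proc_integrable ν X hXp 0) (integrable_const _) h2
      _ = Umax - a + (b - a) / 2 := by simp
  have hsub : {ω | ∃ n, Alive A n ω ∧ lam < (nsw a b u n ω : ℝ)} ⊆
      {ω | ∃ n, Alive A n ω ∧ (b - a) * lam / 2 ≤ X n ω} := by
    rintro ω ⟨n, hal, hn⟩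
    refine ⟨n, hal, le_trans ?_ (hXge n ω hal)⟩
    have := mul_le_mul_of_nonneg_left hn.le hba.le
    linarith
  refine (measureReal_mono hsub).trans (hV.trans ?_)
  have h5 : (∫ ω, X 0 ω ∂(Pr ν)) / ((b - a) * lam / 2) ≤ (Umax - a + (b - a) / 2) / ((b - a) * lam / 2) :=
    div_le_div_of_nonneg_right hI (by positivity)
  refine h5.trans ?_
  have h6 : (Umax - a + (b - a) / 2) / ((b - a) * lam / 2) = (2 * (Umax - a) / (b - a) + 1) / lam := by
    field_simp
  rw [h6]
  exact div_le_div_of_nonneg_right (by linarith) hl.le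

end Claimed.Agent.R269.Chn
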