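/-
Row 269, library for P1 Sections 10-11.  Package LF-Mart-5 (helper53): proofs of `l2conv`, `abel_bound`, `exists_good`
of `Lib/Mart.lean`, same statements, names `mrt5_*`.  Imports only `Lib/Chain`.
-/
import Claimed.Agent.R269.Lib.Chain

set_option autoImplicit false

namespace Claimed.Agent.R269.Chn

open MeasureTheory Set Finset Filter Topology

variable {Ξ : Type} [MeasurableSpace Ξ] (ν : Measure Ξ) [IsProbabilityMeasure ν]

/-- a real martingale (in the sense of `stp`) with bounded second moments converges almost surely -/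
theorem mrt5_l2conv_real (X : ℕ → Om Ξ → ℝ) (hX : Proc X) (hm : ∀ n ω, stp ν n (X (n + 1)) ω = X n ω)
    (hb : ∃ C : ℝ, ∀ n, ∫ ω, (X n ω) ^ 2 ∂(Pr ν) ≤ C) :
    ∀ᵐ ω ∂(Pr ν), ∃ l : ℝ, Tendsto (fun n => X n ω) atTop (𝓝 l) := by
  obtain ⟨C, hC⟩ := hb
  have hmart := martingale_of_stp ν X hX hm
  have hbdd : ∀ n, eLpNorm (X n) 1 (Pr ν) ≤ ((1 + C).toNNReal : ENNReal) := by
    intro n
    have hi := chn_proc_integrable ν X hX n
    have hi2 : Integrable (fun ω => (X n ω) ^ 2) (Pr ν) := by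
      obtain ⟨K, hK⟩ := chn_proc_bdd X hX n
      refine chn_integrable _ _ ((hX.meas n).pow_const 2) ⟨K ^ 2, fun ω => ?_⟩
      rw [abs_pow]
      exact pow_le_pow_left₀ (abs_nonneg _) (hK ω) 2
    rw [eLpNorm_one_eq_lintegral_enorm, ← ofReal_integral_norm_eq_lintegral_enorm hi]
    refine ENNReal.ofReal_le_ofReal ?_
    calc ∫ ω, ‖X n ω‖ ∂(Pr ν) ≤ ∫ ω, (1 + (X n ω) ^ 2) ∂(Pr ν) := by
          refine integral_mono hi.norm ((integrable_const _).add hi2) fun ω => ?_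
          simp only [Real.norm_eq_abs]
          nlinarith [sq_abs (X n ω), sq_nonneg (|X n ω| - 1), abs_nonneg (X n ω)]
      _ = 1 + ∫ ω, (X n ω) ^ 2 ∂(Pr ν) := by
          rw [integral_add (integrable_const _) hi2]; simp
      _ ≤ 1 + C := by linarith [hC n]
  filter_upwards [hmart.submartingale.ae_tendsto_limitProcess hbdd] with ω hω
  exact ⟨_, hω⟩

theorem mrt5_integrable_upd (M : Om Ξ → ℂ) (hM : Measurable M) (hb : ∃ C : ℝ, ∀ ω, ‖M ω‖ ≤ C) (k : ℕ) (ω : Om Ξ) :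
    Integrable (fun ξ => M (Function.update ω k ξ)) ν := by
  obtain ⟨C, hC⟩ := hb
  exact Integrable.of_bound (hM.comp (measurable_update ω)).aestronglyMeasurable C
    (Filter.Eventually.of_forall fun ξ => hC _)

/-- an `L²`-bounded martingale converges almost surely -/
theorem mrt5_l2conv (M : ℕ → Om Ξ → ℂ) (hM : Proc M) (hm : ∀ n ω, stp ν n (M (n + 1)) ω = M n ω)
    (hb : ∃ C : ℝ, ∀ n, ∫ ω, ‖M n ω‖ ^ 2 ∂(Pr ν) ≤ C) :
    ∀ᵐ ω ∂(Pr ν), ∃ l : ℂ, Tendsto (fun n => M n ω) atTop (𝓝 l) := by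
  obtain ⟨C, hC⟩ := hb
  have hn2 : ∀ n, Integrable (fun ω => ‖M n ω‖ ^ 2) (Pr ν) := by
    intro n
    obtain ⟨K, hK⟩ := hM.bdd n
    refine chn_integrable _ _ ((hM.meas n).norm.pow_const 2) ⟨K ^ 2, fun ω => ?_⟩
    rw [abs_pow, abs_norm]
    exact pow_le_pow_left₀ (norm_nonneg _) (hK ω) 2
  have hre : Proc (fun n ω => (M n ω).re) := by
    refine ⟨fun n => Complex.measurable_re.comp (hM.meas n), fun n ω ω' h => by
      simp only [hM.reads n ω ω' h], fun n => ?_⟩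
    obtain ⟨K, hK⟩ := hM.bdd n
    exact ⟨K, fun ω => (Complex.abs_re_le_norm _).trans (hK ω)⟩
  have him : Proc (fun n ω => (M n ω).im) := by
    refine ⟨fun n => Complex.measurable_im.comp (hM.meas n), fun n ω ω' h => by
      simp only [hM.reads n ω ω' h], fun n => ?_⟩
    obtain ⟨K, hK⟩ := hM.bdd n
    exact ⟨K, fun ω => (Complex.abs_im_le_norm _).trans (hK ω)⟩
  have h1 := mrt5_l2conv_real ν _ hre (fun n ω => by
    have := Complex.reCLM.integral_comp_comm (mrt5_integrable_upd ν (M (n + 1)) (hM.meas _) (hM.bdd _) (n + 1) ω)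
    have h2 := hm n ω
    unfold stp at h2 ⊢
    rw [h2] at this
    exact this) ⟨C, fun n => le_trans (integral_mono
      (by
        obtain ⟨K, hK⟩ := chn_proc_bdd _ hre n
        refine chn_integrable _ _ ((hre.meas n).pow_const 2) ⟨K ^ 2, fun ω => ?_⟩
        rw [abs_pow]
        exact pow_le_pow_left₀ (abs_nonneg _) (hK ω) 2) (hn2 n) fun ω => by
        have := Complex.abs_re_le_norm (M n ω)
        simp only
        rw [← sq_abs]
        exact pow_le_pow_left₀ (abs_nonneg _) this 2) (hC n)⟩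
  have h2 := mrt5_l2conv_real ν _ him (fun n ω => by
    have := Complex.imCLM.integral_comp_comm (mrt5_integrable_upd ν (M (n + 1)) (hM.meas _) (hM.bdd _) (n + 1) ω)
    have h2 := hm n ω
    unfold stp at h2 ⊢
    rw [h2] at this
    exact this) ⟨C, fun n => le_trans (integral_mono
      (by
        obtain ⟨K, hK⟩ := chn_proc_bdd _ him n
        refine chn_integrable _ _ ((him.meas n).pow_const 2) ⟨K ^ 2, fun ω => ?_⟩
        rw [abs_pow]
        exact pow_le_pow_left₀ (abs_nonneg _) (hK ω) 2) (hn2 n) fun ω => by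
        have := Complex.abs_im_le_norm (M n ω)
        simp only
        rw [← sq_abs]
        exact pow_le_pow_left₀ (abs_nonneg _) this 2) (hC n)⟩
  filter_upwards [h1, h2] with ω ⟨a, ha⟩ ⟨b, hb⟩
  refine ⟨⟨a, b⟩, ?_⟩
  have e : (fun n => M n ω) = fun n => (((M n ω).re : ℂ) + ((M n ω).im : ℂ) * Complex.I) := by
    funext n; exact (Complex.re_add_im _).symm
  have e2 : (⟨a, b⟩ : ℂ) = (a : ℂ) + (b : ℂ) * Complex.I := (Complex.mk_eq_add_mul_I a b)
  rw [e, e2]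
  exact ((Complex.continuous_ofReal.tendsto a).comp ha).add
    (((Complex.continuous_ofReal.tendsto b).comp hb).mul_const _)

theorem mrt5_abel_aux (R : ℕ → ℝ) (hR : Monotone R) (x : ℕ → ℂ) (a : ℕ) (ε : ℝ) (k : ℕ)
    (hx : ∀ n, a ≤ n → n ≤ a + k + 1 → ‖∑ i ∈ Ico a n, x i‖ ≤ ε) :
    ‖∑ i ∈ Ico a (a + k + 1), (R i : ℂ) * x i - (R (a + k) : ℂ) * ∑ i ∈ Ico a (a + k + 1), x i‖
      ≤ (R (a + k) - R a) * ε := by
  induction k with
  | zero => simp
  | succ k ih =>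
    have ih' := ih fun n h1 h2 => hx n h1 (by omega)
    have e : ∑ i ∈ Ico a (a + (k + 1) + 1), (R i : ℂ) * x i
        - (R (a + (k + 1)) : ℂ) * ∑ i ∈ Ico a (a + (k + 1) + 1), x i
        = (∑ i ∈ Ico a (a + k + 1), (R i : ℂ) * x i - (R (a + k) : ℂ) * ∑ i ∈ Ico a (a + k + 1), x i)
          - ((R (a + k + 1) - R (a + k) : ℝ) : ℂ) * ∑ i ∈ Ico a (a + k + 1), x i := by
      have e1 : ∑ i ∈ Ico a (a + k + 1 + 1), (R i : ℂ) * x i
          = ∑ i ∈ Ico a (a + k + 1), (R i : ℂ) * x i + (R (a + k + 1) : ℂ) * x (a + k + 1) :=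
        Finset.sum_Ico_succ_top (by omega) _
      have e2 : ∑ i ∈ Ico a (a + k + 1 + 1), x i = ∑ i ∈ Ico a (a + k + 1), x i + x (a + k + 1) :=
        Finset.sum_Ico_succ_top (by omega) _
      rw [show a + (k + 1) + 1 = (a + k + 1) + 1 by ring, show a + (k + 1) = a + k + 1 by ring, e1, e2]
      push_cast
      ring
    rw [e]
    have hS := hx (a + k + 1) (by omega) (by omega)
    have hd : 0 ≤ R (a + k + 1) - R (a + k) := sub_nonneg.mpr (hR (by omega))
    calc _ ≤ ‖∑ i ∈ Ico a (a + k + 1), (R i : ℂ) * x i - (R (a + k) : ℂ) * ∑ i ∈ Ico a (a + k + 1), x i‖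
          + ‖((R (a + k + 1) - R (a + k) : ℝ) : ℂ) * ∑ i ∈ Ico a (a + k + 1), x i‖ := norm_sub_le _ _
      _ ≤ (R (a + k) - R a) * ε + (R (a + k + 1) - R (a + k)) * ε := by
          refine add_le_add ih' ?_
          rw [norm_mul, Complex.norm_real, Real.norm_eq_abs, abs_of_nonneg hd]
          exact mul_le_mul_of_nonneg_left hS hd
      _ = (R (a + (k + 1)) - R a) * ε := by rw [show a + (k + 1) = a + k + 1 by ring]; ring

/-- **Abel summation**. -/
theorem mrt5_abel_bound (R : ℕ → ℝ) (hR : Monotone R) (hR0 : ∀ n, 0 ≤ R n) (x : ℕ → ℂ) (a b : ℕ) (hab : a < b) (ε : ℝ)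
    (hx : ∀ n, a ≤ n → n ≤ b → ‖∑ i ∈ Ico a n, x i‖ ≤ ε) :
    ‖∑ i ∈ Ico a b, (R i : ℂ) * x i‖ ≤ 2 * R (b - 1) * ε := by
  obtain ⟨k, rfl⟩ : ∃ k, b = a + k + 1 := ⟨b - a - 1, by omega⟩
  have h := mrt5_abel_aux R hR x a ε k hx
  have hε : 0 ≤ ε := (norm_nonneg _).trans (hx a le_rfl (by omega))
  have hS := hx (a + k + 1) (by omega) le_rfl
  rw [show a + k + 1 - 1 = a + k by omega]
  have h2 : ‖(R (a + k) : ℂ) * ∑ i ∈ Ico a (a + k + 1), x i‖ ≤ R (a + k) * ε := by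
    rw [norm_mul, Complex.norm_real, Real.norm_eq_abs, abs_of_nonneg (hR0 _)]
    exact mul_le_mul_of_nonneg_left hS (hR0 _)
  have h3 : ‖∑ i ∈ Ico a (a + k + 1), (R i : ℂ) * x i‖
      ≤ ‖∑ i ∈ Ico a (a + k + 1), (R i : ℂ) * x i - (R (a + k) : ℂ) * ∑ i ∈ Ico a (a + k + 1), x i‖
        + ‖(R (a + k) : ℂ) * ∑ i ∈ Ico a (a + k + 1), x i‖ := by
    have := norm_add_le (∑ i ∈ Ico a (a + k + 1), (R i : ℂ) * x i - (R (a + k) : ℂ) * ∑ i ∈ Ico a (a + k + 1), x i)
      ((R (a + k) : ℂ) * ∑ i ∈ Ico a (a + k + 1), x i)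
    simpa using this
  have h4 : 0 ≤ R a * ε := mul_nonneg (hR0 a) hε
  nlinarith

/-- finitely many rare events leave a good point -/
theorem mrt5_exists_good {ι : Type} (s : Finset ι) (Bad : ι → Set (Om Ξ)) (p : ι → ℝ)
    (h : ∀ i ∈ s, (Pr ν).real (Bad i) ≤ p i) (hp : ∑ i ∈ s, p i < 1) : ∃ ω, ∀ i ∈ s, ω ∉ Bad i := by
  by_contra hcon
  push Not at hcon
  have hU : (⋃ i ∈ s, Bad i) = Set.univ := by
    ext ω
    simp only [Set.mem_iUnion, Set.mem_univ, iff_true, exists_prop]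
    exact hcon ω
  have h1 := measureReal_biUnion_finset_le (μ := Pr ν) s Bad
  rw [hU] at h1
  have h2 : (Pr ν).real Set.univ = 1 := by simp
  have h3 := Finset.sum_le_sum h
  linarith

end Claimed.Agent.R269.Chn
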