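/-
Row 269, library for P1 Sections 10-11.  Package LF-Mart-6 (helper53): proof of `tanaka` of `Lib/Mart.lean`
(P1 Lemma 11.1, discrete Tanaka estimate), same statement, name `tnk_tanaka`; constant `C = 24`.
Imports `Lib/Mart1Pf` (hence `Lib/Chain`), not `Lib/Mart`.

Proof.  Ramp `Φ(x) = √(h²+x²)+x`; `tnk_ramp` = the convexity remainder bound with `c = 1/12` (purely algebraic).
Before the first passage above `R` (`tnk_pre`): sum the remainder bound, the drift term has the right sign, telescoping, and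
`2|Δ| ≤ t + Δ²/t` with `t = h + √V`.  After it (`tnk_post`): the centred walk `tnkZ`, frozen when it is `≤ -(R-h)`, has second
moment `≤ V`, and a return to `[-h,h]` forces `tnkZ ≤ -(R-h)`; Chebyshev.
-/
import Claimed.Agent.R269.Lib.Mart1Pf

set_option autoImplicit false

namespace Claimed.Agent.R269.Chn

open MeasureTheory Set Finset Filter Topology

/-! ### the ramp function -/

theorem tnk_ramp_core (h x y a b : ℝ) (hh : 0 < h) (ha : 0 < a) (hb : 0 < b) (ha2 : a ^ 2 = h ^ 2 + x ^ 2)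
    (hb2 : b ^ 2 = h ^ 2 + y ^ 2) :
    0 ≤ b - a - x / a * (y - x) ∧ (|x| ≤ h → min ((y - x) ^ 2) (h ^ 2) / (12 * h) ≤ b - a - x / a * (y - x)) := by
  set r := b - a - x / a * (y - x) with hr
  have har : a * r = a * b - h ^ 2 - x * y := by
    rw [hr]
    field_simp
    nlinarith
  have hab2 : (a * b) ^ 2 = (h ^ 2 + x ^ 2) * (h ^ 2 + y ^ 2) := by rw [mul_pow, ha2, hb2]
  have hab : h ^ 2 + |x * y| ≤ a * b := by
    rw [← pow_le_pow_iff_left₀ (by positivity) (by positivity) (two_ne_zero), hab2]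
    have e : (h ^ 2 + |x * y|) ^ 2 = h ^ 4 + 2 * h ^ 2 * |x * y| + (x * y) ^ 2 := by
      rw [add_sq, sq_abs]; ring
    rw [e]
    have h1 : 2 * |x * y| ≤ x ^ 2 + y ^ 2 := by
      rw [abs_mul]
      nlinarith [sq_nonneg (|x| - |y|), sq_abs x, sq_abs y]
    nlinarith [mul_le_mul_of_nonneg_left h1 (sq_nonneg h)]
  set s := a * b + h ^ 2 + x * y with hs
  have hs1 : 2 * h ^ 2 ≤ s := by
    have := neg_abs_le (x * y)
    linarith
  have hs2 : s ≤ 2 * (a * b) := by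
    have := le_abs_self (x * y)
    linarith
  have hs0 : 0 < s := by nlinarith [sq_pos_of_pos hh]
  have hprod : a * r * s = h ^ 2 * (y - x) ^ 2 := by
    rw [har, hs]
    linear_combination hab2
  have hr' : r = h ^ 2 * (y - x) ^ 2 / (a * s) := by
    rw [eq_div_iff (by positivity)]
    linarith
  refine ⟨by rw [hr']; positivity, fun hx => ?_⟩
  rw [hr', div_le_div_iff₀ (by positivity) (by positivity)]
  set d := |y - x| with hd
  have hd0 : 0 ≤ d := abs_nonneg _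
  have hd2 : (y - x) ^ 2 = d ^ 2 := (sq_abs _).symm
  have hx2 : x ^ 2 ≤ h ^ 2 := by rw [← sq_abs x]; exact pow_le_pow_left₀ (abs_nonneg _) hx 2
  have hb' : b ≤ 2 * h + d := by
    have h1 : b ≤ h + |y| := by
      rw [← pow_le_pow_iff_left₀ hb.le (by positivity) (two_ne_zero), hb2, add_sq, sq_abs]
      nlinarith [abs_nonneg y]
    have h2 : |y| ≤ |x| + d := by
      have := abs_add_le x (y - x)
      simpa using this
    linarith
  have hm0 : 0 ≤ min ((y - x) ^ 2) (h ^ 2) := le_min (sq_nonneg _) (sq_nonneg _)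
  have has : a * s ≤ 4 * h ^ 2 * (2 * h + d) := by
    calc a * s ≤ a * (2 * (a * b)) := mul_le_mul_of_nonneg_left hs2 ha.le
      _ = 2 * a ^ 2 * b := by ring
      _ ≤ 2 * (2 * h ^ 2) * b := by
          apply mul_le_mul_of_nonneg_right _ hb.le
          nlinarith
      _ ≤ 2 * (2 * h ^ 2) * (2 * h + d) := mul_le_mul_of_nonneg_left hb' (by positivity)
      _ = _ := by ring
  have hkey : min ((y - x) ^ 2) (h ^ 2) * (2 * h + d) ≤ 3 * h * d ^ 2 := by
    rcases le_or_gt d h with hdh | hdh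
    · calc min ((y - x) ^ 2) (h ^ 2) * (2 * h + d) ≤ d ^ 2 * (2 * h + d) :=
            mul_le_mul_of_nonneg_right (by rw [← hd2]; exact min_le_left _ _) (by positivity)
        _ ≤ d ^ 2 * (3 * h) := mul_le_mul_of_nonneg_left (by linarith) (by positivity)
        _ = _ := by ring
    · calc min ((y - x) ^ 2) (h ^ 2) * (2 * h + d) ≤ h ^ 2 * (2 * h + d) :=
            mul_le_mul_of_nonneg_right (min_le_right _ _) (by positivity)
        _ ≤ 3 * h * d ^ 2 := by nlinarith [mul_pos hh hh, mul_pos hh (lt_trans hh hdh)]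
  calc min ((y - x) ^ 2) (h ^ 2) * (a * s) ≤ min ((y - x) ^ 2) (h ^ 2) * (4 * h ^ 2 * (2 * h + d)) :=
        mul_le_mul_of_nonneg_left has hm0
    _ = 4 * h ^ 2 * (min ((y - x) ^ 2) (h ^ 2) * (2 * h + d)) := by ring
    _ ≤ 4 * h ^ 2 * (3 * h * d ^ 2) := mul_le_mul_of_nonneg_left hkey (by positivity)
    _ = h ^ 2 * (y - x) ^ 2 * (12 * h) := by rw [hd2]; ring

/-- the ramp `Φ(x) = √(h²+x²) + x` -/
noncomputable def tnkPhi (h x : ℝ) : ℝ := Real.sqrt (h ^ 2 + x ^ 2) + x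

/-- its derivative -/
noncomputable def tnkDer (h x : ℝ) : ℝ := x / Real.sqrt (h ^ 2 + x ^ 2) + 1

theorem tnk_sqrt_pos (h x : ℝ) (hh : 0 < h) : 0 < Real.sqrt (h ^ 2 + x ^ 2) := Real.sqrt_pos.mpr (by positivity)

theorem tnk_sqrt_sq (h x : ℝ) : Real.sqrt (h ^ 2 + x ^ 2) ^ 2 = h ^ 2 + x ^ 2 := Real.sq_sqrt (by positivity)

theorem tnk_abs_le_sqrt (h x : ℝ) : |x| ≤ Real.sqrt (h ^ 2 + x ^ 2) :=
  Real.abs_le_sqrt (by nlinarith [sq_nonneg h])

theorem tnk_sqrt_le (h x : ℝ) (hh : 0 < h) : Real.sqrt (h ^ 2 + x ^ 2) ≤ h + |x| := by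
  rw [Real.sqrt_le_left (by positivity), add_sq, sq_abs]
  nlinarith [abs_nonneg x]

theorem tnkPhi_nonneg (h x : ℝ) : 0 ≤ tnkPhi h x := by
  have := tnk_abs_le_sqrt h x
  have := neg_abs_le x
  unfold tnkPhi
  linarith

theorem tnkPhi_le (h x B : ℝ) (hh : 0 < h) (hx : x ≤ B) (hB : 0 ≤ B) : tnkPhi h x ≤ h + 2 * B := by
  have h1 := tnk_sqrt_le h x hh
  unfold tnkPhi
  rcases abs_cases x with ⟨h2, _⟩ | ⟨h2, _⟩ <;> linarith

theorem tnkPhi_abs_le (h x : ℝ) (hh : 0 < h) : |tnkPhi h x| ≤ h + 2 * |x| := by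
  rw [abs_of_nonneg (tnkPhi_nonneg h x)]
  exact tnkPhi_le h x |x| hh (le_abs_self x) (abs_nonneg x)

theorem tnkDer_nonneg (h x : ℝ) (hh : 0 < h) : 0 ≤ tnkDer h x := by
  have h0 := tnk_sqrt_pos h x hh
  have h1 := tnk_abs_le_sqrt h x
  have h2 := neg_abs_le x
  unfold tnkDer
  have : -1 ≤ x / Real.sqrt (h ^ 2 + x ^ 2) := by
    rw [le_div_iff₀ h0]; linarith
  linarith

theorem tnkDer_le (h x : ℝ) (hh : 0 < h) : tnkDer h x ≤ 2 := by
  have h0 := tnk_sqrt_pos h x hh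
  have h1 := tnk_abs_le_sqrt h x
  have h2 := le_abs_self x
  unfold tnkDer
  have : x / Real.sqrt (h ^ 2 + x ^ 2) ≤ 1 := by
    rw [div_le_iff₀ h0]; linarith
  linarith

theorem tnk_ramp (h x y : ℝ) (hh : 0 < h) :
    (if |x| ≤ h then min ((y - x) ^ 2) (h ^ 2) else 0) / (12 * h)
      ≤ tnkPhi h y - tnkPhi h x - tnkDer h x * (y - x) := by
  have hc := tnk_ramp_core h x y _ _ hh (tnk_sqrt_pos h x hh) (tnk_sqrt_pos h y hh) (tnk_sqrt_sq h x) (tnk_sqrt_sq h y)
  have e : tnkPhi h y - tnkPhi h x - tnkDer h x * (y - x)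
      = Real.sqrt (h ^ 2 + y ^ 2) - Real.sqrt (h ^ 2 + x ^ 2) - x / Real.sqrt (h ^ 2 + x ^ 2) * (y - x) := by
    unfold tnkPhi tnkDer; ring
  rw [e]
  split_ifs with hx
  · exact hc.2 hx
  · simpa using hc.1

theorem tnkPhi_measurable (h : ℝ) : Measurable (tnkPhi h) := by
  unfold tnkPhi
  fun_prop

theorem tnkDer_measurable (h : ℝ) : Measurable (tnkDer h) := by
  unfold tnkDer
  fun_prop

variable {Ξ : Type} [MeasurableSpace Ξ] (ν : Measure Ξ) [IsProbabilityMeasure ν]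

/-! ### bounded measurable functions -/

/-- bounded measurable -/
def tnkBM (f : Om Ξ → ℝ) : Prop := Measurable f ∧ ∃ C : ℝ, ∀ ω, |f ω| ≤ C

theorem tnkBM_const (c : ℝ) : tnkBM (fun _ : Om Ξ => c) := ⟨measurable_const, |c|, fun _ => le_rfl⟩

theorem tnkBM_proc (X : ℕ → Om Ξ → ℝ) (hX : Proc X) (n : ℕ) : tnkBM (X n) := ⟨hX.meas n, chn_proc_bdd X hX n⟩

theorem tnkBM.add {f g : Om Ξ → ℝ} (hf : tnkBM f) (hg : tnkBM g) : tnkBM (fun ω => f ω + g ω) := by
  obtain ⟨hf, C, hC⟩ := hf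
  obtain ⟨hg, C', hC'⟩ := hg
  exact ⟨hf.add hg, C + C', fun ω => (abs_add_le _ _).trans (add_le_add (hC ω) (hC' ω))⟩

theorem tnkBM.sub {f g : Om Ξ → ℝ} (hf : tnkBM f) (hg : tnkBM g) : tnkBM (fun ω => f ω - g ω) := by
  obtain ⟨hf, C, hC⟩ := hf
  obtain ⟨hg, C', hC'⟩ := hg
  exact ⟨hf.sub hg, C + C', fun ω => (abs_sub _ _).trans (add_le_add (hC ω) (hC' ω))⟩

theorem tnkBM.mul {f g : Om Ξ → ℝ} (hf : tnkBM f) (hg : tnkBM g) : tnkBM (fun ω => f ω * g ω) := by
  obtain ⟨hf, C, hC⟩ := hf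
  obtain ⟨hg, C', hC'⟩ := hg
  refine ⟨hf.mul hg, C * C', fun ω => ?_⟩
  rw [abs_mul]
  exact mul_le_mul (hC ω) (hC' ω) (abs_nonneg _) ((abs_nonneg _).trans (hC ω))

theorem tnkBM.sq {f : Om Ξ → ℝ} (hf : tnkBM f) : tnkBM (fun ω => f ω ^ 2) := by
  have := hf.mul hf
  have e : (fun ω => f ω ^ 2) = fun ω => f ω * f ω := by funext ω; exact pow_two _
  rw [e]
  exact this

theorem tnkBM.of_abs_le {f g : Om Ξ → ℝ} (hf : Measurable f) (hg : tnkBM g) (h : ∀ ω, |f ω| ≤ g ω) : tnkBM f := by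
  obtain ⟨-, C, hC⟩ := hg
  exact ⟨hf, C, fun ω => (h ω).trans ((le_abs_self _).trans (hC ω))⟩

theorem tnkBM.ite {f g : Om Ξ → ℝ} (hf : tnkBM f) (hg : tnkBM g) (P : Om Ξ → Prop) [DecidablePred P]
    (hP : MeasurableSet {ω | P ω}) : tnkBM (fun ω => if P ω then f ω else g ω) := by
  obtain ⟨hf, C, hC⟩ := hf
  obtain ⟨hg, C', hC'⟩ := hg
  refine ⟨Measurable.ite hP hf hg, max C C', fun ω => ?_⟩
  beta_reduce
  split_ifs
  · exact (hC ω).trans (le_max_left _ _)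
  · exact (hC' ω).trans (le_max_right _ _)

theorem tnkBM.sum {ι : Type} (s : Finset ι) {f : ι → Om Ξ → ℝ} (hf : ∀ i ∈ s, tnkBM (f i)) :
    tnkBM (fun ω => ∑ i ∈ s, f i ω) := by
  classical
  induction s using Finset.induction_on with
  | empty => simpa using tnkBM_const (Ξ := Ξ) 0
  | insert a s ha ih =>
    have h1 := (hf a (Finset.mem_insert_self a s)).add (ih fun i hi => hf i (Finset.mem_insert_of_mem hi))
    simpa [Finset.sum_insert ha] using h1

theorem tnkBM.integrable {f : Om Ξ → ℝ} (hf : tnkBM f) : Integrable f (Pr ν) := chn_integrable _ _ hf.1 hf.2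

theorem tnkBM.integrable_upd {f : Om Ξ → ℝ} (hf : tnkBM f) (k : ℕ) (ω : Om Ξ) :
    Integrable (fun ξ => f (Function.update ω k ξ)) ν := by
  refine chn_integrable _ _ (hf.1.comp (measurable_update ω)) ?_
  obtain ⟨C, hC⟩ := hf.2
  exact ⟨C, fun ξ => hC _⟩

theorem tnkBM.stp {f : Om Ξ → ℝ} (hf : tnkBM f) (n : ℕ) : tnkBM (stp ν n f) :=
  ⟨measurable_stp ν n f hf.1, chn_stp_bdd ν n f hf.2⟩

theorem tnkBM.phi {f : Om Ξ → ℝ} (hf : tnkBM f) (h : ℝ) (hh : 0 < h) : tnkBM (fun ω => tnkPhi h (f ω)) := by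
  obtain ⟨hf, C, hC⟩ := hf
  exact ⟨(tnkPhi_measurable h).comp hf, h + 2 * C, fun ω => (tnkPhi_abs_le h _ hh).trans (by linarith [hC ω])⟩

theorem tnkBM.der {f : Om Ξ → ℝ} (hf : tnkBM f) (h : ℝ) (hh : 0 < h) : tnkBM (fun ω => tnkDer h (f ω)) := by
  obtain ⟨hf, C, hC⟩ := hf
  exact ⟨(tnkDer_measurable h).comp hf, 2, fun ω => by
    rw [abs_of_nonneg (tnkDer_nonneg h _ hh)]; exact tnkDer_le h _ hh⟩

/-! ### one-step identities -/

theorem tnk_stp_sub_reads (n : ℕ) (f a : Om Ξ → ℝ) (hf : tnkBM f) (ha : Reads n a) (ω : Om Ξ) :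
    stp ν n (fun ω' => f ω' - a ω') ω = stp ν n f ω - a ω := by
  unfold stp
  simp only [chn_reads_update n a ha]
  rw [integral_sub (hf.integrable_upd ν (n + 1) ω) (integrable_const _)]
  simp

theorem tnk_integral_mul (n : ℕ) (g F : Om Ξ → ℝ) (hg : tnkBM g) (hF : tnkBM F) (hr : Reads n g) :
    ∫ ω, g ω * F ω ∂(Pr ν) = ∫ ω, g ω * stp ν n F ω ∂(Pr ν) := by
  have hgF := hg.mul hF
  rw [← integral_stp ν n _ hgF.1 hgF.2]
  congr 1
  funext ω
  exact stp_mul ν n g F hr ω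

/-- a nonnegative predictable multiple of a submartingale increment has nonnegative mean -/
theorem tnk_drift_nonneg (X : ℕ → Om Ξ → ℝ) (hX : Proc X) (hs : ∀ n ω, X n ω ≤ stp ν n (X (n + 1)) ω) (n : ℕ)
    (g : Om Ξ → ℝ) (hg : tnkBM g) (hr : Reads n g) (h0 : ∀ ω, 0 ≤ g ω) :
    0 ≤ ∫ ω, g ω * (X (n + 1) ω - X n ω) ∂(Pr ν) := by
  rw [tnk_integral_mul ν n g _ hg ((tnkBM_proc X hX (n + 1)).sub (tnkBM_proc X hX n)) hr]
  refine integral_nonneg fun ω => ?_
  simp only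
  rw [tnk_stp_sub_reads ν n _ _ (tnkBM_proc X hX (n + 1)) (hX.reads n) ω]
  exact mul_nonneg (h0 ω) (sub_nonneg.mpr (hs n ω))

/-- a predictable multiple of a centred increment has mean zero -/
theorem tnk_centred (X : ℕ → Om Ξ → ℝ) (hX : Proc X) (n : ℕ) (g : Om Ξ → ℝ) (hg : tnkBM g) (hr : Reads n g) :
    ∫ ω, g ω * (X (n + 1) ω - stp ν n (X (n + 1)) ω) ∂(Pr ν) = 0 := by
  rw [tnk_integral_mul ν n g _ hg ((tnkBM_proc X hX (n + 1)).sub ((tnkBM_proc X hX (n + 1)).stp ν n)) hr]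
  have : ∀ ω, stp ν n (fun ω' => X (n + 1) ω' - stp ν n (X (n + 1)) ω') ω = 0 := by
    intro ω
    rw [tnk_stp_sub_reads ν n _ _ (tnkBM_proc X hX (n + 1)) (reads_stp ν n _ (hX.reads (n + 1))) ω]
    ring
  simp only [this, mul_zero, integral_zero]

/-! ### the cost before the first passage above `R` -/

/-- the cut "not above `R`" -/
def tnkA (X : ℕ → Om Ξ → ℝ) (R : ℝ) : ℕ → Om Ξ → Prop := fun n ω => X n ω ≤ R

theorem tnkA_cut (X : ℕ → Om Ξ → ℝ) (hX : Proc X) (R : ℝ) : Cut (tnkA X R) := by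
  refine ⟨fun n => measurableSet_le (hX.meas n) measurable_const, fun n ω ω' h => ?_⟩
  unfold tnkA
  rw [hX.reads n ω ω' h]

/-- the cost of the step `m` -/
noncomputable def tnkCost (X : ℕ → Om Ξ → ℝ) (h : ℝ) (m : ℕ) (ω : Om Ξ) : ℝ :=
  if |X m ω| ≤ h then min ((X (m + 1) ω - X m ω) ^ 2) (h ^ 2) else 0

theorem tnkCost_nonneg (X : ℕ → Om Ξ → ℝ) (h : ℝ) (m : ℕ) (ω : Om Ξ) : 0 ≤ tnkCost X h m ω := by
  unfold tnkCost
  split_ifs
  · exact le_min (sq_nonneg _) (sq_nonneg _)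
  · exact le_rfl

theorem tnkCost_le (X : ℕ → Om Ξ → ℝ) (h : ℝ) (m : ℕ) (ω : Om Ξ) : tnkCost X h m ω ≤ h ^ 2 := by
  unfold tnkCost
  split_ifs
  · exact min_le_right _ _
  · exact sq_nonneg _

theorem tnkCost_BM (X : ℕ → Om Ξ → ℝ) (hX : Proc X) (h : ℝ) (m : ℕ) : tnkBM (tnkCost X h m) := by
  refine ⟨?_, h ^ 2, fun ω => ?_⟩
  · unfold tnkCost
    exact Measurable.ite (measurableSet_le (hX.meas m).abs measurable_const)
      ((((hX.meas (m + 1)).sub (hX.meas m)).pow_const 2).min measurable_const) measurable_const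
  · rw [abs_of_nonneg (tnkCost_nonneg X h m ω)]
    exact tnkCost_le X h m ω

open Classical in
theorem tnk_pre_step (X : ℕ → Om Ξ → ℝ) (hX : Proc X) (hs : ∀ n ω, X n ω ≤ stp ν n (X (n + 1)) ω) (h R : ℝ)
    (hh : 0 < h) (m : ℕ) :
    ∫ ω, (if Alive (tnkA X R) (m + 1) ω then tnkCost X h m ω else 0) ∂(Pr ν)
      ≤ 12 * h * ∫ ω, (if Alive (tnkA X R) (m + 1) ω then tnkPhi h (X (m + 1) ω) - tnkPhi h (X m ω) else 0) ∂(Pr ν) := by
  have hcut := tnkA_cut X hX R
  have hPm := chn_alive_meas _ hcut (m + 1)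
  have hPr := chn_alive_reads _ hcut m
  set P : Om Ξ → Prop := Alive (tnkA X R) (m + 1) with hP
  set g : Om Ξ → ℝ := fun ω => if P ω then tnkDer h (X m ω) else 0 with hg
  have hgBM : tnkBM g := ((tnkBM_proc X hX m).der h hh).ite (tnkBM_const 0) P hPm
  have hgr : Reads m g := by
    intro ω ω' hω
    have e1 : P ω = P ω' := hPr ω ω' hω
    simp only [hg]
    by_cases hp : P ω
    · rw [if_pos hp, if_pos (e1 ▸ hp), hX.reads m ω ω' hω]
    · rw [if_neg hp, if_neg (e1 ▸ hp)]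
  have hg0 : ∀ ω, 0 ≤ g ω := by
    intro ω
    simp only [hg]
    split_ifs
    · exact tnkDer_nonneg h _ hh
    · exact le_rfl
  have hdr := tnk_drift_nonneg ν X hX hs m g hgBM hgr hg0
  have hB1 : tnkBM (fun ω => if P ω then tnkCost X h m ω else 0) := (tnkCost_BM X hX h m).ite (tnkBM_const 0) P hPm
  have hB2 : tnkBM (fun ω => if P ω then tnkPhi h (X (m + 1) ω) - tnkPhi h (X m ω) else 0) :=
    (((tnkBM_proc X hX (m + 1)).phi h hh).sub ((tnkBM_proc X hX m).phi h hh)).ite (tnkBM_const 0) P hPm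
  have hB3 : tnkBM (fun ω => g ω * (X (m + 1) ω - X m ω)) :=
    hgBM.mul ((tnkBM_proc X hX (m + 1)).sub (tnkBM_proc X hX m))
  have hpt : ∀ ω, (if P ω then tnkCost X h m ω else 0)
      ≤ 12 * h * ((if P ω then tnkPhi h (X (m + 1) ω) - tnkPhi h (X m ω) else 0) - g ω * (X (m + 1) ω - X m ω)) := by
    intro ω
    simp only [hg]
    by_cases hp : P ω
    · simp only [if_pos hp]
      have := tnk_ramp h (X m ω) (X (m + 1) ω) hh
      rw [div_le_iff₀ (by positivity)] at this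
      unfold tnkCost
      linarith
    · simp only [if_neg hp]
      simp
  calc ∫ ω, (if P ω then tnkCost X h m ω else 0) ∂(Pr ν)
      ≤ ∫ ω, 12 * h * ((if P ω then tnkPhi h (X (m + 1) ω) - tnkPhi h (X m ω) else 0)
          - g ω * (X (m + 1) ω - X m ω)) ∂(Pr ν) :=
        integral_mono (hB1.integrable ν) (((hB2.sub hB3).integrable ν).const_mul _) hpt
    _ = 12 * h * ((∫ ω, (if P ω then tnkPhi h (X (m + 1) ω) - tnkPhi h (X m ω) else 0) ∂(Pr ν))
          - ∫ ω, g ω * (X (m + 1) ω - X m ω) ∂(Pr ν)) := by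
        rw [integral_const_mul, integral_sub (hB2.integrable ν) (hB3.integrable ν)]
    _ ≤ _ := by
        apply mul_le_mul_of_nonneg_left _ (by positivity)
        linarith

open Classical in
theorem tnk_tele_alive (A : ℕ → Om Ξ → Prop) (Y : ℕ → Om Ξ → ℝ) (M : ℕ) (ω : Om Ξ) (ha : Alive A M ω) :
    ∑ m ∈ range M, (if Alive A (m + 1) ω then Y (m + 1) ω - Y m ω else 0) = Y M ω - Y 0 ω := by
  induction M with
  | zero => simp
  | succ M ih =>
    rw [Finset.sum_range_succ, ih fun i hi => ha i (by omega), if_pos ha]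
    ring

open Classical in
theorem tnk_tele (A : ℕ → Om Ξ → Prop) (Y : ℕ → Om Ξ → ℝ) (M : ℕ) (ω : Om Ξ) :
    ∃ k, k ≤ M ∧ Alive A k ω ∧
      ∑ m ∈ range M, (if Alive A (m + 1) ω then Y (m + 1) ω - Y m ω else 0) = Y k ω - Y 0 ω := by
  induction M with
  | zero => exact ⟨0, le_rfl, fun i hi => absurd hi (Nat.not_lt_zero i), by simp⟩
  | succ M ih =>
    by_cases ha : Alive A (M + 1) ω
    · exact ⟨M + 1, le_rfl, ha, tnk_tele_alive A Y (M + 1) ω ha⟩
    · obtain ⟨k, hk, h1, h2⟩ := ih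
      refine ⟨k, by omega, h1, ?_⟩
      rw [Finset.sum_range_succ, if_neg ha, add_zero, h2]

open Classical in
theorem tnk_tele_bound (X : ℕ → Om Ξ → ℝ) (h R t : ℝ) (hh : 0 < h) (hR : 0 ≤ R) (ht : 0 < t) (M : ℕ) (ω : Om Ξ) :
    ∑ m ∈ range M, (if Alive (tnkA X R) (m + 1) ω then tnkPhi h (X (m + 1) ω) - tnkPhi h (X m ω) else 0)
      ≤ h + 2 * R + t + (∑ j ∈ range M, (X (j + 1) ω - X j ω) ^ 2) / t := by
  obtain ⟨k, hk, h1, h2⟩ := tnk_tele (tnkA X R) (fun n ω => tnkPhi h (X n ω)) M ω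
  rw [h2]
  have hS : 0 ≤ ∑ j ∈ range M, (X (j + 1) ω - X j ω) ^ 2 := Finset.sum_nonneg fun j _ => sq_nonneg _
  cases k with
  | zero =>
    simp only [sub_self]
    positivity
  | succ j =>
    have hj : X j ω ≤ R := h1 j (Nat.lt_succ_self j)
    set d := X (j + 1) ω - X j ω with hd
    have h3 : X (j + 1) ω ≤ R + |d| := by
      have := le_abs_self d
      linarith
    have h4 := tnkPhi_le h _ _ hh h3 (by positivity)
    have h5 := tnkPhi_nonneg h (X 0 ω)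
    have h6 : d ^ 2 ≤ ∑ j ∈ range M, (X (j + 1) ω - X j ω) ^ 2 :=
      Finset.single_le_sum (f := fun j => (X (j + 1) ω - X j ω) ^ 2) (fun i _ => sq_nonneg _)
        (Finset.mem_range.mpr (by omega))
    have h7 : 2 * |d| ≤ t + d ^ 2 / t := by
      have : 2 * |d| * t ≤ t * t + d ^ 2 := by nlinarith [sq_nonneg (|d| - t), sq_abs d]
      have h8 : t + d ^ 2 / t = (t * t + d ^ 2) / t := by field_simp
      rw [h8, le_div_iff₀ ht]
      exact this
    have h9 : d ^ 2 / t ≤ (∑ j ∈ range M, (X (j + 1) ω - X j ω) ^ 2) / t := div_le_div_of_nonneg_right h6 ht.le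
    linarith

open Classical in
theorem tnk_pre (X : ℕ → Om Ξ → ℝ) (hX : Proc X) (hs : ∀ n ω, X n ω ≤ stp ν n (X (n + 1)) ω) (M : ℕ) (h R V : ℝ)
    (hh : 0 < h) (hR : h < R) (hV : ∑ m ∈ range M, ∫ ω, (X (m + 1) ω - X m ω) ^ 2 ∂(Pr ν) ≤ V) :
    ∑ m ∈ range M, ∫ ω, (if Alive (tnkA X R) (m + 1) ω then tnkCost X h m ω else 0) ∂(Pr ν)
      ≤ 24 * h * (h + R + Real.sqrt V) := by
  have hcut := tnkA_cut X hX R
  have hV0 : 0 ≤ V := le_trans (Finset.sum_nonneg fun m _ => integral_nonneg fun ω => sq_nonneg _) hV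
  set t := h + Real.sqrt V with ht
  have ht0 : 0 < t := by have := Real.sqrt_nonneg V; linarith
  have hB2 : ∀ m, tnkBM (fun ω => if Alive (tnkA X R) (m + 1) ω then tnkPhi h (X (m + 1) ω) - tnkPhi h (X m ω) else 0) :=
    fun m => (((tnkBM_proc X hX (m + 1)).phi h hh).sub ((tnkBM_proc X hX m).phi h hh)).ite (tnkBM_const 0) _
      (chn_alive_meas _ hcut (m + 1))
  have hB4 : ∀ m, tnkBM (fun ω => (X (m + 1) ω - X m ω) ^ 2) := fun m =>
    ((tnkBM_proc X hX (m + 1)).sub (tnkBM_proc X hX m)).sq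
  have hVt : V / t ≤ Real.sqrt V := by
    rw [div_le_iff₀ ht0, ht]
    nlinarith [Real.sq_sqrt hV0, Real.sqrt_nonneg V]
  calc ∑ m ∈ range M, ∫ ω, (if Alive (tnkA X R) (m + 1) ω then tnkCost X h m ω else 0) ∂(Pr ν)
      ≤ ∑ m ∈ range M, 12 * h * ∫ ω, (if Alive (tnkA X R) (m + 1) ω
          then tnkPhi h (X (m + 1) ω) - tnkPhi h (X m ω) else 0) ∂(Pr ν) :=
        Finset.sum_le_sum fun m _ => tnk_pre_step ν X hX hs h R hh m
    _ = 12 * h * ∫ ω, ∑ m ∈ range M, (if Alive (tnkA X R) (m + 1) ω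
          then tnkPhi h (X (m + 1) ω) - tnkPhi h (X m ω) else 0) ∂(Pr ν) := by
        rw [← Finset.mul_sum, integral_finsetSum _ fun m _ => (hB2 m).integrable ν]
    _ ≤ 12 * h * ∫ ω, (h + 2 * R + t + (∑ j ∈ range M, (X (j + 1) ω - X j ω) ^ 2) / t) ∂(Pr ν) := by
        apply mul_le_mul_of_nonneg_left _ (by positivity)
        refine integral_mono ((tnkBM.sum _ fun m _ => hB2 m).integrable ν) ?_
          fun ω => tnk_tele_bound X h R t hh (hh.le.trans hR.le) ht0 M ω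
        exact (integrable_const _).add (((tnkBM.sum _ fun m _ => hB4 m).integrable ν).div_const t)
    _ = 12 * h * (h + 2 * R + t + (∑ j ∈ range M, ∫ ω, (X (j + 1) ω - X j ω) ^ 2 ∂(Pr ν)) / t) := by
        rw [integral_add (integrable_const _) (((tnkBM.sum _ fun m _ => hB4 m).integrable ν).div_const t),
          integral_div, integral_finsetSum _ fun m _ => (hB4 m).integrable ν]
        simp
    _ ≤ 12 * h * (h + 2 * R + t + V / t) := by
        apply mul_le_mul_of_nonneg_left _ (by positivity)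
        have := div_le_div_of_nonneg_right hV ht0.le
        linarith
    _ ≤ 24 * h * (h + R + Real.sqrt V) := by
        have : h + 2 * R + t + V / t ≤ 2 * (h + R + Real.sqrt V) := by rw [ht] at hVt ⊢; linarith
        nlinarith [mul_le_mul_of_nonneg_left this (by positivity : (0:ℝ) ≤ 12 * h)]

/-! ### the cost after the first passage above `R` -/

open Classical in
/-- the centred walk after the first passage above `R`, frozen once it is `≤ -lam` -/
noncomputable def tnkZ (X : ℕ → Om Ξ → ℝ) (R lam : ℝ) : ℕ → Om Ξ → ℝ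
  | 0, _ => 0
  | n + 1, ω => tnkZ X R lam n ω +
      (if ¬ Alive (tnkA X R) (n + 1) ω ∧ -lam < tnkZ X R lam n ω then X (n + 1) ω - stp ν n (X (n + 1)) ω else 0)

open Classical in
theorem tnkZ_succ (X : ℕ → Om Ξ → ℝ) (R lam : ℝ) (n : ℕ) (ω : Om Ξ) :
    tnkZ ν X R lam (n + 1) ω = tnkZ ν X R lam n ω +
      (if ¬ Alive (tnkA X R) (n + 1) ω ∧ -lam < tnkZ ν X R lam n ω then X (n + 1) ω - stp ν n (X (n + 1)) ω else 0) := by
  simp only [tnkZ]

/-- the mask of the step `n` -/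
def tnkP (X : ℕ → Om Ξ → ℝ) (R lam : ℝ) (n : ℕ) (ω : Om Ξ) : Prop :=
  ¬ Alive (tnkA X R) (n + 1) ω ∧ -lam < tnkZ ν X R lam n ω

theorem tnkZ_BM_reads (X : ℕ → Om Ξ → ℝ) (hX : Proc X) (R lam : ℝ) (n : ℕ) :
    tnkBM (tnkZ ν X R lam n) ∧ Reads n (tnkZ ν X R lam n) := by
  classical
  have hcut := tnkA_cut X hX R
  induction n with
  | zero => exact ⟨tnkBM_const 0, fun _ _ _ => rfl⟩
  | succ n ih =>
    obtain ⟨h1, h2⟩ := ih
    have hPm : MeasurableSet {ω | ¬ Alive (tnkA X R) (n + 1) ω ∧ -lam < tnkZ ν X R lam n ω} :=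
      (chn_alive_meas _ hcut (n + 1)).compl.inter (measurableSet_lt measurable_const h1.1)
    have e : tnkZ ν X R lam (n + 1) = fun ω => tnkZ ν X R lam n ω +
        (if ¬ Alive (tnkA X R) (n + 1) ω ∧ -lam < tnkZ ν X R lam n ω
          then X (n + 1) ω - stp ν n (X (n + 1)) ω else 0) := by
      funext ω; exact tnkZ_succ ν X R lam n ω
    refine ⟨?_, fun ω ω' hω => ?_⟩
    · rw [e]
      exact h1.add ((((tnkBM_proc X hX (n + 1)).sub ((tnkBM_proc X hX (n + 1)).stp ν n))).ite (tnkBM_const 0) _ hPm)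
    · have hω' : ∀ i, i ≤ n → ω i = ω' i := fun i hi => hω i (by omega)
      have e1 : Alive (tnkA X R) (n + 1) ω = Alive (tnkA X R) (n + 1) ω' := chn_alive_reads _ hcut n ω ω' hω'
      have e2 := h2 ω ω' hω'
      have e3 := hX.reads (n + 1) ω ω' hω
      have e4 := reads_stp ν n _ (hX.reads (n + 1)) ω ω' hω'
      rw [tnkZ_succ, tnkZ_succ, e2, e3, e4]
      simp only [e1]

theorem tnkP_meas (X : ℕ → Om Ξ → ℝ) (hX : Proc X) (R lam : ℝ) (n : ℕ) : MeasurableSet {ω | tnkP ν X R lam n ω} :=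
  (chn_alive_meas _ (tnkA_cut X hX R) (n + 1)).compl.inter
    (measurableSet_lt measurable_const (tnkZ_BM_reads ν X hX R lam n).1.1)

theorem tnkP_reads (X : ℕ → Om Ξ → ℝ) (hX : Proc X) (R lam : ℝ) (n : ℕ) : Reads n (tnkP ν X R lam n) := by
  intro ω ω' hω
  have e1 : Alive (tnkA X R) (n + 1) ω = Alive (tnkA X R) (n + 1) ω' :=
    chn_alive_reads _ (tnkA_cut X hX R) n ω ω' hω
  have e2 := (tnkZ_BM_reads ν X hX R lam n).2 ω ω' hω
  unfold tnkP
  rw [e1, e2]

theorem tnkZ_sq_step (X : ℕ → Om Ξ → ℝ) (hX : Proc X) (R lam : ℝ) (n : ℕ) :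
    ∫ ω, tnkZ ν X R lam (n + 1) ω ^ 2 ∂(Pr ν)
      ≤ ∫ ω, tnkZ ν X R lam n ω ^ 2 ∂(Pr ν) + ∫ ω, (X (n + 1) ω - X n ω) ^ 2 ∂(Pr ν) := by
  classical
  have hZ := tnkZ_BM_reads ν X hX R lam
  have hS : tnkBM (stp ν n (X (n + 1))) := (tnkBM_proc X hX (n + 1)).stp ν n
  have hSr : Reads n (stp ν n (X (n + 1))) := reads_stp ν n _ (hX.reads (n + 1))
  set g : Om Ξ → ℝ := fun ω => if tnkP ν X R lam n ω
    then 2 * (tnkZ ν X R lam n ω - (stp ν n (X (n + 1)) ω - X n ω)) else 0 with hg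
  have hgBM : tnkBM g :=
    ((tnkBM_const 2).mul ((hZ n).1.sub (hS.sub (tnkBM_proc X hX n)))).ite (tnkBM_const 0) _ (tnkP_meas ν X hX R lam n)
  have hgr : Reads n g := by
    intro ω ω' hω
    have e1 : tnkP ν X R lam n ω = tnkP ν X R lam n ω' := tnkP_reads ν X hX R lam n ω ω' hω
    simp only [hg]
    by_cases hp : tnkP ν X R lam n ω
    · rw [if_pos hp, if_pos (e1 ▸ hp), (hZ n).2 ω ω' hω, hSr ω ω' hω, hX.reads n ω ω' hω]
    · rw [if_neg hp, if_neg (e1 ▸ hp)]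
  have hc := tnk_centred ν X hX n g hgBM hgr
  have hB1 : tnkBM (fun ω => tnkZ ν X R lam n ω ^ 2) := (hZ n).1.sq
  have hB2 : tnkBM (fun ω => g ω * (X (n + 1) ω - stp ν n (X (n + 1)) ω)) :=
    hgBM.mul ((tnkBM_proc X hX (n + 1)).sub hS)
  have hB3 : tnkBM (fun ω => (X (n + 1) ω - X n ω) ^ 2) := ((tnkBM_proc X hX (n + 1)).sub (tnkBM_proc X hX n)).sq
  have hpt : ∀ ω, tnkZ ν X R lam (n + 1) ω ^ 2 ≤ tnkZ ν X R lam n ω ^ 2
      + g ω * (X (n + 1) ω - stp ν n (X (n + 1)) ω) + (X (n + 1) ω - X n ω) ^ 2 := by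
    intro ω
    rw [tnkZ_succ]
    simp only [hg]
    by_cases hp : tnkP ν X R lam n ω
    · have hp' : ¬ Alive (tnkA X R) (n + 1) ω ∧ -lam < tnkZ ν X R lam n ω := hp
      rw [if_pos hp, if_pos hp']
      nlinarith [sq_nonneg (stp ν n (X (n + 1)) ω - X n ω)]
    · have hp' : ¬ (¬ Alive (tnkA X R) (n + 1) ω ∧ -lam < tnkZ ν X R lam n ω) := hp
      rw [if_neg hp, if_neg hp']
      nlinarith [sq_nonneg (X (n + 1) ω - X n ω)]
  calc ∫ ω, tnkZ ν X R lam (n + 1) ω ^ 2 ∂(Pr ν)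
      ≤ ∫ ω, (tnkZ ν X R lam n ω ^ 2 + g ω * (X (n + 1) ω - stp ν n (X (n + 1)) ω)
          + (X (n + 1) ω - X n ω) ^ 2) ∂(Pr ν) :=
        integral_mono ((hZ (n + 1)).1.sq.integrable ν) (((hB1.add hB2).add hB3).integrable ν) hpt
    _ = _ := by
        rw [integral_add ((hB1.add hB2).integrable ν) (hB3.integrable ν),
          integral_add (hB1.integrable ν) (hB2.integrable ν), hc, add_zero]

theorem tnkZ_sq_sum (X : ℕ → Om Ξ → ℝ) (hX : Proc X) (R lam : ℝ) (M : ℕ) :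
    ∫ ω, tnkZ ν X R lam M ω ^ 2 ∂(Pr ν) ≤ ∑ m ∈ range M, ∫ ω, (X (m + 1) ω - X m ω) ^ 2 ∂(Pr ν) := by
  induction M with
  | zero => simp [tnkZ]
  | succ M ih =>
    rw [Finset.sum_range_succ]
    exact (tnkZ_sq_step ν X hX R lam M).trans (add_le_add ih le_rfl)

theorem tnkZ_zero_of_alive (X : ℕ → Om Ξ → ℝ) (R lam : ℝ) (n : ℕ) (ω : Om Ξ) (ha : Alive (tnkA X R) n ω) :
    tnkZ ν X R lam n ω = 0 := by
  classical
  induction n with
  | zero => rfl
  | succ n ih =>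
    rw [tnkZ_succ, ih fun i hi => ha i (by omega), if_neg (fun h => h.1 ha), add_zero]

theorem tnkZ_alt (X : ℕ → Om Ξ → ℝ) (hs : ∀ n ω, X n ω ≤ stp ν n (X (n + 1)) ω) (R lam : ℝ) (n : ℕ) (ω : Om Ξ)
    (ha : ¬ Alive (tnkA X R) (n + 1) ω) :
    tnkZ ν X R lam n ω ≤ -lam ∨ tnkZ ν X R lam n ω ≤ X n ω - R := by
  classical
  induction n with
  | zero =>
    right
    have : ¬ X 0 ω ≤ R := fun h => ha fun i hi => by
      have : i = 0 := by omega
      subst this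
      exact h
    have e : tnkZ ν X R lam 0 ω = 0 := rfl
    rw [e]
    linarith [not_le.mp this]
  | succ n ih =>
    by_cases ha' : Alive (tnkA X R) (n + 1) ω
    · right
      rw [tnkZ_zero_of_alive ν X R lam (n + 1) ω ha']
      have : ¬ X (n + 1) ω ≤ R := fun h => ha fun i hi => by
        rcases Nat.lt_or_ge i (n + 1) with h1 | h1
        · exact ha' i h1
        · have : i = n + 1 := by omega
          subst this
          exact h
      linarith [not_le.mp this]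
    · rw [tnkZ_succ]
      rcases ih ha' with h1 | h1
      · left
        rw [if_neg (fun h => absurd h.2 (not_lt.mpr h1)), add_zero]
        exact h1
      · by_cases h2 : -lam < tnkZ ν X R lam n ω
        · right
          rw [if_pos ⟨ha', h2⟩]
          have := hs n ω
          linarith
        · left
          rw [if_neg (fun h => h2 h.2), add_zero]
          exact not_lt.mp h2

theorem tnkZ_frozen (X : ℕ → Om Ξ → ℝ) (R lam : ℝ) (m n : ℕ) (hmn : m ≤ n) (ω : Om Ξ)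
    (h : tnkZ ν X R lam m ω ≤ -lam) : tnkZ ν X R lam n ω = tnkZ ν X R lam m ω := by
  classical
  induction n, hmn using Nat.le_induction with
  | base => rfl
  | succ n hn ih =>
    rw [tnkZ_succ, ih, if_neg (fun h' => absurd h'.2 (not_lt.mpr h)), add_zero]

open Classical in
theorem tnk_post (X : ℕ → Om Ξ → ℝ) (hX : Proc X) (hs : ∀ n ω, X n ω ≤ stp ν n (X (n + 1)) ω) (M : ℕ) (h R V : ℝ)
    (hh : 0 < h) (hR : h < R) (hV : ∑ m ∈ range M, ∫ ω, (X (m + 1) ω - X m ω) ^ 2 ∂(Pr ν) ≤ V) :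
    ∑ m ∈ range M, ∫ ω, (if Alive (tnkA X R) (m + 1) ω then 0 else tnkCost X h m ω) ∂(Pr ν)
      ≤ M * h ^ 2 * min 1 (V / (R - h) ^ 2) := by
  have hcut := tnkA_cut X hX R
  set lam := R - h with hlam
  have hl : 0 < lam := sub_pos.mpr hR
  have hZ := tnkZ_BM_reads ν X hX R lam
  set B : Set (Om Ξ) := {ω | lam ^ 2 ≤ tnkZ ν X R lam M ω ^ 2} with hB
  have hBm : MeasurableSet B := measurableSet_le measurable_const (hZ M).1.sq.1
  have hmk := mul_meas_ge_le_integral_of_nonneg (μ := Pr ν) (f := fun ω => tnkZ ν X R lam M ω ^ 2)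
    (Filter.Eventually.of_forall fun ω => sq_nonneg _) ((hZ M).1.sq.integrable ν) (lam ^ 2)
  have hPB : (Pr ν).real B ≤ min 1 (V / lam ^ 2) := by
    refine le_min measureReal_le_one ?_
    rw [le_div_iff₀ (by positivity), mul_comm]
    exact hmk.trans ((tnkZ_sq_sum ν X hX R lam M).trans hV)
  have hterm : ∀ m ∈ range M, ∫ ω, (if Alive (tnkA X R) (m + 1) ω then 0 else tnkCost X h m ω) ∂(Pr ν)
      ≤ h ^ 2 * (Pr ν).real B := by
    intro m hm
    have hmM : m ≤ M := (Finset.mem_range.mp hm).le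
    have hpt : ∀ ω, (if Alive (tnkA X R) (m + 1) ω then 0 else tnkCost X h m ω) ≤ B.indicator (fun _ => h ^ 2) ω := by
      intro ω
      have hi0 : 0 ≤ B.indicator (fun _ => h ^ 2) ω := Set.indicator_nonneg (fun _ _ => sq_nonneg h) ω
      split_ifs with ha
      · exact hi0
      · by_cases hx : |X m ω| ≤ h
        · have hmem : ω ∈ B := by
            have h1 : tnkZ ν X R lam m ω ≤ -lam := by
              rcases tnkZ_alt ν X hs R lam m ω ha with h1 | h1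
              · exact h1
              · have := (abs_le.mp hx).2
                rw [hlam] at *
                linarith
            have h2 := tnkZ_frozen ν X R lam m M hmM ω h1
            show lam ^ 2 ≤ tnkZ ν X R lam M ω ^ 2
            rw [h2]
            nlinarith
          rw [Set.indicator_of_mem hmem]
          exact tnkCost_le X h m ω
        · have : tnkCost X h m ω = 0 := by unfold tnkCost; rw [if_neg hx]
          rw [this]
          exact hi0
    calc ∫ ω, (if Alive (tnkA X R) (m + 1) ω then 0 else tnkCost X h m ω) ∂(Pr ν)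
        ≤ ∫ ω, B.indicator (fun _ => h ^ 2) ω ∂(Pr ν) :=
          integral_mono (((tnkBM_const 0).ite (tnkCost_BM X hX h m) _ (chn_alive_meas _ hcut (m + 1))).integrable ν)
            ((integrable_const _).indicator hBm) hpt
      _ = h ^ 2 * (Pr ν).real B := by
          rw [integral_indicator_const _ hBm, smul_eq_mul, mul_comm]
  calc _ ≤ ∑ _m ∈ range M, h ^ 2 * (Pr ν).real B := Finset.sum_le_sum hterm
    _ = M * h ^ 2 * (Pr ν).real B := by rw [Finset.sum_const, Finset.card_range, nsmul_eq_mul]; ring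
    _ ≤ _ := mul_le_mul_of_nonneg_left hPB (by positivity)

open Classical in
/-- **Discrete Tanaka estimate.** -/
theorem tnk_tanaka : ∃ C : ℝ, 0 < C ∧ ∀ (X : ℕ → Om Ξ → ℝ), Proc X → (∀ n ω, X n ω ≤ stp ν n (X (n + 1)) ω) →
    ∀ (M : ℕ) (h R V : ℝ), 0 < h → h < R →
      ∑ m ∈ range M, ∫ ω, (X (m + 1) ω - X m ω) ^ 2 ∂(Pr ν) ≤ V →
      ∑ m ∈ range M, ∫ ω, (if |X m ω| ≤ h then min ((X (m + 1) ω - X m ω) ^ 2) (h ^ 2) else 0) ∂(Pr ν)
        ≤ C * h * (h + R + Real.sqrt V) + C * M * h ^ 2 * min 1 (V / (R - h) ^ 2) := by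
  refine ⟨24, by norm_num, fun X hX hs M h R V hh hR hV => ?_⟩
  have hcut := tnkA_cut X hX R
  have hV0 : 0 ≤ V := le_trans (Finset.sum_nonneg fun m _ => integral_nonneg fun ω => sq_nonneg _) hV
  have h1 := tnk_pre ν X hX hs M h R V hh hR hV
  have h2 := tnk_post ν X hX hs M h R V hh hR hV
  have hsplit : ∀ m, ∫ ω, (if |X m ω| ≤ h then min ((X (m + 1) ω - X m ω) ^ 2) (h ^ 2) else 0) ∂(Pr ν)
      = ∫ ω, (if Alive (tnkA X R) (m + 1) ω then tnkCost X h m ω else 0) ∂(Pr ν)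
        + ∫ ω, (if Alive (tnkA X R) (m + 1) ω then 0 else tnkCost X h m ω) ∂(Pr ν) := by
    intro m
    rw [← integral_add
      (((tnkCost_BM X hX h m).ite (tnkBM_const 0) _ (chn_alive_meas _ hcut (m + 1))).integrable ν)
      (((tnkBM_const 0).ite (tnkCost_BM X hX h m) _ (chn_alive_meas _ hcut (m + 1))).integrable ν)]
    congr 1
    funext ω
    by_cases ha : Alive (tnkA X R) (m + 1) ω
    · simp only [if_pos ha, add_zero]; rfl
    · simp only [if_neg ha, zero_add]; rfl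
  simp only [hsplit]
  rw [Finset.sum_add_distrib]
  have h3 : 0 ≤ (M : ℝ) * h ^ 2 * min 1 (V / (R - h) ^ 2) := by
    have : 0 ≤ min 1 (V / (R - h) ^ 2) := le_min zero_le_one (by positivity)
    positivity
  nlinarith

end Claimed.Agent.R269.Chn
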