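/-
Row 269, library for P1 Sections 10-11 (owner: helper171).  HOST-FREE: no paper reading needed.

EVENT-BASED MARTINGALE TOOLBOX on the product space of `Lib/Chain.lean`.  Every estimate has the form
   `Pr {ω | ∃ n, Alive A n ω ∧ (something bad at time n)} ≤ bound`,
where `A` is an adapted family of "cuts" (`Alive A n ω` = all cuts hold at the times `< n`), and the (super/sub)martingale hypotheses are
POINTWISE one-step inequalities required only while the cuts hold.  This formalises "stop at the first failure of the earlier bounds".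
No measurability of the final events is needed (`Measure.real` of an arbitrary set = outer measure).

PROOF PATTERN: freeze the process at the first failure (`frz`, `integral_frz_le`, `stp_frz`), use `integral_stp`; or go through
`martingale_of_stp` / `submartingale_of_stp` and Mathlib (`maximal_ineq`, upcrossings, convergence).
RULES: the claimer of a package fills its `sorry`s IN PLACE (auxiliary lemmas above the statement, prefix `mrt_`); do not change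
a statement without telling helper171; land every compiled state.
-/
import Claimed.Agent.R269.Lib.Chain
import Claimed.Agent.R269.Lib.Mart1Pf
import Claimed.Agent.R269.Lib.Mart2Pf
import Claimed.Agent.R269.Lib.Mart3Pf
import Claimed.Agent.R269.Lib.Mart4Pf
import Claimed.Agent.R269.Lib.Mart5Pf
import Claimed.Agent.R269.Lib.TanakaPf

set_option autoImplicit false

namespace Claimed.Agent.R269.Chn

open MeasureTheory Set Finset Filter Topology

variable {Ξ : Type} [MeasurableSpace Ξ] (ν : Measure Ξ) [IsProbabilityMeasure ν]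

/-! ### LF-Mart-1: Ville's inequality and the logarithmic deficit -/

/-- **Ville.**  A nonnegative supermartingale which has once been `≤ δ` later exceeds `lam` with probability `≤ δ/lam`. -/
theorem ville (A : ℕ → Om Ξ → Prop) (hA : Cut A) (X : ℕ → Om Ξ → ℝ) (hX : Proc X)
    (hs : ∀ n ω, Alive A (n + 1) ω → stp ν n (X (n + 1)) ω ≤ X n ω)
    (h0 : ∀ n ω, Alive A n ω → 0 ≤ X n ω) (δ lam : ℝ) (hδ : 0 ≤ δ) (hl : 0 < lam) :
    (Pr ν).real {ω | ∃ m n, m ≤ n ∧ Alive A n ω ∧ X m ω ≤ δ ∧ lam ≤ X n ω} ≤ δ / lam :=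
  mrt1_ville ν A hA X hX hs h0 δ lam hδ hl

/-- Ville's inequality, mean form. -/
theorem ville_mean (A : ℕ → Om Ξ → Prop) (hA : Cut A) (X : ℕ → Om Ξ → ℝ) (hX : Proc X)
    (hs : ∀ n ω, Alive A (n + 1) ω → stp ν n (X (n + 1)) ω ≤ X n ω)
    (h0 : ∀ n ω, Alive A n ω → 0 ≤ X n ω) (lam : ℝ) (hl : 0 < lam) :
    (Pr ν).real {ω | ∃ n, Alive A n ω ∧ lam ≤ X n ω} ≤ (∫ ω, X 0 ω ∂(Pr ν)) / lam :=
  mrt1_ville_mean ν A hA X hX hs h0 lam hl

/-- **Logarithmic deficit** (P1 Lemma 10.5): a submartingale with upward jumps `≤ κ`, started in `[-C0, B0]`, which stays `≤ B0`, goes below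
`-B1` with probability at most `(B0+κ+C0)/(B0+κ+B1)`.  (`ville` for `B0 + κ - u` and the cut `A i ∧ u i ≤ B0`.) -/
theorem logdef (A : ℕ → Om Ξ → Prop) (hA : Cut A) (u : ℕ → Om Ξ → ℝ) (hu : Proc u)
    (hs : ∀ n ω, Alive A (n + 1) ω → u n ω ≤ stp ν n (u (n + 1)) ω) (κ B0 B1 C0 : ℝ) (hκ : 0 ≤ κ)
    (hk : ∀ n ω, Alive A (n + 1) ω → u (n + 1) ω ≤ u n ω + κ)
    (h0 : ∀ ω, -C0 ≤ u 0 ω) (h0' : ∀ ω, u 0 ω ≤ B0) (hB : 0 < B0 + κ + B1) :
    (Pr ν).real {ω | ∃ n, Alive A n ω ∧ (∀ i, i < n → u i ω ≤ B0) ∧ u n ω ≤ -B1}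
      ≤ (B0 + κ + C0) / (B0 + κ + B1) :=
  mrt1_logdef ν A hA u hu hs κ B0 B1 C0 hκ hk h0 h0' hB

/-- a submartingale bounded above is a.s. bounded below (let `B1 → ∞` in `logdef`) -/
theorem bddBelow_of_bddAbove (A : ℕ → Om Ξ → Prop) (hA : Cut A) (u : ℕ → Om Ξ → ℝ) (hu : Proc u)
    (hs : ∀ n ω, Alive A (n + 1) ω → u n ω ≤ stp ν n (u (n + 1)) ω) (κ B0 : ℝ) (hκ : 0 ≤ κ)
    (hk : ∀ n ω, Alive A (n + 1) ω → u (n + 1) ω ≤ u n ω + κ) :
    (Pr ν) {ω | (∀ n, A n ω) ∧ (∀ n, u n ω ≤ B0) ∧ ¬ BddBelow (range fun n => u n ω)} = 0 :=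
  mrt1_bddBelow_of_bddAbove ν A hA u hu hs κ B0 hκ hk

/-! ### LF-Mart-2: the maximal inequality with a clock cut -/

/-- second moments add up -/
theorem l2_sum (M : ℕ → Om Ξ → ℂ) (hM : Proc M) (hm : ∀ n ω, stp ν n (M (n + 1)) ω = M n ω) (n : ℕ) :
    ∫ ω, ‖M n ω - M 0 ω‖ ^ 2 ∂(Pr ν) =
      ∑ i ∈ range n, ∫ ω, stp ν i (fun ω' => ‖M (i + 1) ω' - M i ω‖ ^ 2) ω ∂(Pr ν) :=
  mrt2_l2_sum ν M hM hm n

/-- **Maximal inequality with a deterministic clock cut** (P1, paragraph after Lemma 10.5).  `M` = martingale while the cuts hold, `v` = adapted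
upper bound of its conditional variance, `c` = adapted mask/coefficient.  The transform `∑ c_i ΔM_i` reaches modulus `lam` while its clock
`∑ c_i² v_i` is still `≤ B` with probability at most `B/lam²`. -/
theorem l2max (A : ℕ → Om Ξ → Prop) (hA : Cut A) (M : ℕ → Om Ξ → ℂ) (hM : Proc M) (c v : ℕ → Om Ξ → ℝ)
    (hc : Proc c) (hv : Proc v)
    (hm : ∀ n ω, Alive A (n + 1) ω → stp ν n (M (n + 1)) ω = M n ω)
    (hq : ∀ n ω, Alive A (n + 1) ω → stp ν n (fun ω' => ‖M (n + 1) ω' - M n ω‖ ^ 2) ω ≤ v n ω)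
    (B lam : ℝ) (hB : 0 ≤ B) (hl : 0 < lam) :
    (Pr ν).real {ω | ∃ n, Alive A n ω ∧ ∑ i ∈ range n, c i ω ^ 2 * v i ω ≤ B ∧
        lam ≤ ‖∑ i ∈ range n, (c i ω : ℂ) * (M (i + 1) ω - M i ω)‖} ≤ B / lam ^ 2 :=
  mrt2_l2max ν A hA M hM c v hc hv hm hq B lam hB hl

/-! ### LF-Mart-3: clocks -/

/-- **Occupation bound.**  A bounded submartingale with drift `≥ c ≥ 0`: the accumulated drift is `≤ (Gmax-Gmin)/lam`-rarely above `lam`. -/
theorem occup (A : ℕ → Om Ξ → Prop) (hA : Cut A) (g c : ℕ → Om Ξ → ℝ) (hg : Proc g) (hc : Proc c)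
    (hc0 : ∀ n ω, 0 ≤ c n ω)
    (hs : ∀ n ω, Alive A (n + 1) ω → g n ω + c n ω ≤ stp ν n (g (n + 1)) ω)
    (Gmin Gmax lam : ℝ) (h0 : ∀ ω, Gmin ≤ g 0 ω) (h1 : ∀ n ω, Alive A n ω → g n ω ≤ Gmax) (hl : 0 < lam) :
    (Pr ν).real {ω | ∃ n, Alive A n ω ∧ lam < ∑ i ∈ range n, c i ω} ≤ (Gmax - Gmin) / lam := by
  exact mrt3_occup ν A hA g c hg hc hc0 hs Gmin Gmax lam h0 h1 hl

/-- the accumulated drift is a.s. finite -/
theorem occup_summable (g c : ℕ → Om Ξ → ℝ) (hg : Proc g) (hc : Proc c) (hc0 : ∀ n ω, 0 ≤ c n ω)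
    (hs : ∀ n ω, g n ω + c n ω ≤ stp ν n (g (n + 1)) ω) (Gmax : ℝ) (h1 : ∀ n ω, g n ω ≤ Gmax) :
    ∀ᵐ ω ∂(Pr ν), Summable fun n => c n ω := by
  exact mrt3_occup_summable ν g c hg hc hc0 hs Gmax h1

/-- **Remaining clock** (replaces the reflection principle, P1 Lemma 10.4 (iii)).  `D` = nonnegative martingale, at most doubling in one step,
`v` = adapted LOWER bound of its conditional variance.  After a time with `D ≤ δ` the remaining clock exceeds `T` with probability `≤ 3δ/√T`.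
Proof: `lam = √T`; `ville` bounds the probability of reaching `lam` by `δ/lam`; before that time `E ∑ v ≤ E D_end² ≤ 2 lam δ`; Markov. -/
theorem clockTail (A : ℕ → Om Ξ → Prop) (hA : Cut A) (D v : ℕ → Om Ξ → ℝ) (hD : Proc D) (hv : Proc v)
    (hm : ∀ n ω, Alive A (n + 1) ω → stp ν n (D (n + 1)) ω = D n ω)
    (h0 : ∀ n ω, Alive A n ω → 0 ≤ D n ω)
    (h2 : ∀ n ω, Alive A (n + 1) ω → D (n + 1) ω ≤ 2 * D n ω)
    (hq : ∀ n ω, Alive A (n + 1) ω → v n ω ≤ stp ν n (fun ω' => (D (n + 1) ω' - D n ω) ^ 2) ω)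
    (hv0 : ∀ n ω, 0 ≤ v n ω) (δ T : ℝ) (hδ : 0 ≤ δ) (hT : 0 < T) :
    (Pr ν).real {ω | ∃ m n, m ≤ n ∧ Alive A n ω ∧ D m ω ≤ δ ∧ T < ∑ i ∈ Ico m n, v i ω}
      ≤ 3 * δ / Real.sqrt T := by
  exact mrt3_clockTail ν A hA D v hD hv hm h0 h2 hq hv0 δ T hδ hT

/-! ### LF-Mart-4: hysteresis statuses and the number of switches -/

/- The definitions `stat` (two statuses with hysteresis: `false` = moderate, `true` = tiny; switch to tiny when `u ≤ a`, back to moderate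
when `b ≤ u`) and `nsw` (number of switches before time `n`) live in `Lib/Mart4Pf.lean` (same namespace, verbatim). -/

theorem stat_false (a b : ℝ) (hab : a < b) (u : ℕ → Om Ξ → ℝ) (n : ℕ) (ω : Om Ξ) (h : stat a b u n ω = false) :
    a < u n ω :=
  mrt4_stat_false a b hab u n ω h

theorem stat_true (a b : ℝ) (hab : a < b) (u : ℕ → Om Ξ → ℝ) (n : ℕ) (ω : Om Ξ) (h : stat a b u n ω = true) :
    u n ω < b :=
  mrt4_stat_true a b hab u n ω h

theorem stat_reads (a b : ℝ) (u : ℕ → Om Ξ → ℝ) (hu : Proc u) (n : ℕ) :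
    Reads n (stat a b u n) ∧ Measurable (stat a b u n) :=
  mrt4_stat_reads a b u hu n

/-- **Doob's upcrossing inequality** in the form used in P1 Lemma 10.7: `nsw ≤ 2·(upcrossings of [a,b]) + 1`. -/
theorem switch_count (A : ℕ → Om Ξ → Prop) (hA : Cut A) (u : ℕ → Om Ξ → ℝ) (hu : Proc u)
    (hs : ∀ n ω, Alive A (n + 1) ω → u n ω ≤ stp ν n (u (n + 1)) ω)
    (a b Umax lam : ℝ) (hab : a < b) (haU : a ≤ Umax) (h1 : ∀ n ω, Alive A n ω → u n ω ≤ Umax) (hl : 0 < lam) :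
    (Pr ν).real {ω | ∃ n, Alive A n ω ∧ lam < (nsw a b u n ω : ℝ)} ≤ (2 * (Umax - a) / (b - a) + 2) / lam :=
  mrt4_switch_count ν A hA u hu hs a b Umax lam hab haU h1 hl

/-! ### LF-Mart-5: convergence, Abel summation -/

/-- an `L²`-bounded martingale converges almost surely (Mathlib: `Submartingale.ae_tendsto_limitProcess` for real and imaginary parts) -/
theorem l2conv (M : ℕ → Om Ξ → ℂ) (hM : Proc M) (hm : ∀ n ω, stp ν n (M (n + 1)) ω = M n ω)
    (hb : ∃ C : ℝ, ∀ n, ∫ ω, ‖M n ω‖ ^ 2 ∂(Pr ν) ≤ C) :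
    ∀ᵐ ω ∂(Pr ν), ∃ l : ℂ, Tendsto (fun n => M n ω) atTop (𝓝 l) := by
  exact mrt5_l2conv ν M hM hm hb

/-- **Abel summation** ("integration by parts against the increasing function `𝓡`", P1 Lemma 10.7). -/
theorem abel_bound (R : ℕ → ℝ) (hR : Monotone R) (hR0 : ∀ n, 0 ≤ R n) (x : ℕ → ℂ) (a b : ℕ) (hab : a < b) (ε : ℝ)
    (hx : ∀ n, a ≤ n → n ≤ b → ‖∑ i ∈ Ico a n, x i‖ ≤ ε) :
    ‖∑ i ∈ Ico a b, (R i : ℂ) * x i‖ ≤ 2 * R (b - 1) * ε := by
  exact mrt5_abel_bound R hR hR0 x a b hab ε hx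

/-- finitely many rare events leave a good point -/
theorem exists_good {ι : Type} (s : Finset ι) (Bad : ι → Set (Om Ξ)) (p : ι → ℝ)
    (h : ∀ i ∈ s, (Pr ν).real (Bad i) ≤ p i) (hp : ∑ i ∈ s, p i < 1) : ∃ ω, ∀ i ∈ s, ω ∉ Bad i := by
  exact mrt5_exists_good ν s Bad p h hp

/-! ### LF-Mart-6: the discrete Tanaka estimate (P1 Lemma 11.1; the proof is in 11-sign-test.tex l.37-117, self-contained) -/

open Classical in
/-- **Discrete Tanaka estimate.** -/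
theorem tanaka : ∃ C : ℝ, 0 < C ∧ ∀ (X : ℕ → Om Ξ → ℝ), Proc X → (∀ n ω, X n ω ≤ stp ν n (X (n + 1)) ω) →
    ∀ (M : ℕ) (h R V : ℝ), 0 < h → h < R →
      ∑ m ∈ range M, ∫ ω, (X (m + 1) ω - X m ω) ^ 2 ∂(Pr ν) ≤ V →
      ∑ m ∈ range M, ∫ ω, (if |X m ω| ≤ h then min ((X (m + 1) ω - X m ω) ^ 2) (h ^ 2) else 0) ∂(Pr ν)
        ≤ C * h * (h + R + Real.sqrt V) + C * M * h ^ 2 * min 1 (V / (R - h) ^ 2) := by
  exact tnk_tanaka ν

end Claimed.Agent.R269.Chn
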