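/-
Row 269, library for P1 Section 4 (unit 4D): HENSEL's lemma for factorisations over `k[[τ]]`.  HOST-FREE, Mathlib only.
Leaf LF-S4-NP-hensel (helper180).

  `hensel_factor_pf` : a factorisation `q mod τ = g₀ h₀` into coprime monic polynomials lifts to `k[[τ]][Y]`.

Proof: successive approximation modulo `τ^n` (`hens_step`), coefficientwise limit (`hens_limit`).
-/
import Mathlib

set_option autoImplicit false

namespace Claimed.Agent.R269.Lau

open Polynomial

variable {k : Type*} [Field k]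

/-- Bezout with degree bounds. -/
theorem hens_bezout (g₀ h₀ : k[X]) (hg : g₀.Monic) (hh : h₀.Monic) (hcop : IsCoprime g₀ h₀)
    (R : k[X]) (hR : R.degree < (g₀ * h₀).degree) :
    ∃ A B : k[X], A * h₀ + B * g₀ = R ∧ A.degree < g₀.degree ∧ B.degree < h₀.degree := by
  obtain ⟨a, b, hab⟩ := hcop
  have hA : ((R * b) %ₘ g₀).degree < g₀.degree := degree_modByMonic_lt _ hg
  have hdiv := modByMonic_add_div (R * b) g₀
  have hAB : ((R * b) %ₘ g₀) * h₀ + (R * a + ((R * b) /ₘ g₀) * h₀) * g₀ = R := by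
    linear_combination h₀ * hdiv + R * hab
  refine ⟨(R * b) %ₘ g₀, R * a + ((R * b) /ₘ g₀) * h₀, hAB, hA, ?_⟩
  have hg0 : g₀.degree ≠ ⊥ := by
    rw [Ne, degree_eq_bot]
    exact hg.ne_zero
  have hh0 : h₀.degree ≠ ⊥ := by
    rw [Ne, degree_eq_bot]
    exact hh.ne_zero
  have h1 : ((R * a + ((R * b) /ₘ g₀) * h₀) * g₀).degree < (g₀ * h₀).degree := by
    have e : (R * a + ((R * b) /ₘ g₀) * h₀) * g₀ = R - ((R * b) %ₘ g₀) * h₀ := by
      linear_combination hAB
    rw [e]
    refine (degree_sub_le _ _).trans_lt (max_lt hR ?_)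
    rw [degree_mul, degree_mul]
    exact (WithBot.add_lt_add_iff_right hh0).2 hA
  rw [degree_mul, degree_mul, add_comm] at h1
  exact (WithBot.add_lt_add_iff_left hg0).1 h1

/-- a polynomial which vanishes modulo `τ` is divisible by `τ`. -/
theorem hens_X_dvd (p : (PowerSeries k)[X])
    (h : p.map (PowerSeries.constantCoeff (R := k)) = 0) :
    C (PowerSeries.X : PowerSeries k) ∣ p := by
  rw [C_dvd_iff_dvd_coeff]
  intro i
  rw [PowerSeries.X_dvd_iff, ← coeff_map, h, coeff_zero]

theorem hens_map_lift (p : k[X]) :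
    (p.map (PowerSeries.C (R := k))).map (PowerSeries.constantCoeff (R := k)) = p := by
  rw [map_map]
  have : (PowerSeries.constantCoeff (R := k)).comp (PowerSeries.C (R := k)) = RingHom.id k := by
    ext x
    simp
  rw [this, map_id]

/-- one step of the approximation. -/
theorem hens_step (q : (PowerSeries k)[X]) (hq : q.Monic) (g₀ h₀ : k[X])
    (hg : g₀.Monic) (hh : h₀.Monic) (hcop : IsCoprime g₀ h₀) (n : ℕ) (hn : 1 ≤ n)
    (g h : (PowerSeries k)[X]) (hgm : g.Monic) (hhm : h.Monic)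
    (hgr : g.map (PowerSeries.constantCoeff (R := k)) = g₀)
    (hhr : h.map (PowerSeries.constantCoeff (R := k)) = h₀)
    (hdvd : C ((PowerSeries.X : PowerSeries k) ^ n) ∣ q - g * h) :
    ∃ g' h' : (PowerSeries k)[X], g'.Monic ∧ h'.Monic ∧
      g'.map (PowerSeries.constantCoeff (R := k)) = g₀ ∧
      h'.map (PowerSeries.constantCoeff (R := k)) = h₀ ∧
      C ((PowerSeries.X : PowerSeries k) ^ n) ∣ g' - g ∧
      C ((PowerSeries.X : PowerSeries k) ^ n) ∣ h' - h ∧
      C ((PowerSeries.X : PowerSeries k) ^ (n + 1)) ∣ q - g' * h' := by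
  obtain ⟨r, hr⟩ := hdvd
  have hT0 : ((PowerSeries.X : PowerSeries k) ^ n) ≠ 0 := pow_ne_zero _ PowerSeries.X_ne_zero
  have hTr : (C ((PowerSeries.X : PowerSeries k) ^ n)).map (PowerSeries.constantCoeff (R := k)) = 0 := by
    rw [map_C, map_pow, PowerSeries.constantCoeff_X, zero_pow (by omega), C_0]
  -- the reduction of `q`
  have hqr : q.map (PowerSeries.constantCoeff (R := k)) = g₀ * h₀ := by
    have e : q = g * h + C ((PowerSeries.X : PowerSeries k) ^ n) * r := by
      rw [← hr]
      ring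
    rw [e, Polynomial.map_add, Polynomial.map_mul, Polynomial.map_mul, hTr, hgr, hhr, zero_mul,
      add_zero]
  have hdq : q.degree = (g₀ * h₀).degree := by
    rw [← hqr, hq.degree_map]
  have hdgh : (g * h).degree = (g₀ * h₀).degree := by
    rw [← hgr, ← hhr, ← Polynomial.map_mul, (hgm.mul hhm).degree_map]
  have hdr : r.degree < (g₀ * h₀).degree := by
    rw [← degree_C_mul hT0, ← hr, ← hdq]
    exact degree_sub_lt_left (hdq.trans hdgh.symm) hq.ne_zero
      (by rw [hq.leadingCoeff, (hgm.mul hhm).leadingCoeff])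
  obtain ⟨A, B, hAB, hA, hB⟩ := hens_bezout g₀ h₀ hg hh hcop
    (r.map (PowerSeries.constantCoeff (R := k))) ((degree_map_le).trans_lt hdr)
  have hdA : (C ((PowerSeries.X : PowerSeries k) ^ n) * A.map (PowerSeries.C (R := k))).degree
      < g.degree := by
    rw [degree_C_mul hT0, ← hgm.degree_map (PowerSeries.constantCoeff (R := k)), hgr]
    exact (degree_map_le).trans_lt hA
  have hdB : (C ((PowerSeries.X : PowerSeries k) ^ n) * B.map (PowerSeries.C (R := k))).degree
      < h.degree := by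
    rw [degree_C_mul hT0, ← hhm.degree_map (PowerSeries.constantCoeff (R := k)), hhr]
    exact (degree_map_le).trans_lt hB
  have hs : (r - A.map (PowerSeries.C (R := k)) * h - B.map (PowerSeries.C (R := k)) * g).map
      (PowerSeries.constantCoeff (R := k)) = 0 := by
    rw [Polynomial.map_sub, Polynomial.map_sub, Polynomial.map_mul, Polynomial.map_mul,
      hens_map_lift, hens_map_lift, hgr, hhr, ← hAB]
    ring
  obtain ⟨s, hs⟩ := hens_X_dvd _ hs
  refine ⟨g + C ((PowerSeries.X : PowerSeries k) ^ n) * A.map (PowerSeries.C (R := k)),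
    h + C ((PowerSeries.X : PowerSeries k) ^ n) * B.map (PowerSeries.C (R := k)),
    hgm.add_of_left hdA, hhm.add_of_left hdB, ?_, ?_,
    ⟨A.map (PowerSeries.C (R := k)), by ring⟩, ⟨B.map (PowerSeries.C (R := k)), by ring⟩, ?_⟩
  · rw [Polynomial.map_add, Polynomial.map_mul, hTr, hgr, zero_mul, add_zero]
  · rw [Polynomial.map_add, Polynomial.map_mul, hTr, hhr, zero_mul, add_zero]
  · refine ⟨s - C ((PowerSeries.X : PowerSeries k) ^ (n - 1)) *
      (A.map (PowerSeries.C (R := k)) * B.map (PowerSeries.C (R := k))), ?_⟩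
    have e1 : C ((PowerSeries.X : PowerSeries k) ^ (n + 1)) =
        C ((PowerSeries.X : PowerSeries k) ^ n) * C (PowerSeries.X : PowerSeries k) := by
      rw [← C_mul, pow_succ]
    have e2 : C ((PowerSeries.X : PowerSeries k) ^ n) =
        C (PowerSeries.X : PowerSeries k) * C ((PowerSeries.X : PowerSeries k) ^ (n - 1)) := by
      rw [← C_mul, ← pow_succ']
      congr 2
      omega
    rw [e1]
    linear_combination hr + C ((PowerSeries.X : PowerSeries k) ^ n) * hs -
      (C ((PowerSeries.X : PowerSeries k) ^ n) *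
        (A.map (PowerSeries.C (R := k)) * B.map (PowerSeries.C (R := k)))) * e2

/-- a power series divisible by all powers of `τ` vanishes. -/
theorem hens_eq_zero_of_dvd (a : PowerSeries k)
    (h : ∀ n : ℕ, (PowerSeries.X : PowerSeries k) ^ (n + 1) ∣ a) : a = 0 := by
  ext m
  rw [map_zero]
  exact (PowerSeries.X_pow_dvd_iff.1 (h m)) m (Nat.lt_succ_self m)

/-- a polynomial divisible by all powers of `τ` vanishes. -/
theorem hens_poly_eq_zero_of_dvd (p : (PowerSeries k)[X])
    (h : ∀ n : ℕ, C ((PowerSeries.X : PowerSeries k) ^ (n + 1)) ∣ p) : p = 0 := by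
  ext1 j
  rw [coeff_zero]
  exact hens_eq_zero_of_dvd _ fun n => (C_dvd_iff_dvd_coeff _ _).1 (h n) j

/-- coefficientwise limit of a `τ`-adic Cauchy sequence of polynomials of bounded degree. -/
theorem hens_limit (p : ℕ → (PowerSeries k)[X]) (D : ℕ) (hD : ∀ n, (p n).natDegree ≤ D)
    (hc : ∀ n, C ((PowerSeries.X : PowerSeries k) ^ (n + 1)) ∣ p (n + 1) - p n) :
    ∃ P : (PowerSeries k)[X], P.natDegree ≤ D ∧
      ∀ n, C ((PowerSeries.X : PowerSeries k) ^ (n + 1)) ∣ P - p n := by
  classical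
  have hchain : ∀ (j m n : ℕ), m ≤ n →
      PowerSeries.coeff m ((p n).coeff j) = PowerSeries.coeff m ((p m).coeff j) := by
    intro j m n hmn
    induction n, hmn using Nat.le_induction with
    | base => rfl
    | succ n hmn ih =>
      rw [← ih]
      have h1 := (C_dvd_iff_dvd_coeff _ _).1 (hc n) j
      have h2 := (PowerSeries.X_pow_dvd_iff.1 h1) m (by omega)
      rw [coeff_sub, map_sub, sub_eq_zero] at h2
      exact h2
  let P : (PowerSeries k)[X] := ∑ j ∈ Finset.range (D + 1),
    monomial j (PowerSeries.mk fun m => PowerSeries.coeff m ((p m).coeff j))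
  have hPc : ∀ j, P.coeff j = if j ∈ Finset.range (D + 1) then
      PowerSeries.mk (fun m => PowerSeries.coeff m ((p m).coeff j)) else 0 := by
    intro j
    simp only [P, finsetSum_coeff, coeff_monomial]
    rw [Finset.sum_ite_eq']
  refine ⟨P, ?_, fun n => ?_⟩
  · rw [natDegree_le_iff_coeff_eq_zero]
    intro j hj
    rw [hPc, if_neg]
    rw [Finset.mem_range]
    omega
  · rw [C_dvd_iff_dvd_coeff]
    intro j
    rw [PowerSeries.X_pow_dvd_iff]
    intro m hm
    rw [coeff_sub, map_sub, hPc]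
    by_cases hj : j ∈ Finset.range (D + 1)
    · rw [if_pos hj, PowerSeries.coeff_mk, hchain j m n (by omega), sub_self]
    · rw [if_neg hj, coeff_eq_zero_of_natDegree_lt, sub_self]
      rw [Finset.mem_range] at hj
      exact lt_of_le_of_lt (hD n) (by omega)

/-- HENSEL: lifting of a coprime factorisation from `k[Y]` to `k[[τ]][Y]`. -/
theorem hensel_factor_pf (q : Polynomial (PowerSeries k)) (hq : q.Monic) (g₀ h₀ : Polynomial k)
    (hg : g₀.Monic) (hh : h₀.Monic) (hcop : IsCoprime g₀ h₀)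
    (hfac : q.map (PowerSeries.constantCoeff (R := k)) = g₀ * h₀) :
    ∃ g h : Polynomial (PowerSeries k), g.Monic ∧ h.Monic ∧ q = g * h ∧
      g.map (PowerSeries.constantCoeff (R := k)) = g₀ ∧
      h.map (PowerSeries.constantCoeff (R := k)) = h₀ := by
  classical
  let Inv : ℕ → (PowerSeries k)[X] × (PowerSeries k)[X] → Prop := fun n s =>
    s.1.Monic ∧ s.2.Monic ∧ s.1.map (PowerSeries.constantCoeff (R := k)) = g₀ ∧
      s.2.map (PowerSeries.constantCoeff (R := k)) = h₀ ∧
      C ((PowerSeries.X : PowerSeries k) ^ (n + 1)) ∣ q - s.1 * s.2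
  have hstep : ∀ n s, Inv n s → ∃ s', Inv (n + 1) s' ∧
      C ((PowerSeries.X : PowerSeries k) ^ (n + 1)) ∣ s'.1 - s.1 ∧
      C ((PowerSeries.X : PowerSeries k) ^ (n + 1)) ∣ s'.2 - s.2 := by
    rintro n ⟨g, h⟩ ⟨h1, h2, h3, h4, h5⟩
    obtain ⟨g', h', a1, a2, a3, a4, a5, a6, a7⟩ :=
      hens_step q hq g₀ h₀ hg hh hcop (n + 1) (by omega) g h h1 h2 h3 h4 h5
    exact ⟨(g', h'), ⟨a1, a2, a3, a4, a7⟩, a5, a6⟩
  let next : ℕ → (PowerSeries k)[X] × (PowerSeries k)[X] →
      (PowerSeries k)[X] × (PowerSeries k)[X] :=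
    fun n s => if hs : Inv n s then Classical.choose (hstep n s hs) else s
  let s0 : (PowerSeries k)[X] × (PowerSeries k)[X] :=
    (g₀.map (PowerSeries.C (R := k)), h₀.map (PowerSeries.C (R := k)))
  have h0 : Inv 0 s0 := by
    refine ⟨hg.map _, hh.map _, hens_map_lift _, hens_map_lift _, ?_⟩
    rw [zero_add, pow_one]
    apply hens_X_dvd
    rw [Polynomial.map_sub, Polynomial.map_mul, hens_map_lift, hens_map_lift, hfac, sub_self]
  let seq : ℕ → (PowerSeries k)[X] × (PowerSeries k)[X] :=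
    fun n => Nat.rec s0 (fun n s => next n s) n
  have hseq : ∀ n, seq (n + 1) = next n (seq n) := fun n => rfl
  have hinv : ∀ n, Inv n (seq n) := by
    intro n
    induction n with
    | zero => exact h0
    | succ n ih =>
      rw [hseq]
      simp only [next, dif_pos ih]
      exact (Classical.choose_spec (hstep n _ ih)).1
  have hrel : ∀ n, C ((PowerSeries.X : PowerSeries k) ^ (n + 1)) ∣ (seq (n + 1)).1 - (seq n).1 ∧
      C ((PowerSeries.X : PowerSeries k) ^ (n + 1)) ∣ (seq (n + 1)).2 - (seq n).2 := by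
    intro n
    rw [hseq]
    simp only [next, dif_pos (hinv n)]
    exact (Classical.choose_spec (hstep n _ (hinv n))).2
  have hdg : ∀ n, (seq n).1.natDegree = g₀.natDegree := fun n => by
    rw [← (hinv n).2.2.1, (hinv n).1.natDegree_map]
  have hdh : ∀ n, (seq n).2.natDegree = h₀.natDegree := fun n => by
    rw [← (hinv n).2.2.2.1, (hinv n).2.1.natDegree_map]
  obtain ⟨g, hgD, hgl⟩ := hens_limit (fun n => (seq n).1) g₀.natDegree (fun n => (hdg n).le)
    fun n => (hrel n).1
  obtain ⟨h, hhD, hhl⟩ := hens_limit (fun n => (seq n).2) h₀.natDegree (fun n => (hdh n).le)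
    fun n => (hrel n).2
  have hred : ∀ (a b : (PowerSeries k)[X]), C ((PowerSeries.X : PowerSeries k) ^ (0 + 1)) ∣ a - b →
      a.map (PowerSeries.constantCoeff (R := k)) = b.map (PowerSeries.constantCoeff (R := k)) := by
    rintro a b ⟨c, hc⟩
    rw [← sub_eq_zero, ← Polynomial.map_sub, hc, Polynomial.map_mul, map_C]
    simp
  refine ⟨g, h, ?_, ?_, ?_, ?_, ?_⟩
  · refine monic_of_natDegree_le_of_coeff_eq_one _ hgD ?_
    rw [← sub_eq_zero]
    refine hens_eq_zero_of_dvd _ fun n => ?_
    have h1 := (C_dvd_iff_dvd_coeff _ _).1 (hgl n) g₀.natDegree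
    have h2 : (seq n).1.coeff g₀.natDegree = 1 := by
      rw [← hdg n]
      exact (hinv n).1.coeff_natDegree
    rwa [coeff_sub, h2] at h1
  · refine monic_of_natDegree_le_of_coeff_eq_one _ hhD ?_
    rw [← sub_eq_zero]
    refine hens_eq_zero_of_dvd _ fun n => ?_
    have h1 := (C_dvd_iff_dvd_coeff _ _).1 (hhl n) h₀.natDegree
    have h2 : (seq n).2.coeff h₀.natDegree = 1 := by
      rw [← hdh n]
      exact (hinv n).2.1.coeff_natDegree
    rwa [coeff_sub, h2] at h1
  · rw [← sub_eq_zero]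
    refine hens_poly_eq_zero_of_dvd _ fun n => ?_
    have e : q - g * h = (q - (seq n).1 * (seq n).2) - (g - (seq n).1) * h -
        (seq n).1 * (h - (seq n).2) := by ring
    rw [e]
    exact dvd_sub (dvd_sub (hinv n).2.2.2.2 (Dvd.dvd.mul_right (hgl n) _))
      (Dvd.dvd.mul_left (hhl n) _)
  · rw [hred _ _ (hgl 0)]
    exact (hinv 0).2.2.1
  · rw [hred _ _ (hhl 0)]
    exact (hinv 0).2.2.2.1

end Claimed.Agent.R269.Lau
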