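/-
Row 269, library L1-SCV, part 1: Cauchy integrals with parameters, straightening.
Statements: helper264.  Proofs: helper270 (LF-SCV-param).
-/
import Claimed.Agent.R269.Lib.SCV
import Claimed.Agent.R269.Lib.SCVb

set_option autoImplicit false

namespace Claimed.Agent.R269

open Complex Filter Topology

variable {E : Type*} [NormedAddCommGroup E] [NormedSpace ℂ E] [CompleteSpace E]

/-- A Cauchy integral over a fixed circle in the first variable, with a holomorphic parameter, is jointly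
analytic. -/
theorem analyticOnNhd_cauchy_param {F : ℂ × ℂ → E} {y₀ : ℂ} {r : ℝ} (hr : 0 < r) {V : Set ℂ}
    (_hV : IsOpen V) (hF : ∀ η ∈ Metric.sphere y₀ r, ∀ t ∈ V, AnalyticAt ℂ F (η, t)) :
    AnalyticOnNhd ℂ (fun z : ℂ × ℂ => ∮ η in C(y₀, r), (η - z.1)⁻¹ • F (η, z.2))
      (Metric.ball y₀ r ×ˢ V) := by
  rintro z₀ ⟨hz1, hz2⟩
  refine SCV.analyticAt_circleIntegral (E := ℂ × ℂ)
    (F := fun p : (ℂ × ℂ) × ℂ => (p.2 - p.1.1)⁻¹ • F (p.2, p.1.2)) hr.le fun η hη => ?_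
  have h1 : AnalyticAt ℂ (fun p : (ℂ × ℂ) × ℂ => (p.2 - p.1.1)⁻¹) (z₀, η) := by
    refine AnalyticAt.inv (analyticAt_snd.sub (analyticAt_fst.comp analyticAt_fst)) ?_
    show η - z₀.1 ≠ 0
    rw [sub_ne_zero]
    rintro rfl
    rw [Metric.mem_sphere] at hη
    rw [Metric.mem_ball] at hz1
    exact hz1.ne hη
  have h2 : AnalyticAt ℂ (fun p : (ℂ × ℂ) × ℂ => F (p.2, p.1.2)) (z₀, η) :=
    AnalyticAt.comp (f := fun p : (ℂ × ℂ) × ℂ => (p.2, p.1.2)) (g := F) (hF η hη z₀.2 hz2)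
      (analyticAt_snd.prod (analyticAt_snd.comp analyticAt_fst))
  exact h1.smul h2

/-- Analytic inverse function theorem in the form used for "straightening" one coordinate:
if `u` is analytic at `z₀ = (y₀,t₀)` with `∂_y u ≠ 0` there, then `(y,t) ↦ (u (y,t), t)` has an analytic
local inverse `(w,t) ↦ (Y (w,t), t)`. -/
theorem exists_straighten {u : ℂ × ℂ → ℂ} {z₀ : ℂ × ℂ} (hu : AnalyticAt ℂ u z₀)
    (hd : deriv (fun y => u (y, z₀.2)) z₀.1 ≠ 0) :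
    ∃ Y : ℂ × ℂ → ℂ, AnalyticAt ℂ Y (u z₀, z₀.2) ∧ Y (u z₀, z₀.2) = z₀.1 ∧
      (∀ᶠ z in 𝓝 z₀, Y (u z, z.2) = z.1) ∧
      (∀ᶠ w in 𝓝 (u z₀, z₀.2), u (Y w, w.2) = w.1) := by
  let Φ : (ℂ × ℂ) × ℂ → ℂ := fun p => u (p.2, p.1.2) - p.1.1
  have hΦ : AnalyticAt ℂ Φ ((u z₀, z₀.2), z₀.1) := by
    have h1 : AnalyticAt ℂ (fun p : (ℂ × ℂ) × ℂ => u (p.2, p.1.2)) ((u z₀, z₀.2), z₀.1) :=
      AnalyticAt.comp (f := fun p : (ℂ × ℂ) × ℂ => (p.2, p.1.2)) (g := u) hu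
        (analyticAt_snd.prod (analyticAt_snd.comp analyticAt_fst))
    exact h1.sub (analyticAt_fst.comp analyticAt_fst)
  have hΦ0 : Φ ((u z₀, z₀.2), z₀.1) = 0 := by simp [Φ]
  have hder : deriv (fun x => Φ (((u z₀, z₀.2) : ℂ × ℂ), x)) z₀.1 ≠ 0 := by
    have h1 : (fun x => Φ (((u z₀, z₀.2) : ℂ × ℂ), x)) = fun x => u (x, z₀.2) - u z₀ := rfl
    rw [h1, deriv_sub_const]
    exact hd
  obtain ⟨Y, hY, hY0, h1, h2⟩ := exists_implicit (u := (((u z₀, z₀.2) : ℂ × ℂ), z₀.1)) hΦ hder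
  refine ⟨Y, hY, hY0, ?_, ?_⟩
  · have hc : ContinuousAt (fun z : ℂ × ℂ => (((u z, z.2) : ℂ × ℂ), z.1)) z₀ :=
      (hu.continuousAt.prodMk continuousAt_snd).prodMk continuousAt_fst
    filter_upwards [hc.eventually h2] with z hz
    refine hz.1 ?_
    rw [hΦ0]
    simp [Φ]
  · filter_upwards [h1] with w hw
    rw [hΦ0] at hw
    exact sub_eq_zero.1 hw

end Claimed.Agent.R269
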