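/-
Row 269, library for P1 Sections 10-11.  Package LF-WoC-2 (helper53): circle averages of holomorphic functions for an arbitrary
centre `c` and radius `R` (mean value property, Parseval's first coefficient, equipartition of the variance).
Only Mathlib.  Names `woc2_*`.
-/
import Mathlib

set_option autoImplicit false

namespace Claimed.Agent.R269.Chn

open Metric Real Set

variable {g : ℂ → ℂ} {V : Set ℂ} {c : ℂ} {R : ℝ}

theorem woc2_avg_holo (hg : DifferentiableOn ℂ g V) (hR : 0 ≤ R) (hsub : closedBall c R ⊆ V) :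
    circleAverage g c R = g c := by
  have : DiffContOnCl ℂ g (ball c |R|) := by
    rw [abs_of_nonneg hR]; exact hg.diffContOnCl_ball hsub
  exact this.circleAverage

theorem woc2_avg_log (hg : DifferentiableOn ℂ g V) (hV : IsOpen V) (hR : 0 ≤ R) (hsub : closedBall c R ⊆ V)
    (h0 : ∀ z ∈ V, g z ≠ 0) : circleAverage (fun w => Real.log ‖g w‖) c R = Real.log ‖g c‖ := by
  have h1 : AnalyticOnNhd ℂ g (closedBall c |R|) := by
    rw [abs_of_nonneg hR]; exact (hg.analyticOnNhd hV).mono hsub
  exact h1.circleAverage_log_norm_of_ne_zero fun u hu => h0 u (hsub (by rwa [abs_of_nonneg hR] at hu))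

theorem woc2_ci {E : Type} [NormedAddCommGroup E] {f : ℂ → E} (hR : 0 ≤ R) (hf : ContinuousOn f (sphere c R)) :
    CircleIntegrable f c R := hf.circleIntegrable hR

/-- Jensen for the square -/
theorem woc2_sq_avg_le (f : ℂ → ℝ) (hR : 0 ≤ R) (hf : ContinuousOn f (sphere c R)) :
    (circleAverage f c R) ^ 2 ≤ circleAverage (fun w => f w ^ 2) c R := by
  set m := circleAverage f c R with hm
  have h1 : 0 ≤ circleAverage (fun w => (f w - m) ^ 2) c R :=
    circleAverage_nonneg_of_nonneg fun x _ => sq_nonneg _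
  have e : (fun w => (f w - m) ^ 2) = fun w => (f w ^ 2 - (2 * m) • f w) + m ^ 2 := by
    funext w; simp only [smul_eq_mul]; ring
  have c1 : CircleIntegrable (fun w => f w ^ 2) c R := woc2_ci hR (hf.pow 2)
  have c2 : CircleIntegrable (fun w => (2 * m) • f w) c R := woc2_ci hR (by fun_prop)
  have c3 : CircleIntegrable (fun _ : ℂ => m ^ 2) c R := woc2_ci hR continuousOn_const
  have c12 : CircleIntegrable (fun w => f w ^ 2 - (2 * m) • f w) c R := woc2_ci hR (by fun_prop)
  rw [e, circleAverage_fun_add c12 c3, circleAverage_fun_sub c1 c2, circleAverage_fun_smul,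
    circleAverage_const, ← hm, smul_eq_mul] at h1
  nlinarith

theorem woc2_norm_avg_le (H : ℂ → ℂ) : ‖circleAverage H c R‖ ≤ circleAverage (fun w => ‖H w‖) c R := by
  unfold circleAverage
  rw [norm_smul, smul_eq_mul, Real.norm_eq_abs, abs_of_pos (inv_pos.2 two_pi_pos)]
  exact mul_le_mul_of_nonneg_left (intervalIntegral.norm_integral_le_integral_norm two_pi_pos.le)
    (inv_pos.2 two_pi_pos).le

/-- Parseval: the first Taylor coefficient -/
theorem woc2_qv_ge (hg : DifferentiableOn ℂ g V) (hV : IsOpen V) (hR : 0 < R) (hsub : closedBall c R ⊆ V) :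
    ‖deriv g c‖ ^ 2 * R ^ 2 ≤ circleAverage (fun w => ‖g w - g c‖ ^ 2) c R := by
  have hc : c ∈ V := hsub (mem_closedBall_self hR.le)
  have hH : DifferentiableOn ℂ (dslope g c) V := (Complex.differentiableOn_dslope (hV.mem_nhds hc)).mpr hg
  have h1 := woc2_avg_holo hH hR.le hsub
  rw [dslope_same] at h1
  have hHc : ContinuousOn (fun w => ‖dslope g c w‖) (sphere c R) :=
    (hH.continuousOn.mono (sphere_subset_closedBall.trans hsub)).norm
  have h2 := woc2_norm_avg_le (c := c) (R := R) (dslope g c)
  have h3 := woc2_sq_avg_le _ hR.le hHc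
  have h4 : circleAverage (fun w => ‖dslope g c w‖ ^ 2) c R
      = circleAverage (fun w => (R⁻¹ ^ 2) • ‖g w - g c‖ ^ 2) c R := by
    refine circleAverage_congr_sphere fun w hw => ?_
    rw [abs_of_pos hR] at hw
    have hne : w ≠ c := ne_of_mem_sphere hw hR.ne'
    have hn : ‖w - c‖ = R := by rwa [mem_sphere_iff_norm] at hw
    rw [dslope_of_ne _ hne, slope_def_module, norm_smul, norm_inv, hn, smul_eq_mul]
    ring
  rw [h4, circleAverage_fun_smul, smul_eq_mul] at h3
  rw [h1] at h2
  have h5 : ‖deriv g c‖ ^ 2 ≤ R⁻¹ ^ 2 * circleAverage (fun w => ‖g w - g c‖ ^ 2) c R :=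
    (pow_le_pow_left₀ (norm_nonneg _) h2 2).trans h3
  calc ‖deriv g c‖ ^ 2 * R ^ 2 ≤ R⁻¹ ^ 2 * circleAverage (fun w => ‖g w - g c‖ ^ 2) c R * R ^ 2 :=
        mul_le_mul_of_nonneg_right h5 (by positivity)
    _ = _ := by field_simp

theorem woc2_qv_le (hg : DifferentiableOn ℂ g V) (hV : IsOpen V) (hR : 0 ≤ R) (hsub : closedBall c R ⊆ V) (C : ℝ)
    (hC : ∀ w ∈ closedBall c R, ‖deriv g w‖ ≤ C) :
    circleAverage (fun w => ‖g w - g c‖ ^ 2) c R ≤ C ^ 2 * R ^ 2 := by
  have hgc : ContinuousOn g (sphere c R) := hg.continuousOn.mono (sphere_subset_closedBall.trans hsub)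
  refine circleAverage_mono_on_of_le_circle (woc2_ci hR ((hgc.sub continuousOn_const).norm.pow 2)) fun w hw => ?_
  rw [abs_of_nonneg hR] at hw
  have h1 := Convex.norm_image_sub_le_of_norm_deriv_le (f := g) (s := closedBall c R) (x := c) (y := w) (C := C)
    (fun x hx => hg.differentiableAt (hV.mem_nhds (hsub hx))) hC (convex_closedBall c R)
    (mem_closedBall_self hR) (sphere_subset_closedBall hw)
  have hn : ‖w - c‖ = R := by rwa [mem_sphere_iff_norm] at hw
  rw [hn] at h1
  rw [← mul_pow]
  exact pow_le_pow_left₀ (norm_nonneg _) h1 2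

/-- the two halves of the variance -/
theorem woc2_qv_re_im (hg : DifferentiableOn ℂ g V) (hR : 0 ≤ R) (hsub : closedBall c R ⊆ V) :
    circleAverage (fun w => ((g w).re - (g c).re) ^ 2) c R = circleAverage (fun w => ‖g w - g c‖ ^ 2) c R / 2 ∧
    circleAverage (fun w => ((g w).im - (g c).im) ^ 2) c R = circleAverage (fun w => ‖g w - g c‖ ^ 2) c R / 2 := by
  have hgc : ContinuousOn g (sphere c R) := hg.continuousOn.mono (sphere_subset_closedBall.trans hsub)
  have hG : DifferentiableOn ℂ (fun w => (g w - g c) ^ 2) V := (hg.sub_const _).pow 2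
  have h1 := woc2_avg_holo hG hR hsub
  simp only [sub_self, ne_eq, OfNat.ofNat_ne_zero, not_false_eq_true, zero_pow] at h1
  have hGc : ContinuousOn (fun w => (g w - g c) ^ 2) (sphere c R) := (hgc.sub continuousOn_const).pow 2
  have h2 := Complex.reCLM.circleAverage_comp_comm (woc2_ci hR hGc)
  rw [h1] at h2
  have cr : ContinuousOn (fun w => ((g w).re - (g c).re) ^ 2) (sphere c R) :=
    ((Complex.continuous_re.comp_continuousOn hgc).sub continuousOn_const).pow 2
  have ci : ContinuousOn (fun w => ((g w).im - (g c).im) ^ 2) (sphere c R) :=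
    ((Complex.continuous_im.comp_continuousOn hgc).sub continuousOn_const).pow 2
  have e1 : (Complex.reCLM ∘ fun w => (g w - g c) ^ 2)
      = fun w => ((g w).re - (g c).re) ^ 2 - ((g w).im - (g c).im) ^ 2 := by
    funext w
    simp only [Function.comp, Complex.reCLM_apply, sq, Complex.mul_re, Complex.sub_re, Complex.sub_im]
  have e2 : (fun w => ‖g w - g c‖ ^ 2) = fun w => ((g w).re - (g c).re) ^ 2 + ((g w).im - (g c).im) ^ 2 := by
    funext w
    rw [← Complex.normSq_eq_norm_sq, Complex.normSq_apply]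
    simp only [Complex.sub_re, Complex.sub_im, sq]
  rw [e1, circleAverage_fun_sub (woc2_ci hR cr) (woc2_ci hR ci)] at h2
  rw [e2, circleAverage_fun_add (woc2_ci hR cr) (woc2_ci hR ci)]
  simp only [map_zero] at h2
  constructor <;> linarith

theorem woc2_avg_im (hg : DifferentiableOn ℂ g V) (hR : 0 ≤ R) (hsub : closedBall c R ⊆ V) :
    circleAverage (fun w => (g w).im) c R = (g c).im := by
  have hgc : ContinuousOn g (sphere c R) := hg.continuousOn.mono (sphere_subset_closedBall.trans hsub)
  have h2 := Complex.imCLM.circleAverage_comp_comm (woc2_ci hR hgc)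
  rw [woc2_avg_holo hg hR hsub] at h2
  exact h2

theorem woc2_avg_im_sq (hg : DifferentiableOn ℂ g V) (hR : 0 ≤ R) (hsub : closedBall c R ⊆ V) :
    circleAverage (fun w => (g w).im ^ 2) c R
      = (g c).im ^ 2 + circleAverage (fun w => ‖g w - g c‖ ^ 2) c R / 2 := by
  have hgc : ContinuousOn g (sphere c R) := hg.continuousOn.mono (sphere_subset_closedBall.trans hsub)
  have him : ContinuousOn (fun w => (g w).im) (sphere c R) := Complex.continuous_im.comp_continuousOn hgc
  have ci : ContinuousOn (fun w => ((g w).im - (g c).im) ^ 2) (sphere c R) := (him.sub continuousOn_const).pow 2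
  have e : (fun w => (g w).im ^ 2)
      = fun w => (((g w).im - (g c).im) ^ 2 + (2 * (g c).im) • (g w).im) - (g c).im ^ 2 := by
    funext w; simp only [smul_eq_mul]; ring
  have c2 : CircleIntegrable (fun w => (2 * (g c).im) • (g w).im) c R := woc2_ci hR (by fun_prop)
  have c3 : CircleIntegrable (fun _ : ℂ => (g c).im ^ 2) c R := woc2_ci hR continuousOn_const
  have c12 : CircleIntegrable (fun w => ((g w).im - (g c).im) ^ 2 + (2 * (g c).im) • (g w).im) c R :=
    woc2_ci hR (by fun_prop)
  rw [e, circleAverage_fun_sub c12 c3, circleAverage_fun_add (woc2_ci hR ci) c2,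
    circleAverage_fun_smul, circleAverage_const, woc2_avg_im hg hR hsub, (woc2_qv_re_im hg hR hsub).2, smul_eq_mul]
  ring

/-- a function of the imaginary part with a quadratic lower bound on the step interval -/
theorem woc2_avg_im_quad (Φ : ℝ → ℝ) (hR : 0 ≤ R) (a m : ℝ) (hΦ : ContinuousOn Φ (Icc (c.im - R) (c.im + R)))
    (hq : ∀ t ∈ Icc (c.im - R) (c.im + R), Φ c.im + a * (t - c.im) + m * (t - c.im) ^ 2 ≤ Φ t) :
    Φ c.im + m * R ^ 2 / 2 ≤ circleAverage (fun w => Φ w.im) c R := by
  have hid : DifferentiableOn ℂ (fun w : ℂ => w) Set.univ := differentiableOn_id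
  have hsub : closedBall c R ⊆ Set.univ := Set.subset_univ _
  have hmem : ∀ w ∈ sphere c R, w.im ∈ Icc (c.im - R) (c.im + R) := by
    intro w hw
    have hn : ‖w - c‖ = R := by rwa [mem_sphere_iff_norm] at hw
    have h1 := Complex.abs_im_le_norm (w - c)
    rw [hn, Complex.sub_im, abs_le] at h1
    constructor <;> linarith [h1.1, h1.2]
  have him : ContinuousOn (fun w : ℂ => w.im) (sphere c R) := Complex.continuous_im.continuousOn
  have cΦ : ContinuousOn (fun w : ℂ => Φ w.im) (sphere c R) := hΦ.comp him hmem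
  have c1 : ContinuousOn (fun w : ℂ => a • (w.im - c.im)) (sphere c R) := by fun_prop
  have c2 : ContinuousOn (fun w : ℂ => m • (w.im - c.im) ^ 2) (sphere c R) := by fun_prop
  have c0 : CircleIntegrable (fun _ : ℂ => Φ c.im) c R := woc2_ci hR continuousOn_const
  have hmono : circleAverage (fun w : ℂ => (Φ c.im + a • (w.im - c.im)) + m • (w.im - c.im) ^ 2) c R
      ≤ circleAverage (fun w => Φ w.im) c R := by
    refine circleAverage_mono (woc2_ci hR (by fun_prop)) (woc2_ci hR cΦ) fun w hw => ?_
    rw [abs_of_nonneg hR] at hw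
    simpa only [smul_eq_mul] using hq _ (hmem w hw)
  have e1 : circleAverage (fun w : ℂ => w.im - c.im) c R = 0 := by
    rw [circleAverage_fun_sub (woc2_ci hR him) (woc2_ci hR continuousOn_const), circleAverage_const,
      woc2_avg_im hid hR hsub]
    ring
  have e2 : circleAverage (fun w : ℂ => (w.im - c.im) ^ 2) c R = R ^ 2 / 2 := by
    rw [(woc2_qv_re_im hid hR hsub).2]
    congr 1
    have : circleAverage (fun w : ℂ => ‖w - c‖ ^ 2) c R = circleAverage (fun _ : ℂ => R ^ 2) c R := by
      refine circleAverage_congr_sphere fun w hw => ?_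
      rw [abs_of_nonneg hR] at hw
      have hn : ‖w - c‖ = R := by rwa [mem_sphere_iff_norm] at hw
      simp only [hn]
    rw [this, circleAverage_const]
  have c01 : CircleIntegrable (fun w : ℂ => Φ c.im + a • (w.im - c.im)) c R := woc2_ci hR (by fun_prop)
  rw [circleAverage_fun_add c01 (woc2_ci hR c2), circleAverage_fun_add c0 (woc2_ci hR c1),
    circleAverage_fun_smul, circleAverage_fun_smul, circleAverage_const, e1, e2] at hmono
  simp only [smul_eq_mul, mul_zero, add_zero] at hmono
  linarith

end Claimed.Agent.R269.Chn
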