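/-
Row 269, library for P1 Sections 10-11 (owner: helper171).  HOST-FREE: no paper reading needed.

THE WALK ON CIRCLES, the discrete substitute of planar Brownian motion:
    `y_0` uniform on `[0,2π] ⊆ ℝ`,   `y_{n+1} = y_n + r(y_n) e^{i θ_{n+1}}`,   `θ_n` i.i.d. uniform on `(0,2π]`.
`r : ℂ → ℝ` is 1-Lipschitz, `U = {r > 0}` is the domain, every closed step disc lies in `U`.
Functions with the mean value property on the step circles give POINTWISE martingales in the sense of `Lib/Chain.lean`.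

RULES: the claimer of a package fills its `sorry`s IN PLACE (auxiliary lemmas above the statement, prefix `woc_`); do not change
a statement without telling helper171; land every compiled state.
-/
import Claimed.Agent.R269.Lib.Mart
import Claimed.Agent.R269.Lib.WoC2Pf

set_option autoImplicit false

namespace Claimed.Agent.R269.Chn

open MeasureTheory Set Finset Filter Topology Metric Real

/-- the uniform law on `(0, 2π]` -/
noncomputable def unif : Measure ℝ := (ENNReal.ofReal (2 * π))⁻¹ • volume.restrict (Ioc 0 (2 * π))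

/-- LF-WoC-1 -/
instance instProbUnif : IsProbabilityMeasure unif := by
  constructor
  unfold unif
  rw [Measure.smul_apply, Measure.restrict_apply MeasurableSet.univ, Set.univ_inter, Real.volume_Ioc, sub_zero,
    smul_eq_mul]
  exact ENNReal.inv_mul_cancel (by simp [Real.pi_pos]) ENNReal.ofReal_ne_top

/-- LF-WoC-1 -/
theorem integral_unif {E : Type} [NormedAddCommGroup E] [NormedSpace ℝ E] (f : ℝ → E) :
    ∫ θ, f θ ∂unif = (2 * π)⁻¹ • ∫ θ in (0 : ℝ)..(2 * π), f θ := by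
  unfold unif
  rw [integral_smul_measure, intervalIntegral.integral_of_le (by positivity), ENNReal.toReal_inv,
    ENNReal.toReal_ofReal (by positivity)]

/-- probability of an event (outer measure: no measurability needed) -/
noncomputable def Pw (S : Set (Om ℝ)) : ℝ := (Pr unif).real S

/-- A walk on circles. -/
structure Walk where
  r : ℂ → ℝ
  lip : LipschitzWith 1 r
  nonneg : ∀ y, 0 ≤ r y
  ball : ∀ y, 0 < r y → ∀ z ∈ closedBall y (r y), 0 < r z
  real : ∀ x : ℝ, 0 < r (x : ℂ)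

namespace Walk

variable (W : Walk)

/-- the domain -/
def U : Set ℂ := {y | 0 < W.r y}

/-- the walk -/
noncomputable def y : ℕ → Om ℝ → ℂ
  | 0, ω => ((projIcc (0 : ℝ) (2 * π) (by positivity) (ω 0) : ℝ) : ℂ)
  | n + 1, ω => circleMap (y n ω) (W.r (y n ω)) (ω (n + 1))

/-- the step radius at time `n` -/
noncomputable def rad (n : ℕ) (ω : Om ℝ) : ℝ := W.r (W.y n ω)

/-! ### LF-WoC-1: basic facts -/

theorem isOpen_U : IsOpen W.U := by
  exact isOpen_lt continuous_const W.lip.continuous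

theorem y_mem (n : ℕ) (ω : Om ℝ) : W.y n ω ∈ W.U := by
  induction n with
  | zero => exact W.real _
  | succ n ih =>
    exact W.ball _ ih _ (circleMap_mem_closedBall _ (W.nonneg _) _)

theorem y_succ_mem (n : ℕ) (ω : Om ℝ) : W.y (n + 1) ω ∈ sphere (W.y n ω) (W.rad n ω) := by
  exact circleMap_mem_sphere _ (W.nonneg _) _

theorem y_reads (n : ℕ) : Reads n (W.y n) := by
  induction n with
  | zero =>
    intro ω ω' h
    simp only [y]
    rw [h 0 le_rfl]
  | succ n ih =>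
    intro ω ω' h
    simp only [y]
    rw [ih ω ω' fun i hi => h i (by omega), h (n + 1) le_rfl]

theorem y_update (n : ℕ) (ω : Om ℝ) (θ : ℝ) :
    W.y (n + 1) (Function.update ω (n + 1) θ) = circleMap (W.y n ω) (W.rad n ω) θ := by
  simp only [y, rad]
  rw [chn_reads_update n _ (W.y_reads n) ω θ, Function.update_self]

theorem y_continuous (n : ℕ) : Continuous (W.y n) := by
  induction n with
  | zero =>
    have : W.y 0 = fun ω => ((projIcc (0 : ℝ) (2 * π) (by positivity) (ω 0) : ℝ) : ℂ) := by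
      funext ω; rfl
    rw [this]
    exact Complex.continuous_ofReal.comp (continuous_subtype_val.comp (continuous_projIcc.comp (continuous_apply 0)))
  | succ n ih =>
    have : W.y (n + 1) = fun ω => circleMap (W.y n ω) (W.r (W.y n ω)) (ω (n + 1)) := by
      funext ω; rfl
    rw [this]
    unfold circleMap
    have h1 : Continuous fun ω : Om ℝ => W.r (W.y n ω) := W.lip.continuous.comp ih
    have h2 : Continuous fun ω : Om ℝ => ω (n + 1) := continuous_apply (n + 1)
    fun_prop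

/-- the set reachable in `n` steps is contained in a compact subset of the domain (continuous image of `[0,2π] × (S¹)^n`) -/
theorem y_compact (n : ℕ) : ∃ K : Set ℂ, IsCompact K ∧ K ⊆ W.U ∧ ∀ ω, W.y n ω ∈ K := by
  induction n with
  | zero =>
    refine ⟨(fun x : ℝ => (x : ℂ)) '' Icc 0 (2 * π), isCompact_Icc.image Complex.continuous_ofReal, ?_, fun ω => ?_⟩
    · rintro _ ⟨x, -, rfl⟩
      exact W.real x
    · exact ⟨_, (projIcc (0 : ℝ) (2 * π) (by positivity) (ω 0)).2, rfl⟩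
  | succ n ih =>
    obtain ⟨K, hK, hKU, hy⟩ := ih
    refine ⟨(fun p : ℂ × ℝ => circleMap p.1 (W.r p.1) p.2) '' (K ×ˢ Icc 0 (2 * π)), ?_, ?_, fun ω => ?_⟩
    · refine (hK.prod isCompact_Icc).image ?_
      unfold circleMap
      have h1 : Continuous fun p : ℂ × ℝ => W.r p.1 := W.lip.continuous.comp continuous_fst
      fun_prop
    · rintro _ ⟨⟨c, θ⟩, ⟨hc, -⟩, rfl⟩
      exact W.ball _ (hKU hc) _ (circleMap_mem_closedBall _ (W.nonneg _) _)
    · obtain ⟨θ, hθ, he⟩ := (periodic_circleMap (W.y n ω) (W.r (W.y n ω))).exists_mem_Ico₀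
        (by positivity : (0 : ℝ) < 2 * π) (ω (n + 1))
      exact ⟨(W.y n ω, θ), ⟨hy ω, Ico_subset_Icc_self hθ⟩, he.symm⟩

/-- a function continuous on the domain gives a process -/
theorem proc_comp {E : Type} [NormedAddCommGroup E] [MeasurableSpace E] [BorelSpace E] (F : ℂ → E)
    (hF : ContinuousOn F W.U) : Proc fun n ω => F (W.y n ω) := by
  refine ⟨fun n => ?_, fun n ω ω' h => ?_, fun n => ?_⟩
  · exact (hF.comp_continuous (W.y_continuous n) (W.y_mem n)).measurable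
  · simp only [W.y_reads n ω ω' h]
  · obtain ⟨K, hK, hKU, hy⟩ := W.y_compact n
    obtain ⟨C, hC⟩ := hK.exists_bound_of_continuousOn (hF.mono hKU)
    exact ⟨C, fun ω => hC _ (hy ω)⟩

/-- one-step mean = circle average -/
theorem stp_comp {E : Type} [NormedAddCommGroup E] [NormedSpace ℝ E] (F : ℂ → E) (n : ℕ) (ω : Om ℝ) :
    stp unif n (fun ω' => F (W.y (n + 1) ω')) ω = circleAverage F (W.y n ω) (W.rad n ω) := by
  unfold stp
  simp only [W.y_update]
  rw [integral_unif]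
  rfl

/-- one-step mean of a function of the old and the new position -/
theorem stp_comp₂ {E : Type} [NormedAddCommGroup E] [NormedSpace ℝ E] (F : ℂ → ℂ → E) (n : ℕ) (ω : Om ℝ) :
    stp unif n (fun ω' => F (W.y n ω) (W.y (n + 1) ω')) ω = circleAverage (F (W.y n ω)) (W.y n ω) (W.rad n ω) := by
  unfold stp
  simp only [W.y_update]
  rw [integral_unif]
  rfl

/-- the start is uniform on the real period -/
theorem integral_start (F : ℂ → ℝ) (hF : ContinuousOn F W.U) :
    ∫ ω, F (W.y 0 ω) ∂(Pr unif) = (2 * π)⁻¹ * ∫ x in (0 : ℝ)..(2 * π), F (x : ℂ) := by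
  have hc : Continuous fun x : ℝ => F ((projIcc (0 : ℝ) (2 * π) (by positivity) x : ℝ) : ℂ) :=
    hF.comp_continuous (Complex.continuous_ofReal.comp (continuous_subtype_val.comp continuous_projIcc))
      fun x => W.real _
  have hb : ∃ C : ℝ, ∀ x : ℝ, |F ((projIcc (0 : ℝ) (2 * π) (by positivity) x : ℝ) : ℂ)| ≤ C := by
    obtain ⟨C, hC⟩ := (isCompact_Icc (a := (0 : ℝ)) (b := 2 * π)).exists_bound_of_continuousOn
      (f := fun x : ℝ => F (x : ℂ)) (hF.comp Complex.continuous_ofReal.continuousOn fun x _ => W.real x)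
    exact ⟨C, fun x => hC _ (projIcc (0 : ℝ) (2 * π) (by positivity) x).2⟩
  have h1 := integral_coord_zero unif (fun x : ℝ => F ((projIcc (0 : ℝ) (2 * π) (by positivity) x : ℝ) : ℂ))
    hc.measurable hb
  have h2 : ∀ ω : Om ℝ, F (W.y 0 ω) = F ((projIcc (0 : ℝ) (2 * π) (by positivity) (ω 0) : ℝ) : ℂ) := fun ω => rfl
  simp only [h2]
  rw [h1, integral_unif, smul_eq_mul]
  congr 1
  refine intervalIntegral.integral_congr fun x hx => ?_
  rw [Set.uIcc_of_le (by positivity)] at hx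
  simp only [projIcc_of_mem (by positivity : (0 : ℝ) ≤ 2 * π) hx]

theorem y_zero_mem (ω : Om ℝ) : ∃ x : ℝ, x ∈ Icc (0 : ℝ) (2 * π) ∧ W.y 0 ω = (x : ℂ) := by
  exact ⟨_, (projIcc (0 : ℝ) (2 * π) (by positivity) (ω 0)).2, rfl⟩

/-! ### LF-WoC-2: holomorphic functions along the walk -/

theorem woc_closedBall_subset {z : ℂ} (hz : z ∈ W.U) : closedBall z (W.r z) ⊆ W.U := fun w hw => W.ball z hz w hw

/-- holomorphic functions are martingales -/
theorem avg_holo (g : ℂ → ℂ) (hg : DifferentiableOn ℂ g W.U) (z : ℂ) (hz : z ∈ W.U) :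
    circleAverage g z (W.r z) = g z := by
  exact woc2_avg_holo hg (W.nonneg z) (W.woc_closedBall_subset hz)

/-- `log |g|` is a martingale if `g` has no zero in the domain -/
theorem avg_log (g : ℂ → ℂ) (hg : DifferentiableOn ℂ g W.U) (h0 : ∀ z ∈ W.U, g z ≠ 0) (z : ℂ) (hz : z ∈ W.U) :
    circleAverage (fun w => Real.log ‖g w‖) z (W.r z) = Real.log ‖g z‖ := by
  exact woc2_avg_log hg W.isOpen_U (W.nonneg z) (W.woc_closedBall_subset hz) h0

/-- the one-step variance of a holomorphic function -/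
noncomputable def qv (g : ℂ → ℂ) (z : ℂ) : ℝ := circleAverage (fun w => ‖g w - g z‖ ^ 2) z (W.r z)

/-- Parseval: the first Taylor coefficient -/
theorem qv_ge (g : ℂ → ℂ) (hg : DifferentiableOn ℂ g W.U) (z : ℂ) (hz : z ∈ W.U) :
    ‖deriv g z‖ ^ 2 * W.r z ^ 2 ≤ W.qv g z := by
  exact woc2_qv_ge hg W.isOpen_U hz (W.woc_closedBall_subset hz)

theorem qv_le (g : ℂ → ℂ) (hg : DifferentiableOn ℂ g W.U) (z : ℂ) (hz : z ∈ W.U) (C : ℝ)
    (hC : ∀ w ∈ closedBall z (W.r z), ‖deriv g w‖ ≤ C) : W.qv g z ≤ C ^ 2 * W.r z ^ 2 := by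
  exact woc2_qv_le hg W.isOpen_U (W.nonneg z) (W.woc_closedBall_subset hz) C hC

/-- real and imaginary parts share the variance equally (`circleAverage (g - g z)² = 0`) -/
theorem qv_im (g : ℂ → ℂ) (hg : DifferentiableOn ℂ g W.U) (z : ℂ) (hz : z ∈ W.U) :
    circleAverage (fun w => ((g w).im - (g z).im) ^ 2) z (W.r z) = W.qv g z / 2 := by
  exact (woc2_qv_re_im hg (W.nonneg z) (W.woc_closedBall_subset hz)).2

theorem qv_re (g : ℂ → ℂ) (hg : DifferentiableOn ℂ g W.U) (z : ℂ) (hz : z ∈ W.U) :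
    circleAverage (fun w => ((g w).re - (g z).re) ^ 2) z (W.r z) = W.qv g z / 2 := by
  exact (woc2_qv_re_im hg (W.nonneg z) (W.woc_closedBall_subset hz)).1

/-- `(Im g)²` is a submartingale with drift `qv/2` -/
theorem avg_im_sq (g : ℂ → ℂ) (hg : DifferentiableOn ℂ g W.U) (z : ℂ) (hz : z ∈ W.U) :
    circleAverage (fun w => (g w).im ^ 2) z (W.r z) = (g z).im ^ 2 + W.qv g z / 2 := by
  exact woc2_avg_im_sq hg (W.nonneg z) (W.woc_closedBall_subset hz)

/-- a function of `Im y` with a quadratic lower bound on the step interval: the drift is at least `m r²/2`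
(`E (r sin θ) = 0`, `E (r sin θ)² = r²/2`). -/
theorem avg_im_quad (Φ : ℝ → ℝ) (z : ℂ) (a m : ℝ) (hΦ : ContinuousOn Φ (Icc (z.im - W.r z) (z.im + W.r z)))
    (hq : ∀ t ∈ Icc (z.im - W.r z) (z.im + W.r z), Φ z.im + a * (t - z.im) + m * (t - z.im) ^ 2 ≤ Φ t) :
    Φ z.im + m * W.r z ^ 2 / 2 ≤ circleAverage (fun w => Φ w.im) z (W.r z) := by
  exact woc2_avg_im_quad Φ (W.nonneg z) a m hΦ hq

/-! ### LF-WoC-5: processes along the walk (consequences of LF-WoC-1, LF-WoC-2, used as black boxes) -/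

theorem mart_holo (g : ℂ → ℂ) (hg : DifferentiableOn ℂ g W.U) :
    Proc (fun n ω => g (W.y n ω)) ∧ ∀ n ω, stp unif n (fun ω' => g (W.y (n + 1) ω')) ω = g (W.y n ω) := by
  refine ⟨W.proc_comp g hg.continuousOn, fun n ω => ?_⟩
  rw [W.stp_comp g n ω]
  exact W.avg_holo g hg _ (W.y_mem n ω)

theorem mart_log (g : ℂ → ℂ) (hg : DifferentiableOn ℂ g W.U) (h0 : ∀ z ∈ W.U, g z ≠ 0) :
    Proc (fun n ω => Real.log ‖g (W.y n ω)‖) ∧
      ∀ n ω, stp unif n (fun ω' => Real.log ‖g (W.y (n + 1) ω')‖) ω = Real.log ‖g (W.y n ω)‖ := by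
  refine ⟨W.proc_comp (fun z => Real.log ‖g z‖) (hg.continuousOn.norm.log fun z hz => norm_ne_zero_iff.mpr (h0 z hz)),
    fun n ω => ?_⟩
  rw [W.stp_comp (fun z => Real.log ‖g z‖) n ω]
  exact W.avg_log g hg h0 _ (W.y_mem n ω)

theorem var_holo (g : ℂ → ℂ) (n : ℕ) (ω : Om ℝ) :
    stp unif n (fun ω' => ‖g (W.y (n + 1) ω') - g (W.y n ω)‖ ^ 2) ω = W.qv g (W.y n ω) := by
  exact W.stp_comp₂ (fun a b => ‖g b - g a‖ ^ 2) n ω

/-- the one-step variance is a continuous function of the position -/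
theorem qv_continuousOn (g : ℂ → ℂ) (hg : DifferentiableOn ℂ g W.U) : ContinuousOn (W.qv g) W.U := by
  rw [continuousOn_iff_continuous_domRestrict]
  have hcm : Continuous fun p : W.U × ℝ => circleMap (p.1 : ℂ) (W.r p.1) p.2 := by
    unfold circleMap
    have h1 : Continuous fun p : W.U × ℝ => W.r (p.1 : ℂ) :=
      W.lip.continuous.comp (continuous_subtype_val.comp continuous_fst)
    have h2 : Continuous fun p : W.U × ℝ => (p.1 : ℂ) := continuous_subtype_val.comp continuous_fst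
    fun_prop
  have h1 : Continuous fun p : W.U × ℝ => g (circleMap (p.1 : ℂ) (W.r p.1) p.2) :=
    hg.continuousOn.comp_continuous hcm fun p =>
      W.woc_closedBall_subset p.1.2 (circleMap_mem_closedBall _ (W.nonneg _) _)
  have h2 : Continuous fun p : W.U × ℝ => g (p.1 : ℂ) :=
    hg.continuousOn.comp_continuous (continuous_subtype_val.comp continuous_fst) fun p => p.1.2
  have h3 : Continuous (Function.uncurry fun (z : W.U) (θ : ℝ) => ‖g (circleMap (z : ℂ) (W.r z) θ) - g z‖ ^ 2) :=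
    (h1.sub h2).norm.pow 2
  exact (intervalIntegral.continuous_parametric_intervalIntegral_of_continuous' (μ := volume) h3 0 (2 * π)).const_smul
    ((2 * π)⁻¹ : ℝ)

theorem qv_nonneg (g : ℂ → ℂ) (z : ℂ) : 0 ≤ W.qv g z := by
  exact circleAverage_nonneg_of_nonneg fun x _ => sq_nonneg _

/-- comparison of two clocks: `|g'| ≤ M |k'|` on the step disc and `|k'| ≤ e^κ |k'(z)|` there -/
theorem qv_compare (g k : ℂ → ℂ) (hg : DifferentiableOn ℂ g W.U) (hk : DifferentiableOn ℂ k W.U) (z : ℂ) (hz : z ∈ W.U)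
    (M κ : ℝ) (hM : 0 ≤ M) (h1 : ∀ w ∈ closedBall z (W.r z), ‖deriv g w‖ ≤ M * ‖deriv k w‖)
    (h2 : ∀ w ∈ closedBall z (W.r z), ‖deriv k w‖ ≤ Real.exp κ * ‖deriv k z‖) :
    W.qv g z ≤ M ^ 2 * Real.exp (2 * κ) * W.qv k z := by
  have h3 := W.qv_le g hg z hz (M * (Real.exp κ * ‖deriv k z‖)) fun w hw =>
    (h1 w hw).trans (mul_le_mul_of_nonneg_left (h2 w hw) hM)
  have h4 := W.qv_ge k hk z hz
  have e : Real.exp (2 * κ) = Real.exp κ ^ 2 := by rw [← Real.exp_nat_mul]; norm_num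
  calc W.qv g z ≤ (M * (Real.exp κ * ‖deriv k z‖)) ^ 2 * W.r z ^ 2 := h3
    _ = M ^ 2 * Real.exp (2 * κ) * (‖deriv k z‖ ^ 2 * W.r z ^ 2) := by rw [e]; ring
    _ ≤ _ := mul_le_mul_of_nonneg_left h4 (by positivity)

theorem _root_.Claimed.Agent.R269.Chn.woc_cut_true : Cut (fun (_ : ℕ) (_ : Om ℝ) => True) :=
  ⟨fun n => by simp, fun n ω ω' _ => rfl⟩

theorem woc_avg_wall (g : ℂ → ℂ) (hg : DifferentiableOn ℂ g W.U) (H : ℝ) (z : ℂ) (hz : z ∈ W.U) :
    circleAverage (fun w => H - (g w).im) z (W.r z) = H - (g z).im := by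
  have hgc : ContinuousOn g (sphere z (W.r z)) :=
    hg.continuousOn.mono (sphere_subset_closedBall.trans (W.woc_closedBall_subset hz))
  have him : ContinuousOn (fun w => (g w).im) (sphere z (W.r z)) := Complex.continuous_im.comp_continuousOn hgc
  rw [circleAverage_fun_sub (woc2_ci (W.nonneg z) continuousOn_const) (woc2_ci (W.nonneg z) him), circleAverage_const,
    woc2_avg_im hg (W.nonneg z) (W.woc_closedBall_subset hz)]

theorem woc_proc_wall (g : ℂ → ℂ) (hg : DifferentiableOn ℂ g W.U) (H : ℝ) :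
    Proc fun n ω => H - (g (W.y n ω)).im :=
  W.proc_comp (fun z => H - (g z).im) (continuousOn_const.sub (Complex.continuous_im.comp_continuousOn hg.continuousOn))

/-- **total clock of a map into a strip**: `∑ qv` exceeds `lam` with probability `≤ 2H²/lam` (`occup` for `(Im g)²`, `avg_im_sq`) -/
theorem total_clock (g : ℂ → ℂ) (hg : DifferentiableOn ℂ g W.U) (H : ℝ) (hH : ∀ z ∈ W.U, |(g z).im| ≤ H) (lam : ℝ)
    (hl : 0 < lam) :
    Pw {ω | ∃ n, lam < ∑ m ∈ Finset.range n, W.qv g (W.y m ω)} ≤ 2 * H ^ 2 / lam := by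
  have hcut := woc_cut_true
  have hG : Proc fun n ω => (g (W.y n ω)).im ^ 2 :=
    W.proc_comp (fun z => (g z).im ^ 2) ((Complex.continuous_im.comp_continuousOn hg.continuousOn).pow 2)
  have hc : Proc fun n ω => W.qv g (W.y n ω) / 2 :=
    W.proc_comp (fun z => W.qv g z / 2) ((W.qv_continuousOn g hg).div_const 2)
  have ho := occup unif _ hcut _ _ hG hc (fun n ω => div_nonneg (W.qv_nonneg g _) (by norm_num))
    (fun n ω _ => by
      rw [W.stp_comp (fun z => (g z).im ^ 2) n ω]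
      exact (W.avg_im_sq g hg _ (W.y_mem n ω)).ge) 0 (H ^ 2) (lam / 2) (fun ω => sq_nonneg _)
    (fun n ω _ => by
      rw [← sq_abs]
      exact pow_le_pow_left₀ (abs_nonneg _) (hH _ (W.y_mem n ω)) 2) (by positivity)
  have e : (H ^ 2 - 0) / (lam / 2) = 2 * H ^ 2 / lam := by field_simp; ring
  rw [e] at ho
  refine le_trans (measureReal_mono ?_) ho
  rintro ω ⟨n, hn⟩
  refine ⟨n, fun _ _ => trivial, ?_⟩
  rw [← Finset.sum_div]
  linarith

/-- **remaining clock near a wall** (`clockTail` for `D = H - Im g`, `v = qv/2`): after a time at distance `≤ d` from the wall `Im = H`, the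
remaining clock exceeds `T` with probability `≤ 5 d/√T`. -/
theorem wall_clock (g : ℂ → ℂ) (hg : DifferentiableOn ℂ g W.U) (H : ℝ) (hH : ∀ z ∈ W.U, (g z).im < H)
    (h2 : ∀ z ∈ W.U, ∀ w ∈ closedBall z (W.r z), H - (g w).im ≤ 2 * (H - (g z).im)) (d T : ℝ) (hd : 0 ≤ d) (hT : 0 < T) :
    Pw {ω | ∃ m n, m ≤ n ∧ H - (g (W.y m ω)).im ≤ d ∧ T < ∑ l ∈ Finset.Ico m n, W.qv g (W.y l ω)}
      ≤ 5 * d / Real.sqrt T := by
  have hcut := woc_cut_true
  have hD := W.woc_proc_wall g hg H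
  have hv : Proc fun n ω => W.qv g (W.y n ω) / 2 :=
    W.proc_comp (fun z => W.qv g z / 2) ((W.qv_continuousOn g hg).div_const 2)
  have hc := clockTail unif _ hcut _ _ hD hv
    (fun n ω _ => by
      rw [W.stp_comp (fun z => H - (g z).im) n ω]
      exact W.woc_avg_wall g hg H _ (W.y_mem n ω))
    (fun n ω _ => (sub_pos.mpr (hH _ (W.y_mem n ω))).le)
    (fun n ω _ => h2 _ (W.y_mem n ω) _ (sphere_subset_closedBall (W.y_succ_mem n ω)))
    (fun n ω _ => by
      rw [W.stp_comp₂ (fun a b => (H - (g b).im - (H - (g a).im)) ^ 2) n ω]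
      have e : (fun b => (H - (g b).im - (H - (g (W.y n ω)).im)) ^ 2)
          = fun b => ((g b).im - (g (W.y n ω)).im) ^ 2 := by
        funext b; ring
      rw [e]
      exact (W.qv_im g hg _ (W.y_mem n ω)).ge)
    (fun n ω => div_nonneg (W.qv_nonneg g _) (by norm_num)) d (T / 2) hd (by positivity)
  have hs : 3 / 5 * Real.sqrt T ≤ Real.sqrt (T / 2) := by
    apply Real.le_sqrt_of_sq_le
    rw [mul_pow, Real.sq_sqrt hT.le]
    linarith
  have hsT : 0 < Real.sqrt T := Real.sqrt_pos.mpr hT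
  have hb : 3 * d / Real.sqrt (T / 2) ≤ 5 * d / Real.sqrt T := by
    calc 3 * d / Real.sqrt (T / 2) ≤ 3 * d / (3 / 5 * Real.sqrt T) :=
          div_le_div_of_nonneg_left (by positivity) (by positivity) hs
      _ = 5 * d / Real.sqrt T := by field_simp
  refine le_trans (le_trans (measureReal_mono ?_) hc) hb
  rintro ω ⟨m, n, hmn, h3, h4⟩
  refine ⟨m, n, hmn, fun _ _ => trivial, h3, ?_⟩
  rw [← Finset.sum_div]
  linarith

/-- **retreat from a wall** (`ville` for `D = H - Im g`) -/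
theorem wall_retreat (g : ℂ → ℂ) (hg : DifferentiableOn ℂ g W.U) (H : ℝ) (hH : ∀ z ∈ W.U, (g z).im < H) (d lam : ℝ)
    (hd : 0 ≤ d) (hl : 0 < lam) :
    Pw {ω | ∃ m n, m ≤ n ∧ H - (g (W.y m ω)).im ≤ d ∧ lam ≤ H - (g (W.y n ω)).im} ≤ d / lam := by
  have hcut := woc_cut_true
  have hD := W.woc_proc_wall g hg H
  have hv := ville unif _ hcut _ hD
    (fun n ω _ => by
      rw [W.stp_comp (fun z => H - (g z).im) n ω]
      exact (W.woc_avg_wall g hg H _ (W.y_mem n ω)).le)
    (fun n ω _ => (sub_pos.mpr (hH _ (W.y_mem n ω))).le) d lam hd hl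
  refine le_trans (measureReal_mono ?_) hv
  rintro ω ⟨m, n, hmn, h3, h4⟩
  exact ⟨m, n, hmn, fun _ _ => trivial, h3, h4⟩

/-! ### LF-WoC-3: the walk leaves every compact subset of a domain contained in a strip -/

theorem woc_qv_id (z : ℂ) : W.qv (fun w => w) z = W.r z ^ 2 := by
  unfold qv
  have : circleAverage (fun w : ℂ => ‖w - z‖ ^ 2) z (W.r z) = circleAverage (fun _ : ℂ => W.r z ^ 2) z (W.r z) := by
    refine circleAverage_congr_sphere fun w hw => ?_
    rw [abs_of_nonneg (W.nonneg z)] at hw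
    have hn : ‖w - z‖ = W.r z := by rwa [mem_sphere_iff_norm] at hw
    simp only [hn]
  rw [this, circleAverage_const]

/-- In a domain contained in a horizontal strip the walk converges almost surely, and its limit is not in the domain.
(`Im y_n` bounded ⇒ `occup_summable` for `(Im y)²`: `∑ r(y_n)² < ∞`; `Re y_n`, `Im y_n` are `L²`-bounded martingales: `l2conv`, `l2_sum`, `qv_re`;
`r` is continuous and `r(y_n) → 0`.) -/
theorem tendsto_boundary (h : ℝ) (hU : ∀ z ∈ W.U, |z.im| < h) :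
    ∀ᵐ ω ∂(Pr unif), ∃ l : ℂ, Tendsto (fun n => W.y n ω) atTop (𝓝 l) ∧ l ∉ W.U := by
  have hid : DifferentiableOn ℂ (fun z : ℂ => z) W.U := differentiableOn_id
  have hM : Proc (fun n ω => W.y n ω) := (W.mart_holo (fun z => z) hid).1
  have hm : ∀ n ω, stp unif n (fun ω' => W.y (n + 1) ω') ω = W.y n ω := (W.mart_holo (fun z => z) hid).2
  have hG : Proc fun n ω => (W.y n ω).im ^ 2 :=
    W.proc_comp (fun z => z.im ^ 2) (Complex.continuous_im.pow 2).continuousOn
  have hc : Proc fun n ω => W.qv (fun z => z) (W.y n ω) / 2 :=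
    W.proc_comp (fun z => W.qv (fun z => z) z / 2) ((W.qv_continuousOn _ hid).div_const 2)
  have hstep : ∀ n ω, stp unif n (fun ω' => (W.y (n + 1) ω').im ^ 2) ω
      = (W.y n ω).im ^ 2 + W.qv (fun z => z) (W.y n ω) / 2 := fun n ω => by
    rw [W.stp_comp (fun z => z.im ^ 2) n ω]
    exact W.avg_im_sq (fun z => z) hid _ (W.y_mem n ω)
  have hGle : ∀ n ω, (W.y n ω).im ^ 2 ≤ h ^ 2 := fun n ω => by
    rw [← sq_abs]
    exact pow_le_pow_left₀ (abs_nonneg _) (hU _ (W.y_mem n ω)).le 2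
  have hsum := occup_summable unif _ _ hG hc (fun n ω => div_nonneg (W.qv_nonneg _ _) (by norm_num))
    (fun n ω => (hstep n ω).ge) (h ^ 2) hGle
  have hen : ∀ n, ∑ i ∈ Finset.range n, ∫ ω, W.qv (fun z => z) (W.y i ω) / 2 ∂(Pr unif)
      = ∫ ω, (W.y n ω).im ^ 2 ∂(Pr unif) - ∫ ω, (W.y 0 ω).im ^ 2 ∂(Pr unif) := by
    intro n
    induction n with
    | zero => simp
    | succ n ih =>
      rw [Finset.sum_range_succ, ih]
      have h1 := integral_stp unif n (fun ω => (W.y (n + 1) ω).im ^ 2) (hG.meas (n + 1)) (chn_proc_bdd _ hG (n + 1))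
      simp only [hstep] at h1
      rw [integral_add (chn_proc_integrable unif _ hG n) (chn_proc_integrable unif _ hc n)] at h1
      linarith
  have hvar : ∀ i ω, stp unif i (fun ω' => ‖W.y (i + 1) ω' - W.y i ω‖ ^ 2) ω = W.qv (fun z => z) (W.y i ω) :=
    fun i ω => W.var_holo (fun z => z) i ω
  have hN : Proc fun n ω => ‖W.y n ω‖ ^ 2 := W.proc_comp (fun z => ‖z‖ ^ 2) (continuous_norm.pow 2).continuousOn
  have hl2 : ∀ n, ∫ ω, ‖W.y n ω‖ ^ 2 ∂(Pr unif) ≤ 4 * h ^ 2 + 2 * (2 * π) ^ 2 := by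
    intro n
    have h1 := l2_sum unif _ hM hm n
    simp only [hvar] at h1
    have h2 : ∑ i ∈ Finset.range n, ∫ ω, W.qv (fun z => z) (W.y i ω) ∂(Pr unif)
        = 2 * ∑ i ∈ Finset.range n, ∫ ω, W.qv (fun z => z) (W.y i ω) / 2 ∂(Pr unif) := by
      rw [Finset.mul_sum]
      refine Finset.sum_congr rfl fun i _ => ?_
      rw [integral_div]
      ring
    have h3 : ∫ ω, (W.y n ω).im ^ 2 ∂(Pr unif) ≤ h ^ 2 := by
      calc ∫ ω, (W.y n ω).im ^ 2 ∂(Pr unif) ≤ ∫ _ω, h ^ 2 ∂(Pr unif) :=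
            integral_mono (chn_proc_integrable unif _ hG n) (integrable_const _) (hGle n)
        _ = h ^ 2 := by simp
    have h4 : 0 ≤ ∫ ω, (W.y 0 ω).im ^ 2 ∂(Pr unif) := integral_nonneg fun ω => sq_nonneg _
    have h5 : ∫ ω, ‖W.y n ω - W.y 0 ω‖ ^ 2 ∂(Pr unif) ≤ 2 * h ^ 2 := by
      rw [h1, h2, hen n]
      linarith
    have hi : Integrable (fun ω => ‖W.y n ω - W.y 0 ω‖ ^ 2) (Pr unif) := by
      obtain ⟨C1, hC1⟩ := hM.bdd n
      obtain ⟨C0, hC0⟩ := hM.bdd 0
      refine chn_integrable _ _ (((hM.meas n).sub (hM.meas 0)).norm.pow_const 2) ⟨(C1 + C0) ^ 2, fun ω => ?_⟩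
      rw [abs_of_nonneg (sq_nonneg _)]
      exact pow_le_pow_left₀ (norm_nonneg _) ((norm_sub_le _ _).trans (add_le_add (hC1 ω) (hC0 ω))) 2
    calc ∫ ω, ‖W.y n ω‖ ^ 2 ∂(Pr unif)
        ≤ ∫ ω, (2 * ‖W.y n ω - W.y 0 ω‖ ^ 2 + 2 * (2 * π) ^ 2) ∂(Pr unif) := by
          refine integral_mono (chn_proc_integrable unif _ hN n) ((hi.const_mul 2).add (integrable_const _)) fun ω => ?_
          obtain ⟨x, hx, hx0⟩ := W.y_zero_mem ω
          have h6 : ‖W.y 0 ω‖ ≤ 2 * π := by
            rw [hx0, Complex.norm_real, Real.norm_eq_abs, abs_of_nonneg hx.1]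
            exact hx.2
          have h7 : ‖W.y n ω‖ ≤ ‖W.y n ω - W.y 0 ω‖ + ‖W.y 0 ω‖ := by
            have := norm_add_le (W.y n ω - W.y 0 ω) (W.y 0 ω)
            simpa using this
          have h8 := norm_nonneg (W.y n ω)
          have h9 := norm_nonneg (W.y n ω - W.y 0 ω)
          have h10 := norm_nonneg (W.y 0 ω)
          simp only
          nlinarith [sq_nonneg (‖W.y n ω - W.y 0 ω‖ - 2 * π), Real.pi_pos]
      _ = 2 * ∫ ω, ‖W.y n ω - W.y 0 ω‖ ^ 2 ∂(Pr unif) + 2 * (2 * π) ^ 2 := by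
          rw [integral_add (hi.const_mul 2) (integrable_const _), integral_const_mul]
          simp
      _ ≤ _ := by linarith
  have hconv := l2conv unif _ hM hm ⟨_, hl2⟩
  filter_upwards [hsum, hconv] with ω h1 h2
  obtain ⟨l, hl⟩ := h2
  refine ⟨l, hl, fun hlU => ?_⟩
  have t1 : Tendsto (fun n => W.qv (fun z => z) (W.y n ω) / 2) atTop (𝓝 0) := h1.tendsto_atTop_zero
  simp only [W.woc_qv_id] at t1
  have t2 : Tendsto (fun n => W.r (W.y n ω) ^ 2 / 2) atTop (𝓝 (W.r l ^ 2 / 2)) :=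
    (((W.lip.continuous.tendsto l).comp hl).pow 2).div_const 2
  have h3 := tendsto_nhds_unique t1 t2
  have h4 : 0 < W.r l := hlU
  nlinarith

end Walk

/-! ### LF-WoC-4: existence of fine walks -/

/-- admissible radii at `y` -/
def wocAdm {X : Type} [PseudoMetricSpace X] (U : Set ℂ) (F : ℂ → X) (κ : ℝ) (y : ℂ) : Set ℝ :=
  {ρ | 0 ≤ ρ ∧ ρ ≤ 1 ∧ ball y ρ ⊆ U ∧ ∀ w ∈ ball y ρ, ∀ w' ∈ ball y ρ, dist (F w) (F w') ≤ κ}

/-- the largest admissible radius -/
noncomputable def wocRad {X : Type} [PseudoMetricSpace X] (U : Set ℂ) (F : ℂ → X) (κ : ℝ) (y : ℂ) : ℝ :=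
  sSup (wocAdm U F κ y)

section wocRadSec

variable {X : Type} [PseudoMetricSpace X] (U : Set ℂ) (F : ℂ → X) (κ : ℝ)

theorem woc_adm_zero (y : ℂ) : (0 : ℝ) ∈ wocAdm U F κ y := by
  refine ⟨le_rfl, zero_le_one, ?_, ?_⟩
  · simp
  · intro w hw
    simp at hw

theorem woc_adm_bdd (y : ℂ) : BddAbove (wocAdm U F κ y) := ⟨1, fun _ h => h.2.1⟩

theorem woc_rad_nonneg (_hκ : 0 < κ) (y : ℂ) : 0 ≤ wocRad U F κ y :=
  le_csSup (woc_adm_bdd U F κ y) (woc_adm_zero U F κ y)

theorem woc_rad_le_add (hκ : 0 < κ) (x y : ℂ) : wocRad U F κ x ≤ wocRad U F κ y + dist x y := by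
  refine csSup_le ⟨0, woc_adm_zero U F κ x⟩ fun ρ hρ => ?_
  rcases le_or_gt (dist x y) ρ with h | h
  · have hsub : ball y (ρ - dist x y) ⊆ ball x ρ := ball_subset_ball' (by rw [dist_comm y x]; linarith)
    have hmem : ρ - dist x y ∈ wocAdm U F κ y :=
      ⟨by linarith, by have := hρ.2.1; have := dist_nonneg (x := x) (y := y); linarith, hsub.trans hρ.2.2.1,
        fun w hw w' hw' => hρ.2.2.2 w (hsub hw) w' (hsub hw')⟩
    have := le_csSup (woc_adm_bdd U F κ y) hmem
    unfold wocRad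
    linarith
  · have := woc_rad_nonneg U F κ hκ y
    linarith

theorem woc_rad_pos (hU : IsOpen U) (hF : ContinuousOn F U) (hκ : 0 < κ) (y : ℂ) (hy : y ∈ U) :
    0 < wocRad U F κ y := by
  have hc : ContinuousAt F y := hF.continuousAt (hU.mem_nhds hy)
  obtain ⟨ε1, hε1, h1⟩ := Metric.isOpen_iff.mp hU y hy
  obtain ⟨ε2, hε2, h2⟩ := Metric.continuousAt_iff.mp hc (κ / 2) (by positivity)
  have hmem : min (min ε1 ε2) 1 ∈ wocAdm U F κ y := by
    refine ⟨by positivity, min_le_right _ _, ?_, ?_⟩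
    · exact (ball_subset_ball ((min_le_left _ _).trans (min_le_left _ _))).trans h1
    · intro w hw w' hw'
      have a1 : dist w y < ε2 := lt_of_lt_of_le hw ((min_le_left _ _).trans (min_le_right _ _))
      have a2 : dist w' y < ε2 := lt_of_lt_of_le hw' ((min_le_left _ _).trans (min_le_right _ _))
      have b1 := h2 a1
      have b2 := h2 a2
      have := dist_triangle_right (F w) (F w') (F y)
      linarith
  exact lt_of_lt_of_le (by positivity) (le_csSup (woc_adm_bdd U F κ y) hmem)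

theorem woc_rad_eq_zero (hκ : 0 < κ) (y : ℂ) (hy : y ∉ U) : wocRad U F κ y = 0 := by
  refine le_antisymm (csSup_le ⟨0, woc_adm_zero U F κ y⟩ fun ρ hρ => ?_) (woc_rad_nonneg U F κ hκ y)
  by_contra hcon
  exact hy (hρ.2.2.1 (mem_ball_self (not_le.mp hcon)))

theorem woc_rad_half (_hκ : 0 < κ) (y : ℂ) (hy : 0 < wocRad U F κ y) (w : ℂ) (hw : w ∈ closedBall y (wocRad U F κ y / 2)) :
    w ∈ U ∧ dist (F w) (F y) ≤ κ := by
  obtain ⟨ρ, hρ, hlt⟩ := exists_lt_of_lt_csSup ⟨0, woc_adm_zero U F κ y⟩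
    (show wocRad U F κ y / 2 < sSup (wocAdm U F κ y) by unfold wocRad at hy ⊢; linarith)
  have hwb : w ∈ ball y ρ := lt_of_le_of_lt hw hlt
  have hyb : y ∈ ball y ρ := mem_ball_self (by linarith)
  exact ⟨hρ.2.2.1 hwb, hρ.2.2.2 w hwb y hyb⟩

end wocRadSec

/-- **Fine walks exist.**  `R(y) = sup {ρ ≤ 1 : ball(y,ρ) ⊆ U, diam F(ball(y,ρ)) ≤ κ}` (`0` off `U`) is 1-Lipschitz because the property of a
ball passes to smaller balls; take `r = R/2`. -/
theorem exists_walk (U : Set ℂ) (hU : IsOpen U) (hR : ∀ x : ℝ, (x : ℂ) ∈ U) {X : Type} [PseudoMetricSpace X] (F : ℂ → X)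
    (hF : ContinuousOn F U) (κ : ℝ) (hκ : 0 < κ) :
    ∃ W : Walk, W.U = U ∧ ∀ z ∈ U, ∀ w ∈ closedBall z (W.r z), dist (F w) (F z) ≤ κ := by
  have hpos : ∀ y ∈ U, 0 < wocRad U F κ y := fun y hy => woc_rad_pos U F κ hU hF hκ y hy
  refine ⟨⟨fun y => wocRad U F κ y / 2, ?_, fun y => div_nonneg (woc_rad_nonneg U F κ hκ y) (by norm_num), ?_, ?_⟩,
    ?_, ?_⟩
  · refine LipschitzWith.of_le_add fun x y => ?_
    have := woc_rad_le_add U F κ hκ x y
    have := dist_nonneg (x := x) (y := y)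
    linarith
  · intro y hy z hz
    have hy' : 0 < wocRad U F κ y := by linarith
    have := hpos z (woc_rad_half U F κ hκ y hy' z hz).1
    linarith
  · intro x
    have := hpos _ (hR x)
    linarith
  · ext y
    constructor
    · intro hy
      by_contra hyU
      have h1 : 0 < wocRad U F κ y / 2 := hy
      rw [woc_rad_eq_zero U F κ hκ y hyU] at h1
      simp at h1
    · intro hy
      have := hpos y hy
      show 0 < wocRad U F κ y / 2
      linarith
  · intro z hz w hw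
    exact (woc_rad_half U F κ hκ z (hpos z hz) w hw).2

end Claimed.Agent.R269.Chn
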